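import Crest.Agent.R320.FinC_689
import Crest.Agent.R320.Univ_294

/-!
# Row 320 (helper689): the literal form of S0495
-/

set_option autoImplicit false

namespace Crest.Agent.R320.Fin_689

theorem s0495 (α : Type*) [Finite α] (L : Language α) (hL : L.IsRegular) :
    ∃ e : Crest.RegLang.GRegExp α, e.height ≤ 3 ∧ e.lang = L :=
  Univ_294.s0495_of_types (fun β _ S _ _ φ s => fin β S φ s) α L hL

end Crest.Agent.R320.Fin_689
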