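import Crest.Agent.R320.G1_76

/-! Row 320, gadget (G1) with one more clause: the noise depends only on the first `b ^ m` letters,
the length modulo `M * b ^ m` and the value of the word. -/

namespace Crest.Agent.R320.G1b_76

open Crest.Agent.R320 Crest.Agent.R320.G1_76

theorem g1b (S V : Type) [Monoid S] [Finite S] [AddCommGroup V] [Finite V] (act : V → S → V) :
    ∃ m r : ℕ, ∀ Bd : ℕ, ∃ (Ms : Finset ℕ) (M : ℕ), Ms.card ≤ r ∧
      (∀ k ∈ Ms, Bd < k ∧ k.Prime ∧ k ∣ M) ∧ 0 < M ∧
      ∀ b : ℕ, 4 * M + 4 < b → Nat.Coprime b M → ∀ (A : Type) (f : A → S),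
        ∃ (lam rho : List A → Option V) (nu : List A → V),
          (∀ P v, lam P = some v → P.length < b ^ m) ∧
          (∀ P Q v v', lam P = some v → rho Q = some v' →
            v' = act v ((P ++ Q).map f).prod + nu (P ++ Q)) ∧
          (∀ X, (∀ k ∈ Ms, ¬ k ∣ X.length) →
            (∀ j < m, M ≤ X.length / b ^ j % b ∧ X.length / b ^ j % b + M + 1 ≤ b) →
            ∀ v, ∃ P Q, P ++ Q = X ∧ lam P = some v ∧ (rho Q).isSome) ∧
          (∀ Q Q', b ^ m ≤ Q.length → b ^ m ≤ Q'.length → Q.take (b ^ m) = Q'.take (b ^ m) →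
            Q.length % (M * b ^ m) = Q'.length % (M * b ^ m) →
            (Q.map f).prod = (Q'.map f).prod → nu Q = nu Q') := by
  classical
  obtain ⟨W, _, _, m, e, F, hF⟩ := Noise513.explicit_noise S V act
  -- names
  let val0 : Fin m × S × W × S × W × V → V := fun c =>
    F (c.2.1 * 1 * c.2.2.2.1) (c.2.2.1 + e c.1 1 + c.2.2.2.2.1)
      + act c.2.2.2.2.2 (c.2.1 * 1 * c.2.2.2.1)
  let Good : Fin m × S × W × S × W × V → Prop := fun c => ∀ z : S,
    F (c.2.1 * z * c.2.2.2.1) (c.2.2.1 + e c.1 z + c.2.2.2.2.1)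
      + act c.2.2.2.2.2 (c.2.1 * z * c.2.2.2.1) = val0 c
  let N := {c : Fin m × S × W × S × W × V // Good c}
  obtain ⟨r, hr⟩ := Names755.names N (V × V) (fun c => (c.1.2.2.2.2.2, val0 c.1))
  refine ⟨m, r, fun Bd => ?_⟩
  obtain ⟨Ms, M, nmL, nmR, hcard, hMs, hM, hpL, hpR, hname, hcomp, hcol⟩ := hr Bd
  refine ⟨Ms, M, hcard, hMs, hM, fun b hb hcop A f => ?_⟩
  have hb0 : 0 < b := by omega
  let condL : List A → N → Prop := fun P c =>
    P.length < b ^ ((c.1.1 : ℕ) + 1) ∧ 2 * (P.length / b ^ (c.1.1 : ℕ)) < b ∧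
      c.1.2.1 = ph f (P.take (P.length % b ^ (c.1.1 : ℕ))) ∧ c.1.2.2.1 = wl e f b P c.1.1
  let condR : List A → N → Prop := fun Q c =>
    b ^ (c.1.1 : ℕ) ∣ Q.length ∧ 2 * (Q.length / b ^ (c.1.1 : ℕ) % b) < b ∧
      c.1.2.2.2.1 = ph f (Q.drop (Q.length % b ^ ((c.1.1 : ℕ) + 1))) ∧
      c.1.2.2.2.2.1 = wr e f b Q c.1.1
  let lam : List A → Option V := fun P =>
    (nmL P.length).bind fun c => if condL P c then some c.1.2.2.2.2.2 else none
  let rho : List A → Option V := fun Q =>
    (nmR Q.length).bind fun c => if condR Q c then some (val0 c.1) else none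
  let PC : ℕ → V × V → Prop := fun n p => ∃ t t' c c', (t + t') % M = n % M ∧
    nmL t = some c ∧ nmR t' = some c' ∧ c.1.2.2.2.2.2 = p.1 ∧ val0 c'.1 = p.2
  let cf : ℕ → V × V := fun n => if h : ∃ p, PC n p then h.choose else 0
  let nu : List A → V := fun X =>
    if (∃ k ∈ Ms, k ∣ X.length) then
      (cf (X.length % M)).2 - act (cf (X.length % M)).1 (ph f X)
    else F (ph f X) (wt e f b X)
  have hlamI : ∀ P v, lam P = some v → ∃ c, nmL P.length = some c ∧ condL P c ∧
      c.1.2.2.2.2.2 = v := by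
    intro P v h
    simp only [lam] at h
    obtain ⟨c, hc, h2⟩ := Option.bind_eq_some_iff.1 h
    split_ifs at h2 with h3
    exact ⟨c, hc, h3, by simpa using h2⟩
  have hrhoI : ∀ Q v, rho Q = some v → ∃ c, nmR Q.length = some c ∧ condR Q c ∧
      val0 c.1 = v := by
    intro P v h
    simp only [rho] at h
    obtain ⟨c, hc, h2⟩ := Option.bind_eq_some_iff.1 h
    split_ifs at h2 with h3
    exact ⟨c, hc, h3, by simpa using h2⟩
  refine ⟨lam, rho, nu, ?_, ?_, ?_, ?_⟩
  · intro P v h
    obtain ⟨c, -, hc, -⟩ := hlamI P v h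
    exact lt_of_lt_of_le hc.1 (Nat.pow_le_pow_right hb0 c.1.1.2)
  · -- soundness
    intro P Q v v' hP hQ
    obtain ⟨c, hc, hcP, hv⟩ := hlamI P v hP
    obtain ⟨c', hc', hcQ, hv'⟩ := hrhoI Q v' hQ
    change v' = act v (ph f (P ++ Q)) + nu (P ++ Q)
    by_cases hk : ∃ k ∈ Ms, k ∣ (P ++ Q).length
    · -- spoiled by names
      have hnu : nu (P ++ Q) = (cf ((P ++ Q).length % M)).2
          - act (cf ((P ++ Q).length % M)).1 (ph f (P ++ Q)) := by
        simp only [nu]; rw [if_pos hk]
      have hex : ∃ p, PC ((P ++ Q).length % M) p := by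
        refine ⟨(v, v'), P.length, Q.length, c, c', ?_, hc, hc', hv, hv'⟩
        rw [List.length_append, Nat.mod_mod]
      have hcf : cf ((P ++ Q).length % M) = hex.choose := by
        simp only [cf]; rw [dif_pos hex]
      obtain ⟨t, t', d, d', htt, hd, hd', h1, h2⟩ := hex.choose_spec
      rw [← hcf] at h1 h2
      rw [Nat.mod_mod] at htt
      -- equalise totals
      have hu : t + t' + M * ((P ++ Q).length / M) = (P ++ Q).length + M * ((t + t') / M) := by
        have a1 := Nat.mod_add_div (t + t') M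
        have a2 := Nat.mod_add_div (P ++ Q).length M
        omega
      obtain ⟨k, hkM, hkd⟩ := hk
      have hc2 := hcol P.length (Q.length + M * ((t + t') / M)) t
        (t' + M * ((P ++ Q).length / M)) c c' d d' hc (by rw [per_mul hpR]; exact hc') hd
        (by rw [per_mul hpR]; exact hd')
        (by
          have := List.length_append (as := P) (bs := Q)
          omega)
        ⟨k, hkM, by
          have e1 : P.length + (Q.length + M * ((t + t') / M))
              = (P ++ Q).length + M * ((t + t') / M) := by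
            rw [List.length_append]; ring
          rw [e1]
          exact dvd_add hkd (Dvd.dvd.mul_right (hMs k hkM).2.2 _)⟩
      have c1 : c.1.2.2.2.2.2 = d.1.2.2.2.2.2 := congrArg Prod.fst hc2.1
      have c2 : val0 c'.1 = val0 d'.1 := congrArg Prod.snd hc2.2
      rw [hnu, ← h1, ← h2, ← c1, ← c2, hv, hv']
      abel
    · have hnu : nu (P ++ Q) = F (ph f (P ++ Q)) (wt e f b (P ++ Q)) := by
        simp only [nu]; rw [if_neg hk]
      have hcc : c = c' := hname P.length Q.length c c' hc hc' (by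
        intro k hkM hkd
        exact hk ⟨k, hkM, by rw [List.length_append]; exact hkd⟩)
      subst hcc
      obtain ⟨a1, a2, a3, a4⟩ := hcP
      obtain ⟨b1, b2, b3, b4⟩ := hcQ
      have hn : ∀ j, (c.1.1 : ℕ) < j → (P ++ Q).length % b ^ j = P.length + Q.length % b ^ j := by
        intro j hj
        rw [List.length_append]
        exact nocarry hb0 a2 a1 b1 b2 hj
      have hs := split_word f b (P ++ Q) (c.1.1 : ℕ)
      rw [take_left b1, drop_right hn, ← a3, ← b3] at hs
      have hw := wt_split e f b (P ++ Q) c.1.1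
      rw [wl_left e f b b1, wr_right e f b hn, ← a4, ← b4] at hw
      have hg := c.2 (ph f (bt b (P ++ Q) (c.1.1 : ℕ)))
      rw [hs, hw, hv, hv'] at hg
      rw [hnu, ← hg, add_comm]
  · -- completeness
    intro X hXk hXd v
    obtain ⟨i, hi⟩ := hF (ph f X) (wt e f b X) v
    have hs := split_word f b X (i : ℕ)
    have hw := wt_split e f b X i
    have hgood : Good (i, ph f (X.take (X.length % b ^ (i : ℕ))), wl e f b X i,
        ph f (X.drop (X.length % b ^ ((i : ℕ) + 1))), wr e f b X i, v) := by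
      have h1 := hi _ _ _ hs
      have h2 : ∀ z : S, wt e f b X - e i (ph f (bt b X i)) + e i z
          = wl e f b X i + e i z + wr e f b X i := by
        intro z; rw [← hw]; abel
      intro z
      have hz := h1 z
      have h1' := h1 1
      rw [h2] at hz h1'
      simp only [val0]
      rw [hz, h1']
    obtain ⟨t, ht, hnl, hnr⟩ := hcomp X.length hXk ⟨_, hgood⟩
    obtain ⟨hd1, hd2⟩ := hXd i i.2
    set n := X.length with hn
    set di := n / b ^ (i : ℕ) % b with hdi
    obtain ⟨y, hy1, hy2, hy3⟩ := exists_place hM hcop (i : ℕ) (n % b ^ (i : ℕ)) t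
      ((di - M + 1) / 2)
    have hbi : 0 < b ^ (i : ℕ) := pow_pos hb0 _
    have hydi : y ≤ di := by omega
    have hy2b : 2 * y < b := by omega
    have hy2c : 2 * (di - y) < b := by omega
    have hle : y ≤ n / b ^ (i : ℕ) := le_trans hydi (Nat.mod_le _ _)
    set o := n % b ^ (i : ℕ) + b ^ (i : ℕ) * y with ho
    have hbe : n % b ^ (i : ℕ) < b ^ (i : ℕ) := Nat.mod_lt _ hbi
    have hnn : n = n % b ^ (i : ℕ) + b ^ (i : ℕ) * (n / b ^ (i : ℕ)) :=
      (Nat.mod_add_div n (b ^ (i : ℕ))).symm
    have hon : o ≤ n := by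
      rw [ho]
      conv_rhs => rw [hnn]
      exact Nat.add_le_add_left (Nat.mul_le_mul_left _ hle) _
    have hPl : (X.take o).length = o := by rw [List.length_take]; exact min_eq_left hon
    have hQl : (X.drop o).length = b ^ (i : ℕ) * (n / b ^ (i : ℕ) - y) := by
      rw [List.length_drop, ← hn, Nat.mul_sub]
      conv_lhs => rw [hnn]
      rw [ho]
      omega
    have hPQ : X.take o ++ X.drop o = X := List.take_append_drop o X
    have hod : o / b ^ (i : ℕ) = y := by
      rw [ho, Nat.add_mul_div_left _ _ hbi, Nat.div_eq_of_lt hbe, zero_add]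
    have a1 : (X.take o).length < b ^ ((i : ℕ) + 1) := by
      rw [hPl, ho, pow_succ]
      calc n % b ^ (i : ℕ) + b ^ (i : ℕ) * y < b ^ (i : ℕ) + b ^ (i : ℕ) * y := by omega
        _ = b ^ (i : ℕ) * (y + 1) := by ring
        _ ≤ b ^ (i : ℕ) * b := Nat.mul_le_mul_left _ (by omega)
    have a2 : 2 * ((X.take o).length / b ^ (i : ℕ)) < b := by rw [hPl, hod]; exact hy2b
    have b1 : b ^ (i : ℕ) ∣ (X.drop o).length := by rw [hQl]; exact Dvd.intro _ rfl
    have hqd : (X.drop o).length / b ^ (i : ℕ) % b = di - y := by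
      rw [hQl, Nat.mul_div_cancel_left _ hbi]
      have h1 := Nat.mod_add_div (n / b ^ (i : ℕ)) b
      rw [← hdi] at h1
      have h2 : n / b ^ (i : ℕ) - y = (di - y) + b * (n / b ^ (i : ℕ) / b) := by omega
      rw [h2, Nat.add_mul_mod_self_left, Nat.mod_eq_of_lt (by omega)]
    have b2 : 2 * ((X.drop o).length / b ^ (i : ℕ) % b) < b := by rw [hqd]; exact hy2c
    have hnc : ∀ j, (i : ℕ) < j →
        (X.take o ++ X.drop o).length % b ^ j = (X.take o).length + (X.drop o).length % b ^ j := by
      intro j hj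
      rw [List.length_append]
      exact nocarry hb0 a2 a1 b1 b2 hj
    refine ⟨X.take o, X.drop o, hPQ, ?_, ?_⟩
    · have e0 : nmL (X.take o).length = nmL t := per_mod hpL (by rw [hPl]; exact hy3)
      have e1 := take_left (P := X.take o) (Q := X.drop o) b1
      have e2 := wl_left e f b (P := X.take o) (Q := X.drop o) (i := i) b1
      rw [hPQ] at e1 e2
      simp only [lam]
      rw [e0, hnl]
      simp only [Option.bind_some]
      rw [if_pos]
      refine ⟨a1, a2, ?_, ?_⟩
      · exact congrArg (ph f) e1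
      · exact e2
    · have e0 : nmR (X.drop o).length = some ⟨_, hgood⟩ := by
        apply hnr
        have h1 : o + (X.drop o).length = n := by rw [List.length_drop, ← hn]; omega
        have h2 : (t + (X.drop o).length) % M = (o + (X.drop o).length) % M := by
          rw [Nat.add_mod, ← hy3, ← Nat.add_mod]
        show (t + (X.drop o).length) % M = n % M
        rw [h2, h1]
      have e1 := drop_right (P := X.take o) (Q := X.drop o) hnc
      have e2 := wr_right e f b (P := X.take o) (Q := X.drop o) (i := i) hnc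
      rw [hPQ] at e1 e2
      simp only [rho]
      rw [e0]
      simp only [Option.bind_some]
      rw [if_pos]
      · rfl
      · refine ⟨b1, b2, ?_, ?_⟩
        · exact congrArg (ph f) e1
        · exact e2
  · -- finite state
    intro Q Q' hl hl' htk hmod hph0
    have hmM : Q.length % M = Q'.length % M := by
      have hd : M ∣ M * b ^ m := Dvd.intro _ rfl
      rw [← Nat.mod_mod_of_dvd Q.length hd, ← Nat.mod_mod_of_dvd Q'.length hd, hmod]
    have hmb : ∀ j, j ≤ m → Q.length % b ^ j = Q'.length % b ^ j := by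
      intro j hj
      have hd : b ^ j ∣ M * b ^ m := Dvd.dvd.mul_left (pow_dvd_pow b hj) _
      rw [← Nat.mod_mod_of_dvd Q.length hd, ← Nat.mod_mod_of_dvd Q'.length hd, hmod]
    have hbt : ∀ j : Fin m, bt b Q j = bt b Q' j := by
      intro j
      exact bt_eq hb0 htk (Nat.pow_le_pow_right hb0 j.2) (hmb _ j.2)
    have hph : ph f Q = ph f Q' := hph0
    have hk : (∃ k ∈ Ms, k ∣ Q.length) ↔ (∃ k ∈ Ms, k ∣ Q'.length) := by
      have : ∀ k ∈ Ms, (k ∣ Q.length ↔ k ∣ Q'.length) := by
        intro k hkM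
        have hd : k ∣ M := (hMs k hkM).2.2
        rw [Nat.dvd_iff_mod_eq_zero, Nat.dvd_iff_mod_eq_zero,
          ← Nat.mod_mod_of_dvd Q.length hd, ← Nat.mod_mod_of_dvd Q'.length hd, hmM]
      constructor
      · rintro ⟨k, h1, h2⟩; exact ⟨k, h1, (this k h1).1 h2⟩
      · rintro ⟨k, h1, h2⟩; exact ⟨k, h1, (this k h1).2 h2⟩
    have hwt : wt e f b Q = wt e f b Q' := by
      unfold wt
      apply Finset.sum_congr rfl
      intro j _
      rw [hbt j]
    simp only [nu]
    rw [hmM, hph, hwt]
    by_cases h : ∃ k ∈ Ms, k ∣ Q.length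
    · rw [if_pos h, if_pos (hk.1 h)]
    · rw [if_neg h, if_neg (fun h' => h (hk.2 h'))]

end Crest.Agent.R320.G1b_76
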