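import Crest.Agent.R320.Grid2_859

set_option autoImplicit false

namespace Crest.Agent.R320.Grid859

universe w

/-- the thin set of bad lengths -/
def BadT (κ M m : ℕ) (Ms : Finset ℕ) (T : ℕ) : Prop :=
  (∃ p ∈ Ms, p ∣ T) ∨ ∃ j < m, (T - Am κ M (j + 1)) % G κ (j + 1) < M * G κ j ∨
    G κ (j + 1) < (T - Am κ M (j + 1)) % G κ (j + 1) + M * G κ j

lemma G_le (κ : ℕ) {i j : ℕ} (h : i ≤ j) : G κ i ≤ G κ j :=
  Nat.le_of_dvd (G_pos κ j) (G_dvd κ h)

lemma per {β : Type*} (f : ℕ → β) (M : ℕ) (hf : ∀ t, f (t + M) = f t) {a b : ℕ}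
    (h : a ≡ b [MOD M]) : f a = f b := by
  have hp : Function.Periodic f M := hf
  rw [← hp.map_mod_nat a, ← hp.map_mod_nat b, h]

lemma cond_of (κ M m i o o' : ℕ) (hM : 0 < M) (Ms : Finset ℕ) (hA : Am κ M m + M * G κ m ≤ o + o')
    (hb : ¬ BadT κ M m Ms (o + o')) (ho : A κ M i ≤ o) (ho2 : o < A κ M i + M * G κ i)
    (hd : G κ i ∣ o') : Cond κ M m i o' := by
  refine ⟨hd, fun j hj hjm => ?_⟩
  have hb2 : M * G κ (j - 1) ≤ (o + o' - Am κ M j) % G κ j ∧
      (o + o' - Am κ M j) % G κ j + M * G κ (j - 1) ≤ G κ j := by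
    constructor
    · by_contra hh
      rw [not_le] at hh
      apply hb
      refine Or.inr ⟨j - 1, by omega, Or.inl ?_⟩
      rw [show j - 1 + 1 = j by omega]
      exact hh
    · by_contra hh
      rw [not_le] at hh
      apply hb
      refine Or.inr ⟨j - 1, by omega, Or.inr ?_⟩
      rw [show j - 1 + 1 = j by omega]
      exact hh
  obtain ⟨b1, b2⟩ := hb2
  have hGi : M * G κ i ≤ M * G κ (j - 1) := Nat.mul_le_mul_left M (G_le κ (by omega))
  have hAj : Am κ M j ≤ Am κ M m := Am_mono κ M hjm
  have hGm : M * G κ i ≤ M * G κ m := Nat.mul_le_mul_left M (G_le κ (by omega))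
  have hMG : 0 < M * G κ i := Nat.mul_pos hM (G_pos κ i)
  have e := Nat.mod_add_div (o + o' - Am κ M j) (G κ j)
  set ρ := (o + o' - Am κ M j) % G κ j with hρ
  set q := (o + o' - Am κ M j) / G κ j with hq
  have c1 : q * G κ j = G κ j * q := Nat.mul_comm _ _
  have c2 : (q + 1) * G κ j = G κ j * q + G κ j := by ring
  refine ⟨by omega, ?_⟩
  have k1 : kk κ M i j o' = q := by
    unfold kk
    apply Nat.div_eq_of_lt_le
    · rw [c1]; omega
    · rw [c2]; omega
  rw [k1]
  apply Nat.div_eq_of_lt_le
  · rw [c1]; omega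
  · rw [c2]; omega

/-- **693's grid gadget on words.** -/
theorem grid (S V : Type*) [Monoid S] [Finite S] [AddCommGroup V] [Finite V]
    (act : V → S → V) :
    ∃ (m r : ℕ), 0 < m ∧ ∀ Bd : ℕ, 2 ≤ Bd → ∃ (Ms : Finset ℕ),
      Ms.card ≤ r ∧ (∀ p ∈ Ms, p.Prime ∧ Bd < p) ∧
      ∀ (κ : ℕ) (α : Type w) (φ : List α → S), (∀ u v, φ (u ++ v) = φ u * φ v) → φ [] = 1 →
      ∃ (LL : List α → V → Prop) (rho : List α → Option V) (nu : List α → V),
        (∀ P v, LL P v → ∃ i < m, A κ (∏ p ∈ Ms, p) i ≤ P.length ∧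
          P.length < Am κ (∏ p ∈ Ms, p) (i + 1)) ∧
        (∀ P v v', LL P v → LL P v' → v = v') ∧
        (∀ P Q v b, LL P v → rho Q = some b → b = act v (φ (P ++ Q)) + nu (P ++ Q)) ∧
        (∀ u v, Am κ (∏ p ∈ Ms, p) m + (∏ p ∈ Ms, p) * G κ m ≤ u.length →
          ¬ BadT κ (∏ p ∈ Ms, p) m Ms u.length →
          ∃ P Q, u = P ++ Q ∧ LL P v ∧ ∃ b, rho Q = some b) := by
  classical
  obtain ⟨m, r, hm, hU⟩ := ugadget' S V act
  refine ⟨m, r, hm, fun Bd hBd => ?_⟩
  obtain ⟨Ms, L, R, D, hcard, hp, hLper, hRper, -, hsound, hcomp, hE1, hE2⟩ := hU Bd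
  refine ⟨Ms, hcard, hp, fun κ α φ hφ hφ1 => ?_⟩
  set M := ∏ p ∈ Ms, p with hMdef
  have hMpos : 0 < M := Finset.prod_pos fun p hpm => (hp p hpm).1.pos
  have hodd : ∀ i, Nat.Coprime M (G κ i) := by
    intro i
    unfold G
    apply Nat.Coprime.pow_right
    rw [hMdef]
    apply Nat.Coprime.prod_left
    intro p hpm
    obtain ⟨h1, h2⟩ := hp p hpm
    rw [Nat.coprime_primes h1 Nat.prime_two]
    omega
  let LL : List α → V → Prop := fun P v => ∃ i < m, A κ M i ≤ P.length ∧
    P.length < Am κ M (i + 1) ∧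
    L i (φ (P.take (be κ M 0 P.length))) (zl φ (fun j => be κ M j P.length) P i) P.length = some v
  let vw : List α → ℕ → Option (List S × S) := fun Q i =>
    if Cond κ M m i Q.length then some (rl κ M i m Q φ, φ (Q.drop (ga κ M i m Q.length)))
    else none
  let nu : List α → V := fun u => D u.length (φ (u.take (be κ M 0 u.length)))
    (zl φ (fun j => be κ M j u.length) u m) (φ (u.drop (be κ M m u.length)))
  have hbm : ∀ T, ∀ j, (fun j => be κ M j T) j ≤ (fun j => be κ M j T) (j + 1) :=
    fun T j => be_mono κ M T j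
  refine ⟨LL, fun Q => R (vw Q) Q.length, nu, ?_, ?_, ?_, ?_⟩
  · rintro P v ⟨i, him, h1, h2, -⟩
    exact ⟨i, him, h1, h2⟩
  · rintro P v v' ⟨i, him, h1, h2, h3⟩ ⟨i', him', h1', h2', h3'⟩
    have hii : i = i' := by
      rcases lt_trichotomy i i' with h | h | h
      · have a1 := Am_mono κ M (show i + 1 ≤ i' from h)
        have a2 := Am_le_A κ M i'
        omega
      · exact h
      · have a1 := Am_mono κ M (show i' + 1 ≤ i from h)
        have a2 := Am_le_A κ M i
        omega
    subst hii
    rw [h3] at h3'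
    exact Option.some.inj h3'
  · rintro P Q v b ⟨i, him, h1, h2, h3⟩ hR
    have hT : (P ++ Q).length = P.length + Q.length := List.length_append
    by_cases hc : Cond κ M m i Q.length
    · obtain ⟨l1, l2⟩ := zl_left (φ := φ) κ M m i him P Q h1 hc.1
      obtain ⟨r1, r2⟩ := zl_right (φ := φ) κ M m i him P Q h1 h2 hc
      set zs := zl φ (fun j => be κ M j (P ++ Q).length) (P ++ Q) m with hzs
      have hlen : zs.length = m := zl_length _ _ _ _
      have hi' : i < zs.length := by omega
      have hsplit : zs = zs.take i ++ zs[i] :: zs.drop (i + 1) := by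
        rw [← List.drop_eq_getElem_cons hi', List.take_append_drop]
      have hl2 : (zl φ (fun j => be κ M j P.length) P i).length = i := zl_length _ _ _ _
      have key := hsound P.length Q.length (φ (P.take (be κ M 0 P.length)))
        (zl φ (fun j => be κ M j P.length) P i) zs[i] (rl κ M i m Q φ)
        (φ (Q.drop (ga κ M i m Q.length))) (vw Q) v b
        (by rw [← l2, ← r1, ← hsplit, hlen])
        (by
          intro q hq
          rw [hl2] at hq
          simp only [vw] at hq
          rw [if_pos hc] at hq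
          exact (Option.some.inj hq).symm)
        (by rw [hl2]; exact h3) hR
      rw [key]
      have e1 : zl φ (fun j => be κ M j P.length) P i ++ zs[i] :: rl κ M i m Q φ = zs := by
        rw [← l2, ← r1, ← hsplit]
      have e2 : D (P.length + Q.length) (φ (P.take (be κ M 0 P.length)))
          (zl φ (fun j => be κ M j P.length) P i ++ zs[i] :: rl κ M i m Q φ)
          (φ (Q.drop (ga κ M i m Q.length))) = nu (P ++ Q) := by
        simp only [nu]
        rw [e1, ← l1, ← r2, ← hT]
      have e3 : φ (P.take (be κ M 0 P.length)) * (zl φ (fun j => be κ M j P.length) P i).prod *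
          zs[i] * ((rl κ M i m Q φ).prod * φ (Q.drop (ga κ M i m Q.length))) = φ (P ++ Q) := by
        have f := zl_full (φ := φ) hφ (fun j => be κ M j (P ++ Q).length) (hbm _) (P ++ Q) m
        rw [← hzs, ← e1] at f
        simp only [List.prod_append, List.prod_cons] at f
        rw [l1] at f
        rw [r2] at f
        rw [← f]
        simp only [mul_assoc]
      rw [e2, e3]
    · have hn : vw Q i = none := by
        simp only [vw]
        rw [if_neg hc]
      have hl2 : (zl φ (fun j => be κ M j P.length) P i).length = i := zl_length _ _ _ _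
      have hbad := hE1 i _ _ _ v (vw Q) Q.length b h3 hR hn
      have key := hsound P.length Q.length (φ (P.take (be κ M 0 P.length)))
        (zl φ (fun j => be κ M j P.length) P i) (φ (P.drop (be κ M i P.length) ++ Q))
        (List.replicate (m - 1 - i) 1) 1 (vw Q) v b
        (by simp only [List.length_append, List.length_cons, List.length_replicate, hl2]; omega)
        (by
          intro q hq
          rw [hl2, hn] at hq
          exact absurd hq (by simp))
        (by rw [hl2]; exact h3) hR
      have e3 : φ (P.take (be κ M 0 P.length)) * (zl φ (fun j => be κ M j P.length) P i).prod *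
          φ (P.drop (be κ M i P.length) ++ Q) * ((List.replicate (m - 1 - i) (1 : S)).prod * 1)
          = φ (P ++ Q) := by
        have f := zl_prod (φ := φ) hφ (fun j => be κ M j P.length) (hbm _) P i
        rw [f, ← hφ, ← List.append_assoc, List.take_append_drop]
        simp
      rw [key, e3]
      congr 1
      simp only [nu]
      rw [hT]
      apply hE2 _ _ _ _ _ _ _ hbad
      have f := zl_full (φ := φ) hφ (fun j => be κ M j (P.length + Q.length)) (hbm _) (P ++ Q) m
      rw [f, ← e3]
      simp [mul_assoc]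
  · intro u v hlen hb
    obtain ⟨i, him, hi⟩ := hcomp u.length (φ (u.take (be κ M 0 u.length)))
      (zl φ (fun j => be κ M j u.length) u m) (φ (u.drop (be κ M m u.length))) v
      (zl_length _ _ _ _) (fun p hpm hd => hb (Or.inl ⟨p, hpm, hd⟩))
    have hMle : M ≤ u.length + 1 := by
      have : M ≤ M * G κ m := Nat.le_mul_of_pos_right M (G_pos κ m)
      omega
    obtain ⟨t, -, t2, t3, t4, t5⟩ := hi 0 (by rw [Nat.zero_add]; exact hMle)
    obtain ⟨k, hk1, hk2⟩ := Nat.chineseRemainder (hodd i) t u.length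
    obtain ⟨o, o1, o2, o3⟩ := exists_modEq (A κ M i) (M * G κ i) k
      (Nat.mul_pos hMpos (G_pos κ i))
    have om : o ≡ t [MOD M] := (o3.of_dvd (Dvd.intro _ rfl)).trans hk1
    have og : o ≡ u.length [MOD G κ i] := (o3.of_dvd (Dvd.intro_left _ rfl)).trans hk2
    have hAi : Am κ M (i + 1) ≤ Am κ M m := Am_mono κ M (by omega)
    rw [Am_succ] at hAi
    have hle : o ≤ u.length := by
      omega
    have hd : G κ i ∣ u.length - o := (Nat.modEq_iff_dvd' hle).1 og
    have hPl : (u.take o).length = o := by rw [List.length_take]; omega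
    have hQl : (u.drop o).length = u.length - o := List.length_drop
    have hc : Cond κ M m i (u.drop o).length := by
      rw [hQl]
      apply cond_of κ M m i o (u.length - o) hMpos Ms
      · rw [Nat.add_sub_cancel' hle]; exact hlen
      · rw [Nat.add_sub_cancel' hle]; exact hb
      · exact o1
      · exact o2
      · exact hd
    have hu : u.take o ++ u.drop o = u := List.take_append_drop o u
    obtain ⟨l1, l2⟩ := zl_left (φ := φ) κ M m i him (u.take o) (u.drop o) (by rw [hPl]; exact o1)
      hc.1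
    obtain ⟨r1, r2⟩ := zl_right (φ := φ) κ M m i him (u.take o) (u.drop o)
      (by rw [hPl]; exact o1) (by rw [hPl, Am_succ]; exact o2) hc
    rw [hu] at l1 l2 r1 r2
    refine ⟨u.take o, u.drop o, hu.symm, ⟨i, him, by rw [hPl]; exact o1,
      by rw [hPl, Am_succ]; exact o2, ?_⟩, ?_⟩
    · rw [← l1, ← l2, hPl, ← t4]
      exact per (fun t => L i _ _ t) M (fun t => hLper i _ _ t) om
    · obtain ⟨b, hbb⟩ := t5 (vw (u.drop o)) (by
        simp only [vw]
        rw [if_pos hc, r1, r2])
      refine ⟨b, ?_⟩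
      rw [← hbb]
      refine per (fun t => R (vw (u.drop o)) t) M (fun t => hRper _ t) ?_
      rw [hQl]
      apply Nat.ModEq.add_right_cancel om
      rw [Nat.sub_add_cancel hle, Nat.sub_add_cancel t3]

end Crest.Agent.R320.Grid859
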