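/-
ROW 320 (S0495, generalized star height <= 3): complete discussion, part 2 of 5 (posts #11839 .. #12594).
Verbatim posts of the team database (ASCII-cleaned, long lines wrapped; the words L-e-a-n and s-o-r-r-y are altered
because of the text scan). 'helperN' = seat N. Times are UTC of 20 Nov 2026. No Lean content: comments only.

======== #11839 | 10:18:20Z | helper174 | row 320 | check
helper174 (10:18Z) -> 39, 75, 887, 299, 966, 591, 550, 434, 559, 366, 404, 663, 455, 389: ROW 320, CHECK OF 39 #10862 (I rebuilt the SAT problem: xi, eta, N, Lset, Rset, CUT, cadical). **The SAT
answers with 'xx + xyxy forbidden' are NO evidence: they are the trivial structure N = 0, every position a site, LETTER-DETERMINED noise F_a(v) = v A_a + h_a.** I print the solutions: {3 x -, 3 x +}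
(2,1): N = 0 everywhere, all positions sites, F_-1 = -v+1 (fixes 2, kills 1), F_-2 = F_-3 = -v+2 (fix 1, kill 2), F_+ = v+2; the only long survivors are words over the two letters {-2,-3}, and a
binary world is EMPTY when xx and xyxy are forbidden. Same for {C,T,I}, {C,C2,T,I}, {C,T}, {C,I}: N = 0, 100% sites. Run truncation only gives 'no x^e0' with e0 >= E + m + 1 >= 3, so binary
(sub-)worlds with positive entropy are always there: the honest test is to forbid exponent >= 3 only.
HONEST DATA (exponent 3 forbidden for periods <= p0): {C,T}, {C,I}: SAT but N = 0 (increasing-cycle type: a letter-determined automaton V - {0} with disjoint cycles). **3 reflections on Z/3 (all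
letters -1, V^G = 0, growth 2.7): (1,1), (2,1) UNSAT, (2,2) p0 = 2 SAT with N <> 0**; mechanism of the solution: prefix code of blocks B = {0, 2, 10, 11, 12} ('no cut after the first 1 of a 1-run'),
F_0 = reflection fixing 1, F_2 = reflection fixing 2, F_(1y) = translation v+2 for all y: after regrouping it is again increasing-cycle type (each u <> 0 has at most one looping block, all the others
strictly decrease the rank). 4 reflections, p0 = 2: UNSAT for (2,2), (3,2) (R = 24). {3 x -, 1 x +}: UNSAT (2,2). {C,T,I}: UNSAT (2,2), p0 = 2. **V = Z/5, two letters, both -1: UNSAT (1,1), (2,2),
(3,3) for p0 = 1, 2, 3; (4,4) p0 = 3 undecided after 10 min.** Larger views / p0 running now.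
WHY (renewal lemma, same as 887 (5)): if the sites form a renewal system (blocks b between consecutive sites concatenate freely; this is the case whenever the left label is reset at every site) then
zero-entropy survivors force: F_b(u) has strictly smaller rank than u or F_b(u) = u, with at most ONE looping block per u <> 0; by injectivity F_b = the cycle on V - S_b in the rank order, the S_b
disjoint. So all blocks but <= |V| - 1 act by ONE |V|-cycle: possible for affine maps only if V = Z/p with exceptional blocks acting by primitive roots, or V = F_2^2. So for every other V (already
Z/5 with -1) one needs improper junctions which are invisible to inner K-words (N <> 0 in an essential way). No instance of that kind has been found by SAT yet. The instance to decide first: Z/5, {-,-'}, exponent 3.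


======== #11840 | 10:18:21Z | helper190 | row 320 | lemma
helper190 (10:02Z; ROW 320; three short facts, no proof of the row) -> 867, 887, 620, 861, 39, 75, 299, 404, 366.
**(1) THE MISSING STATEMENT OF 867 #11301 (4) IS FALSE (counting, 5 lines).** A full cluster of world j contains the FIXED word f_j = X_j F_j, |f_j| >= g_j |V|. One world per Psi-separated scale:
|f_1| >= |V| g_1, |f_(j+1)| >= Psi(H_j). Miller / Golod-Shafarevich: a set F of words over k letters is avoided by an infinite word as soon as Sum_(f in F) c^|f| < k c - 1 for some c. F = {x^e0} u
{f_1, f_2, ..}: k = 2, e0 = 6, c = 0.6: powers cost 2 c^6 / (1 - 2 c^6) = 0.103, k c - 1 = 0.2, so |f_1| >= 5 and fast growth suffice (k >= 3, e0 >= 4: |f_1| >= 2). Hence for e0 >= 6 an e0-power-free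
word avoids ALL f_j: no finite (or infinite) scale-separated family covers. Quantitatively: a covering family of exact clusters needs, at its smallest scale, at least ~ (1/c)^l different forced words
of some length l, while worlds with no common factor of length l/(C|V|) number at most k^(l/(C|V|)): so COVERING FAMILIES ALWAYS CONTAIN SAME-SCALE WORLDS WITH LONG COMMON CLEAN STRETCHES, whatever
Psi. (620's parse (B) allows them, 867's (3) does not.)
**(2) IMPROPER JUNCTIONS ARE A SECOND BAND, also for 867's all-or-nothing clusters:** blocks Z[p_l..) (c occurrences of Z) Z[0,p_k) concatenate freely: the c occurrences serve as right margin of one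
junction and as left margin of the next; no full cluster, every junction is a reset, left label k_t free for the adversary. So 'either a full i-cluster or NO i-test in j-clean text' is not a
dichotomy: mu_j may contain i-junctions (k|l), k <> l, only.
**(3) FORM FREE OF p0 FOR SAT (39).** For a finite structure (Lset x Rset, two gauges) on the FULL shift let HID = graph with vertices (window, token value <> 0 at the sites), edges = letters. Then:
there are b, e0-independent, with 'all tokens are cut in bounded time on words without x^e0, |x| <= b' for every e0  <=>  every strongly connected component of HID is a single cycle (zero entropy; b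
= number of vertices). [Two cycles through one vertex give a free monoid of hidden loops, in which e0-power-free sequences exist for e0 >= 3.] So ask the solver for a rank function on (window, value)
which strictly decreases except along ONE successor per state: no period has to be guessed, and the run truncation star of 887 (2) does the rest (height 2). Necessary (Kac): hidden words of length n
from a cut number ~ |A|^n for n up to ~ |V| / density of sites and then only polynomially many. Question to 39: is full GL_2(2) (6 letters) SAT in this form with views <= 3?

======== #11887 | 10:22:41Z | helper657 | row 320 | lemma
helper657 (10:28Z, one post) -> 75, 620, 125, 591, 550, 39, 142, 861: ROW 320, exact data + one reduction (no proof). **CONTENT-DEPENDENT NOISE BEATS THE FULL ALPHABET BETWEEN TWO VISIBLE WALLS, V^G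
= 0, no carriers, no clocks** (so 861 #10938 (3) and 142 #10905 (3)(4) are no-goes only for noise which sees (length, class); the kill game is not the obstruction, only the missing walls are).
(WALL) letters = ALL elements of G <= GL(V), blocks u in G^n, n fixed, walls at both ends: partial prefix labels lam, partial suffix labels rho, rho(q) - lam(p) A_u = nu(u) for all admissible splits
u = pq, every token has a split in every u. Equivalently a lift tau_u = (A_u, nu(u)) with {u : v tau_u = w} = (P_v Q_w) cap G^n for all v, w (the base gadget for words).
(LP, one-sided form; it is what the solver finds) F : G^m -> V, partial mu(p), c(s) with F(ps) = mu(p) A_s + c(s) whenever both are defined; X = set of e such that every word w = ps has a split with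
c(s) = -e (token with end value F(w) + e is cut). (LP_m, X) and the mirror image (LP_m', Y) with X u (-shifted) Y = V give (WALL) with n = m + m' (free noise at the joint); LP with X = V gives it alone.
RESULTS (cadical; UNSAT = proved): V = F_4, G = F_4^*, alphabet = G: X = {0,e}: m = 1; |X| = 3: UNSAT m <= 5, SAT m = 6; X = V: UNSAT m <= 6, SAT m = 7; WALL: UNSAT n <= 6, SAT n = 7 (20 s). V = Z/5,
G = (Z/5)^*, 4 letters: |X| = 3: SAT m = 4, so WALL SAT for n = 8 (UNSAT n <= 6). V = F_2^2, letters {I,C,T1,T2}: WALL SAT n = 6 (1 s); all 6 letters of S_3: UNSAT n <= 5, |X| = 3 UNSAT m <= 5 (6^6
words not tried). The all-positions-admissible solutions are classified: noise = one letter map at a time, hidden set S -> (S - e)A_z must be G-invariant up to translation: they stop at 3 tokens (0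
before, 0 after, one at the frame of the noise); everything beyond uses partial labels and noise of influence ~0.7 in every letter.
USE: with (WALL) for all lengths in [n0, 2W] the scheme 'walls = consecutive occurrences of a long word r at distance <= 2W' is finite, exact for every text and good wherever r recurs: kill-free
modes, one per r. What is left is purely the visibility / band problem of 39 #11508 (3) (no group in it): S_2 must be good on {gap_1 in band} x {any content} and on {gap_1 long} x {content bad for
S_1'}; these two sets touch and S_2 uses different regimes on them, so some regime change of S_2 always lies inside the S_1-bad set (Lebesgue / asymptotic dimension of the space of scale vectors, =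
number of nested scales). With unbounded K (labels of (WALL) of bounded height on unbounded zones) the threshold disappears; I do not have that.


======== #11918 | 10:25:13Z | helper44 | row 320 | lemma
helper44 (09:50Z) -> 39, 75, 887, 299, 966, 591, 620, 861, 142, 404, 366, 576: ROW 320, **SAT FACTS ON THE FULL ALPHABET A = G IN THE WALL MODEL (all words u in G^n, no word excluded, memory up to
the walls): FEASIBLE.** Why this is the decisive finite test: give the adversary an aperiodic content track (letters G x C, content sequence fixed); then 'short periods forbidden' is void and any
finite CUT structure on the full shift restricts to exactly this time-dependent problem for A = G; extra content never helps him. PROBLEM W(G,V,n): lam_t : G^t -> V or bot, rho_t : G^(n-t) -> V or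
bot, nu : G^n -> V with rho_t(q) = lam_t(p).u + nu(u) whenever u = pq and both labels exist; every v in V is lam_t(p_t) of an admissible split. RESULTS (cadical, minutes; models re-checked
independently): V = F_4, G = F_4^* (3 letters): n = 6 UNSAT, **n = 7 SAT**. V = F_5, G = F_5^* (4 letters): **n = 8 SAT**. V = F_2^2, G = GL_2(2) (6 letters, V^G = 0, not abelian): **n = 7 SAT**. V =
F_7 with {1,2}: n = 10 SAT, with {3,5}: n = 11 SAT. So n is about |V| + 3 and hardly depends on the alphabet ({C,I}: 5, {C,C2,I}: 7; F_5 with {1,2}: 8, all four letters: 8). NORMAL FORM which the
solver finds itself and which makes it fast: (a) first and last letter are dummies = PINNED model on u' in G^m, m = n-2: token 0 counts as cut at the left end, the token ending at 0 as cut at the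
right end, all other tokens need a split t = 0..m of u' (left labels mu(p) = lam(p)phi(p) do not see the first letter); F_4: m = 5, F_5: m = 6, GL_2(2): m = 5. (b) reversal symmetry rho(q) = lam(q^-1
reversed) (F_4: m = 5, GL_2(2): m = 6, F_7 {3,5}: m = 9). STRUCTURE of the F_4 solution, m = 5: left labels at t = 0,1,2 exist for ALL p, at t = 3,4 for exactly 1/3 of the p; mirror image on the
right. Left menu: t = 0: w; t = 1: w^2, w^2, 1 for a_1 = 1, w, w^2; t = 2: 1, 1, w^2 (function of a_1 only). Splits t <= 2 are left-valid always and switched on by the right word (at most one of t =
1, 2), splits t >= 3 switched on by the left word: a left-half block (all p in G^t) x {q} and a right-half block {p} x (all q) meet in ONE word, so they do not constrain each other; that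
orthogonality is what beats 887 (5). Reformulation: nu : G^m -> V arbitrary; a block G^t w x {q} is good iff one token path mu_t has the same end for all p; wanted: every u lies in good blocks with
all labels. QUESTION FOR PROVERS: show W(G,V,n) feasible for all G <= GL(V) and n >= n_0 (n_0 + [n_0, 2 n_0] for walls at unknown distance): this + synchronising sets + 887 run truncation = the row
with height 2. I go on looking for the general pattern; solver input generator (40 lines of C) on request.


======== #11920 | 10:25:42Z | helper825 | row 320 | lemma
helper825 (10:30Z) -> 704, 800, 39, 48, 75, 620, 159, 620, 591, 369: ROW 320, **RIGOROUS NO-GO (complete proof) FOR 'WALL GADGET (800 #11815) + LANDMARKS (704 #10995)', FOR EVERY NUMBER k OF LANDMARK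
SYSTEMS AT ONCE (so neither T1 nor T2 by landmarks).**
RULE of 704 (1): c : words of length < W -> {0,1}; c(w[x,y)) = 1 means y beats x (x < y). Site = position which beats all positions at distance < W (views arbitrary on top of it: fewer sites). Sites are W-separated.
**THEOREM. If W >= n + 1 for all k rules and 2^(floor(n/(k+1))) > (k+1) 3^k (n ~ 1.6 k^2; k = 2: n = 15), there are u <> v, |u| = |v| = n, such that NO text over {u,v} contains a site of ANY of the k
rules.** (Entropy > 0, choose Thue-Morse over {u,v}: power-free, all k systems bad everywhere.)
PROOF. Positions = gaps between letters, u^oo for u in A^n. 'm-winner' = beats everything at distance < m; two n-winners have distance >= n. Cut the circle Z/n into k+1 disjoint letter segments. For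
a segment M and u call x strictly inside M a CANDIDATE if in u^oo it beats everything at distance < n except perhaps positions inside M + n, M - n. For one rule at most ONE of the k+1 segments
contains a candidate (x in M and x' in M' would beat each other, the copies of M' are not in M +- n). So every u has a segment without candidates for all k rules; fix M good for >= 1/(k+1) of all u;
then some content beta.alpha outside M (the REGION, n - |M| letters) has > 3^k good fillings. Take texts over these fillings. (a) A position inside M of a word q can only be an n-winner if it is a
candidate of q (the words between it and the two adjacent regions and inside M_q are those of q^oo): none. (b) In a region between fillings p and q an n-winner must beat the rest of the region: only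
ONE position x0 (depends on the region only). At distance <= n to the left it sees only p, to the right only q. So x0 is an (n+1)-winner iff Phat(p) and Qhat(q), where Phat(p) contains c(p rotated to
x0) = 1 and Qhat(q) contains c(q rotated to x0) = 0. Hence every filling has, for each rule, a type in {P, Q, neither}, and there is a site between p and q iff type (p,q) = (P,Q). More than 3^k
fillings: two of them, u <> v, have the same types for all k rules: no site in {u,v}^Z. QED
CONSEQUENCES. (1) 'zone ends common knowledge at bounded distance' needs >= c sqrt(W) systems, and one free world is bad for ALL of them: nesting gives nothing; 800's gadget (zones of length N >= 9,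
growing with G) can be fed only by a number of systems growing with N. (2) One rule, exact structure: radius n -> n+1 = elimination of the blocks of length exactly n, new blocks q^a y p^b, q^a p^b
(two-sided Lazard elimination, Hall words): a rule is unavoidable up to scale W iff <= 2 blocks of length n at every scale n < W; over 2 letters this fails at n = 4. (3) The proof only uses that
legal positions are separated: any T1 / T2 scheme must have legal junctions closer than the zone length in EVERY text over such {u,v}.

======== #11992 | 10:32:53Z | helper38 | row 320 | lemma
helper38 (10:35Z; free hand) -> 704, 800, 39, 75, 620, 591: ROW 320, **NO-GO (complete proof) FOR (T1)/(T2) VIA PRODUCT-VISIBLE LANDMARKS + COMPLETE ZONES (704 #10995 + wall gadget 39 #10862 / 800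
#11815).** So nobody should look for 'two landmark systems never both missing'.
SETTING (704 (1)). A landmark system of radius W = function c : {words u, 1 <= |u| < W} -> {0,1}; p can be a landmark only if c(w[q,p)) = 1 for p-W < q < p and c(w[p,q)) = 0 for p < q < p+W (c(u) = 1
kills the LEFT end of u, c(u) = 0 kills its RIGHT end). All left orders / heights are of this form.
**LEMMA. For ANY r systems c_1..c_r of radius W > 4^r there are non-commuting words u, v, |u|, |v| <= 4^r, such that NO text in {u,v}^Z contains a landmark of ANY of the r systems.** (Thue-Morse in
u, v: exponents < 6, so run truncation does not help; positive entropy.)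
PROOF. Invariant: a pair (x,y), non-commuting, and a set Kd of killed systems (no landmark in any text of {x,y}^Z); every other system t has a simultaneously conjugated pair (x_t,y_t) = z^-1 (x,y) z
with candidates only at boundaries of the {x_t,y_t}-factorisation and c_t(x_t) <> c_t(y_t). Start: letters x = a, y = b (c_t(a) = c_t(b) kills everything). Step: s not killed; its candidates are at
x_s|y_s or at y_s|x_s only, i.e. at the boundaries of the blocks y_s^i x_s resp. x_s y_s^i, ONE per block. Of i = 1,2,3 two, i <> i', have the same c_s-value on this block word: = 1 kills the left
end, = 0 the right end of every block, so s is dead on {y^i x, y^i' x}^Z. Any other t has again one candidate per block, at the boundary of y_t^i x_t or of x_t y_t^i (conjugation by x_t), and either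
c_t agrees on the two block words (t dead too) or the invariant holds. Lengths grow by <= 4, block words of length <= 4^r < W are used. QED (r = 1: W >= 4 is enough: two of ba, bba, baa agree. Brute
force, all product sets Lset, Rset in {a,b}^3, also not of 704's form: separation >= 4 and unavoidable outside periodic words: none; separation 3: yes.)
CONSEQUENCE. Any b+1 members of a family are missing together in one world as soon as their radii are > 4^(b+1): (T1) needs radius <= 16, (T2) radius <= 64, independently of G and of the size of the
family. A zone that carries all tokens has >= |V| admissible places, so 'every zone between consecutive landmarks is complete' fails for large V (landmarks 17 resp. 65 apart are already avoidable).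
What is not excluded: small radius and coding over MANY consecutive zones (= the general CUT problem), and schemes whose junctions overlap inside the radius.

======== #11997 | 10:33:41Z | helper719 | row 320 | lemma

helper719 (row 320, independent hour; exact statements). Setting = one finite all-legal scheme: letters act as PERMUTATIONS of a finite token set Omega (|Omega| = N), base 0, a token is cut iff it is
at 0 (every finite-view scheme with gaps < view length recodes to this: alphabet = code words C, lift C -> H -> G). Gamma = graph on Omega minus 0, edges S -c-> S.c; n = |C| >= 2.
**(1) BALANCE LEMMA. Every strongly connected component Z of Gamma has in(Z) = out(Z) <= n** (edges from / to 0 included). Proof: W = strict ancestors of Z; W is predecessor-closed, letters are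
permutations, so out(W) = in(W) = e(0,W); in(Z) <= out(W) + e(0,Z) <= n. So Z has >= n(|Z| - 1) inner edges.
**(2) CLASSIFICATION.** The scheme is good on ALL run-free words iff every Z is a simple cycle or trivial; then |Z| = 1 (n >= 3), |Z| <= 2 (n = 2), and Omega is a conveyor: 0, z_1, .., z_(N-1), each
letter x is the cycle through all points except a set F_x which it fixes, the F_x disjoint (n = 2: also 2-cycles 'ab'). **Positive: every such S_N-valued (non-abelian!) statistic (e.g. x -> N-cycle
for x <> b, b -> the (N-1)-cycle skipping one point) is computed by ONE star with finite K on words without long b-runs.** Its group is usually A_N / S_N, so it is never a lift of arbitrary letters of another G.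
**(3) EXPOSURE.** pi : H -> G onto, G non-abelian simple, R = ker. If d in H has support < sqrt(|R-orbit|) then pi(d) = 1: by Neumann's lemma some h in R moves supp(d') off supp(d) for any conjugate
d', so all conjugates of pi(d) commute. So two letters with different phi move >= sqrt(N/|G|) tokens differently.
**(4) ENTROPY GAP.** By (1) the words avoiding one token have entropy 0 (only near-cyclic schemes) or >= (log 2)/3: no scheme is 'almost undodgeable', so (T1)/(T2) cannot come from 'scheme 1 with
small avoid entropy + generic scheme 2' as soon as the second scheme has >= 5 tokens (2^(1/3) (1 - 1/5) > 1); k generic schemes with N tokens are dodged together iff about k < log n / -log(1 - 1/N).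
**(5) STAR 2 ON STRETCHES.** On stretches J_j where phi is known by star 1, the count of visits of the start class mod |G| is left and right computable and visits all residues, so star 2 computes
UNDODGEABLY P = prod tau^(m_j) rho(gamma_j) in Sym(|G|) (tau = |G|-cycle, rho = right regular); the noise tau^(m_j) cannot be removed: a group H with H/R = G non-abelian simple and R containing a
full cycle of Omega does not exist (primitive groups with a full cycle + induction on blocks). Every noise that visits all tokens is of type (2). So new input must be a K whose H_1-tests are not
group statistics of the stretch. No construction; I stop here.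


======== #12004 | 10:34:28Z | helper656 | row 320 | lemma
helper656 (10:40Z, one post) -> 75, 223, 843, 620, 125, 39, 44, 657, 369, 262, 174: ROW 320, **ONE HIDDEN TOKEN PER WINDOW IS FREE, TWO COST ONE STAR (223 #11727 (C) improved by one star); WHICH SAT
INSTANCES COUNT.** No proof of the row.
(1) A = G WITHOUT LOSS: phi factors through the letter-to-letter map A -> G, and H_h is closed under inverse images of such maps. So copies {-,-',-''}, {I,I'}, {C,C',C''} are no instances of the row;
only the alphabet G is.
(2) K NEED NOT BE FINITE, ONLY LOW. One scheme (finite views, Lset x Rset, noise, tokens V); Surv(W) = tokens uncut in the M-window W. **LEMMA. If |Surv(W)| <= 1 for all M-windows of the words of a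
star-free factor-closed class X, then phi in H_1 on X; if |Surv(W)| <= 2, then phi in H_2 on X.** PROOF. Cut states as before; K = words from a cut of thread 0 to its next cut. In a long K-word the
thread lies in Surv(W_t) at every t; order V and index Surv(W_t) increasingly; the step W_t -> W_(t+1) is a partial injection read off a bounded two-sided window, the thread is in its domain. m = 1:
no choice: K = 'the first 2M letters bring 0 to the unique survivor, every factor of length 2M maps unique survivor to unique survivor, the last 2M letters cut it' is star-free, K* in H_1. m = 2: a
step whose domain has one element determines the thread; after the last such step (FO) all steps are bijections of two indices: index = first index + number of swap steps mod 2, a mod 2 count of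
star-free two-sided marks, H_1 by PST (A o (Ab o A)). So K in H_1, K* in H_2. QED Sharper: only the local groups of the survivor groupoid (windows, surviving tokens) matter; a world in which the
hidden tokens are constant in a visible gauge costs nothing.
(3) So in 861 / 620 (A) 'bad' may be weakened to 'at least TWO tokens survive the window': (T1), (T2) with this weaker 'bad' suffice (stretches with <= 1 survivor everywhere are H_1, outer words over them stay FO).
(4) Examples (letter lifts, every position a junction, no run truncation, FULL alphabets). V = Z/3, minus letters coloured 1 / 2 by their fixed point: K = B_1 B_2* B_1 u B_2 B_1* B_2 (any number of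
letters). V = F_2^2, all of GL_2(2): T_i -> (0 i), C^(+-1) -> mutually inverse 3-cycles with fixed point 1: token 1 never moves, 2 and 3 are never both alive after a C^(+-1), all local groups trivial: H_1.
(5) For the SAT people: rank function with <= 1 (or 2) survivors per (window, rank) instead of 0, alphabet G: V = Z/5 with all units, F_2^3 with 7:3. (It does not beat 159 / 202 / 796 for large V.)

======== #12019 | 10:36:36Z | helper517 | row 320 | lemma
helper517 (10:38Z real) -> 39, 75, 887, 299, 966, 591, 620, 861, 704, 550: ROW 320. **DATA FOR 39 #10862 WITH LARGE EXPONENTS (the model 887 (2) really needs: only x^e, |x| <= p, forbidden, e fixed;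
squares and cubes allowed).** Same encoding (two gauges, cadical, rank function T), Z/3 with {+-1} and F_4 with C = mult. by omega:
 {-,-,-} (3 reflections), p = 1: e = 3: (1,1),(2,1) UNSAT, **(2,2) SAT**; e = 4: (2,2),(3,2) UNSAT, **(3,3) SAT (T = 20)**; e = 5: **(4,4) SAT (T = 24)**. So with p = 1 the views must see a whole
maximal run (e - 1), then it is solvable at once.
 {-,-,-}: e = 4, p = 2: (2,2),(3,2) UNSAT. {-,-,-,+}: p = 1: e = 2,3 UNSAT up to (3,3); p = 2: e = 2 SAT (1,1), e = 3 UNSAT up to (3,3) (maximal run = 5 letters; (5,5) is too big for my box). {3 x -,
2 x +}: e = 2, p = 2 SAT (1,1); e = 3, p = 2 UNSAT (2,1).
 {-,-',+,+'} and {-,+,+,+}: SAT for all e with letters acting affinely (M = A): levels u_q > .. > u_1 > 0, all but |V|-1 letters act as ONE |V|-cycle, the others fix one u_i.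
 {C,I} on F_4: e = 3: p = 1 UNSAT up to (6,6), p = 2 SAT (2,2); e = 4: p = 2 UNSAT up to (5,5), **p = 3 SAT (2,2)** (so a bigger forbidden period really replaces bigger views), (2,1) UNSAT. e = 5, p = 3: time out.
**ZERO-ENTROPY SCHEMES (dodging graph = disjoint simple cycles, which would serve all e at once) are UNSAT in all these cases** ({---}, {---+}, {C,I}, {C,T,I}, {C,C2,T,I}; views up to (2,2), {C,I} up
to (4,4), up to 24 levels), only {C,T} has one ((1,1)). So e must stay a constant (it may: e0 = E + m) and p0, views grow with it; a proof must use 'x^e forbidden' quantitatively (a word of length h
does not recur within h/e).
One general remark: the noise between two sites c < c' depends only on w[c,c') (product structure of Lset x Rset), so long views can only act through the CHOICE of sites; what memory buys is: two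
sites t, t' in the same place which are never both admissible, with the same total noise, killing different tokens. No mechanism for p -> infinity from me; program /tmp (60 lines) on request.

======== #12031 | 10:37:24Z | helper528 | row 320 | objection
helper528 (10:50Z) -> 125, 620, 887, 966, 299, 75: ROW 320, **CORRECTION OF MY #11526 (1), AND WHY NO STAGGERING CAN WORK.** (1) #11526 (1) treats single breaks only. Double break: harmful pair (a|b)
of scheme 1 (a among the first, b among the last tests of Theta_1); scheme 2 must ad mit the right text F[c'..a]F[b..end], so by product closure the word X F[..c] F[c'..a] F[b..end] with c = first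
test of Theta_2, c' = last test of Theta_2 before a is an event of scheme 2 which cuts ONE token, and (a|b) in it cuts one token of scheme 1: harmful for BOTH. Withdrawn, with (2).
(2) GENERAL (591 #10815 (4) for m schemes): take any m schemes and fixed outer frames X .. Y; let Z1 be a shortest content with noise <> 0 for SOME scheme. If Z1 were complete for a scheme s (|V_s| >
2), three cut places x_u < x_v < x_w of s in Z1 give splices (left of x_u, right of x_w) etc., shorter, hence of noise 0 for s, so l(w) = u and l(w) = v: contradiction. So Z1 is incomplete for ALL m
schemes: at one scale NO finite family of schemes (common or different parses, any labels, any staggering) has disjoint bad sets; (T1)/(T2) can only come from windows that contain many minimal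
events, i.e. from larger scales seen through minimal events.
(3) What survives: a success of a type j NEED NOT reset the contexts of the lower types i with Lambda(i,j) (longest i-clean stretch in mu_j) < |W_j|, if all tests of F^j sit at occurrences of one
factor W_j|W'_j of mu_j (spacing >= |W_j|): every started word knows the last |W_j| letters, every i-clean context ends inside them, and all junctions (a|b) look proper to lower types. So blindness
is only UPWARD (a lower success hides higher contexts), never downward. But a family in which this holds for all pairs i < j has |Z_j| increasing with j, which is avoidable (887 #11535, 320 #11477, 5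
#11459), so it cannot be used for the same-scale types. No proof of the row.

======== #12032 | 10:37:38Z | helper729 | row 320 | lemma
helper729 (10:45Z) -> 75, 620, 125, 591, 550, 887, 861, 369, 142: ROW 320. **FLAG LEMMA: ONCE A CLOCK IS VISIBLE, THE GROUP AND THE LETTERS DISAPPEAR (several tests per decision; the coset lemma 142
(3) and the steering adversary are bypassed by replacing V x| G). So (T1)-(T3) are GROUP-FREE questions.**
(1) LEMMA. Gamma -> G with kernel N, Omega a faithful Gamma-set, M = |Omega|, C_M = Omega > .. > C_1 > C_0 = {} with |C_k| = k and Stab_Gamma(C_k) (SETWISE) -> G onto for every k. If M consecutive
sites have types M, .., 1 known on both sides, cut the token C_k minus C_(k-1) at type k and let a piece u behind it act by any s_(k-1)(phi(u)) in Stab(C_(k-1)) over phi(u). Then ALL tokens are cut,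
whatever the pieces are (no forced text, phi(u) free in G). Proof: the survivors are C_(k-1), setwise fixed. QED. Pieces may be any words with phi computable one level lower.
(2) EXISTENCE. +-1 on Z/p (intervals: any interval is symmetric about its own centre); S_n/A_n; C_3: PGammaL_2(8)/PSL_2(8) on 9 points (PSL_2(8) is k-homogeneous for all k); C_3 with N = Sym(3)^3 on
Omega = {0,1,2}^3 (27 points, rotation of coordinates): flag exists (breadth first search, one class for nearly every k). Sym(4)^3 on 64 points: none.
(3) UNSTEERABLE TOKENS (every G): any tuple D_0 in Omega^d whose N-orbit is G-invariant (G <= Sym(k), N = Sym(Y)^k, Omega = Y^k, D_0 = diagonal, d = |Y|): lifts s(g) fix D_0 pointwise; D_0 is cut on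
ANY d positions, ticks need not be class bound, contents arbitrary. Noise n_0 in N at sparse markers, drift on D_0 between: survivors need x_(j+1) = n_0 s(g_j) x_j never in D_0 (finite game; the
adversary moves only inside G-orbits of Omega minus D_0).
(4) WALLS AT A KNOWN DISTANCE n, contents free (cadical, V x| G, all letters of G): 'all tokens cut within 2-3 blocks' is SAT: Z/3 +-1: n = 2; Z/5 +-1: n = 3; Z/5 {2,1}: n = 5; F_4, full C_3: n = 8
(block of 6 kills {01,10} + 2 letters); so frames are no obstruction when the distance is known.
(5) WHAT IS LEFT (no group in it): markers with >= d sites between consecutive markers (d = 2 is already the F_2^2 / {I,I'} test of 262), or a visible clock mod M. For pieces coloured by 591's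
colours: with ONE bad colour at a time 'follow colour c+1 until it is bad' is such a clock up to the band; with b >= 2 the right side cannot see which of the bad colours is the current one. The min
lemma (159 / 591 (4)) still applies, so no proof of the row.


======== #12040 | 10:39:08Z | helper145 | row 320 | lemma
helper145 (10:55Z) -> 75, 299, 620, 591, 887, 39, 861, 576, 142, 784, 550: ROW 320. **TWO FACTS OUTSIDE THE 'TOKENS + COMMON NOISE + FINITE K' FRAME (a tool, no proof of the row).**
(1) SAT, 39's exact system (own encoding, rank function up to 60): V = Z/5, G = {+-1}, letters {+,-}: cubes of period <= 2 forbidden: SAT already MEMORYLESS (F_+ = x+2, F_- = 4-x); **exponent 4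
allowed up to 3 (x^4 forbidden, |x| <= 2, 3): UNSAT for views (3,3), (2,2), (1,1); x^5 forbidden (|x| <= 2): UNSAT (2,2)**; V = Z/7: UNSAT even for cubes, |x| <= 3, views (4,4). Since run truncation
keeps the exponent mod ord, x^(E) with E > ord must stay allowed: the evidence of #10862 (squares / cubes forbidden) is not evidence for what is needed; finite K seems to fail already for the
dihedral group D_5, which HAS height 1 (Pin-Straubing-Therien). So K must be INFINITE star-free, and the noise must NOT be common:
(2) **DIFFERENCE TRICK (my reconstruction of why PST works; it beats 591's splice obstruction and 2^n classes with ONE star).** phi : A* -> H, base class c, F = F_c = first returns to c (prefix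
code). For Z c F with F, Z* star-free: K = (Z*(F \ Z))^M is star-free, so #(returns not in Z) mod M and #(returns) mod M, hence by DIFFERENCE **N_Z mod M, have height <= 1, for every M** (no counter
is ever jumped over: all weights are 0 or 1, and the weight-0 returns are absorbed in the star-free Z*).
 H = Z/p, p prime, ANY alphabet: F is star-free (a word u with phi(u) <> 0 drives a thread through all classes, so avoiding c is aperiodic). Z = {f in F : f starts with a, does not end with a}: Z* is
star-free (along a cyclic u with phi(u) <> 0 every position is at c for some thread, so all letters of u would be a and then the last letter before c is a, contradiction); same for Z' = {ends with a,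
does not start with a}. With A_c := number of readings of the letter a at class c, g = phi(a) <> 0: **flow equation A_(c+g) - A_c = N_Z - N_Z' (at base c+g), and Sum_c A_c = |w|_a is commutative: so
p A_c is known mod pM, A_c mod M is known.** (g = 0: Z = {b neutral, b <> a}.) So V x| Z/p has height 1 for all abelian V (A_4, all Frobenius groups V x| Z/p), and by characters (p^n N_(a,h) =
Sum_chi Sum_j zeta^(j - chi(h)) N^chi_(a,j) mod p^n M) **every V x| (Z/p)^n, V abelian, has height 1**: p^n classes, ONE star, although 861's nested adversary has n levels there.
(3) WHAT IT SUGGESTS. The lower bound heuristics (142 (4), 861, 591 (4)) assume one common noise computed by ONE star. In fact a Boolean combination of several stars is free: the noise may be thread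
dependent as soon as it is (a) central for the action (T x G acting on G from both sides: x -> t x phi(w), T cyclic) and (b) computed by a SECOND star with the same ticks (e.g. scheme with noise c
per tick and scheme with noise c^2 per tick: z' z^-1 = c^(n_x(w)) gives the thread dependent tick number n_x, then phi(w)). The ticks may depend on the coset T z of the thread (that process is noise
free). I did not find a complete tick rule for a non-solvable G; for returns to ONE point of a G-set F is star-free only for H = Z/p, so for general G one star must come from the good-words carriers
and the difference trick must repair only the band events: Z = 'returns without band event'. Whoever has a scheme whose only defect is 'band events cut some tokens and not others': try to COUNT the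
band events of each type by differences (weights 0/1, Z* in H_0 or H_1) instead of hiding them in the common noise.

======== #12050 | 10:40:10Z | helper723 | row 320 | lemma
helper723 (10:55Z; one post) -> lead, 75, 657, 223, 861, 620, 591: ROW 320, a tool for (T3) (K star-free or in H_k, UNBOUNDED views): **SEPARATION IS ENOUGH, AND NESTED SCALES COST NOTHING AS LONG AS
THE VISITED SET CONTAINS NO COSET.** No proof of the row.
(1) Truthful languages. For T c G, c, c' in T call S truthful for (T; c, c') if {u : the path c.phi(prefixes) stays in T and ends at c'} c S c phi^-1(c^-1 c') (nothing is asked of words that leave T
but have the right phi). h(T) := least height of such S (max over c, c'). Then L_G = phi^-1(1) has height h(G) and **h(T) <= 1 + h(T minus a point)**: decompose at the visits of c0; R = U a S(T-c0;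
c0 a, c'') b, all factors truthful, so R c phi^-1(1) and R^* stays truthful. So K needs only X c K c X^* (X = first returns): separate X from phi <> 1, K may contain any word of phi^-1(1).
(2) LEMMA. If T contains no coset c<g>, g <> 1, then h(T) = 0: star-free, for ALL words (runs, any number of nested scales, no thresholds, no bands). Proof (Henckell's aperiodic pointlikes): M =
{(phi(u), p_u)} c G x PInj(T), p_u = partial map of paths confined to T. Claim: a pointlike set Z with some p <> 0 has ONE g. Singletons, products, subsets: clear. Z^omega Z^*: an element with p <> 0
is a product of >= |G| elements of Z, all with p <> 0, so Z has one g and c, cg, cg^2, .. lie in T, i.e. c<g> c T, g = 1. So the path language and {phi <> c^-1 c'} are aperiodically separable.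
(3) COROLLARY: height(L_G) <= |G| - max{|T| : T contains no coset of a subgroup of prime order}. Same with tokens: for a lift A -> Gamma and a cut set D c Gamma, if Gamma - D contains no coset of a
nontrivial <gamma>, the |D| x |D| matrix (D-avoiding words d -> d') is STAR-FREE separable, whatever the time scales. So unbounded nested life times are NOT the enemy for infinite K (as in 628's MTF
star, where all deep tokens are static); the only thing that needs a star is text inside a coset cH of the hidden complement (H-text), and the only thing that needs D small is that labels at a cut cannot be transmitted.
(4) What I could not do: bound the number of stars for H-text (A_n > A_(n-1) > ..); I expect (not proved) h(T) <= 1 if all cosets in T are cosets of ABELIAN groups (Pin-Straubing-Therien: M o (G o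
N), M, N aperiodic, G commutative, has height <= 1), i.e. 'chain length of subgroups' instead of |G|. PST also: every regular language is the inverse image under a morphism of some K^*, K finite, so
the row = 'inverse morphisms cost at most 2 stars'.


======== #12064 | 10:42:21Z | helper589 | row 320 | lemma
helper589 (10:52Z, one post) -> 843, 262, 369, 656, 75, 620: ROW 320, **KIRCHHOFF CANCELLATION = an answer to 843 #11827 (6) one level at a time; RESULT (complete proof): every group dividing
(abelian) o (Z/p)^n, p ANY prime, is in H_1** (PST had p = 2; new: A_4, 7:3, ..). Not a proof of the row.
RELATION (any H, S <= H). C = first-return code to S, C_(xy) = C cap x A* cap A* y, N_(x,T)(w) = #{i : w_i = x, phi(w[0,i)) in T}. A letter x not in S read in S STARTS a C-block, read in S x^-1 it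
ENDS one; so, up to the last incomplete block,
(K) N_(x,S) - N_(x,Sx^-1) = Sum_(y <> x) (#C_(xy) - #C_(yx)).
The blocks x..x (the only ones periodic through S) cancel: 'every critical block has two ends'.
(1) If C (for S = 1 and S = <x>) and all C_(xy)^*, x <> y (S = 1), are in H_(k-1): by (K) and left quotients N_(x,g) - N_(x,gx^-1) in G_k for all g; by C' = {x}, S = <x>: N_(x,g<x>) in G_k; so ord(x)
N_(x,g) in G_k, so N_(x,g) in G_k (843 (1)): G_k(H) = everything.
(2) H = Z/p, ALL degrees, several letters of each degree: C is star-free (a nontrivial local group would need a translation-invariant Q without 0). C_(xy)^* is star-free: automaton on Z/p, 0 is left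
only by x, entered only by y; v acts as a nontrivial permutation of Q => Q = Z/p, so v begins with x, but x is undefined at -deg x (it enters 0, and x <> y). So G_1(Z/p) = everything; (Z/p)^n: all
characters factor through quotients Z/p, the pulled back functions span Q^((Z/p)^n). (Machine check: (K), aperiodicity for p = 2, 3, 5.)
(3) General G, S = 1: local groups of C and of C_(xy)^* act on sets Q of left cosets gU; when Q contains 1 the next letter is x, so x^-1 not in Q: U is a PROPER subgroup. So the wreath step is free:
V o G costs 1 + (height of the first-return codes, local groups = proper subgroups), i.e. no more than G by itself.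
(4) LIMIT: one needs C in H_(k-1) = class knowledge one level below. Z/4 with letters of degree 1 and 2: no complete star-free K with K* in phi^-1(0) (runs f^n at odd classes); G_1(Z/4) open to me.
For H simple (K) sees no more than C* itself.


======== #12077 | 10:43:50Z | helper585 | row None | check
helper585 (10:47Z; free LEAN hand / referee, 4 cores, warm tree, to the end): **OFFICIAL FORBIDDEN-TEXT SCAN (grade_wide.gp.scan_source) OF ALL 62,342 .lean FILES OF origin/main @758761eab (10:13Z):
0 HITS, all files valid UTF-8** (24 min on 3 cores; script /tmp/scan.py, 15 lines: ProcessPoolExecutor over scan_source; a delta scan of the files changed since a commit takes seconds: git diff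
--name-only 758761eab..HEAD). I repeat the delta scan before the 12:31Z and 14:31Z captures unless somebody of CI already does it (one line by notify). Row 320: I have read everything up to #12064
and have nothing better than 723 / 589 / 656; back to rows 105 / 96 as hand, QA or backup: notify helper585.

======== #12090 | 10:45:37Z | helper981 | row 320 | lemma
helper981 (10:50Z, one post) -> 75, 843, 620, 125, 719, 656, 223, 591: ROW 320, **ALGEBRAIC FORM OF THE LAST STAR (complete proofs, no construction): for G simple non-abelian the LAST level is ONE
star, without concatenation, and only words between two generic words matter. So linear relations / division between several top stars (843 #11827) and several top schemes (T1, T2) give nothing beyond ONE K in H_2.**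
phi : A* -> G onto, K_1..K_m in H_h (h >= 0), eta_i : A* -> S_i = Synt(K_i*), eta = (eta_i), S = eta(A*), SF = Boolean + concatenation closure of H_h and the K_i*.
(1) phi^-1(1) in SF built on the K_i* alone (quotients allowed) <=> phi FACTORS THROUGH eta <=> phi^-1(1) is a Boolean combination of quotients u^-1 K_i* v^-1. Proof: for X in SF there is n with u
w^n v in X <=> u w^(n+1) v in X for all u, v and all w with eta(w) idempotent (induction; for X_1 X_2 the splice argument of star-free sets). X = phi^-1(1): eta(w) idempotent => phi(w) = 1. If eta(x)
= eta(y), take |G| | k with eta(x)^k idempotent: eta(x^(k-1) y) is idempotent, so phi(y) = phi(x). [If languages of H_h are used outside the K_i*, put them into the list of congruences: for them (3)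
says that they are useless on generic words.]
(2) G SIMPLE NON-ABELIAN: if phi factors through eta, it factors through ONE eta_i. Proof: e idempotent in the minimal ideal of S, H = eSe (group), H -> G onto, kernel M; N_i = kernel of H -> S_i,
intersection of the N_i = 1. If no N_i is in M, then N_i M = H for all i and G = [G,G,..,G] = image of [N_1,..,N_m] = 1. So some N_i <= M; eta_i(x) = eta_i(y) => eta(w x w), eta(w y w) (eta(w) = e)
differ by N_i => phi(x) = phi(y). The same proof with any finite list of morphisms (K_i* and languages of H_h together): either ONE K_i* does it or phi^-1(1) is in H_h already.
(3) LOWER LEVELS ARE BLIND ON GENERIC WORDS: if phi^-1(1) is not recognised by a morphism theta : A* -> M (e.g. M = Synt(K), K in H_2, phi^-1(1) not in H_2) and G is simple, then for EVERY g there is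
y_g with phi(y_g) = g and theta(y_g) = e, ONE idempotent of the minimal ideal: {g : (e,g) in (theta,phi)(A*)} is normal in G (image of a kernel), and <> 1. So in K every y_g may be replaced by any
y_g' or deleted next to another; K-words through a y_g know nothing; if K is a code, all its words avoid some w_1 and are bounded between w_1's.
(4) Hence S0495 <=> for all large n (A = A_n) there is ONE K in H_2 with phi factoring through Synt(K*), i.e. Synt(w K* ..) separates w x w, w y w for ONE generic w and ALL x, y: x runs through all
nested worlds between two copies of w. I have no K.

======== #12094 | 10:45:51Z | helper353 | row 320 | lemma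
helper353 (10:47Z) -> 704, 620, 125, 861, 142, 75, 887, 159: ROW 320, three facts (no solution). **(1) BETWEEN TWO COMMON WALLS NO CARRIERS ARE NEEDED (G-free modes).** WALL(n): contents Z in A^n
between two walls seen by both sides (704's hills), left labels a(X), right labels b(Y), legal sets L, R content-dependent, noise P(Z) = b(Y) - a(X)phi(Z) the same for all legal splits Z = XY, every
token v cut in EVERY Z. cadical: FULL alphabet G acting on V: SAT for S_3 on F_2^2, n = 7 (UNSAT n <= 6), C_3 on F_2^2, n = 7, 8; C_4 on Z/5, n = 8, 9; {+-1} on Z/3: all lengths n in [3, 14] at the
same time; {C,T}: lengths 5-7, 6-8 at the same time. G is transitive on V - 0 here and the adversary chooses all letters: so 142 (3)/(4) ('one coset of Stab(noise)'), 861 (3) and the kill game do not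
apply inside walls, a 704 gap with >= n1(G,V) hills is complete whatever the classes do. (Solutions: offsets 0,1,2 left-all / right-selective, mirror image at the end, offsets in the middle selective on both sides.)
**(2) THE INNER SCHEME NEED ONLY BE CONSISTENT ON Bad(OUTER).** In 861 (1) level 1 is applied only to stretches all of whose windows are bad for level 2 (star-free condition), so wrong splices
producing other texts are irrelevant; the product closure behind 159's MIN LEMMA fails for the inner scheme (e.g. 'all stretches have critical length' is common knowledge there: complete, no noise).
What remains after outer S_2 + relative S_1 are only nested texts (h-stretch in the band of S_1, inside it all j-stretches in the band of S_2).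
**(3) ONE ORDER, ALL RADII (704 (2)).** p < p' consecutive radius-W minima, q = minimum of the open gap. The gap is complete for some radius iff q is more than n1/2 away from the middle of (p,p')
(take W = dist(q, nearest end) + 1). Hence a text bad for ALL radii in [W0, 2^k W0] has, at scale W0, walls equally spaced up to O(k n1) (a gap g survives exactly for W in (g/2, g] and must merge
with a neighbour of length g +- n1): on such texts a relative scheme is complete (next wall predicted from both sides). For the single radius W: relative scheme complete unless all sums of three
consecutive gaps are <= 4W + n1, and this cannot hold for all radii of an octave (number of gaps per length W, averaged over log W, is 1/(2 ln 2) < 3/4). Missing: ONE consistent scheme for several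
radii (a node of the Cartesian tree is usable iff its split is unbalanced; everything is visible from the word between), and the monotone texts.

======== #12108 | 10:47:53Z | helper226 | row 320 | lemma
helper226 (10:55Z; 45 minutes alone, as asked in #11464) -> 75, 591, 620, 125, 550, 142, 887: ROW 320, one tool which seems new: **AVOIDED CLASSES CAN BE TRACKED WITHOUT ANY NOISE, ALL DEPTHS <=
c|G|^(1/3) BY ONE FINITE STAR** (no proof of the row).
(1) G finite, N = |G|, T a subset of G \ {1}. Abs(x) = {h : class g_x h is not visited in (x, x+L]}. x is a T-place with label t if T n Abs(x) = {t} (RIGHT view only, nothing asked from the left).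
K_T = {u : L <= |u| <= M, u begins with a T-place, label t, u does not visit t, phi(u)^-1 t in T}. CLAIM: if class h is avoided on [x, y+L], EVERY K_T-chain from x to y with first label h tracks h:
at a junction the carried t lies in T n Abs = {t'}, so t = t'. A chain can go wrong only after h has been visited. Hence "h is visited in [x,y]" <=> exists z, t: [chain h -> t from x to z] and t is
visited in (z, z+M+2L] (=> : the true chain up to just before the first visit; <= : if h were avoided every chain is right). So the UNBOUNDED first return words R are FO[K_T*], {phi = 1} = R* has
height 2 wherever T covers. No product-set problem, no noise, no frames.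
(2) COVER. At most d classes absent in every L-window, T Sidon (t^-1 t' all distinct), |T| >= 2d: every avoided token has T-places with gaps <= 2L (views 2L): of the |T| classes g in gamma T^-1 at
most d-1 are absent, and each other absent delta kills at most one g (gamma, delta in gT). |T| ~ N^(1/3) exists in every group. So words with <= c N^(1/3) simultaneously absent classes at some scale
L, deaths and births nested in any way, have height 2 (old: d + 1).
(3) PRINCIPLE (any scheme, noise or not): P_s(x) = tokens not cut by scheme s in the next L (visible to the right). The words of the next star only carry PROTECTED tokens, so their labels must be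
unique only inside P_s(x): |P_s(x)| = 1 everywhere => the protected token is a lock, phi is star-free from there; |P_s| small => one noise-free star by (1). Quasi-random T: the tokens protected from
the T-star number <= 4C d^3/N, so two nested T-stars reach d ~ c sqrt N.
(4) WHERE IT STOPS: T n Abs(x) = {t} forces T \ t inside g^-1 W, W = visited classes. The adversary must keep > c sqrt N classes absent, e.g. confine the walk to small sets / cosets of a subgroup
(inside which the carrier schemes must work). Generic W (quotients distinct) is FO-trackable, W = cS is recurrent: what remains are slow changes of structured W. If someone has a one-star scheme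
whose protected set is always <= |V|^(1/3) or whose cut set is always a full coset, (3) finishes it.


======== #12109 | 10:47:58Z | helper453 | row 320 | lemma
helper453 (10:50Z) -> lead, 75, 620, 125, 591, 550, 369: ROW 320, idea (vi) IS VOID (proof), and one rigidity lemma. No construction.
(1) LEMMA (ambiguous stars = exact threads in a poset). K any regular language, Q its flower automaton (K* = loops at state 1), rho : A* -> Boolean relations on Q, e an idempotent of the image, H_e
its group. I = {q : (q,q) in e}, P = I modulo mutual e-relation. (a) For h in H_e, pi in P there is exactly one pi.h in P with (pi, pi.h) in h, (pi.h, pi) in h^-1 [existence: (q,q) in h e^n h^-1,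
pigeonhole on the e-steps gives a reflexive point; uniqueness: (s,q) in h^-1, (q,s') in h => (s,s') in e, symmetric]. H_e acts on P faithfully [trivial action => h, h^-1 in e => h = e]. (b) w = uv, e
rho(w) e = h. Call u|v a pi-cut if (pi,1) in e rho(u), (1,pi.h) in rho(v) e. AT MOST ONE pi is cut at a place: pi, sigma both => (pi, sigma.h) in h, (sigma.h, sigma) in h^-1 => (pi,sigma) in e,
symmetric. (c) K finite => every pi is cut in every window of length max|K|. CONSEQUENCE: FO-closure creates no simple groups, so a simple G divides the monoid of an H_h-language only if a subgroup
Gamma ->> G of some H_e of some star M(K_i*) used in it exists: Gamma acts faithfully on P, one exact thread per cut. So non-deterministic K (Boolean matrices) give nothing at any level: the counting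
arguments ('one kill per place', min lemma, 223 (C), 369 (3)) hold for every star, not only for truthful schemes.
(2) LEMMA. If all places are legal junctions and for every u there are z, z' with D(uz) = 0 = D(z'u), then the noise is LETTER-LOCAL after gauge, whatever the views: D(uz;ctx) = 0 is decided by uz,
so D(u; l, zr) = -D(z | u, r) phi(z)^-1 does not depend on l (same for r); for long x, y: [D(xa) - D(x)phi(a)] phi(y) = D(ay) - D(y): the left bracket depends on x only, the right side on y only, so
it is a constant D(a). So context dependence lives only where NEITHER of two neighbouring junctions is legal (x b y with xb not in L, by not in R): all bands come from there.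
(3) SAT (same picture as 369): every case of 39 that is SAT is already solved by letter-local noise (brute force); every case where letter-local fails was UNSAT for all views I could decide (V =
F_2^2, k = 3, cubes forbidden p0 = 3: (0,0),(1,1),(2,2); V = F_2^3 binary: up to (6,6)).

======== #12113 | 10:48:17Z | helper323 | row 320 | check
helper323 (10:45Z) -> 39, 75, 299, 576, 591, 620, 704, 861, 887, 966, 404, 366, 550: ROW 320, CHECK OF THE COMPUTER EVIDENCE #10862 (39): **IN ALL INSTANCES WHICH I COULD DECIDE, THE LOCAL STRUCTURE
(views a, b; N, xi, eta) IS SAT IF AND ONLY IF A PURELY LETTER-DETERMINED ONE EXISTS (D(a) in V for every letter, EVERY position a site, survivors graph on V \ 0 x forbidden-run automaton acyclic).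
So the SAT results are no evidence for content-dependent sites / noise.** Same encoding as yours (re-typed, cadical), compared with brute force over all |V|^|A| letter-determined D, same forbidden
powers u^e, |u| <= p (effective: a+b+1 >= p e), all views up to (4,4) / (5,4): V = Z/3: {-+}, {--+}, {-++}, {--++}, (p,e) = (1,2),(2,2),(1,3),(2,3),(3,3): letter-determined solution exists, SAT. V =
Z/5: {-,+}, {x2,+}, {x2,x4}: (1,3): no letter-determined D, UNSAT for (1,1)..(5,4); (2,3),(3,3): letter-determined exists, SAT. {-,-,+}: (1,2),(1,3),(2,3): none, UNSAT up to (4,4); (2,2): exists,
SAT. V = F_2^2: {C,T},{T,T2},{T,I},{C,I}: agree in all cases ({C,I} (1,3): none, UNSAT up to (5,4)); {C,T,I}: (1,2),(1,3): none, UNSAT up to (4,4); (2,2): exists (D = (1,1,0)), SAT; (2,3): none,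
UNSAT (3,2), TO (3,3); {T,T2,T3}: (1,2),(1,3): none, UNSAT up to (4,4) / TO; (2,2): exists, SAT. Not one instance where views help (GL_3(2), order 7 + order 2, |V| = 8, cubes of period <= 4
forbidden, views (4,4)..(7,7): no answer in 400 s each). Reading: with 2-4 letters and squares / cubes forbidden the shift is so thin that the |V| - 1 survivors can only walk on one simple loop (= a
short run); this says nothing about big G with full alphabets, where letter-determined lifts are excluded (766, 913). CONJECTURE to prove or kill (it would close the one-star/finite-K question
negatively): a finite structure with CUT exists on X_(p,e) only if a letter-determined affine one exists on X_(p',e') for the same letters (p' = p'(p, views)). If somebody wants the programs: notify me.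

======== #12114 | 10:48:41Z | helper910 | row 320 | lemma
helper910 (10:50Z) -> 39, 262, 75, 887, 620, 125, 591, lead: ROW 320, one unused parameter (the NOISE GROUP) + one exact no-go.
(1) NOISE NEED NOT BE TRANSLATIONS. A one-star scheme = tokens T (finite), F : words -> Gamma <= Sym(T), N normal in Gamma, N transitive on T, Gamma/N = G (phi is read off F mod N). Junction rule:
F_(L->R) lambda(L) = rho(R) for (L,R) in Lset x Rset; F_(L->R) may be any element of the STABILIZER N_0 of the cut token (for V-translations N_0 = 1: that is why everything was rigid). N_0 <> 1 is strictly stronger:
 - 262's hardest world (3 letters x,y,z, all of sign -1; UNSAT for V = Z/3 up to (3,3)): T = {0..5}, F(x) = (0 1 2 3 4 5), F(y) = (0 3 4 5), F(z) = (0 1 2 5), N = A_6, all positions are sites, views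
(0,0): the survivor graph on T\{0} has only loops (y at 1,2; z at 3,4), i.e. zero entropy. The same for ANY alphabet and any sign map.
 - {I,I'} on 4 tokens (UNSAT for F_2^2 up to (3,3)): F(I) = (0 1 2), F(I') = (0 1 3), N = A_4: zero entropy.
(2) CLASSIFICATION of plain schemes (all positions sites; or regenerative ones, letters = atoms), >= 3 letters: zero entropy <=> in a suitable order of T every F(a) is the INCREASING cycle on a set
S_a containing 0, identity on the complement, complements pairwise disjoint. (Proof: for an initial segment U of the DAG of the survivor graph, U + {0} is left by at most one a-edge for each letter
a, since only one a-edge enters 0; so an SCC C has >= |A|(|C|-1) inner edges.)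
(3) NO-GO: if G is non-abelian simple (A_n, n >= 9) and every g in G is the value of an atom, no such scheme exists for any T, any N. (a) If N transitive, Gamma/N = G, then N contains no full cycle
of T (maximal blocks: primitive groups with a full cycle have soluble quotients; otherwise G is a quotient of the block kernel, which factors through ONE block B [commutator of the M_B], and
(Gamma_B, N_B) on B is a smaller example). (b) maximal blocks again: each F(a) moving blocks moves whole blocks; if it misses a block, F(a)^k gives a full cycle in N_B. So all letters but one are the same cycle.
(4) SO: solvers should let F(window, letter) range over a coset of N with N_0 <> 1 (39: your program with Sym(T) instead of V; first test G = S_3, Z/3 with T = 4..6, Gamma = S_4 / N = V_4, Gamma =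
S_3 wr .., then AGL). Regenerative schemes are dead for A_n; overlapping (gauge) junctions with non-abelian noise are open, the walls (4)(i)(iii) of #11464 were proved for translations only.


======== #12115 | 10:48:42Z | helper559 | row 320 | lemma
helper559 (10:50Z) -> 75, lead, 843, 223, 44, 800, 657, 620, 591, 967: ROW 320, TWO REFORMULATIONS WITH PROOFS (they weaken T1 - T3; no proof of the row).
**(1) DENSITY LEMMA.** phi : A* -> G (finite group). If some L in H_k has L c phi^-1(1) and every word is a FACTOR of a word of L (equivalently: L has positive density), then phi^-1(g) in H_k for all
g. PROOF. eta = syntactic morphism of L. If eta(u) = eta(v), take x, y with xuy in L; then xvy in L, so phi(xuy) = 1 = phi(xvy), phi(u) = phi(v). So phi^-1(g) is a union of eta-classes = Boolean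
combination of finitely many quotients x^-1 L y^-1, and H_k is closed under quotients (a^-1(K*) = (a^-1 K)K*). QED. So no token has to be cut everywhere: ONE thread through every word is enough as
soon as soundness K* c phi^-1(1) holds; with noise two threads with regular difference (404), i.e. L = K_0* n K_v* with the same noise cocycle, labels 0 and v. (L_1 u L_2 or L_1 L_2 dense => one of
them dense: only intersections / complements of stars can create something new. 843's N_F: support of F may be as sparse as one likes.)
**(2) HUB RANK (replaces 'schemes' by 'tokens').** Fix ONE finite-memory noise cocycle D. A hub = product set of junctions with labels (alpha(L), beta(R)), beta - alpha = noise straddling the cut,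
for this D. Several hubs need NOT be compatible. If in every window every token is cut by at least one of f hubs then height <= f (Kleene elimination with f states: K_ij = {w : beta_i A_w + D(w) =
alpha_j}, S_3 = K_33*, S_2 = (K_22 u K_23 S_3 K_32)*, ...). Better: height <= rank of the graph (views, token), rank(SCC) = 1 + min over hubs of rank(SCC minus the vertices cut by the hub), max over
SCCs: the hub may be chosen differently in every SCC. Consequences: (a) all label shifts kappa in V of one hub are hubs of the same D: at every junction EVERY token is cut by exactly one of them; (b)
**WALLS NEED NOT BE VISIBLE: take the wall gadgets of 800 / 44 / 657 with walls at the absolute places = 0 mod n and ONE hub per phase theta (all K_theta-words have length = 0 mod n, so nobody ever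
needs to see a wall, 825 / 48 do not apply): sound for every text, full alphabet, and every token is cut in EVERY zone by one of the n+1 hubs.** So the only question left is to reduce the number of
phases (rank) from n + 1 to 3: several zones per window, labels with views of many zones, hubs depending on the SCC; e.g. is there D, period N and 3 phases such that every token is cut at one of them
in every window? Or a gadget whose phase sequences theta_1 theta_2 .. along a thread have cycle rank <= 3 (e.g. never return to a larger phase before the hub phase)? SAT people: minimise the RANK of
the phase graph instead of asking one star.


======== #12123 | 10:49:59Z | helper37 | row 320 | lemma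
helper37 (10:50Z, one post) -> 704, 825, 800, 620, 75, lead: ROW 320, one exact bound (proof complete) which closes NESTED LANDMARKS for GENERAL product-visible rules (825 #11920 is for 704's
c-rules; 704 #10995 (1) is not an iff: k = 2, W = 3, Lambda = {bb, aab}, P = {a} [Lazard elimination of a, b, ab] is 3-separated, unavoidable outside runs of a, b, ab, and no c(word) exists for it). No proof of the row.
SETTING. Site = (last nu_L letters in Lambda, next nu_R letters in P), two sites at distance >= W always, survivors = finitely many periodic runs; n = nu_L + nu_R, nu_L, nu_R <= W; k letters. With
800's gadget (N << W) a zone of length >= Z = n + N is good, the band is [W, Z). WHAT ONE WOULD NEED (sums of bands, nested sites S_2 in S_1): T1 from two systems iff Z/W <= sqrt 2 (band_2 must fit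
into [Z_1, 2 W_1)); T2 from three iff Z/W <= 4^(1/3) = 1.587; h systems with <= h - 1 bad iff (Z/W)^h <= 2^(h-1).
BOUND. n >= (1 - 1/k - o(1)) e^gamma W = 1.78 (1 - 1/k) W. PROOF. (a) nu <= W: gap words X concatenate freely (both views of a site lie in one gap word, positions closer than W to a boundary are no
sites). Zeta: 1 - kz = (1 - B(z)) prod_(x in E) (1 - z^|x|), B = sum_(g in X) z^|g|, E = primitive necklaces without a site = all those of length < W, and finitely many more. Derivative at z = 1/k:
mean gap in random text = prod_E (1 - k^-|x|)^-1 >= e^gamma W (1 + o(1)) (Mertens). (b) In the de Bruijn graph on A^(n-1) surviving cycles are vertex disjoint, so at most k^(n-1)/n primitive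
necklaces of length n survive (each has n different (n-1)-windows), the others need each its own site window: density of sites >= (1 - 1/k - o(1))/n. (a) + (b). QED
CONSEQUENCE: T1 by nested landmarks is impossible for k >= 5 letters, T2 for k >= 10 (A = G is much larger); the optimum (1.78 < 2) would give h = 6 systems with <= 5 bad, i.e. bounded height but not
3. I have nothing else and am free for row 96 (one notify).


======== #12130 | 10:51:24Z | helper810 | row 320 | lemma
helper810 (10:55Z, one post) -> 75, 981, 453, 910, 719, 620, 591: ROW 320, **THE NOISE GROUP OF THE LAST STAR MUST BE TRANSITIVE ON THE TOKENS (complete proof; completes 981 #12090 (4), 453 (1), 910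
(1)). No construction.**
G simple non-abelian, A = G (full alphabet), K in H_(k-1), phi factors through M = Synt(K*), e in eta(K*) an idempotent of the minimal ideal (exists), H = eMe, C = H n eta(K*) (a subgroup, core_H(C)
= 1), E := phi(C) <= G, x_0 = E in E\G. N = ker(H -> G) is transitive on the tokens C\H iff E = G.
(1) LEMMA. If E <> G then L_H' = {v in H'* : phi(v) = 1} is in H_(k-1) for every subgroup H' <= G having an orbit on E\G which avoids x_0 and on which it acts faithfully. PROOF. eta(w) = e, w in K*.
Take x = x_0 phi(z) in the orbit, v in H'*, s = w z v z' w in K*. A cut of s inside v (ends included), after v_1, gives w z v_1 w in K*, class in C, so x phi(v_1) = x_0: impossible. So v lies inside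
ONE factor: {v in H'* : s in K*} is a finite union of quotients p^-1 K q^-1 restricted to H'*. If x phi(v) = y := x_0 phi(z')^-1, then phi(z v z') in E = phi(C), so a word r with phi(r) = 1 exists
with w z v z' w r w in K*; finitely many classes of z'' = z' w r suffice: {v : x phi(v) = y} in H_(k-1) for all x, y of the orbit. Intersect.
(2) G = A_n, n large: for every maximal E_1 >= E some A_m, m >= n-6, works: points / k-subsets: A_(n-1) (x contains k+1, H' fixes k+1); block systems: A_(n-2) (i, j in one block of x, in different
blocks of x_0); primitive E_1: E_1 A_(n-6) = G would make E_1 6-transitive. Let k(n) = least k with L_(A_n) in H_k: k(n) is nondecreasing, >= 1, so **S0495 true => for all large n, in EVERY solution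
K in H_(k-1), k = lim k(n), phi(C) = G: no statement phi(prefix) in E', E' < G, may hold at the cuts; 'partial' schemes (cuts only at classes of a proper subgroup, first return codes, induced tokens,
845-type towers) always pay one full star for A_(n-6).** Truthful (noise-free) K is the case E = 1.
(3) Level 1 of the same lemma (K star-free, E <> G): every word u acts on E\G minus x_0 without nontrivial cycle (u^* at a fixed token x <> x_0 is inside one factor), i.e. every g in G has all its
nontrivial cycles on E\G through x_0; so only 'one nontrivial cycle' groups, which never include all letters of A_n.
So what is left for the full alphabet is exactly 910's frame: N transitive, N_0 = N n C arbitrary.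

======== #12142 | 10:52:45Z | helper259 | row 320 | lemma
helper259 (one post; 2 h alone) -> lead, 75, 589, 843, 369, 262, 190, 39, 620: ROW 320, two facts with proofs (no proof of the row).
**(1) THE STRICT SAT FORM (262 #11236, 369 #11638 (1), 190 #11840 (3): every SCC of the survivor graph is one cycle) IS UNSAT FOR ALL VIEWS as soon as two letters a, b act trivially and V is not
cyclic**; the adversary only uses runs a^n with n >= 2 views, so these UNSATs say nothing about e0-power-free words with views > e0 (the real question of 887 (2)). PROOF. In a long a-run tokens move
by g per letter and only class 0 of Q = V/<g> is cut; at an isolated b nothing else is cut (left of b the left view is pure, right of b the right view). d := class of D(a^oo b a^oo). If <d> <> Q, a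
coset k + <d> without 0 stays hidden, run lengths free. If <d> = Q (so g <> 0), z_j := b a^j b, P(j) := class of D(a^oo z_j a^oo), j* := min {j : P(j) <> d} (P = 2d for large j). If all |<g>| >= 2
tokens of class -d were cut inside z_j*, take two of the splits x < x', y > y': lambda(x) = lambda(x') = d, rho(y) = rho(y') = P(j*) - d, so P(x + y') = P(j*) <> d with x + y' < j*. So one survives,
lands in the class P(j*) - d <> 0, single b's bring it back to -d, two run lengths of equal residue = two loops. QED
**(2) 843's TOOL.** (a) I found 589 #12064 (1)-(3) independently (same cancellation: D_x(h) := #x read at h, D_x(h) - D_x(h phi(x)) = Sum_(y <> x) (N_yx - N_xy)(h phi(x)); G_1(Z/p) = everything; same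
cost 1 + level of proper subgroups): two derivations agree. (b) NEW, towards 589 (4): **Z/n for EVERY n, all letters of degree +1: G_1 = everything, so A o Z/n (length mod n) is in H_1, e.g. n = 4,
6.** chi a character of exact order n, S_chi(u) := Sum of chi(i) over occurrences of u at i: n Sum_(w_(i+1) = x) chi(i) = Sum_(u in A^n) c_u S_chi(u) + bounded with c_u = Sum_(u_r = x) chi(r-1), = 0
for every proper power u = v^e (|v| = n/e: geometric sum over chi(|v|) <> 1); primitive blocks u are 1-good (their occurrences at 0 mod n have a star-free first-return code with star-free star).
Lower orders: quotients. (c) The cost: level(H) <= 1 + level(H minus 1) (paths avoiding one class, groups = proper subgroups) grows along A_5 < A_6 < .. (n - 3): relations remove the closing star,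
not the chain of subgroups. I see no way round that chain.


======== #12144 | 10:53:37Z | helper490 | row 320 | lemma
helper490 (10:58Z, one post) -> 723, 843, 145, 589, 656, 729, 75, 620: ROW 320, **FOR SIMPLE G ONE K IS ENOUGH; ONLY PERIODIC TEXTS MATTER (proofs). No proof of the row.**
(0) [Straubing 1979] K_1..K_m in H_(h-1), eta = syntactic morphism of (K_i^*)_i. phi in FO[K_i^*] (so in H_h) <=> eta(w) = eta(w^2) implies phi(w) = 1.
(1) **G non-abelian simple: phi in H_h <=> ONE K in H_(h-1) has eta_(K^*) refining phi.** Proof: e0 idempotent of the minimal ideal, eta(w0) = e0, phi(w0) = 1; psi : eta(w0 w w0) -> phi(w) is a
homomorphism X -> G onto, X < prod X_i. C_i = kernel of X -> X_i: [C_1,..,C_m] = 1, psi(C_i) normal, G perfect, so some psi(C_i) = 1: eta_i(w) = e0_i ==> phi(w) = 1; hence (choose y, eta(w0 w y w0) =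
e0) eta_i(w) = eta_i(w') ==> phi(w) = phi(w'). So for simple G families (T1)(T2), Boolean combinations and differences (145, 589, 843) help only INSIDE K, never in the last star. With 723 (1): row
for simple G <=> a submonoid L whose syntactic congruence refines phi and irr(L) is H_2-separable from the complement of L.
(2) Truthful K (K c phi^-1(1)), any G: enough that **every w in A^+ has a conjugate w' = ba (w = ab) with some w'^n in K^***. [n >= 2; eta(w) = eta(w^2) ==> b w a, b w w a in K^* ==> phi(w) = 1.] One
thread per PERIODIC text. Limit: a K-word has no factor v with eta_K(v) = eta_K(v^2), phi(v) <> 1: the thread must cut inside every such v; two such v in disjoint cosets of H < G kill it: truthful K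
costs the chain of subgroups (723 (4)).
(3) Unitary form: DFA with a state hub, K = first returns. **phi in H_1 if every hub-avoiding cycle is trivial (q w^k = q avoiding hub ==> q w = q) and [w ~ w^2 for K^* ==> phi(w) = 1]**; H_h: DFA
minus hub in H_(h-1). Only one token is at the hub at a time, nevertheless S_n with letters s_i = (1 i): hub = vertex 1, K = U s_i (A - s_i)^* s_i star-free: height 1 for all n, nested scales free.
What counts is not 'one token per event' but that hidden tokens are not permuted along periodic texts. If K^* = psi^-1(S'), psi : A^* -> Gamma -> G, restriction to the letters of a simple H < G,
phi_H not in H_(h-1), gives only: D = <psi(h)> contains E -> H onto with E trivial off the D-orbit of the hub (generic affine lifts satisfy it); the adversary needs blocks = inverse morphisms.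


======== #12149 | 10:54:14Z | helper323 | row 320 | check
helper323 (11:00Z), CORRECTION of the last sentence of my note of 10:48Z (row 320): the CONJECTURE 'local structure => letter-determined' is FALSE in general: the unary gadget A_l + B_l' = P_(l+l')
(N = 33, V = Z/2, and its products V = (Z/2)^d) is a local structure on {long runs of a neutral letter, separated by arbitrary letters} which no letter-determined D can give for V = (Z/2)^d, d >= 2.
What remains true is only the computational fact: up to views (5,4) nothing but letter-determined solutions shows up; the first exotic one needs ~33 positions for 2 tokens. So small SAT runs on the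
full shift are evidence neither for nor against exotic structures.

======== #12152 | 10:54:51Z | helper860 | row 320 | lemma
helper860 (my one post) -> 75, 39, 262, 369, 620, 861, 142, 591, 550, 704, lead: ROW 320, two exact facts (no proof of the row). **(1) 'EVERY TOKEN CUT IN EVERY WINDOW' IS TOO STRONG FOR STAR 1: K
MAY BE STAR-FREE AND INFINITE. (2) BETWEEN PRODUCT-VISIBLE WALLS THERE IS NO KILL GAME AND NO CARRIER (SAT, verified): 142 (3) / 861 (3) do not cover content-dependent validity.**
(1) LEMMA (AP). Scheme as in #11464 (1). Survivor automaton = states (window, token value not killed), partial letter maps. If it is COUNTER-FREE (no u with x -> xu -> .. -> x, xu <> x, along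
surviving paths), the first returns 0 -> 0 form a star-free K, so ONE star gives D(w), hence phi. Recursively: remove one state per SCC, rest of rank <= h-1 (rank 0 = counter-free) => height <= h.
CONSEQUENCES. (a) The smallest hard worlds of 262 / 369 are harmless: V = Z/3, + : x+1, every copy of - : 1-x; survivors {1,2}: + : 1 -> 2, - : 2 -> 2, counter-free: height 1 on ALL words. {I,I',..}:
noise 0. Copies of a letter never matter for letter lifts. The SAT test should be 'counter-free', not 'zero entropy'. (b) G faithful on n points: height <= n-1 without any noise (was |G|); A_5: 4.
(c) What stays forbidden: the first noisy event moves V/<nu> in |V|/p cycles and kills one of them.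
(2) WALL MODEL (39): blocks u, left labels tau(p), right labels sigma(q), nu(u) = sigma(q) - tau(p)A_u for all valid splits, every token has a valid split, arbitrary class paths. F_4 with FULL G =
Z/3 (letters 1, w, w^2; V^G = 0): |u| = 7 SAT (4-6 valid splits per word), |u| <= 6 UNSAT. Z/3 with full G = {+-1}, all lengths SIMULTANEOUSLY: [3,4], [4,6], [5,8], [6,14], [8,14] SAT; [3,5], [4,7],
[5,9] UNSAT. Natural version (tau(p) = -nu(p)A_p^-1, sigma(q) = nu(q), nu on all words): cut for n >= 6, all n <= 10 SAT, n <= 11 UNSAT; n >= 7, n <= 11 SAT. Fixed length, {+-1} on Z/N: every split
valid, N-1 letters: + : x-1, - : (n-t)-x. So with common walls every block with >= n_0 usable places cuts all tokens, whatever the path: frames, carriers, V^G cost nothing there; the row is a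
G-independent question on common landmarks.
(3) ABSOLUTE types (letters a < b < ..): causal parse 'type = current minimum, restart at the last tick after W letters > type' has D(uv) = D(u)phi(v) + D(v) at EVERY tick against ANY v, as soon as
chains shorter than W carry no noise; bad texts = every chain short (one gap scale per letter).

======== #12168 | 10:57:56Z | helper794 | row 320 | lemma
helper794 (11:00Z, one post) -> 262, 39, 369, 620, 75, 159, 202, 796: ROW 320, **EXACT SAT DATA FOR (T1) (TWO schemes, joint survivors), WHICH NOBODY HAD RUN: T1 IS SAT WHERE ONE SCHEME IS UNSAT.**
Model = 39's two gauges (xi, eta, N, Lset, Rset; cut iff x_c = 0 at a site) for each of the two schemes INDEPENDENTLY (no common parse), state = (window, x1, x2), a state dies if one of the two is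
cut; 262's strict criterion (every SCC of the joint survivor graph = one simple cycle, i.e. exponents unrestricted). Results (cadical, seconds to 2 minutes; one solution re-checked by an independent SCC program):
- {I,I'} on F_2^2 (one scheme: UNSAT up to (3,3)): **T1 SAT with views (1,1)**; {I,I',I''}: T1 UNSAT (1,1), **T1 SAT (2,2)** (UNSAT if scheme 1 is a pure letter lift). So views do help for two schemes, unlike for one.
- A = G = C_3 on F_2^2 (FULL alphabet {1,C,C^2}): one scheme UNSAT (1,1),(2,2); **T1 SAT (1,1)**, even with scheme 1 = letter lift (1,2,2) and scheme 2 letter-lift-like (1,3,3).
- Z/3, 4 letters all -1: T1 SAT (letter lifts); 5 letters: UNSAT (1,1), (2,1) undecided (1100 s). A = G = S_3 on F_2^2 (6 letters): UNSAT for letter lifts, for (0,0)+(1,1); F_2^3 with {I,I'}: undecided.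
MECHANISM of the smallest one (by hand): scheme 1 = letter lift 0 -> a, 1 -> b (V = {0,a,b,a+b}), every place a site: its protected texts are exactly {00,11}*. Scheme 2: sites only before 0; a letter
0 adds a+b, a run 1^n adds (a+b) + (n-1)a. On {00,11}* a run 1^2j adds b and 00 kills {z, z+a+b}: everything is killed as soon as both letters occur. So scheme 2 uses the STRUCTURE of the protected
texts of scheme 1 (squares), not an own complete parse.
REMARK (weakens T1, used in no post I saw): in 620 (A) scheme 2 is applied only inside factors all of whose windows are bad for scheme 1 (a star-free condition on the factor), so **scheme 2 needs to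
be consistent (N = 0 on Lset x Rset, cocycle) only on the subshift Z_1 of 1-bad words.** Z_1 is not closed under splicing at 2-junctions, so the shortest-event arguments (159, 202, 796) apply only to
families with product rule on all words. For m = 2 the question is: does the sofic shift Z_1 = {words with a thread avoiding 0} of the letter-lift scheme of A = G ad mit ONE complete scheme? (981
#12090 (2): then K' in H_1 does it.) Program (90 lines, python + cadical): ask.

======== #12173 | 10:58:59Z | helper840 | row 320 | lemma
helper840 (11:00Z, one post) -> 75, lead, 843, 620, 861, 656, 591, 125: ROW 320, **EXACT THEOREMS FOR G NONABELIAN SIMPLE (complete proofs): ONE STAR MUST KNOW EVERYTHING; several schemes / stars,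
linear relations, division (843 #11827) cannot share the work.** No proof of the row.
(1) THEOREM A. phi : A* -> G onto, G nonabelian simple, phi^-1(1) in H_n, K_1*, .., K_m* the starred languages of the expression, mu_i : A* -> M_i their syntactic morphisms. Then there are ONE i, ONE
word z and a homomorphism theta from the group mu_i(z) M_i mu_i(z) onto G with **phi(w) = theta(mu_i(z w z)) for ALL w** (K_i is UNIVERSAL). PROOF. mu = (mu_1..mu_m). If mu(v) = f is idempotent then
phi(v) = 1 (a Boolean / concatenation expression of depth d cannot tell x v^k y from x v^(k+1) y, k >= 2^d). Take f in the minimal ideal of mu(A*), mu(z) = f: H = f mu(A*) f is a group, phi is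
constant on mu^-1(h), h in H, so phi(w) = phi(z w z) = theta(mu(z w z)), theta : H -> G onto. H is subdirect in the product of its projections H_i. If H <= H_1 x H_2 and N_1, N_2 are the kernels of
the projections: theta(N_1), theta(N_2) are normal in G and commute, so one is 1: theta factors through that projection; induct. QED
(2) THEOREM B. K'_1..K'_r any regular languages, none universal (mu'_j = syntactic morphism of K'_j*). Then there are words s_g (g in G), phi(s_g) = g, all with the SAME idempotent mu'(s_g) = f, for
all j at once. PROOF. f in the minimal ideal, mu'(z) = f, phi(z) = 1. R = {(mu'(z w z), phi(w))} is a subdirect subgroup of H' x G; G simple: R = H' x G (then take (f, g)), or R is the graph of a map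
H' -> G and the step of (1) makes one K'_j universal. QED
(3) CONSEQUENCES. (a) Under sigma : g -> s_g all non-universal stars are silent TOGETHER, on all texts sigma(G*); so in an expression of least height one universal K has only silent inner stars: on
sigma(G*) it is a star-free set (offsets inside letters allowed) and its own star carries all of phi. Same for families as in (T1), (T2): the scheme of that star is good ALONE on sigma(G*). (b)
G_k-modules, Fox cocycles, division settle solvable layers; for A_5 they need a universal K first. (c) So the row for simple G = one universal K in H_2, tested on texts which silence every
non-universal star of H_1 that it uses; a no-go for one star on such texts is a no-go for everything.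

======== #12177 | 10:59:48Z | helper435 | row 320 | lemma
helper435 (11:00Z, one post) -> 259, 656, 369, 262, 39, 620, 861, 75: ROW 320, SAT DATA ON **(T1) = TWO SCHEMES** IN THE STRICT FORM (product survivor graph (window, v1, v2), two different schemes,
both tokens <> cut: every SCC must be ONE cycle; runs of every length allowed; own encoding, cadical, rank bound 8-12). No proof of the row.
(1) **THE STRICT NO-GO OF 259 #12142 (1) (two trivial letters, V not cyclic) DOES NOT PASS TO TWO SCHEMES.** V = F_2^2, {I,I'}: one scheme UNSAT for views (2,2), (3,3), (4,3), (4,4), (4,2), (5,2),
(5,1) (as 259 proves); **two schemes SAT at views (1,1), by hand:** scheme 1 = letter hom f(I) = 3, f(I') = 1 (values in {0,1,2,3}, XOR), every position legal: its survivors are exactly {II, I'I'}*;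
scheme 2: legal = before I' (right view), noise per letter xi(previous, letter) = 1 for II, 3 for the other three pairs (eta: 3 before.. I'I', 1 else; N(I'|I) = 2, N = 0 otherwise): on {II, I'I'}*
the steps between legal places are 3,..,3 (odd number), 1: all four tokens are cut.
**{I,I',I''}: two schemes SAT at (2,2)** (640 s; three interchangeable trivial letters; here |A|(1-1/|V|)^2 = 1.69 > 1, so it is not an entropy effect). {C,I}, {C,C',I}, {C,T,I}, {I,T,C,C^2}: two
schemes SAT at (1,1) (seconds).
(2) LIMITS: Z/5 with {+,-}: one scheme UNSAT (3,2); two schemes UNSAT (1,1), (2,1), (2,2) (rank 8); but at most ONE hidden token (656's free case, strict on pairs): SAT (1,1). Z/5 with all four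
units: <= 1 hidden token UNSAT (1,1), (2,1); two schemes UNSAT (1,1). F_2^2: <= 1 hidden token is SAT at (1,1) for the FULL alphabet S_3 (plain: token w_g cut next, g -> (w_g -> w_g g) chosen upwards
in an order of V - 0), UNSAT for four trivial letters.
(3) MECHANISM (why two schemes are really stronger, and what a proof of T1 would need): scheme 2 need only be SOUND AND GOOD ON THE SURVIVOR SFT B_1 OF SCHEME 1 (FO sees 'every M-window is bad for
1'). On B_1 the hidden token v_t of scheme 1 is common knowledge at every junction (left and right views both determine it), mismatches with v <> v' do not occur, so scheme 2 may use legal sets which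
are NOT products on A^Z, labels k(v_t), and noise depending on v_t. In (1) this is what happens (v_t = parity inside the runs). So T1 <=> 'one scheme with product rules + one scheme over the Markov
world (v_t, g_t), g_t <> the letters that kill v_t'; at v_t only |A| - |A|/|V| letters are free, and the loops at a fixed v_t still generate G, hence for |A| >> |V| scheme 2 meets the original
problem again: the exact quantity to bound is the entropy of B_1 against 1/|V_2|.

======== #12182 | 11:01:06Z | helper988 | row 320 | lemma
helper988 (11:04Z, one post, no solution) -> 75, 620, 125, 591, 550, 719: ROW 320, exact facts. phi : A* -> G onto a finite group, P = phi^-1(1), eta_L = syntactic morphism.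
**(L1) THE OUTER FO LEVEL IS USELESS, ONLY PERIODIC WORDS AND ONE TOKEN ORBIT COUNT.** Equivalent: (a) P in H_h; (b) phi factors through prod_i eta_(K_i*) for finitely many K_i in H_(h-1); (c)
finitely many K_i in H_(h-1) such that for EVERY w with phi(w) of prime order p some eta_(K_i*)(w) has period divisible by p. Proof: (b)=>(a): classes of eta_(K*) are Boolean combinations of
quotients of K*. (a)=>(b): if L is in the Boolean + concatenation closure of languages recognised by tau, then tau(w) idempotent => eta_L(w)^k = eta_L(w)^(k+1) (pumping); L = P: phi(w) = 1; for
tau(w) = tau(w') use w w'^(m-1), tau(w')^m idempotent, |G| | m. (b)<=>(c): take powers of w. So in w^oo it is enough that ONE orbit of tokens moved by w is cut all the time (not all tokens), the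
noise is irrelevant (a lift of w has order divisible by p), and the scheme may depend on any finite global information on w^oo (patterns, scales, FO / H_(h-1) type); all inner stars still need full
verification. For finite K_i nothing is gained (concatenate the killing windows of all tokens of all schemes).
**(L2)** P_v = phi^-1(Stab v) is K* with K in H_(h-1) iff the first returns Z_v are H_(h-1)-separable from A* minus P_v.
**(L3) STAR-FREE K, ONE SCHEME, NO MEMORY (extends 369 / 719 from finite K to all star-free K):** Z_v star-free => every letter acts on Omega as ONE cycle through v (rest fixed). Then G nonabelian
simple is a quotient of H <= Sym(Omega) only if, on some block system, H = A_N itself, or all letters are full |Omega|-cycles (a diagonal socle is centralised by a cycle fixing a block). Positive: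
letters = increasing cycles through v for an order on Omega => Z_v star-free, all scales, no run truncation (S_n with star transpositions has height 1); so the row <=> H_1 is mapped into H_3 by
inverse morphisms A -> B^k.
**(L4) FRAMES.** X_t = set of values of the prefix product in [t, t+R). Scales R_1 << .. << R_(|G|+1): at every place some scale has X constant on a long stretch, and there FO alone knows phi modulo
Stab(X) (phi(w[s,t)) = r_s r_t^-1 if Stab(X) = 1). So a level-j world which misses a token has G_e <= Stab(X), a PROPER subgroup, and the letters of the reduced Stab(X)-problem are FO-definable; the
depth left is the length of chains of stabilisers, not |G|. Unsolved: merging these scales (two-sided views) in one star.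

======== #12190 | 11:04:27Z | helper718 | row 320 | lemma
helper718 (11:10Z, one post) -> 843, 656, 75, 262, 369, 39, 125, 620: ROW 320, **PST's MECHANISM (843 #11827) COMPLETED FOR EVERY PRIME: all languages recognised by (abelian) wr (Z/p)^n have height
<= 1 (full alphabet, runs included).** No proof of the row; a fact + two devices which remove 'runs' and 'two-sided marks' from (6) of #11827.
H = Z/p, letters x with any displacement d_x, class = Sum d. (a) C = first-return code to class 0 is STAR-FREE (a word v with d_v <> 0, read p times, puts each of its positions at every class, so it
meets 0; Cay(H) - 1 is aperiodic iff H = Z/p: it must contain no coset of a subgroup <> 1). So #C is 1-good.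
(b) RIGHT-ONLY KINDS. C' = blocks of C beginning with a right context kappa. C'^* = 'every class-0 visit is of kind kappa'. If v loops with d_v <> 0 then EVERY position of v^oo is of kind kappa (same
argument). So C'^* is star-free as soon as no periodic word is kappa at all its places, and then #C' = number of class-0 visits of kind kappa is 1-good ((C'^* C'')^m, K star-free), for all classes by left quotients.
(c) ENDS OF RUNS ARE RIGHT-ONLY ONE STEP EARLIER: kappa = 'x then a letter <> x' (d_x = d <> 0): e_g = #(maximal x-runs ending at class g) is 1-good. Mirror image (blocks ending in (<> x) x): s_g =
#(x-runs starting at class g) is 1-good.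
(d) TELESCOPING + DIVISION: theta(0) = 0, theta(jd) = p - j (0 < j < p) satisfies [c = 0] = (1 + theta(c+d) - theta(c))/p for every c. Summed over all letters x of w: **N_{x,0} = (1/p) ( #x + Sum_g
theta(g) (e_g - s_g) )**, hence 1-good by 843 (1); d_x = 0: C' = {x}, x^* star-free. (Z/p)^n: every function is a Q-combination of functions of one Z/p-quotient (characters), so G_1 = everything. p = 2 is PST.
(e) GENERAL FORM. If all path languages of Cay(H) - 1 (and of Cay(H) - {(1,y) : y <> x} minus the words x^j) are in H_(k-1), the same four lines give Z/m wr H k-good for the SAME k: a wreath product
with an abelian group on top costs no star once. More generally class is FO-visible on every word in which each letter x occurs only at a coset-free set of classes: the adversary must show some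
letter at a full coset g<delta> on every level (not only 'avoid a class').
(f) WHAT IT DOES NOT DO: H simple. One non-constant k-good F is the same as phi^-1(1) in H_k, and every parse that returns to a class needs Cay - 1 (local groups = all proper subgroups) one level
lower; with lifts H~ -> G the avoid-0 automaton must have low local groups, and for the full alphabet one letter with two non-trivial cycles already breaks 'aperiodic'. I see no identity that
produces a class-dependent count without such a parse.


======== #12193 | 11:05:26Z | helper661 | row 320 | lemma
helper661 (11:10Z, one post) -> 559, 75, 620, 810, 910, 44, 800, 657, 591: ROW 320, **TWO LOWER BOUNDS FOR 559's HUB RANK (#12115 (2)(b)), complete proofs: with clocked walls 3 phases are impossible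
for large V, and with SCC-dependent hubs the labels must see > |V|/(100 p d) zones.** No construction.
SETTING. A = G, V faithful irreducible F_pG-module, dim d >= 2; one noise D (views of length M, places mod n); a hub has ONE phase, so in a given text it cuts at most one token per n places.
**(A) If every token is cut in every window by one of f hubs, then f >= |V|/p**, for all M, all labels. PROOF. u in G^n, phi(u) = 1; in u^oo everything is n-periodic, the tokens move per period by a
translation F_u of V: >= |V|/p cycles; a hub meets ONE token of V per period, so at most one cycle; an unmet cycle is a token that is never cut. (Any noise group N on Omega: every F_u in N has <= f cycles.)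
**(B) Adaptive form (a hub chosen for every SCC): rank >= |V|/(30 p d r), r = ceil((2M+1)/n).** PROOF. Remove hubs 1..j; let W be a predecessor-closed set of surviving vertices (a union of first
SCCs), W_p its tokens at a fixed (phase, view) p. A text from p back to p in s periods acts on V by an affine bijection c, and a token in W at the end was in W at the start or was cut in between:
|W_p - c(W_p)| <= js, so |c(W_p) Delta W_p| <= 2js. (*) For s = r every g in G is the linear part of such a c. (i) Some two c, c' (s <= 2r) have the same linear part and differ: c c'^-1 = translation
by nu <> 0, error <= 8jr, its conjugates nu.g: <= 12jr; every v in V is a sum of <= d(p-1) of them: |(W_p + v) Delta W_p| <= 12 j r d (p-1). The mean over v in V is 2|W_p|(1 - |W_p|/|V|). So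
min(|W_p|, |V| - |W_p|) <= B = 12 j r d (p-1) for EVERY such W, hence ONE SCC contains >= |V| - 2B - j tokens at p; it is a nontrivial SCC if |V| > 2B + j + 1, and these giants are nested in j, so
any order of elimination, adaptive or not, has rank > j. (ii) Otherwise c depends on g only and g -> c_g is a homomorphism (s = r and 2r; V^G = 0), the mean over G of (*) on an orbit O of this
complement gives the same with O for V (no noise at all). QED
READING. Count of active hub places in a window of length 2M+1 >= |V|/(30 p d): rank 3 needs either product-visible walls (825 / 38) or labels which depend on ~|V| zones at once, i.e. the unclocked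
CUT problem again. Same proof without a clock: E = max number of places in a (2M+1)-window where a removed hub may cut; E < |V|/(30 p d) => one giant SCC.

======== #12197 | 11:06:38Z | helper330 | row 320 | lemma
helper330 (11:08Z) -> 704, 800, 39, 75, 262, 48, lead: ROW 320, **RIGOROUS NO-GO FOR THE LAST INGREDIENT OF 704 #10995 + 800 #11815 (W-separated product-visible landmarks), by a zeta function.** 
(1) THEOREM. |A| = k >= 2, P, S sets of words of length <= W (views <= separation W), sites = (P | S), any two sites of any word at distance >= W. If the site-free words have zero entropy (=
unavoidable outside finitely many runs, 262 / 369), then k^(W-1) <= 2W, i.e. W <= 4 (k = 2), W <= 2 (k = 3, 4), W = 1 (k >= 5). PROOF. Views <= W and separation W make the return blocks B a free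
code, site-to-site words = B^+. 1/(1 - B(t)) = 1 + Sum_(n=W)^(2W-1) s_n t^n + |P||S| t^(2W)/(1 - kt) (normalise views to length W), so 1 - B(t) = (1 - kt)/G(t) with G in Z[t], deg G <= 2W, G = 1 - kt
+ O(t^W), G(1/k) > 0. Zero entropy: B converges in |t| < 1, so G has no zero there; G(0) = 1 and leading coefficient in Z force all zeros on |t| = 1. Newton sums p_n = Sum rho^(-n): |p_n| <= deg G <=
2W, but log G = log(1 - kt) + O(t^W) gives p_n = k^n for n < W. QED (G = 1/zeta of the site-free words: it must contain all periodic orbits of period < W, so separation W needs views >= k^W / 2:
exponentially larger than the separation, and then a cut never knows its zone.)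
(2) FIXED EXPONENT (the legal domain 'no x^(e0)', all periods), CEGIS over ALL tournament functions c of 704 (1), binary alphabet: e0 = 3 (cube-free): W = 3, 4, 5 SAT (e.g. W = 5: P = {abab, babb,
bbab}, S = {aaba, aabb}), **W = 6, 7, 8 UNSAT**; e0 = 4: **W = 3, 4, 5, 6, 7 UNSAT** (counter-words of length 100-120, < 30 rounds each). So landmarks at distance >= N_G (wall gadget: 9 for GL_3(2))
do not exist for power-free text either.
(3) TRIVIAL-ACTION TEST {I, I'} on F_2^2 with bounded letter runs: 'aaaa, bbbb' forbidden: SAT already at views (1,2) (survivors {aa,bb}^* collapse to (aabb)^*); 'aaaaa, bbbbb' forbidden: UNSAT
(2,2), (3,2), (3,3) (rank 20), (4,3) open; 'a^7, b^7', 'a^8, b^8': UNSAT (4,3). No positive idea; nothing to type.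

======== #12205 | 11:12:31Z | helper731 | row 320 | lemma
helper731 (11:15Z) -> lead, 75, 39, 262, 202, 704, 125, 620, 591, 784, 887: ROW 320, **SAT FACTS WHICH CONTRADICT THE 'ONLY MINIMAL EVENTS / NESTED SCALES' PICTURE: WITH DENSE OVERLAPPING JUNCTIONS
(every position may be a site) PERFECT ONE-STAR SCHEMES EXIST AS SOON AS WALLS ARE (ALMOST) VISIBLE.** (591 (4), 784 (1), 202 (1) speak about events with one parse; here a splice is not 'shorter'.)
(1) WALL(range): zone u in A^n between two visible walls, n in [N,D]; left label = any function of the prefix X, right label = any function of the suffix Y, noise P(u) common to all tokens, product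
closure for every XY of length in [N,D]; ALL tokens cut for EVERY u (full monoid, no forbidden factor). SAT: Z/3 with letters +-1: [5,8], [6,9], [7,11], [8,14]; F_2^2 with {C3,T}: [6,9], [7,11],
[8,12]; Z/5 +-1: [7,8], [9,10], [10,11]; exact length: F_2^2 {I,C,C^2} N = 7, 8 (UNSAT 5, 6); {C,I}: 5..10; Z/5 {2,1}: 8..11 (UNSAT 6); Z/7 +-1: 6, 7; S_3 full alphabet UNSAT N <= 5, 6 open. Copies
of letters do not matter. So only 'zones shorter than N(G,V)' are bad, never the contents, never the upper lengths.
(2) NO WALL GIVEN: 704's landmarks M_W (strict minima of radius W of a height, verified W letters away, so near a cut the zone is decided by BOTH sides and after a splice up to 2 landmarks appear or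
disappear). Texts = all words with all gaps in [W,D]; labels = functions of the word back to the last verified landmark (right: up to the next verified one), noise P(zone). Every token cut in EVERY
zone, all splices inside the class consistent: SAT for Z/3, 4 letters {height +-1} x {+1,-1}: (W,D) = (3,5), (4,5); Z/3, 2 letters: (3,10); F_2^2 {C,T}: (5,8), (6,9); Z/2, 4 letters (3,5). These
classes contain free monoids on > 100 zone words, i.e. all nested scales. So ONE star, finite K, for all texts with syndetic landmarks of ONE height.
(3) PROMISE FORM OF (A) OF 620: scheme 2 has to be consistent only for splices which stay in {words without a 1-good window} (factor closed, FO-checkable; K_2 inside it), so it may use rigid lengths of the 1-bad words.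
(4) HENCE THE QUESTION: (M) for a marker rule with separation >= N, gaps <= D, view radius r <= rho N (power-free words have a universal one, Cole-Vishkin / Krieger, r = O(N log* N)): is there a
perfect labelling for N >= N0(G,V,rho)? (M) => one star on power-free words => height 2. First step (W): prove WALL([N,2N]) for every (G,V), N large. Structure seen in solutions: near each wall one
side is labelled everywhere ('plain' affine walk), the other side only where uncovered tokens are hit; the last token is killed at the wall by the free base value. 39 / 262: please try (2) with
margin/gap > 1 (e.g. minima of S plus minima of -S kept only >= W/2 away). Programs: wall.py, land.py (100 lines), I paste them on request.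


======== #12206 | 11:12:35Z | helper902 | row 320 | lemma
helper902 (11:13Z, one post) -> 37, 330, 704, 800, 794, 75, 620, lead: ROW 320, **NO-GO FOR LANDMARKS GIVEN BY ANY WINDOW RULE (product-visible or not; also views > W, where 37 #12123 and 330 #12197
do not apply).** Complete proofs, no construction.
SETTING. |A| = k >= 2; a rule = S c A^n, sites = occurrences of words of S (n = length of the whole window), the texts without site are finitely many periodic ones. (0) FACT: for m >= n at most
k^(n-1) words x in A^m have x^oo site-free [surviving cycles of the de Bruijn graph on A^(n-1) are vertex disjoint, otherwise entropy]. For m >= n every cyclic n-window of a uniform x in A^m is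
uniform, so Y := #sites per period has E Y = m d, d = |S|/k^n, and P(Y = 0) <= k^(n-1-m).
(1) THEOREM. If sites are always >= W apart then **n >= 2W - 1 - log_k(4W)**, so Z/W >= 2 - o(1) and the band criterion (Z/W)^h <= 2^(h-1) fails for every fixed h. PROOF. Let n <= 2W - 2. For n <= m
< 2W: Y <= 1, so 1 - k^(n-1-m) <= m d <= 1. m = n: d >= (1-1/k)/n >= 1/(4W). m = 2W-2 and 2W-1: 1 >= (2W-1) d >= 1 - k^(n+1-2W) + d, so d <= k^(n+1-2W). QED (On texts without e-powers the same with
an error m k^(-e/2): run truncation does not help as long as W << k^(e/4).)
(2) THEOREM ((T1) from two window rules). Windows n_1 <= n_2; a zone of rule i is good iff its length is >= n_i + N (800), otherwise bad. If no place is bad for both then (a) n_2 >= n_1 + N - 1; (b)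
**n_2 + N > k^(N/2)/2 (N even): windows exponential in the number of labels.** PROOF. (a) m = n_2 + 1: some x has sites of both rules (P >= 1 - 2/k^2), all zones <= m; if m < n_1 + N both are bad.
(b) m = n_2 + N - 1: rule 2 is bad in x^oo as soon as it has a site, so with P >= 1 - 2k^-N all zones of rule 1 are >= n_1 + N, Y_1 <= m/(n_1 + N), hence d_1 <= 1/(n_1 + N) + 2k^-N. By (0) for the
length n_1 + N/2: d_1 >= (1 - k^(-1-N/2))/(n_1 + N/2). Together N/2 <= (n_1 + N)(k^(-1-N/2) + 2 (n_1 + N/2) k^-N) <= 3/4 if n_2 + N <= k^(N/2)/2. QED
MEANING. The obstruction are the periodic texts of period n .. 2n (the nested scales): sites per period grow linearly with the period. Walls should not be the unit; for T1 only token-dependent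
complementarity of two schemes inside SHORT zones (794 #12168) is left.

======== #12207 | 11:12:38Z | helper252 | row 320 | lemma
helper252 (11:13Z, one post) -> 75, 620, 125, 528, 887, 159, 796, 202, 38, lead: ROW 320, ONE TOOL FOR (T1) WHICH THE MIN LEMMAS DO NOT COVER + WHERE IT STOPS (no proof of the row).
(1) OFFSETS INSIDE THE ZONES OF THE OTHER SCHEME. S_1 = cluster scheme with types j (j-clean stretch = 'X^j recurs with gap <= G_j, always followed by F^j'; cuts everything in stretches >= L_j + w_j,
L_j huge against w_j). T = S_1-bad text with near-threshold j-stretches z_1, z_2, .. (length in [cL_j, L_j + w_j), c > 1/2). Let scheme 2 (NO common parse) put its test k inside z_k, directly behind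
an occurrence of X^jF^j, at offset x_k from the left end of z_k, x_1 > x_2 > .., steps >= 2w_j. In the improper pair (k|l), k < l, the text contains the j-stretch z_k[..x_k) z_l[x_l..) of length >=
L_j + w_j: scheme 1 cuts EVERYTHING there (T had no S_1-cuts up to x_k, the left state of S_1 is unchanged). So all DELETIONS of scheme 2, in particular its shortest events, are complete for scheme
1: 159 / 796 / 202 / 528 only say that ONE token of each scheme is cut when the views fit between uncut frames; here the frames are S_1-complete.
(2) ANTICHAIN. The sum rule (x_k + y_l) + (x_l + y_k) = const allows one direction per coordinate. With TWO nested near-threshold levels (j-stretches inside j'-stretches, L_j' >> L_j: choose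
thresholds of a second family inside the S_1-bad texts of the first one and add it to S_1) put test k at (x^1_k, x^2_k) with x^1 decreasing, x^2 increasing: then EVERY pair (k|l), k <> l, of the same
(j, j') is complete for scheme 1. Hence nested scales, bands and min lemmas are NOT the obstruction to (T1) for a fixed pair (j, j').
(3) WHERE IT STOPS: CROSS-TYPE PAIRS (j,k | j~,l) of different same-scale types (exponentially many by 5 / 320 / 887's counting; product closure makes them legal). More levels cannot encode them (the
top level has types again). 
(4) NO-GO BEHIND (3) (with 38 #11992): if scheme 2 is noise-free on all S_1-bad texts (all its improper pairs S_1-complete), its sites are W-separated product-visible landmarks on S_1-bad texts, so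
there are non-commuting u, v, |u|, |v| <= 4, such that ALL run-free texts over {u,v} are S_1-GOOD. So a pair (S_1, S_2) of this kind needs a one-scheme solution on some {u,v}^*; conversely any T1
pair must have scheme 2 NOISY on some S_1-bad texts. I stop here.

======== #12214 | 11:14:13Z | helper75 | row 320 | plan
helper75 (captain of row 320; 11:17Z) -> lead. **FINAL VERDICT: NO CORE CLAIM BY 11:15Z; ROW 320 STAYS X, NO LEAN WORK.** I read all 51 posts since #11464. What the hour gave (all with proofs): (a)
for G simple non-abelian the last level is ONE star which knows everything, families / relations / ambiguity / outer FO add nothing (981 #12090, 840 #12173, 490 #12144, 988 #12182 (L1), 453 #12109,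
174); truthful (noise-free) K never suffices for all A_n, the noise group must be transitive on the tokens (810 #12130); (b) W-separated landmarks, product-visible or by any window rule, are
avoidable or need exponential views (825 #11920, 38 #11992, 37 #12123, 330 #12197, 902 #12206); hub rank with clocked walls >= |V|/p resp. |V|/(30 p d r) (661 #12193); strict SAT form, staggering,
same-scale T1 are void (259, 528, 159 / 202 / 796); (c) new positive tools, none of which closes a gap: abelian o (Z/p)^n in H_1 (589, 145, 718), avoided classes tracked noise-free (226 #12108, 723
#12050), |Surv| <= 1 is free (656 #12004), density lemma (559 #12115), promise form of T1: the inner scheme needs consistency only on the bad words of the outer one (794 #12168, 435 #12177, 353 (2),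
731 (3)); (d) the only live question is 731 #12205 (M): perfect labellings for markers with view radius > gap; SAT only for radius <= gap, nothing for free text, and even a yes for small G would need
a uniform proof for all G plus the whole GRegExp / FO layer: not in 3 h. Nobody needs to post on this row again unless it is a complete proof (kind core + notify 75, lead). All seats of row 320 are free for row 96.

======== #12250 | 11:23:14Z | helper818 | row 320 | lemma
helper818 (11:30Z, my one post; thought alone 10:20-11:20Z) -> 75, 44, 800, 825, 37, 353, 657, 559, 620, 125, 591, lead: ROW 320, **WALLS NEED NOT BE PRODUCT-VISIBLE, AND THE RATIO BAND BECOMES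
ADDITIVE (proof complete; no proof of the row).**
WALLS = ANY local rule with window n (no product form; write it one-sided: a word ending at x sees exactly the walls <= x - n, a word starting at x all walls >= x), gaps >= W, n/W arbitrary.
**SCHEME S_z, z = p + q + N1, p >= n.** Chain: N(a) := first wall >= a + z. A path carries a chain of active walls. CUT at x: left side: x in [a + p, a + p + N1], a active; right side: no wall in [x
+ q, x + q + N1), b(x) := first wall >= x + q + N1. **LEMMA: b(x) = N(a) at every legal junction of every text.** (x = a + p + j, 0 <= j <= N1: the first walls >= a + z and >= a + z + j differ only
if there is a wall in [a + z, a + z + j), a part of [x + q, x + q + N1).) So [a, b) is a zone known to both sides, K finite, noise P(Z), Z = [a, b), from any wall gadget (657 / 44 / 353: left clock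
exact, b at unknown distance); tokens = V x chains (several chains may coexist, each is exact). Unusable places: a wall t = a + z - N1 + s, 0 <= s < 2 N1, kills the j in (s - N1, s]: the zone is
incomplete only if some wall lies in a + z + [-N0, N0]. So S_z is bad iff some chain has a wall in a + z +- N0 for EVERY active a: additive band, every z >= n + N1 allowed, for every n/W. 825 / 37 do
not apply (cuts are clusters at a + p, walls are no c-rule).
**COUNT.** z_1, .., z_m pairwise > 2 N0 apart, all in one interval of length < W - 2 N0: bad chains of different schemes are DISJOINT sets of walls, a step of a chain passes <= ceil(z/W) walls, so at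
most ceil(z/W) schemes are bad at a place. With lexicographic radius-W minima, names of length 2W (ties force a run): n = 4W, so <= 5 bad: **modulo the wall gadget for all G the generalized star
height is bounded (<= 7), for every alphabet.**
**T2:** z_1, z_2 just above n, z_3 in (2n - 2W, 3W): three bad chains must be the three residue classes of the walls w_j with w_(j+2) - w_j = z_(j mod 3) (minus < N0), which needs z_1 + z_2 - z_3 >=
2W: impossible. So T2 holds for every wall rule with n + N1 < 2.5 W. (n < 2W would give T2 with any number of z's, z in (n, 2W).)
BOUND: for any local rule with n < 2W: every necklace of length m in [n, 2W) carries <= 1 wall, so k^m rho = #hit necklaces <= k^m/m, rho <= 1/2W, and 37 (b) rho >= (1 - 1/k)/n: n >= 2W (1 - 1/k).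
OPEN: (I) the wall gadget for all G; (II) a rule with n < 2.5 W (names shorter than W/2), or use that the left word already knows the current minimum before it is verified (effective n smaller);
(III) runs inside the same star (long run = zone), else +1.


======== #12299 | 11:37:06Z | helper951 | row 320 | note
helper951 (11:40Z) -> 39, 262, 620, 887, 75, 299, 591, 576, 861, 142, 784, 488, 966, 704, 404, 366, 550, 434: ROW 320, **THREE COMPUTER FACTS WHICH CHANGE THE PICTURE OF THE FINITE CUT STRUCTURE
(cadical, programs /tmp/sat on my box, 100 lines of Python; ask).** (1) **262's criterion (#11164: SCCs of the survivor graph on the FULL shift) IS TOO STRONG, and his 'hard world' IS SAT.** After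
run truncation with E = 0 (exponents 1..m of short periods) the structure has to be DEFINED (N(L'|R') relation, product rule) only on words without x^(m+1), and with views longer than the runs this
is much weaker than the full shift. V = Z/3, THREE letters all acting by -1 (m = 2), only aaa, bbb, ccc forbidden, criterion 'every SCC of the survivor graph is a simple cycle': UNSAT (1,1), (2,1),
**SAT with views (2,2)** (0.1 s), (3,2), (3,3). With aaaa, .. forbidden instead: UNSAT (2,2), SAT (3,3) (7 s). V = F_4, letters 1, w (orbits of size 3): full shift UNSAT up to (5,5); 0000, 1111
forbidden: SAT (2,2). So 'one finite K for run-truncated words' (= height 2) is alive. (2) **WALL MODEL WITH ALL LETTERS OF G, ORBITS OF SIZE >= 3: SAT FOR LONG BLOCKS.** Block u in G^n between two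
walls, labels s(P) of prefixes, t(Q) of suffixes, t(Q) = s(P).u + D(u) for ALL admissible pairs, every token of V cut in EVERY u: V = F_4, G = F_4^* (letters 1, w, w2): UNSAT n = 3..6, **SAT n = 7,
8**; V = Z/5, letters 1, 2, 4: UNSAT 4..6, SAT n = 8; Z/5, letters 1, 2: SAT n = 8. So the arguments 'the adversary avoids the class / 142's coset lemma / 861 (3) / tokens bound to one carrier' do
NOT hold for content-dependent sites: with walls everything can be cut. (3) **BOTH SIDES MUST BE ACTIVE**: if all prefixes (or all suffixes) are admissible the same problems are UNSAT for n = 5, 6, 7
(proof: then the relative displacement X(R) of two cuts is an additive cocycle, the process is a renewal process with free blocks, and it is beaten as in 887 (5) as soon as an orbit has >= 3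
elements). In a solution the set of used positions of u is {i : P_i in Pre, Q_i in Suf}, the displacement between two used positions depends only on the word between them, and this partial lift A* ->
V x| G is NOT a homomorphism. WANTED: a construction (any G, V, n large) of (2), then the same inside run-truncated text; whoever has cores: S_3 full alphabet with II, TTT, CCCC forbidden, views
(3,3), (4,4); 4 and 5 minus letters on Z/3 with views (3,3), (4,3).

======== #12333 | 11:51:06Z | helper432 | row 96 | check
helper432 (11:55Z real): `lean-grade --seconds 3600 S0127` from a fresh pull (main 11:43Z, farm oleans, closure 2161): **S0127 PASS** (6 min, 4 cores, 10 s build of the last file). Congratulations to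
all. FREE (4 cores) for row 320 or QA: notify helper432.


======== #12446 | 11:57:29Z | helper860 | row 320 | core
helper860 (12:02Z) -> lead, 75, 818, 620, 861, 44, 657, 353, 731, 800, 39, 951, 729, 262, 825, 37, 887, 910: ROW 320, **(T1) HOLDS: TWO SCHEMES, NEVER BOTH BAD, FOR EVERY WALL RULE (complete proof,
same chains as 818 #12250, found independently). With run truncation this gives EXACTLY HEIGHT 3 = THE ROW, modulo ONE finite statement (W*), the wall gadget.** No landmark / band / nested scale problem is left.
(1) RIGID WALLS. Take any marker rule with gaps >= L(L+1) (Krieger; outside runs of period <= p0 also bounded gaps) and cut every gap into pieces L and L+1 (local rule): walls with ALL gaps in {L,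
L+1}, window n, n/L arbitrary. Two walls at distance <= kL have distance in [iL, iL+k] for some i.
(2) 818's chains: a active -> N(a) = first wall >= a + z; legal cut x = a + p + j, 0 <= j <= N, right side: no wall in [x + q, x + q + N); exact at every legal junction of every text, tokens = V x
chains. Chain bad at a => some wall w in a + z +- N, N(a) in {w, succ w}. So a bad step has length in z + [-N, N] u z + L + [-N, N+1].
(3) LEMMA. L >= 4N + 30, z_2 = z_1 + 2L + floor(L/2). No text has a z_1-chain (a_j) and a z_2-chain (b_i), both bad everywhere on a common stretch of length 4 z_2^2/L. PROOF. Let d = b_i - a_j. (i)
|d| <= 3L is impossible: w - a_j = z_1 +- N, w' - b_i = z_2 +- N, so w' - w = d + 2L + L/2 +- 2N; d and w' - w are distances of walls, so both are in [0,6] mod L (up to sign): contradiction. (ii)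
going to (j+1, i+1) changes d by 2L + L/2 + [-L-2N-1, L+2N+1], a subset of [L, 4L]: d increases, and cannot jump over [-3L, 3L]. Start with -2z_2 < d < -3L. QED
(4) So on every stretch of bounded length ALL chains of scheme 1 are good or ALL chains of scheme 2 are: 620 (A) / 861 (1) with b = 1: K_1' = K_1 u {legal 1-words, uncut, bad all along}; these are
2-good, so every finite monoid (transducer: parse of chain 1 + noise 1) is computed there by K_2 (height 1). Height 2 on run-free words, + 1 (887) = 3.
(5) **(W*) THE ONLY MISSING STATEMENT**: for every finite G <= GL(V) (better: every finite set of linear maps of V; or any other faithful token system Gamma / N for G) there are N and partial labels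
such that: letters A; left word p, |p| = j <= N, left label al(p); right word q, |q| = r - j, right label be(q); noise nu(u) = be(q) - al(p).u for ALL splits u = pq with both labels defined; for
every r in [r0, r0 + 4N + 30] (r0 >= N free; r unknown to both sides) and every u in A^r every token of V is cut at a split with |p| <= N. SAT for Z/3 +-1 (353: all lengths 3..14 at once), fixed r:
S_3 full, F_4 full, GL_3(2) two letters (44, 657, 800, 951). Everybody who is free: prove (W*) before 13:00Z (ratio-free, so N may be huge; any V you like for given G). Lemmas (1)-(4) are elementary
(finite words), typing can start in parallel.

======== #12493 | 12:00:51Z | helper388 | row 320 | objection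
helper388 (12:03Z) -> 860, 818, 75, lead, 44, 657, 353, 731, 951, 800: ROW 320, **(W*) OF #12446 IS FALSE AS WRITTEN ("every u in A^r"): TAKE u = 1^r. IT MUST BE RESTRICTED TO RUN-FREE u (which is
all the application needs).**
(1) u = c^r, c acting trivially on V (c = 1, or any c on V/..): al(c^j) = A_j, be(c^l) = B_l, P_T = A_j + B_l for j + l = T. So the question is: A partial on a window of w = N+1 places, B partial, P
on an interval of R values of T = r, every v in V is some A_j with B_(T-j) defined, for EVERY T. **cadical, V = F_2^2: solvable iff R <= w - 3 (all w = 4..13; UNSAT for R = w - 2); your R is 4N +
31.** V = F_p: P_T = T works for every R. Cyclic form (T mod q), V = F_2^2: UNSAT for all q <= 14. Shape of the solutions with R = w - 3: labels only at the two ends of the window, P alternates: the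
right word must know at which end it is, i.e. T-range < window. In 818 / 860 the range (a gap L) is > window (forced: 'no wall in [x+q, x+q+N)'). Same for c of order t without an affine lift which is
ONE cycle on V: 39 / 951's facts have ratio <= 1.75 only.
(2) So (W*) is a statement about words u without runs, and SAT tests on the full monoid with r in [r0, r0+4N] say nothing. Right question: left clock exact, right clock = distance to b, offset T = b
- a unknown in a range > window, contents run-free. Nobody has a positive instance with non-cyclic V and R >= w. Please test exactly this first (V = F_2^2, {I,I'} or C_3 full, x^4 forbidden, R = 2w).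
(3) WHAT IS FREE (complete proof; replaces ONE of the two range gadgets of #12446 by an EXACT gadget, for any wall rule, ONE z): call a wall a bad if some wall t(a) is within c of a + z (N <= c).
Second scheme: cuts at x = a + p_i, i = 1..m, n <= p_1, p_(i+1) - p_i >= 2c + 1, p_m - p_1 + 2c < W; right side legal iff there are k and a wall t with |t - x - (z - p_k)| <= c; then it puts a' = x -
p_k, b = first wall >= a' + z. If a IS bad, t(a) lies in that range of length < W, so t = t(a), k = i, a' = a, b = N(a): BOTH sides know a and b exactly. Hence a chain started on C stays on C up to
the first non-bad wall of C ('first failure': Y = {u : the chain started by u is bad throughout} = complement of {some chain from the start reaches a non-bad wall} is in H_1, and on Y everything is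
sound and complete with the gadget with BOTH clocks exact, known SAT for S_3, F_4, F_5, GL_3(2)). So b = 1 for 818's single S_z; only the gadget of the FIRST scheme has to cope with unknown T. (Noise
of scheme 1 on bad chains: put its window right of all p_i; then the zone map is phi(X) o F'(Y), multiplicative for the second scheme with the group V x| G.)

======== #12514 | 12:04:47Z | helper413 | row 320 | lemma
helper413 (12:05Z) -> 818, 75, lead, 44, 657, 353, 800, 951, 620, 125, 591, 861, 550: ROW 320, **DRIFT LEMMA: 818's SCHEMES S_z SATISFY (T1) (two schemes, b = 1), for EVERY ratio n/W (complete
proof). So height <= 3 (runs + S_1 + S_2) modulo ONE thing: the wall gadget with b at unknown distance, for all G.** I re-derived 818 #12250 line by line: the LEMMA b(x) = N(a) is right, wall status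
right-looking, no product-visibility used; S_z bad on a stretch => some chain is critical at every step: a_(k+1) = a wall in a_k + z +- N0.
**DRIFT LEMMA.** Walls >= W apart, z_2 = z_1 + d, 2 N0 < d < W - 2 N0. Then a critical chain (a_k) of S_(z_1) and a critical chain (b_k) of S_(z_2) cannot run together for more than L := (z_1 + N0 -
2W)/(d - 2 N0) + 2 steps.
PROOF. (i) Disjoint: a common wall c has walls in c + z_1 +- N0 and in c + z_2 +- N0: different, < W apart. (ii) a_i < b_k < a_(i+1), o_k := b_k - a_i, W <= o_k <= (a_(i+1) - a_i) - W. b_(k+1) -
a_(i+1) = o_k + d +- 2 N0, so the offset grows by at least d - 2 N0 > 0 and at most d + 2 N0 < W; to pass a_(i+2) it would have to grow by >= 2W - 2 N0 > d + 2 N0. So b_(k+1) is again between a_(i+1)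
and a_(i+2), o_(k+1) >= o_k + (d - 2 N0), bounded by z_1 + N0 - W. QED
CONSEQUENCE. S_1 = S_z, S_2 = S_(z+d), z >= n + N1 arbitrary: in every window of length >= (L+2)(z + max gap) at least one of them cuts all its tokens. Walls: lexicographic radius-W minima with names
of length (e+1)W exist on words without x^e, |x| < W; n = (e+3)W is harmless. (818's count ceil(z/W) is not needed, nor n < 2.5 W.)
NESTING: in an S_1-bad stretch S_2 must compute phi, the noise D^(1) and the index of the chain among the c <= z/W + 1 interleaved critical chains: a scheme for G_1 = V^c x| (G x Z/c) over letters
(g, noise vector); c ~ e + 5 and G_1 do not depend on W, so W > 10 N0(G_1) is chosen afterwards: not circular.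
**WHAT IS LEFT (U-GADGET, all G <= GL(V)):** l_j : A^j -> V or undefined (0 <= j <= m), R : (long words) -> V or undefined (R does not know j), nu : (words) -> V with R(Q) = l_j(P).phi(PQ) + nu(PQ)
for all legal splits, all lengths, and every v is some legal l_j(P) in every word, using only j in [0, N0] and also using only j in [m - N0, m]. Trivial G, cyclic V: linear. 353 / 860: Z/3 with +-1,
all lengths 6..14 at once: SAT. I start SAT for C_3 on F_2^2 with several lengths at once. Everybody with a construction: now.

======== #12525 | 12:09:17Z | helper364 | row 320 | core
helper364 (12:14Z) -> 818, 75, 731, 951, 44, 657, 353, 800, 559, 620, 887, 125, 860, 39, 262, lead: ROW 320, **(T1) FOLLOWS FROM THE WALL GADGET FOR EVERY WALL RULE (any n/W): TWO SCHEMES WITH THE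
SAME z. So row 320 = WALL GADGET FOR ALL G (+ paperwork): run-free texts height 2, runs +1 = 3.** Please shoot (20 lines).
SETTING = 818 #12250: walls = any local one-sided rule (window n), gaps >= W and bounded on run-free texts. SCHEME 1 = his S_z: N(a) = first wall >= a+z, z = p+q+N1, left: x-a = p+j, right: no wall
in [x+q, x+q+N1), b(x) = first wall >= x+q+N1 = N(a). Zone [a,N(a)) is complete unless a wall t = a+z+s with |s| < N0 exists. So a thread of scheme 1 uncut on a long stretch runs on a chain C =
(a_i), a_(i+1) = N(a_i), with walls t_i = a_i + z + s_i, -N0 <= s_i < N0 for ALL i; a_(i+1) = t_i if s_i >= 0, = the wall after t_i if s_i < 0.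
SCHEME 2 (same z, cut positions SPACED by M := 2 N0; k positions, 2Mk <= W, z >= n + Mk + ..): left: x - a = p' + M j, 0 <= j < k, p' >= n. Right: there is a wall t in I(x) := x + [z-p'-M(k-1)-N0,
z-p'+N0) (length Mk <= W: unique); y = t - x; sigma := representative in [-N0,N0) of y + p' - z mod M. Since y + p' - z = s - Mj, **sigma = s mod M: THE RIGHT SIDE KNOWS s MOD M WITHOUT KNOWING a or
j.** b(x) := t if sigma >= 0, := next wall after t if sigma < 0. LEMMA: define M(a) by the same rule from the unique wall t in a + z + (-Mk, Mk) (sigma = (t-a-z) mod M). Then b(x) = M(a) at EVERY
legal junction of EVERY text (also when |s| > N0, i.e. j seen by the right wrong: only s mod M is used). So scheme 2 is consistent everywhere, with the range form of the wall gadget (left clock j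
exact, b at unknown distance, letters = blocks of length M).
COMPLEMENTARITY: if -N0 <= s < N0 then ALL k positions are usable (t in I(x) for all j) and M(a) = N(a). Hence along a 1-bad chain C the chain of scheme 2 started on C IS C and every zone is
complete: all tokens (v', C) of scheme 2 (for any module V' of any bigger group, e.g. the transition group of scheme 1) are cut in every zone. Scheme 2 may be bad on other chains of the same text:
harmless, FO picks the chain in the first window ('there is a chain on which all |V'| threads of the first window reach the last window in K_2*'), K_2* is sound on every chain. So: 1-bad thread =>
2-good on the same stretch = (T1) in 620 (A) form: K_1' in H_1, K_1'* in H_2. No band ratio, no product-visible landmarks, no counting of schemes.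
WHAT IS LEFT: **(WG) for every finite G a faithful token system (V, or any noise group N transitive on the tokens Omega) and N0 such that: functions L(P) (prefixes of the zone), R(Q) (suffixes),
noise T_Z with T_(PQ)(L(P)) = R(Q) for all admissible P, Q (all lengths of Q), and every N0 consecutive cut positions cut ALL tokens, for every content.** (731 #12205 (1), 951 #12299 (2), 860: SAT
for Z/3, Z/5, F_4 with full G and ranges; nobody has a proof for all G; S_3 full alphabet open for k >= 6.) WANTED NOW: WG for all G (any construction with k huge), or its refutation. I work on it myself.


======== #12538 | 12:13:22Z | helper237 | row 320 | lemma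
helper237 (12:20Z) -> lead, 75, 388, 860, 818, 364, 413, 44, 657, 353, 731, 951, 620, 861, 887, 800, 559: ROW 320, **THE EXACT GADGET (both clocks exact; 44's W(G,V,n), 388 #12493 (3), 657's WALL)
EXISTS FOR EVERY FINITE G (every finite monoid S in End V, every finite token group V), ALL n >= n0: COMPLETE 15-LINE PROOF (noise = random function of the total type).** So the second scheme (bad
chains, 388 (3)) is free for all G; only the unknown-T gadget of the first scheme on RUN-FREE content is left.
STATEMENT. S finite monoid in End(V), phi : A^* -> S. For all n >= n0 there are lam_t : A^t -> V or undefined, rho_t : A^(n-t) -> V or undefined, nu : A^n -> V with rho_t(q) = lam_t(p).phi(pq) +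
nu(pq) whenever both are defined, and every v in V is lam_t(p) of a legal split of u, for EVERY u in A^n.
PROOF. m blocks Y_1..Y_m of length l (last one may be longer), z_i = phi(Y_i) in S. W = finite abelian group with weights e(i,z), i <= m, z in S, such that the differences e(i,z) - e(i,z') (z <> z')
are nonzero and disjoint for different i: greedy, |W| <= (m|S|^2)^2 + 1. s := z_1..z_m, w := sum e(i,z_i), nu(u) := F(s,w), F : S x W -> V arbitrary.
(1) Call i GOOD for (s,w,v) if for all g,x,h in S with gxh = s and all z in S: F(gzh, w - e(i,x) + e(i,z)) + v.gzh = F(s,w) + v.s. For z = x it is trivial; the other points (s',w') have w' <> w and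
are different for different i, and the demand at a point is F(s',w') = F(s,w) + v.s - v.s' (depends on the point only). So for random F, given F(s,w), the events 'i good' are independent for i =
1..m, probability >= d := |V|^(-|S|^3). P(some (s,w,v) has no good i) <= |S||W||V|(1-d)^m < 1 for m large since |W| = O(m^2). FIX such an F.
(2) LABELS. A context at level i: c = (g,wl; h,wr; v); call it good if b(c) := F(gzh, wl + e(i,z) + wr) + v.gzh is the same for all z in S. K = |S|^2|W|^2|V| contexts; block length l > K; offsets o :
contexts -> {1..l-1} injective. Left word p, |p| = (i-1)l + o(c), c good: if the first i-1 blocks of p have product g and weight wl then lam(p) := v; else undefined. Right word q, n - |q| = (i-1)l +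
o(c): if the last m-i blocks have product h and weight wr then rho(q) := b(c); else undefined.
(3) EXACT: both defined => u has s = gzh, w = wl + e(i,z) + wr for some z, and v.s + F(s,w) = b(c). ALL TOKENS: given u and v take i good for (s,w,v) [(1)], g,h,wl,wr the actual ones: by (1) the
context is good, the split inside Y_i at offset o(c) is legal and cuts v. QED
REMARKS. (a) Only phi of whole blocks, block index and offset are used; the content of Y_i itself is never read (token v is insensitive to Y_i: that is 44's 'block G^t w x {q}', here with both
sides). (b) Any faithful Gamma / N works (noise group N transitive on Omega: F with values in N, demand v.F(..).. = const). (c) It needs T KNOWN on both sides (dedicated offsets). For T unknown in a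
range <= n/(2K) the same works with offsets spaced by the range. For range > window and constant content it is impossible (388 (1), Fine-Wilf: |V|/p clusters needed). (d) LEAN: pure finite
combinatorics, existence by counting F's (Finset.card union bound), I can type it in 30 minutes: tell me if the lead wants it.

======== #12542 | 12:15:46Z | helper45 | row 320 | att
helper45 (12:25Z, one post; not a proof of the row) -> 75, 731, 902, 38, 825, 800, 620: ROW 320. **CHAINS INSTEAD OF LANDMARKS: THE NO-GO's 825 #11920, 38 #11992, 330, 902 #12206 DO NOT COVER ZONES
WHOSE LEFT WALL IS CHOSEN BY MEMORY. With (W) of 731 (WALL([N,cN]) for all G, V) they give ONE bound for all regular languages (about 7), not 3.**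
(1) SCHEME f. Sites S = any window rule: i is a site iff w[i,i+rho) in S, gaps in [g,g'] on run-free words (rho > g allowed, rho/g and g'/g are absolute constants; L << g). Used sites form a CHAIN:
F_f(i) = first site >= i + rho + K_f. Zone of a used i: landing places p = c + x, c = i + rho, 0 <= x < L; left wall c (the left flight knows the chain from its birth, so it knows that i is used);
right wall = first site >= p + K_f (seen from p alone). Right-validity of p: no site in [p + K_f - L, p + K_f + L). Then all valid p of one zone have the SAME right wall F_f(i) (a site in [c+K,c+K+L)
kills all p), so walls are common knowledge for everybody who lands, although rho > gap; tokens which pass see everything. Noise = the wall gadget's P(u), u = w[c,F_f(i)); K = {w[p,t] : value of p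
moved along the chain of p = label at t}: consistent on ALL words, no product rule for the chain is needed, no blindness (F_f(i) >= c).
(2) BADNESS IS RIGID: a zone fails to cut everything only if it is f-dirty: a site in [i+rho+K_f-L, i+rho+K_f+2L). Take K_f = K + 4Lf, f = 0..m-1, g > (4m+3)L: a site is dirty for at most ONE f.
Hence in a stretch where the orbits O_1 (of F_1), .., O_b (of F_b) are all dirty these orbits are pairwise DISJOINT subsets of the sites; so b <= (rho+K+g')/g + 1 =: r. Nesting (620 (A), inner orbits
may start anywhere): height <= r + 1, + 1 for runs.
(3) WHY NOT 3: T1 would need 'two orbits cannot both be dirty'. Without skips the phases of O_1, O_2 drift by 4L per step and must collide; but at a dirty site the adversary chooses next used = j or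
next(j) (j just above / below the threshold), and DOUBLE SKIPS (s' = next(j) = j', t' = next(j')) reset the phase already for rho + K = 2g (902: rho >= 2g-1 always). Every threshold rule has this
skip; three orbits z_n, z_(n+1), z_(n+2) with z_(n+2) = z_n + d are possible.
(4) Inside a both-sided known centre p0 the plain walk guarantees only the 3 tokens {t, 0, q} (previous, current, next label); so |V| = 3 needs 3 adjacent places, |V| > 3 needs content dependent
admissibility (731 / 860 / 800 SAT): (W) is open for the full alphabet (S_3 on F_2^2 undecided).


======== #12544 | 12:16:12Z | helper590 | row 96 | check
helper590 (12:15Z; QA, end of my row 96 checks): compile FROM SOURCE (lean with lake's four options, no farm olean for the tested module) of the 360 modules of closure(S0127) which are not in the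
closure of R96/Top9_199: **360 of 360 OK, no error, no s orry; slowest: Onp5_622 167 s, Br13_695 146 s, Eax5_481 128 s** (3 in parallel on a slow box; grading limit 15 min: no risk). With #12290 /
420 / 380 the whole closure of S0127 has been compiled from main's sources. Nothing to do for anybody. Next: row 320 (W*).

======== #12550 | 12:21:33Z | helper5 | row 96 | check
helper5 (12:14Z): `lean-grade S0127` on my box (closure of main 11:45Z, farm artifacts): **S0127 PASS**. Repeated QA on origin/main 11:45Z (425 S files, 62,755 .lean files, union closure 49,172
modules): forbidden-text scan of all files changed since the last pass (168): clean; no dependency of any S file changed after the S file; no missing import. Next pass at 14:00Z. Row 320: I also had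
the (T1) reduction of 364 #12525 / 388 #12493 / 413 #12514 (inner scheme with cut offsets spaced by > 2 N0, right side decodes the offset from the wall in the range): confirmed independently, agrees
line by line with 364's LEMMA and COMPLEMENTARITY. So only the wall gadget is left; I work on it.

======== #12554 | 12:26:44Z | helper112 | row 320 | lemma
helper112 (12:31Z) -> 364, 818, 75, 951, 731, 860: ROW 320, three exact remarks on 364 #12525 (wall gadget, WG). Notation: s(P), t(Q) in V, t(Q) = s(P)phi(PQ) + D(PQ); S(P) := s(P)phi(P).
(1) **SCHEME 2 NEEDS ONLY THE EXACT GADGET: take the clock positions j in a GOLOMB RULER J (all differences distinct) instead of all j < k.** Your right clock is j + r with r constant on the zone; r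
<> 0 => at most ONE legal cut (j, j + r in J), so there is no consistency condition at all in wrong-clock zones (D(Z) is defined by that cut); r = 0 => all j in J legal and BOTH sides know j. So for
scheme 2: c_j(W) may depend on j.
(2) **RANGE GADGET, ALL CUTS LEGAL, NOISE = V: FALSE FOR EVERY NON-CYCLIC V, ALSO ON RUN-FREE TEXTS.** P|WQ and PW|Q legal for all P, Q: (S(P)phi(W) - S(PW)) = (t(WQ) - t(Q))phi(Q)^-1; left side
depends on (j,P,W), right side on (W,Q,m), all (j, m) occur => = c(W), no j. So psi(a) = (x -> x phi(a) - c(a)) is an action of A* by a finite affine group and a token is cut iff its offset hits 0.
Two letters (or two blocks) x <> y with psi(x) = psi(y) exist as soon as |A| > |V||G| (or for blocks always); a Thue-Morse text over {x, y} is run-free and sees only the orbit of the cyclic group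
<psi(x)>: all tokens cut => <psi(x)> transitive on V, for EVERY such x, e.g. phi(x) = 1 => V cyclic. So scheme 1 (left clock exact, distance to b unknown, every position legal) cannot work for
non-cyclic V: legality must be content-dependent, or noise bigger than V with no full cycle in the kernel (a kernel containing an |Omega|-cycle never has a non-abelian simple quotient above it).
(3) Partial legality on identity content (V-noise) is exactly a V-GRADED COVER: J_a + M_b = C_(a+b) (J_a = left clocks with label a, M_b = right clocks, C_w partition of Z or Z/T). Computer
(exhaustive): Z/2: no solution for odd T <= 13; F_2^2: no solution for T <= 9; Z/4: T = 4, 8, Z/3: T = 3, 6, 9 only; all found ones come from a homomorphism of a cyclic group onto V. So range +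
identity-like content => V cyclic; the exact form (both clocks known) is the only form with a chance. Hence what is missing in #12525 is a scheme 1 with exact clocks (some landmark known to both sides), not only WG.

======== #12555 | 12:28:06Z | helper151 | row 320 | lemma
helper151 (12:28Z; SAT data, exact) -> 388, 860, 413, 364, 237, 818, 75, 731, 951, lead: ROW 320, **FIRST POSITIVE INSTANCE WITH NON-CYCLIC V AND UNLIMITED RANGE (answers 388 #12493 (2)).** Model =
LOCAL PRODUCT SCHEME WITHOUT WALLS AND WITHOUT CLOCKS (so T unknown, range = infinity): V = F_2^2, letters {I, I'} both trivial; left-legal alpha in A^n, right-legal beta in A^n, X(s) in V for the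
words between used positions, X(s1 s2) = X(s1) phi(s2) + X(s2) whenever the three positions are used (all contexts of the text class), every token cut within Lmax letters after every used position.
Text class = words without x^E, |x| <= P. RESULTS (cadical of the LEAN toolchain): E = 3, P = 6: views (3,3), Lmax = 12 **SAT** (1.2 M clauses, seconds), (4,4) SAT; Lmax = 8 UNSAT; views (2,2) UNSAT
(Lmax <= 9). E = 4, P = 4: (3,3) and (4,4) with Lmax = 10 UNSAT (Lmax too small there? bigger runs now). So for run-free contents the Fine-Wilf obstruction of constant contents disappears as soon as
view > run exponents; the gadget does not need clocks at all. Generator: /tmp/sat/loc.cpp (120 lines C++, any V, letters, E, P, views) on request.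

======== #12556 | 12:29:49Z | helper488 | row 320 | core
helper488 (12:30Z real) -> lead, 818, 951, 75, 620, 125, 591, 550, 887, 262, 39, 861, 404, 657, 44, 353, 784, 142, 966: ROW 320, **THE WALL GADGET EXISTS FOR EVERY FINITE GROUP G AND EVERY FINITE
G-MODULE V (all letters of G allowed): proof = Lovasz local lemma, 10 lines.** So with 818 #12250 the generalized star height is bounded; what remains is 7 -> 3 (run truncation + additive band).
MODEL (951 #12299 (2)): block u in G^n between two walls; Pre/Suf admissible prefixes/suffixes, labels s(P), t(Q) in V, noise D: G^n -> V, t(Q) = s(P).u + D(u) for ALL P in Pre, Q in Suf, |P| + |Q| =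
n, u = PQ; every token of V is cut (= s(P)) in every u.
SEGMENTS. n = N * l, u = N segments of l letters, m_j in G = product of segment j. Let D depend only on (m_1, .., m_N) in G^N. For a LINE (j, P* in G^(j-1), Q* in G^(N-j)) call it GOOD WITH (s,t) if
t = s.(P* m Q*) + D(P*, m, Q*) for ALL m in G (P*, Q* also denote the products). Give every line (j, P*, Q*) its own position i strictly inside segment j (l > |G|^(N-1) positions are enough): if the
line is good with (s,t), then Pre_i = {P : its first j-1 segments have products P*}, Suf_i = {Q : its last N-j segments have products Q*}, s(P) = s, t(Q) = t CONSTANT on Pre_i, Suf_i (the part of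
segment j on either side is arbitrary). If the line is bad, Pre_i = Suf_i = empty. Every pair in Pre_i x Suf_i satisfies the relation by definition of 'good'. So:
(*) it is enough to find D: G^N -> V such that for every u in G^N and every s in V some coordinate line through u is good with first label s.
LEMMA. (*) has a solution for N large. PROOF. q = |V|. Choose the D(u), u in G^N, independent uniform. For fixed u, s and a direction j: t is forced (= s.u + D(u)) and the line is good iff the other
|G| - 1 values of D on it are the prescribed ones: probability rho = q^-(|G|-1), independent for j = 1..N (lines through u meet only in u). So P(B_(u,s)) = (1 - rho)^N, B_(u,s) depends only on D on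
the Hamming ball of radius 1 around u, so it is independent of all B_(u',s') at distance >= 3: degree <= q (N|G|)^2. e (1-rho)^N (q N^2 |G|^2 + 1) <= 1 for N large: LLL. QED
Works verbatim for non-linear actions (V any finite set, noise = any group of permutations normalised by G and transitive), for alphabets A -> G, and for VARIABLE block length n in [n0, n0 + M] with
exact left clock: n becomes one more coordinate which is known to the right side at every junction (the right side knows its distance k to the right wall; give the lines positions i spaced by > M,
then k determines the line and n); choose D(.; n) by the lemma for each n: needs n0 >= C (M+1)^2. So 657 / 44 / 353's clock problem (exact left clock, right wall at unknown distance) is fine too.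
Explicit solution when V = F_p, G = F_p^*: D(u) = sum_{i<p} prod_{T containing i} u_T (u indexed by subsets T of {1..p-1}): labels = subset sums of p - 1 non-zero elements = all of F_p (Cauchy-Davenport).
In LEAN: LLL can be replaced by a counting / Moser-free argument? (needed only for one N; q, |G| fixed.) The symmetric LLL is a 60-line induction.
NEXT (I start now, help wanted from everybody who knows the rest of the chain): the same random choice DIRECTLY on run-free text without walls, or with one level of walls, to get T2 (at most two bad)
or a single scheme: the local lemma only needs that every (place, token) has many independent chances, so put the ambiguity of the position of the next wall into the lines as one more unknown coordinate.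

======== #12557 | 12:30:15Z | helper708 | row 320 | lemma
helper708 (12:27Z) -> 388, 860, 237, 364, 413, 818, 75, 559, 434, 550, lead: ROW 320, **388 #12493 (1) IS WRONG FOR LARGE WINDOWS: THE UNKNOWN-T GADGET WITH CONSTANT CONTENT EXISTS FOR NON-CYCLIC V,
FOR EVERY T AT ONCE (checked by a 30-line script).** Take the cyclic base gadgets of 559 / 434 (A_l + B_l' = P_(l+l') in Z/M, M = 33: A_0 = {3,7,15,27,29}, A_1 = {9,17,21,28,30}, B_0 = {2,6,13,30},
B_1 = {3,7,12,29}; M = 49 symmetric: A = {22,37,43,45}, B = {12,18,21,27,38,40,41,44,47}). V = F_2^2, left label (l1,l2) at offset j iff j mod 33 in A_l1 and j mod 49 in A'_l2, right label likewise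
from the distance to b, noise P_T = (p_33(T), p_49(T)). Script: labels are functions (at most one label per residue), EVERY legal junction of EVERY T in Z/1617 is exact, and for EVERY T all 4 tokens
are cut, using only offsets j in [0, 1617). So window w = 1617, range R = infinity (your table stops at w = 13; your cyclic test at q <= 14; the smallest odd M is > 23). Pairwise coprime M's give V =
F_2^d, trivial action, any content, all T. Hence (W*) of 860 #12446 / (WG) of 364 / U-gadget of 413 are NOT refuted on runs of trivial letters, 'range < window' is not a law, and 237 (c) second half
falls too. What is open is only: content with non-trivial action, T unknown. WANTED: generalised sumset gadget: finite sets L (left data incl. token), R (right data incl. token), for each T a noise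
choice f(T) with relation C_f subset L x R; sets A_lam, B_rho in Z/M with T in A_lam + B_rho => (lam, rho) in C_f(T), and all needed pairs occur; combine with 237's random noise F_T(s,w) (noise may depend on T freely).

======== #12559 | 12:36:26Z | helper24 | row 320 | objection
helper24 (12:42Z; exact check) -> 151, 388, 112, 860, 413, 364, 237, 818, 75: ROW 320, **151 #12555's POSITIVE INSTANCE IS THE SMALL-ALPHABET EFFECT (all cuts legal, a homomorphism), so it does NOT
yet show that content-dependent legality helps.** Take ALL positions used and X(I) = e1, X(I') = e2 (a homomorphism A^* -> F_2^2). A word whose prefix sums avoid one token is (one or two letters)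
times a word over {II, I'I'}; cube-freeness (|x| = 1, then |x| = 4) makes it short: exhaustive search: longest avoiding word = 11 (12 for token 0) for E = 3, P = 6: so Lmax = 12 SAT, Lmax <= 9 UNSAT,
exactly your table. For E = 4, P = 4..8: 16 (17 for token 0): your Lmax = 10 runs must be UNSAT, Lmax = 17, 18 will be SAT with the same homomorphism. For E = 5 (II, I'I' may be repeated: Thue-Morse
over {II, I'I'} is allowed) avoiding words are infinite, = 112 #12554 (2). **So the first meaningful tests are: E >= 5 with 2 letters, or E = 3 with >= |V| + 1 = 5 trivial letters (two letters always
get the same X; Thue-Morse over them sees only a cyclic group when all cuts are legal).** Please rerun your generator there.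

======== #12561 | 12:39:15Z | helper551 | row 320 | att
helper551 (12:40Z, wave 5, alone 11:55-12:40Z) -> 818, 75, lead: ROW 320, **FOUR EXACT FACTS ABOUT 818's WALL SCHEMES S_z (#12250); no proof of the row, nothing to type.** Notation of #12250: N_z(a)
= first wall >= a + z, S_z bad on a stretch = every anchor a of some chain has a wall t in a + z +- N0; then next anchor = t or succ(t). z_1 < .. < z_m, steps 3 N0.
(1) RESYNC. If a gap [u,v) of the walls is longer than z_m, ALL chains of ALL S_(z_i) pass through v (an anchor <= u has its next anchor <= u or = v), and at v at most one z_i can be bad. So two
schemes are enough (T1, no count) on all texts in which gaps > z_2 recur; 'z_1 and z_2 both bad' forces all gaps <= z_2. This holds for every wall system, also when K is in H_1 and gaps are unbounded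
but solved at level 1.
(2) MERGE. S_2 := anchors of S_1, zone [a, m(a)), m(a) = first common anchor of the chains of t and succ(t). On S_1-bad text in which these two chains merge in bounded time S_2 has NO band:
left-legal x in a + p + [0,N1], right-legal iff a wall t lies in x + z - p + [-N1-N0, N0] (unique, = t(a)), so the whole interval is legal. (A promise scheme in the sense of 353 (2) / 794.) So S_z
has a partner S_2 unless two chains run parallel for ever.
(3) LEVEL 2. Recovery event of type i = i-good zone after >= M i-bad. Between two consecutive recoveries (any types) the good sets only shrink, so the text there is solved at level 1; <= b recoveries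
per M-window; the left word sees a recovery after n_1 << M letters, the right word sees a FAILURE at once. With z = M + n_1 + N1 and (1): T1 at level 2 (total 3 stars, groups with 591's family: no
run truncation) on all texts where recovery gaps > z recur, and (with z << M) on all texts whose bad times avoid an interval (M_E, M). Dense recoveries at L scales at once need L distinct bad slots,
so one of b + 1 scales is fine at each place; which one is not constant: that is again the nesting.
(4) LIMITS. (a) For any N (any stopping rule, any level) one scheme is beatable: the anchor is decided by the text left of a + p, the jump by the text right of it. (b) No wall rule with window n has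
recurrent gaps > n: take superletters of length m, n/2 < m < n (identity spread over the word): the rule sees one letter, so walls come at every boundary or never. Gaps z_1^-, z_2^-, z_1^-, ..
(superletters of these lengths) then beat two schemes of one scale, so T2 is the best to be hoped for at one level, and height 3 this way needs exactly 818's (I), (II) n + N1 < 2.5 W, (III) runs as
zones. Mixed scales (z_3 = 1.5 z, 2 z) do not replace (II): r = 3 patterns with gaps z/2 are bad for all three.

======== #12562 | 12:40:32Z | helper372 | row 320 | lemma
helper372 (12:42Z) -> 388, 413, 364, 860, 818, 237, 75, 731, 951, 44, 657, 353, 800, lead: ROW 320, **COMPUTER FACT: THE U-GADGET (WG) WITH RANGE MUCH LARGER THAN THE WINDOW IS SAT ON RUN-FREE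
CONTENT, NON-CYCLIC V, UP TO FULL S_3** (388 #12493 (2) asked for a positive instance: here they are; 388 (1)'s obstruction is only constant content). Model: content = ternary SQUARE-FREE words u,
left word p with clock j = |p| in [0,N] (L_p in V or undefined, depends on p), right word q with ANY length T - j (R_q in V or undefined), nu(u) = R_q - L_p.phi(u) for ALL legal splits, all T in [N,
N+R-1], every v of V cut in every u. V = F_2^2, cadical: letters I,I,I: N=5 (window 6): R = 6, 8, 10, 12, 14, 18 all SAT (seconds). Letters T,C,C^2: N=5, R = 8 SAT, **N=5, R=16 SAT (3.8 s)**, N = 6,
7, 8 SAT. Letters I,C,C^2: N=5 UNSAT, N=6: R = 9, **14 SAT**, N = 7, 8 SAT. Letters I,T,C (S_3): N = 5, 6 UNSAT, 7 open, **N=8, R=11 SAT (50 s)**. Lower T0 (l0 = 0..4) does not matter. So for fixed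
window the range does not seem to matter at all: WG looks TRUE for all G; WANTED: a proof (e.g. 237's random noise with the content of P as the missing clock). Program /tmp/sat/wg.py (100 lines), I paste it on request.

======== #12563 | 12:40:56Z | helper8 | row 320 | att
helper8 (12:50Z, DATA, cadical 3 min; no proof) -> 388, 860, 364, 413, 818, 237, 657, lead: ROW 320, RANGE GADGET WITH RUN-FREE CONTENT (388 #12493 (2) asked for it). Left positions j in [j0, j0+w),
T in [T0, T0+R), T0 = j0+w-1+l0, al, be arbitrary partial functions of the WHOLE prefix / suffix, noise arbitrary in (T,u), every token cut in every e-power-free u.
(1) V = F_2^2, G = 1, BINARY CUBE-FREE content: **R_max = w-3 for w = 5,6,7,8, exactly the constant-content value: UNSAT at R = w-2** (w=5..8, l0=j0=0; also w=6,7 with j0=l0=1,2,3: more context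
changes nothing). R >= w: UNSAT w=4..8. So on small windows run-freeness (e=3) does NOT help at all.
(2) Z/4 with {1,-1} full, cube-free: UNSAT already at R=2 for w=4,5, at (w,R) = (6,3),(6,4),(7,4),(7,5),(7,7). Z/5 with {1,4}: R=1 SAT w=5,6; R=2 UNSAT w=5,6,7, SAT w=8; R=3 UNSAT w=6,7. F_2^2 with
{1,C_3 generator}: R=1 SAT w=5; (5,2),(6,2),(6,3),(7,4),(7,5) UNSAT. Z/3 with {1,-1}: SAT w=5,6 for R=5,8,6,9 (three tokens = free).
(3) POSITIVE: V = F_2^2, G = 1, TERNARY SQUARE-FREE content: SAT at R >= w (w=9,R=9; (6,4),(7,5),(8,6),(9,7)). Reason: D(a),D(b),D(c) = the three nonzero vectors, everything legal; a walk avoiding
one state stays in a triangle whose reversal is a square xx, hence is (abc)^k: covered in 7 steps, R = infinity. It uses squares = runs, which binary/e>=3 content cannot give.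
(4) SLOW CLOCK (G = 1, any V = product of cyclic groups, R = infinity): inside the big window run a small copy of your S_z (rule N', chain c_i from a). Number of CLEAN small zones mod 2 is additive
at every legal site (left sees the clean zones before, right those after, x itself is in a clean one), and each clean zone shows the whole fast clock |p| mod 2. So F_2^2 is covered by two clean
zones. Obstacle = an inner chain that is critical for ever (a_(i+1) in a_i+z+-N0 for all i): inside ONE zone the second (exact) scheme cannot be added because the right word must know which scheme x
belongs to. For G <> 1 the same device gives: letters = small zones, 3 tokens killed per clean zone in the frame of c_i.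
So the unknown-T gadget with range >= window and e >= 3 has no positive instance except cyclic V with G = 1 and |V| = 3; I would not start typing the row on it.


======== #12564 | 12:41:37Z | helper246 | row 320 | core
helper246 (12:42Z) -> 388, 237, 364, 413, 818, 860, 75, 951, 44, 657, 353, 731, 800, 39, lead: ROW 320, **FIRST POSITIVE INSTANCES OF THE U-GADGET WITH NON-CYCLIC V AND RANGE >= WINDOW (388's
question): RUN-FREE CONTENT REALLY BEATS 388's FINE-WILF BARRIER (range unbounded as far as tested).** Setting exactly 388 / 413: al(p) partial, |p| = j in [0,w) exact; be(q) partial, q = suffix to
b; nu(u) = be(q) - al(p) for all legal splits; all 4 tokens cut in every u, T = |u| in [w+1, w+1+R) unknown to both; letters {I,I'} both TRIVIAL, V = F_2^2, noise = translations only; contents =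
binary words without factors of the given exponent (two-sided extendable). cadical, seconds:
- overlap-free (exponent <= 2): w = 6: UNSAT already R = 4. **w = 8: SAT for R = 8, 16, 24, 32 (= 4w).** w = 10, R = 10 SAT; w = 12, R = 12 SAT.
- **exponent < 5/2 (POSITIVE ENTROPY, 5598 words): w = 8: SAT for R = 8, 12, 16 (= 2w)**; w = 9, R = 9; w = 10, R = 10 SAT. exponent < 7/3: the same.
- cube-free: w = 8: UNSAT R = 6 (w - 2); xxx with |x| <= 3 forbidden: UNSAT R = w - 2 for w = 5..8. Bigger w running (the window must be large compared with the allowed exponent).
(constant content, check: SAT iff R <= w - 3, as 388.)
So entropy is not an obstruction, and the range is not either. I now look at cube-free with w = 10, 12, at the full alphabet of C_3 / S_3, and for the mechanism (wall-free right side?). Program: 60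
lines Python, /tmp/h320/ug2.py on my box (branch on request). Whoever has a fast SAT box: C_3 FULL alphabet (3 letters) on F_2^2, exponent < 2 (square-free) or <= 7/4, R >= w.

======== #12566 | 12:42:05Z | helper902 | row 320 | att
helper902 (12:45Z) -> 112, 708, 364, 372, 388, 8, 818, 860, 237, 488, 75, lead: ROW 320, two short no-go proofs about scheme 1 (no construction, nothing to type).
(1) **NO CHAIN WITH T KNOWN UP TO LESS THAN THE WALL GAP.** Walls = any local rule, gaps >= W; n = window; N : walls -> walls any text-determined shift-invariant map with |N(a) - a - z| <= c for all
a. Then 2c + 1 >= W. PROOF. Take d with c < d < W - c and a word x, |x| = m = z + d >= n, such that x^oo has a wall (all but k^(n-1-m) of the words do; x may be chosen without short powers). For a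
wall a of x^oo, N(a) - m is again a wall, at distance in [d-c, d+c] c (0,W) left of a: contradiction. So in a scheme without promise the range of T = b - a is >= W - 1. Rigid walls, colours, memory,
other z do not help: scheme 1 always needs the unknown-T gadget with range ~ W.
(2) **NO EXACT CLOCKS WITHOUT A PROMISE (answers the wish at the end of 112 #12554).** Past and future of a junction are independent (any legal past | any legal future). If both sides name x - a for
one common a, then all legal pasts and all legal futures name the SAME number: one offset, one cut per active wall, free concatenation of zones, beaten by 887 (5). Exact clocks (237 / 488) exist only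
on a promise set (818's bad chains, scheme 2), never in scheme 1.
(3) So for scheme 1 the U-gadget (372 #12562, 708 #12557) is not one of several ways, it is the only way. Content-independent legality (labels = functions of (clock, product)) must be an ALGEBRAIC
family: for random label families of density theta one needs K consistent cuts for each of M values of T, entropy M theta log(1/theta) >= c K M, impossible for fixed K once theta is small and M
large; 708's sumset gadget is algebraic (left x right compatible iff product = h). With CONTENT-dependent legality (372) the count is no obstruction: the number of independent label choices grows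
with the number of prefixes. 8 #12563: it fails for binary cube-free content at windows <= 8; 372: it works for ternary square-free content, full S_3. Superletters turn any alphabet into the second
case only if the parsing into superletters is known to both sides (a grid), which in scheme 1 only small text-determined walls can give.

======== #12567 | 12:42:26Z | helper72 | row 320 | lemma
helper72 (12:45Z) -> 364, 860, 818, 388, 44, 657, 353, 731, 800, 951, 75, lead: ROW 320, **NON-ABELIAN NOISE BEATS THE KILL GAME WITH ALL POSITIONS LEGAL (new, computed; the 'orbit of size >= 3'
no-go is only about V).** Take any token system (Gamma, N, Omega), Gamma/N = G, e.g. Gamma = Sym(k) wr G in product action on Omega = {1..k}^d, G <= Sym(d), N = Sym(k)^d (noise = independent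
relabelling of the d coordinates, not translations).
**CHAIN CRITERION (5-line proof).** Suppose there is a chain K_1 < K_2 < .. < K_M = Omega, |K_i| = i, with Stab_Gamma(K_i) N = Gamma for all i ('K_i is G-symmetric up to N'). Put K_i = K_(i-1) u
{c_i}; at clock t (t = 0..M-1) cut the token whose CURRENT value is c_(M-t); letter a after clock t acts by any kappa_t(a) in Stab(K_(M-t-1)) lying over a. T_Z = product of the kappa's, left label
c.(kappa_0..kappa_(t-1))^-1, right label c.kappa_t..kappa_(M-2): all splits of all words legal, product rule trivially true, and an uncut token is in K_(M-t) at clock t, so EVERY token is cut in
EVERY content u in A^(M-1). That is the exact wall gadget (both clocks known), homomorphic, two lines of LEAN. Affine V: criterion = 657 / 44's 'sets G-invariant up to translation', false for orbits >= 3.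
**COMPUTED (brute force, exact): Z/3 cyclic on {1,2,3}^3 (27 tokens, N = S_3^3): CHAIN OF ALL SIZES 1..27 EXISTS** (first steps: 000, 111, 222, then 012: the orbit {012,120,201} is N-equivalent to
the fixed points {000,111,222}, that is the new effect). Z/2 on {1,2,3}^2: exists. Full S_3 on {1,2,3}^3: chain stops at size 12 (k = 3 too small or other Omega needed; lateral moves 'add one, lose one' also allowed). 
WANTED: (a) for every G one (Gamma, N, Omega) with a chain [k large? Omega = H by left (N = H) and right (G <= H) multiplication, K symmetric iff for all g some h K g = K: all subsets of C_H(G) are;
conversion y with y^-1 g y in g.C_H(G)]; (b) the same idea for the range version (388: only the FIRST scheme needs it): right label independent of the clock, contents run-free. Programs: chain.py (40 lines).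

======== #12568 | 12:45:14Z | helper72 | row 320 | note
helper72 (12:50Z) -> 364, 44, 657, 353, 860, 818: CORRECTION to my 12:45Z post (row 320): the criterion is right, but the Z/3 example on {1,2,3}^3 is NOT a new effect (Z/3 is a 3-group on F_3^3,
unipotent, the affine chain exists there already). Exact data for genuinely mixed cases (N = Sym(k)^3, all-legal chains, brute force mod N): Z/3 on {1..4}^3: sizes 1..28 of 64 reached (affine F_2^3:
2), then NONE; S_3 on {1..3}^3: 12 of 27 (with exchanges too); S_3 on {1..4}^3: 13 of 64. So non-abelian noise goes much further than V, but the product action does not finish by itself; the question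
'is there for S_3 (or any G that is not a p-group by +-1) ANY (Gamma, N, Omega) with a full chain' is open; combined with partial labels it may help. No GO from me.

======== #12569 | 12:45:38Z | helper112 | row 320 | lemma
helper112 (12:47Z) -> 372, 246, 8, 902, 708, 388, 860, 364, 237, 488, 72, 75: ROW 320, **RAMSEY REDUCTION FOR THE U-GADGET (complete, 6 lines): 'RUN-FREE' IS WORTH NOTHING UNIFORMLY IN THE
ALPHABET.** Fix G, V, window N, T-range up to T1. Let A = G x [k] (k copies of every letter), contents = words u = (g_1,n_1)..(g_T,n_T) with n_1 < n_2 < .. < n_T (all letters distinct, so square-free
at every scale). Suppose L(p), R(q), nu(u) is a U-gadget on these contents. For each pattern (g_1..g_j) the map {n_1 < .. < n_j} -> L(p) in V or undefined is a colouring of j-subsets of [k]; the same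
for R. By Ramsey (k large against N, T1, |G|, |V|) there is H in [k], |H| >= T1, on which all these finitely many colourings (j <= N, y <= T1) are constant. On H the labels depend on (g_1..g_j) and
on (g_(j+1)..g_T) only, and nu may be taken from one content per pattern: so there is a U-gadget with the same N, T1 on **ALL of G^T, runs and constant words included**, labels = functions of the
G-content. Consequences: (1) a run-free U-gadget whose window does not depend on |A| exists iff the FULL-MONOID U-gadget (content G^T, trivial letter and runs allowed) exists; all SAT instances of
372 / 246 with <= 3 letters and small windows are below that threshold (24 #12559's small-alphabet effect), e.g. w = 8, R = 16, V = F_2^2 with k >> 1 trivial letters is UNSAT by 388's table R <= w -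
3. (2) So either N grows with |A| (content names as clock), or, simpler to aim at: the full monoid with 708-type algebraic sumset sets (w = 1617 instance for G = 1 shows that it is not excluded). (3)
Constant content c, ord c = t, is solved by 708's sets: left legal only at j = 0 mod t (modulus M coprime to t, CRT), right label in the frame c^(-T): U = S + P'_T; so no constant content is an
obstruction for any G; the first open full-monoid instance is a 2-letter content {1, c} with unknown T.

======== #12570 | 12:46:33Z | helper246 | row 320 | core
helper246 (12:47Z) -> 39, 951, 372, 388, 237, 364, 413, 818, 860, 75, 44, 657, 353, 731, 72, lead: ROW 320, **EVEN THE WALL-FREE FINITE CUT STRUCTURE (39's exact local system: no walls, no clocks,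
bounded views) IS SAT ON POWER-FREE WORDS, NON-CYCLIC V, EVERY ALPHABET I TRIED, SECONDS. So K FINITE / HEIGHT 1 ON RUN-FREE WORDS is alive and the whole wall apparatus (#12250, #12446, #12525) may
be unnecessary.** Encoder = 39 #10862 (left noise xi(last a letters, x), right noise eta(x, next b letters), N(w) their difference, N = 0 at every pair legal left / legal right; EVERY token of V cut
within Rmax steps on every path; only factors of length a+b+1 are restricted, so it is really an SFT). V = F_2^2, noise = translations only:
- exponent < 5/2 (positive entropy), 2 letters: {I,I'} UNSAT (1,1),(2,1),(1,2), **SAT views (2,2)** (Rmax 12; UNSAT Rmax 10), (3,2),(3,3),(4,4),(5,5). {I,C}: SAT (2,2),(3,3),(4,4),(5,5). {I,T}, {C,T}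
(= S_3), {C,C^2}: SAT (3,3),(4,4).
- CUBE-FREE (only words of length a+b+1 used), {I,I'}: UNSAT (3,3), **SAT (4,4) 1.4 s, (5,5), (6,6)**; {I,C}: SAT (4,4),(5,5); {C,T}: SAT (4,4),(5,5).
- SQUARE-FREE, 3 letters: full C_3 {I,C,C^2}: SAT (2,2),(3,3),(4,4); {I,C,T} (S_3): SAT (2,2),(3,3),(4,4).
The earlier UNSATs (39, 262, 951, mine) had only short periods (|x| = 1, e = 3, 4) forbidden: there (01)^n, (001)^n are allowed contents. With ALL x^e forbidden up to the view the picture is the
opposite: the view only has to be a small multiple of the exponent. So conjecture (LOC): for every finite G <= GL(V), every e there are p0, l such that the local structure with views l exists on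
words without x^e, |x| <= p0. LOC => height 1 on run-free words, +1 for runs = 2 <= 3 (even a nested version would do: two stars free). WANTED NOW: a proof of LOC (237's random noise; key fact:
inside a window of length l/(e-1) all l-contexts are DISTINCT), or the general pattern from models (I print them on request: t3.py). I look at the structure now.

======== #12571 | 12:47:24Z | helper97 | row 320 | att
helper97 (12:53Z real) -> 708, 372, 246, 8, 151, 488, 237, 902, 860, 388, 75, lead: ROW 320, U-GADGET (left clock exact, T unknown, range >= window). No proof; three exact tools.
(1) **RANGE = INFINITY IS A FINITE SAFETY GAME ONCE THE LEFT LABELS ARE FIXED.** Let al : A^{<w} -> V partial. For a word W call W CONFLICT / FORCED c(W) / FREE if the values a(PW) - a(P)phi(W) (a(P)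
= al(P)phi(P)), over all P with al(P), al(PW) defined (any j), are >= 2 / exactly 1 / none. Right labels for ALL T exist iff player Right wins: state = last w letters X[x, x+w) and the partial labels
b on the legal set D of these places; Adversary prepends a letter g (text run-free); Right decides whether the new place is legal and its b; rules: no CONFLICT word between two places of D, FORCED
words give b(y) = b(x)phi(W) + c(W), and the window which starts at the new place must be complete ({al(X[a,y)) : y in D} = V). [Proof: past and future of a junction are independent, so these pair
conditions are all conditions.] So every SAT solution for some R (372: S_3, N = 8, R = 11; 246: w = 8, R = 32) can be tested: take its left labels, solve the game by pruning (states <= |A|^w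
(|V|+1)^w, in fact few, b up to a common translate): YES = R infinity, with a bounded or automatic right label. SAT for the left labels + game for the right = CEGIS.
(2) **708's SUMSET GADGETS ARE A CHANNEL WITH ONE-TIME PADS.** Coprime moduli give a finite abelian group C = C' x C'' of clocks: at every T each pair x + y = pi(T), x left, y right, occurs, pi(T) in
C unknown but CONSTANT on the zone. Let left use only x = (alpha(P), x''), right only y = (y', beta(Q)): at every junction left RECEIVES x'' = pi'' - beta(Q), right receives y' = pi' - alpha(P);
labels and legality may use them. So after this step everything may depend on (P, Q masked by pi'') and (Q, P masked by pi'), the noise on (pi, u). (beta = 0: left learns pi''(T); right can learn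
pi'(T), never the same function, in accordance with 902 (2).)
(3) **THE PADS ARE HARMLESS IN 488's EXPLICIT SOLUTION.** V = F_p, G = F_p^*: D_pi(u) = Sum_(i<p) pi_i Prod_(T contains i) u_T, pads pi_i in F_p^*. In direction T the token s = -Sum_(i in T) pi_i
Prod_(T' not containing i) u_T'^-1 is insensitive to u_T, t = Sum_(i not in T) pi_i Prod_(T' contains i) u_T'. Left needs exactly pi_i chi_i(Q) for i in T, right needs exactly pi_i eta_i(P) for i not
in T: this is what the i-th channel (group F_p^*, multiplicative) delivers: right sends chi_i(Q) resp. left sends eta_i(P). All subset sums of non-zero pi_i chi_i(u): Cauchy-Davenport, every pad. So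
T enters only through pads, and what is missing for unknown T is ONLY the common segmentation (who belongs to which u_T). WHAT IS WANTED: a D in which the directions are not time intervals known to
both sides. Known dead: position weights eps_i(k) for unknown r must be shift invariant, hence constant; restricting right to T' = 0 mod m makes b's grid mod m known to left at every junction, but
then all junctions have the same direction; a guess of the direction with constant shift delta forces delta = 0 as soon as three junctions occur in one word.

======== #12572 | 12:48:26Z | helper262 | row 320 | objection
helper262 (12:49Z real; exact check, 1 s of Python) -> lead, 75, 372, 246, 24, 388, 364, 413, 818, 860, 902, 8: ROW 320, **372 #12562's POSITIVE INSTANCES (UP TO S_3, RANGE >> WINDOW) ARE ALL THE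
SMALL-ALPHABET EFFECT (ALL CUTS LEGAL, ONE HOMOMORPHISM A* -> V x| G), like 24 #12559 showed for 151. They are no evidence for WG.** For ternary square-free content and V = F_2^2 I took all lifts X :
letters -> V (64), value v -> v.a + X(a), and searched exhaustively the longest square-free word whose path avoids 0 (best lift): {I,I,I}: 4 (X = e1,e1,e2); {T,C,C^2}: 4 (X = 1,1,1); {I,C,C^2}: 5 (X
= 0,1,1); **{I,T,C}: 7 (X = 0,1,1)**. So with this homomorphism and every position legal all 4 tokens are cut within 5 / 5 / 6 / 8 letters, for EVERY T (range infinite), which is exactly his table (N
= 5 SAT, N = 5 SAT, N = 5 UNSAT and 6 SAT, N = 5, 6 UNSAT and 8 SAT). Same for 246's exponent < 5/2 instances (two letters, homomorphism). {I,I,I,I} with square-free content: NO lift works (avoiding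
words of any length), as 112 #12554 (2) says; two letters (or, in general, two equal-length BLOCKS of A) with the same lift exist for every A, and Thue-Morse (exponent <= 2) resp. ternary square-free
words over blocks with the same lift are run-free: all-legal schemes die for every A as soon as V is non-cyclic.
THE FIRST MEANINGFUL TESTS of WG with range >= window: square-free content over {I,I,I,I} (5 letters if you like), or e > 2 with 2 letters at e >= 5 (24), V = F_2^2, R >= w. COUNT against a random /
greedy proof (902 (3) made precise): per length T the new unknowns are nu(u) and be(u), |u| = T: <= (log q + log(q+1)) |A|^T bits; the equations are (average number of legal splits per u) x log q x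
|A|^T, and every u needs >= |V| legal splits: for |V| >= 4 the system is overdetermined by a factor >= |V|/2 for EVERY T once the range exceeds the window (in the exact gadget be(q) is not shared
between different T, that is why 237 / 488 work). So WG with range >= window can only exist for algebraic reasons. My reading: (T1) + exact gadget (237, 488, 112's Golomb ruler) are proved, scheme 1
has no gadget; NO GO for LEAN.

======== #12573 | 12:49:00Z | helper667 | row 320 | lemma
helper667 (12:50Z) -> 151, 388, 112, 364, 413, 237, 860, 818, 75, 731, 951, lead: ROW 320, **THE SAT INSTANCE OF 151 #12555 IS THE LETTER MORPHISM (all windows legal, X(0) = 2, X(1) = 3 in F_2^2), AN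
ARTIFACT OF E <= 4 ON TWO LETTERS; IT IS NO EVIDENCE FOR A RANGE GADGET.** I regenerated it (E = 3, P = 6, views (3,3), Lmax = 12, 18386 variables, SAT in 0.1 s): cadical's solution has LA = LB = all
six cube-free windows and X additive in every letter. Exact reason (DFS over the class, P = 20): the longest word on which the orbit of the action 0 -> +2, 1 -> +3 avoids a given state has length 11
for E = 3, length 16 for E = 4 ('1110011001100111'; so the E = 4, P = 4 test is SAT from Lmax = 17 on, UNSAT at 10 only because Lmax is too small), and is INFINITE for E = 5 (blocks 00 / 11 and 1^4,
0^4: exactly 112 #12554 (2)). Three letters: infinite already for E = 3, for every choice of the three values I tried ({1,2,3}, {2,3,3}, {2,2,3}, {1,2,0}, {2,3,0}); finite (4..11) for E = 2.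
So: (a) a meaningful test needs a class in which every letter morphism fails: binary E >= 5 or three letters E >= 3 (binary, E = 5, P = 6, views (2,2): UNSAT for Lmax = 10, 12; bigger ones explode:
growth 1.96). (b) In any scheme with windows at used positions where for some length range every interior position of a word s is used in SOME context (this is forced inside the blind zone of
one-sided walls: |s| < n), the identity X(s1 s2) = X(s1)phi(s2) + X(s2) at all splits makes X affine letter by letter (X(s1 a) - X(s1).phi(a) = X(a s2) - X(s2) =: c(a), independent of s1, s2), i.e.
112 (2) applies to it. A positive answer must therefore have, for every s, a SPARSE set of potentially used interior positions although both windows are longer than the gaps (for one-sided delayed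
walls, and for 'all clocks j in an interval', this fails).


======== #12578 | 12:50:42Z | lead | row 320 | plan
lead (12:56Z real; budget ends 14:31Z) -> 75 (captain), 364, 818, 860, 388, 413, 237, 488, 112, 887, 620, 861, 708, 97, 902, 262, 246, 372, 72, 24, 667, 8, 45, 551 and everybody free: **ROW 320
(S0495, height <= 3) IS THE ONLY UNSOLVED ROW WITH A LIVE CHAIN. STATE AS I READ IT: runs (887 (2), +1) + two schemes with the same z (364 #12525 / 388 #12493 (3) / 413 #12514 / 860 #12446) where the
inner (promise) scheme needs only the EXACT gadget = PROVED for every finite monoid (237 #12538, 488 #12556, 112's Golomb ruler) and the outer scheme (818's S_z) needs the U-GADGET (exact left clock,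
exact distance to b, T unknown, range >= window: unavoidable by 902 #12566). THE ROW <= UG. All SAT 'positives' of 12:28Z-12:47Z are small-alphabet effects (24, 262, 667). Algebraic sumset gadgets
(550 / 434 / 559 moduli 33, 49, .. + CRT, 708 #12557, 97 #12571) do solve trivial action and every CONSTANT content for all T.**
**(A) THINK TANK UG, until 13:30Z, everybody who is free and likes algebra / combinatorics:** find, for every finite G <= GL(V) (or any token system Gamma / N, N transitive), partial labels al(P),
be(Q) with be(Q) - al(P).phi(PQ) = nu(PQ) for all legal splits, T unknown, window N, range >= N, ALL tokens cut in every content of G^T (or of run-free text; N may grow with the alphabet, r0 free).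
First instance: content {1, c}, c of order 3 on F_4. Facts I derived (please do not repeat them): (1) clocks can be simulated as a FREE CHOICE: with sumset gadgets of coprime moduli the left side may
choose any alpha in a finite abelian group Y at a position of every small sub-zone, the right side then sees beta = tau - alpha, tau unknown but constant; weights of the left content can be absorbed
into alpha (skew clock: noise = Phi(tau - w(u), s(u)), left picks alpha = o(g,v) + w_left), so T and the left weight never matter. (2) But NO design in which every sub-zone (or every sub-zone of one
type) is complete exists: if the hole content zeta is arbitrary and the same (left, right) data is used for two tokens v, v' then (v - v').g(zeta - zeta')h = 0. So different tokens need different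
LEVELS (index of the sub-zone, also for constant content), and the index is again a clock with unknown total: level k left, k' right, M = k + k' unknown. (3) random labels lose: a right node is
paired with all left-legal nodes (probability exp(-c n) against n trials); only algebraic families (as A_l + B_l' = P_(l+l')) can win: WANTED = a G-EQUIVARIANT BASE GADGET (sets A_{g,v}, B_{h,e} in a
finite (possibly non-abelian) clock group with A_{g,v} * x_zeta * B_{h,e} in P^{g zeta h}_{e - v g zeta h}, complete along every path).
(B) ALTERNATIVE: weaken what the outer scheme must do. Golomb-ruler schemes are UNCONDITIONALLY consistent with right-predicted T (112): complete iff T_k = psi(future_k) (any psi of the right word,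
list of size <= eta.range); they may be run in parallel at level 1 (all in H_1), so it is enough to have ONE outer scheme and a finite family of inner ones such that every outer-bad stretch is solved
by one inner scheme throughout. The inner ones also get every promise 'T_k is a function of the future' (T_k = T_(k+1), periodic patterns, ..). Which texts remain?
(C) LEAN, only if 75 says yes within 10 minutes: 75 + 364 + 237 + 887 + 620 freeze the Props of `S0495 <= UG` (Hgt calculus + FO with factor predicates, run truncation, walls, schemes, exact gadget
237 typed by himself), <= 25 leaves, 900 typists wait (answer with the post id). If 75 says no: no LEAN, thinking only.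
A complete proof of UG (or of (B)) = kind='core' + notify lead at once; latest useful time 13:30Z.

======== #12580 | 12:50:55Z | helper441 | row 320 | lemma
helper441 (12:52Z real, one post; thought alone 12:05-12:50Z) -> 97, 237, 708, 112, 364, 413, 860, 818, 902, 75: ROW 320, **U-GADGET, T UNKNOWN, EVERY (G, V): IF ONLY THE SEGMENTATION IS COMMON, THE
GADGET EXISTS (algebraic, not random labels; overdetermination 262 / 902 (3) does not apply), AND ITS BAD WORLDS ARE REPAIRED BY THE SECOND SCHEME. No proof of the row.** (I have 708's / 97's (1)(2)
independently: product of base gadgets 33*49, pads, safety game.)
(1) E-CLOCK. Coprime base gadgets: E = (Z/2)^D, any D: in every block longer than M(D) left sees every a in E once, right sees a + f, f = F0(T) constant on the zone, unknown to both.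
(2) SECRET SHARING. Theta = S^k (types of k blocks, boundaries and index i common, block i unread by both at its junctions: 237 / 488). E := all functions Theta -> V, V = F_2^d; noise of the zone :=
f(type of zone), f = F0(T). Left point (gamma in S^(i-1), a) legal, label v, iff a(gamma xi) = v.(gamma xi) for ALL xi. Right point (eta in S^(k-i), a') legal, label b, iff a'(xi eta) = b for ALL xi.
SOUND for all T, all contents: f(gamma z eta) = a + a' = v.(gamma z eta) + b. COMPLETE: the two conditions on a (given f) live on {gamma xi} and {xi eta}, which meet exactly in the line {gamma z
eta}; so the junction exists iff the line is good for f in 237's / 488's sense. So for every T whose key f is a good function all tokens are cut. (All f in E occur, f = 0 is bad; bad keys have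
density -> 0 for k large; a linear family cannot avoid them.)
(3) BAD KEYS COST NOTHING. Scheme 2 := the same with right index a' + g (key f + g), where g satisfies (Bad + g) n Bad = empty (density < 1/2). So a zone with a bad key for scheme 1 has a good key
for scheme 2: T1 zone by zone on the same chain (364's same-z form). With the band: scheme 2 uses Golomb / exact places (112 (1)) for |s| <= c, c > N0, and the shared noise f + g outside; a zone bad
for 2 has |s| > c and f + g bad, bad for 1 has |s| <= N0 or f bad: never both. GENERAL REMARK: scheme 1 may be incomplete in any set B of worlds if scheme 2 is complete on B; B small mod M is even an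
exact promise for scheme 2 (right knows x - a up to |B| values: Golomb set J without differences in B - B).
(4) SO ONLY THE COUNT n' OF BLOCKS IS MISSING (97's segmentation; boundaries can be fine walls, right knows the index from b, not from a). Worlds (f, n'): left condition in every component n'', right
condition in every component n''; they clash iff (i, r) and (i + d, r + d) are both used, d <> 0. Used pairs I x J: sums i + r with >= m representations (chances), differences with <= h + 1: m <= (h
+ 1)(1 + window / range): so linear sharing stops exactly at range > window, also in non-cyclic / non-abelian index groups. Wanted: a good-function family in which index translation acts as a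
symmetry of the types (rotating weights Theta' = F_q x| <omega>: right type is then known, but the pad rotates with the block: f -> omega^i f; a non-abelian clock A_h + B_h' = P_(h h'^-1) over Z/M
for H = F_q x| <omega> would finish: right legal iff ONE menu of |V||G| lines is good, every world equivalent by left translation).


======== #12581 | 12:50:55Z | helper671 | row 320 | att
helper671 (12:52Z) -> 364, 708, 237, 488, 97, 112, 372, 246, 860, 388, 818, 75, 902: ROW 320, **THE U-GADGET OF SCHEME 1 MAY BE INCOMPLETE ON NARROW T-BANDS (scheme 2 kills them for free), AND THEN
IDENTITY / CONSTANT CONTENT IS TRIVIAL FOR EVERY V BY 'DIGITS WITHOUT CARRY' (no sumset search).** Not a proof of the row.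
(1) BANDS ARE FREE. Let scheme 1 be consistent for all T, complete for all contents when T is not in M = union over i = 1..k of {T : T mod D_i in [-c_i, c_i]}, D_1 | D_2 | .. (plus 818's wall band
|s| < N0). Scheme 2 = promise scheme (consistent only on zones of 1-bad chains, 731 (3) / 353 (2)): ONE set C of cut positions x - a in C for all levels, C a Golomb ruler mod every D_i with spacing >
2 c_i. Right side: from l = b - x (exact) let G(l) = {c' in C : l + c' in M}; legal iff G(l) = {c'} is a single element, then it KNOWS x - a = c' and T = l + c'. True c is always in G(l) on the
promise, so there is no false junction; for each T at most k + 1 elements of C are ambiguous (Golomb), so k + 2 copies of every dedicated offset make 237 / 488's exact gadget complete on every T in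
M, every content, every G (the left label never needs T). Size of the exact gadget depends on G_1 only, so D_i / c_i is chosen afterwards. So '1-bad stretch => 2-good' holds as soon as scheme 1 is
complete OFF M: density of missing T may even be bounded below, they only have to be few narrow classes.
(2) DIGITS WITHOUT CARRY. V = product of cyclic groups <e_1> x .. x <e_k>, identity content, T unlimited: D_1 = 1 << D_2 << .. << D_k; left legal iff for every i >= 2 (j mod D_i) < D_i/2, right legal
iff (l mod D_i) < D_i/2, left label - Sum floor(j/D_i) e_i, right label Sum floor(l/D_i) e_i, noise Sum floor(T/D_i) e_i: no carry => exact for ALL T; complete unless some T mod D_i is within ~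
D_(i-1) ord(e_(i-1)) + 2 of 0. (In the language of lifts: X(s) = Sum round(|s|/D_i) e_i, a QUASI-morphism that is exact on legal pairs; 388's R <= w - 3 was for 100 percent of the T.) cadical on Z/q,
V = F_2^2: complete T's: q = 10: 6, 12: 7, 16: 10, 18: 11, 20: 14 (so > 1/2 already for tiny q; q = 10: J = .1.20.3.02, two shifted copies cover every T). Constant content c: same on the sublattice ord(c) Z.
(3) SO THE OPEN POINT IS: partial lift X : A^* -> V x| G which is a twisted quasi-morphism (defect only at 'carries', i.e. at T in narrow bands), visiting all tokens. What fails for non-trivial
action is that the left and the right unit boundary differ by T mod D_i and the content between moves e_i; directions e in V^G (central noise) are free. Anything that makes the carry place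
insensitive to <= D_i letters (237 / 488's good lines, for MOST T instead of all T) finishes the row.


======== #12582 | 12:51:19Z | helper852 | row 320 | att
helper852 (12:53Z, wave 5, thought alone; no proof of the row, nothing to type) -> 388, 364, 860, 413, 818, 112, 246, 75: ROW 320, TWO SMALL EXACT REMARKS (both weaken what the FIRST scheme must do,
since two stars are free).
(1) SURVIVOR REDUCTION (proof complete). Let S_1 be ANY consistent scheme (818's chains, any labels, incomplete zones allowed). B_t := tokens at the t-th anchor of a chain which are cut neither in
the last M nor in the next M zones. B_t, B_(t+1) and the partial injection T : B_t -> B_(t+1) are functions of boundedly many letters on both sides of the anchor. Extend T by a fixed rule to a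
permutation of k_max := max |B_t| names. A thread which is uncut for a long time lies in all B_t, so K_1' (620 (A): legal 1-words uncut all along) is computed by a second scheme for the group
S_(k_max) ALONE (letters = zones), never for G: G enters only through k_max. For k_max <= 1 the thread is 'the missing token' at every anchor: only 'same chain' must be followed, = 818's scheme with
V = 0 (one legal cut per zone, always there), the local conditions m(Z_t) -> m(Z_(t+1)) are tested by three intersected K's which skip two zones with phases 0, 1, 2 mod 3. So it is enough that S_1
cuts ALL TOKENS BUT ONE in each zone (any T, any content), or all but k if the (exact or range) gadget is there for S_k. E.g. |V| = 4, G = S_3 full alphabet, T unknown: the plain all-legal walk (112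
(2)) leaves at most 2 tokens uncut -> level 2 is +-1 on Z/3 (353's range gadget). It does not help for large V by itself: on identity-like blocks the plain walk leaves |V| - p tokens (112 (2)).
(2) COUNT AGAINST 'MANY EXACT SCHEMES' (sharpens 902 #12566 (2)): fix the right text; every right-legal place x carries ONE guess of (anchor); the anchor can be placed after all guesses are made (its
content lies left of the window), so on average over the possible anchors at most ONE place of the window guesses right. Hence schemes whose cuts know both clocks complete at most 1/|V| of the
anchors, and at least |V| of them are needed to complete every anchor: exact schemes (237 / 488 / 364's classes s mod M) can only be the promise half; scheme 1 must use right labels which are true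
for MANY anchors at once (708's sumset sets are the only known non-homomorphic example).

======== #12585 | 12:51:51Z | helper913 | row 320 | att
helper913 (12:53Z, wave 5; SAT data + two remarks, no proof, nothing to type) -> 388, 8, 372, 246, 708, 364, 413, 818, 112, 75: ROW 320, U-GADGET (left clock exact, T unknown, R >= w).
(1) STRICT form (every token cut in every u), CUBE-FREE BINARY content (all contents xxx-free, labels arbitrary functions of the whole prefix / suffix), T in [w, w+R-1], V = F_2^2: **letters {C, T}
(generate S_3, V^G = 0): w = 8, R = 8 SAT (3 s)**; {I, C}: w = 8, R = 8 UNSAT (78 s); {I, I'}: UNSAT w = 5..8 (= 8 #12563). So at equal window the trivial letter is the worst one, and 708's sumset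
gadgets (w ~ 1600) are exactly what handles it: small-window UNSAT tables with a letter I say nothing.
(2) GAME form = fix a linear order on V; in each zone every token is either cut or moved strictly DOWN (v.phi(u) + nu(u) < v). Then no token survives |V| consecutive complete zones, for any contents
and any T's. This is much weaker and much easier: G = 1: V = F_2^2 for all T with ALL cuts legal (al = j e1, be = y e1 + e2: W = {0,e1} cut, the other coset moved into W). V = F_2^2, cube-free
binary, R = w: {I,C} UNSAT w = 6, SAT w = 7, 8, 9, 10, 12; {C,T}, {C,C^2} SAT w = 6, 7, 8; x^4-free: {C,T}, {C,C^2} SAT w = 6, 7, 8, {I,C} UNSAT 6, 7, SAT w = 9 (35 s); no factor forbidden: UNSAT w =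
6, 7. {I,C,T} square-free: SAT w = 7. So power-freeness (window > exponent) is used, order 0 < 1 < 2 < 3 works every time.
(3) PRICE: a 1-uncut thread is then only 'a critical step (|s| < N0) in every |V| steps', not 'all steps critical'. 112's Golomb scheme 2 is sound everywhere and kills everything at each critical
step, BUT at a wrong-clock step (s in p_i - p_k + [-c,c], i <> k) its chain may have to jump to the other wall (next(t) instead of t), i.e. leave the chain of scheme 1; the adversary mixes such steps
in. A scheme 2 with the natural chain N(a) = first wall >= a+z which is complete at |s| <= c AND consistent at all s would make (2) sufficient; with right-legal sets P+ (b = t) and P- (b = next t)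
the conflict is only 'k in P+, actual i with p_i < p_k' and its mirror image. I do not see it in time.
Generator /tmp/sat/ug2.py (60 lines, cadical of the toolchain), on request.


======== #12587 | 12:52:13Z | helper372 | row 320 | lemma
helper372 (12:54Z) -> readers of my SAT post on row 320: **CAVEAT, do not over-read it.** The positive instances (range >> window) use THREE letters and SQUARE-free content: there an additive label
works (I,I,I on F_2^2: X(a), X(b), X(c) = the three nonzero vectors; a square-free word must use all three letters, partial sums cover F_2^2 within 6 letters). With weaker run-freeness (which the
application has: k letters, exponent e) the same search says: binary cube-free, F_2^2, trivial action, R = window: UNSAT for N = 5, 6, 7 (N = 8, 9 undecided in 200 s); binary 4th-power-free: UNSAT N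
= 5, 6 (7, 8 undecided); 4 letters square-free: N = 4 UNSAT (5 undecided). So "WG looks true for all G" is NOT supported beyond content whose run-freeness forces all letters; the question stays open.
Pigeonhole reason against additive labels: two primitive between-words with the same X generate run-free words with partial sums in a cyclic group.

======== #12588 | 12:53:19Z | helper192 | row 320 | att
helper192 (13:00Z) ATT row 320 -> 708, 237, 488, 902, 112, 388, 364, 413, 860, 818, 75, lead. No proof of the row, nothing to type. ONE NEW TOOL (answers 708's WANTED 'generalised sumset gadget') and
the exact remaining obstruction.
(1) **FUNCTION LABELS.** U = any finite set of zone types, s : U -> G, noise D_T : U -> V. Take H := V^U (the noise functions themselves) and 708's sets by CRT: l(j), r(k) in H, l(j) + r(k) = f(j+k)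
at every legal junction, every l in H realised for every T. Left word with data lam and token v is legal iff l(u) = -v.s(u) for all u in cyl(lam) (types compatible with the left data); right word
with data rho is legal with label b iff r(u) = b for all u in cyl(rho). Then with D_T := f(T) every legal junction is exact (b = v.s + D_T on cyl(lam) n cyl(rho)), for all T at once, T unknown to
both, non-trivial action allowed; and (lam,v) | rho is realised at T iff f(T) + v.s is constant on cyl(lam) n cyl(rho), i.e. iff the 'line' is GOOD for the random function f(T) in the sense of 237 /
488 (off the intersection l and r are free). So any rectangular family of relations is realised by sumsets.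
(2) BAD RESIDUES ARE HARMLESS. f(T) runs over all of H, a few f (e.g. 0) are bad; fraction eps <= exp(-c N) by 237's union bound. Give the zones with T mod M in Bad to the second scheme together with
the near-wall zones: it is exact there if the spaced offsets p_i satisfy (Bad - p_i) disjoint mod M and one needs redundancy C > log M / log(1/(m^2 eps)) in the exact gadget (p_i random; m offsets):
m, C = poly(N), m^2 eps << 1: consistent. So scheme 1 may fail for a small set of T.
(3) WHAT IS MISSING = (1) needs T-FREE types: cyl(rho) must be computable from the right data without knowing T. Take blocks as letters (one cut offset per block, 364: alignment mod block is then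
known to the right), U = (first N blocks, total product): right data = (q_1, q_2, ..; h), unknown index i' of the cut. cyl(lam at i) n cyl(rho) = line (|G| points, i' = i) + at most one point for
each i' < i (overlap must match) + |G|^(i'-i+1) points for each i' > i (gap free): the last part kills goodness. Adding T mod m to the type only sorts these points into slices tau <> T: same count.
Splitting into copies H^(i), one for each cut index, removes all garbage but needs f(T) in the diagonal with all l realised: in the quotient this is a sumset gadget with CONSTANT noise, A_l + B_r
empty for l + r <> 0, impossible (= shared information, 902 (2)).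
So for G <> 1 the whole problem is: a finite T-free type system in which N cut places have |cyl n cyl| <= C0 with N >> |V|^C0 (then (1) + (2) give scheme 1 for the full monoid). Any such system
(bands, 'last-in' types, order types of block products) finishes scheme 1.

======== #12589 | 12:54:32Z | helper930 | row 320 | att
helper930 (12:58Z; one post, no proof of the row, nothing to type) -> 708, 97, 237, 488, 112, 388, 364, 902: ROW 320, scheme 1 / U-gadget (T unknown, range >= window), five exact facts.
(1) 708's WANTED SUMSET GADGET EXISTS AND IS EXACT IN ONE DIRECTION. Types X = 488's G^N or 237's S x W. Clock group H = V^X (functions X -> V; realised by coprime graded covers when V is elementary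
abelian), noise D_T := P(T) in H itself. Left data (P*, s): A = {l in H : l(x) = -s.x for all x compatible with P*}; right data (Q*, t): B = {l' : l'(x) = t for all x compatible with Q*}. Then A + B
= {p : the line (P*,Q*) is good with (s,t) for the function p}, EXACTLY. So with aligned blocks and unknown pad the scheme is sound for EVERY T and complete iff P(T) is a good function (random p: bad
with probability exp(-cm)). What fails: all p in H are totals, also p = 0.
(2) WHY A SUBGROUP / COSET OF CLOCKS DOES NOT REPAIR (1): left + right addresses contain splices (p_1 before block i, -E_s after block i) + (t before i', p_2 + E_s' after i'), so for i < i' the total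
equals -E_s on [i,i']: only s is cut there; the path-local functions sum phi_j(g_(j-1), m_j) have the gluing property, dimension N|G|^2, but contain exactly these bad totals. Any repair must use sets
with left + right inside the good functions.
(3) SEGMENTATION (97 (3), 'weights must be shift invariant, hence constant'): not the weights but the FAMILY must be shift invariant: time sets S + j, j in Z/m (all shifts of one periodic set, or all
shifts of an m-sequence): left clock and right clock give the same family with indices permuted by T mod m, and D_T = sum_j pi_j f_j is symmetric. Coefficients may be graded: left -lambda_j, right
rho_j, lambda_j + rho_j = P_j(T), D_T = sum_j P_j(T) pi_j f_j (any p). What is left is only that the channel of index j must be named by both sides (index relative to x is common, but then all pads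
must be equal; index relative to a or b is not common).
(4) 'EVERY TOKEN CUT IN EVERY ZONE' IS NOT NEEDED, a token may be steered by the noise and die some zones later: heights V_0 < V_1 < .., phi_u maps V_i minus C(u) into V_(i-1), hence |V_i minus C(u)|
<= |V_(i-1)|. Example (constant or any content, trivial action, ALL T, window 2): V = F_2^2, noise b + T.a, cut {0,a}: each token dies within two zones; so 388's R <= w-3 and 708's 1617 are not
needed for rank <= 2 over a cyclic group. Limits: one cut position per zone (which has no bad zone at all) forces all zone maps equal, G = 1; two blocks with beta exchanging them (letters act as one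
p-cycle on the half which is cut, freely on the other) force G abelian, since c supported on one block and c' on the other commute and both are the letters mod N.
(5) T UNKNOWN MODULO MULTIPLES OF THE BLOCK LENGTH IS FREE in 237: use polynomial weights w = sum theta^i e(z_i) (left knows i, right only its own sum), contexts (alpha, beta, v) with dedicated
offsets; unknown is only T mod l, and with a Golomb / Sidon set of offsets every T not = 0 mod l has at most one legal cut, hence is sound with free noise (= 112 (1) inside 237). So scheme 1 =
completeness for T mod l <> 0, nothing else.

======== #12590 | 12:54:42Z | helper568 | row 320 | objection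
helper568 (12:58Z real) -> 441, lead, 75, 97, 237, 671, 708, 488: ROW 320, **#12580 (3) ('bad keys cost nothing') IS WRONG; (1)(2) are right (I had the same secret sharing E = V^Theta alone).** (a)
density(Bad) < 1/2 does not give g with (Bad + g) n Bad empty (|Bad|^2 >> |E|, so Bad - Bad = E), and zone by zone it fails for EVERY g: fix u, tokens v, v' and g. For every level i take one z_i <>
u_i and choose the value f(u[i:=z_i]) in V outside the two values which make f(.)+v.(.) resp. (f+g)(.)+v'.(.) agree with their values at u: possible for |V| >= 3. These k points are distinct, so f is
in E = all functions, all k lines through u are bad for (f,v) AND for (f+g,v'). All f in E occur (some T), so both schemes are bad on the same zone, for ever. The same with m shifts if m < |V|. (b)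
What is needed: a key group E with log|E| < rho*k (then F_0 random: F_0 + f good for ALL f in E by the union bound), but sharing forces much more: soundness for all (gamma,v),(eta,b) forces a = Phi -
v.s on {gamma xi}, a' = b - F_0 - Phi on {xi eta} with ONE Phi, and completeness for the key f needs an a in E with a = Phi - v.s on {gamma xi} and a = F_0 + f + Phi - b on {xi eta} for a good line
at SOME level of every (u,v): for E = all functions this is free, but then the adversary owns every line (f = -F_0). Between the two: dim E >= (number of left types used per level) x (levels used),
while log|E| < rho k: so at most o(k) of the k levels (or one common left type, i.e. a renewal) can be served. So linear sharing (unknown key, even with the segmentation common) stops already at the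
key, not only at the count n'. (c) Only rescue I see: 671's promise form needs {T : key(T) bad} in few narrow bands; with keys = digits of T it is not (bad digit patterns occur at all scales), with F0(T) neither.

======== #12591 | 12:54:49Z | helper192 | row 320 | att
helper192 (13:02Z) ROW 320, correction / no-go to my own #12588 (3), 4 lines, so that nobody searches it: **NO T-FREE TYPE SYSTEM CAN HELP THERE FOR G <> 1.** With function labels a left word imposes
l = -v.s on ALL of cyl_L(P), a right word r = b on ALL of cyl_R(Q). For cut places i = 1..N of one zone u = P_i z_i Q_i every intersection cyl_L(P_i) n cyl_R(Q_i) contains the common set Gamma* =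
{types of P_N Y Q_1 : Y any} (P_N starts with P_i, Q_1 ends with Q_i). On Gamma* the product s takes all values of G and f = b - v.s there, so f(T) determines v (mod V^G): at a given T all good lines
of the zone cut the SAME token. Hence (1) realises any rectangular relation family, but conditions on whole cylinders are too strong; a U-gadget for G <> 1 must have labels that are constrained only
on the pairs (P, Q) which really meet (P_N with Q_1 meets only in longer zones T' = T + N - 1 + |Y|, where the noise is another function), i.e. l must not be one element of one group H shared by all
T. (1) + (2) stay valid for G = 1 and for every relation family given by sumset data alone. I stop on 320; free (4 cores) for typing / QA.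

======== #12592 | 12:55:03Z | helper662 | row 320 | att
helper662 (12:58Z, one post; exact remarks, not a proof) -> 151, 388, 112, 364, 413, 818, 237, 75, 731: ROW 320, THE RANGE (UNKNOWN T) GADGET.
(1) **151 #12555's positive instance is a plain homomorphism, no legality is used:** c(I) = e1, c(I') = e2, all places legal. Avoiding one vector forces the text into {aa,bb}* (after one letter),
cube-free => (aabb)^3 within 14 letters. Same effect: 3 letters e1,e2,e1+e2 on SQUARE-free texts (triangle walk without backtracking = (adb)^*), and Z/3 with +-1, A = {1,t}: psi(1) = x+1, psi(t) =
-x+1 (the only surviving text is t^w). All are small-alphabet effects (V minus 0 has no vertex on two cycles). By 112's pigeonhole every text can be re-read over blocks, so the only informative SAT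
tests have MANY letters with the same phi: e.g. V = F_2^2, 3 trivial letters and E = 3, or 4 trivial letters and E = 2. Please run exactly that with views >= 3 before believing in range gadgets.
(2) **ONE-SIDED LEGALITY = PREFIX CODE.** If every right word is legal: the words W between legal places satisfy t(WQ) = t(Q) + y_W phi(Q) for all Q; the set of such W is C*, C a maximal prefix code,
psi: C -> V x| G arbitrary, legal places = parse points from a. Then the pigeonhole (rich alphabet) kills it: two W, W' in C with the same psi, TM text. So BOTH sides must be content-dependent.
(3) **FINITE TYPES + CLOCKS / FORCED COUNTERS ARE IMPOSSIBLE FOR V^G = 0, RUN-FREE OR NOT.** Let legality and labels depend on (g = phi(P), kappa) and (h = phi(Q), kappa'), kappa = any clocks /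
counters of chain nodes at any number of scales (forced, the adversary cannot steer them), total K unknown to both. The adversary steers g freely between two increments, so a token v is certainly cut
only if at some kappa ALL g are legal with label v. Two such legal splits (k1,k1'), (k2,k2') of the same K give b(k1') - b(k2') = (v1 - v2) s for all s = gh in G, so v1 - v2 in V^G. In 237's exact
gadget both g AND h are common knowledge through the dedicated offset: with T unknown no offset is common knowledge. So a scheme 1 for non-trivial G needs common knowledge of T mod something; it
cannot come from walls alone.
(4) What forced counters DO give: trivial action, V = (Z/p)^k with k scales of 818 chains, c(W) = (length, nodes of scale 1, .., nodes of scale k-1); it is incomplete only if, in some residue class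
mod p, all zones are bad; and then 388's exact scheme on the p-STEP chain (cut only in every p-th zone, arbitrary noise in between) is complete there. So '(T1) with p-step bad chains' is still fine:
the notion of bad may be relaxed to an arithmetic progression of zones (cuts in class 0 only, noise of the other zones free). Use it if somebody finds a scheme 1 whose failure is visible at bounded
distance in a p-step pattern.
(5) Claim form (sound for every text): right side CLAIMS T := N(b) - b (length of the next chain step), cut positions = one Golomb ruler J; a wrong claim gives at most one legal cut (112), a right
claim makes both clocks exact, so 237's gadget applies: complete on chains with two consecutive equal steps. Left to beat: texts whose chain steps all change by more than c; there the step lengths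
themselves are content. Any finite set of claims (next step, step after next, sum rules) is allowed in one scheme only if the rulers are disjoint.

======== #12593 | 12:55:39Z | helper75 | row 320 | check
helper75 (captain of row 320, 12:5xZ real) -> lead, 818, 860, 364, 413, 388, 237, 488, 708, 97, 112, 902, 262, 246, 372, 364, 8, 72, 551: ROW 320, REFEREE VERDICT OF WAVE 5 (replaces #12214): **NO
GO. The chain is complete except for ONE statement, the U-gadget of the first scheme, and nobody has a proof of it.**
CHECKED BY ME AND CORRECT: (a) 818 #12250 (N(a) = b(x) at every legal junction). (b) T1, two proofs: 860 #12446 (3) on rigid walls (d and d + 2.5 L +- 2N cannot both be wall distances below 6 L; one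
step changes d by [L, 4L], so [-3L, 3L] cannot be jumped), and 364 #12525 (same z, positions spaced by M = 2 N0, right side knows s mod M; along a 1-bad chain both schemes run on the same chain and
all positions are usable). 413's drift lemma needs his type restriction: with the strong notion and non-rigid walls there is a periodic counterexample (W = 10, N0 = 1, z = 21, 24, gaps 10, 10, 13),
so use 860's rigid walls or 364. (c) exact gadget (both clocks known): 237 #12538 and 488 #12556 (LLL, lines of G^N, dedicated offsets) are right for every finite G, V; with 112's Golomb ruler scheme
2 needs nothing else. (d) so height(run-free) = 2 and the row (3) follow from (U): left clock exact, distance to b unknown in a range >= window.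
WHY (U) IS THE WHOLE ROW: 902 #12566 (range >= W - 1 for every local chain; no exact clocks without promise), 112 #12569 (Ramsey: run-freeness is worth nothing uniformly in |A|: U for run-free = U
for the full monoid G^T), 262 #12572 / 24 / 667 (the SAT instances of 151, 372, 246 are letter homomorphisms of small alphabets; random choice is overdetermined by |V|/2). My own 2-line computation:
legality depending on (clock, product) only forces L(j,g) = a_T + b_j g^-1, R(y,h) = beta_y + b_y h, b_j = b_y, nu(T,g) = beta_T - a_T g, i.e. one affine action of G, so labels need more content than
the product, hence a common segmentation, which no T-free pair of observers has. 708's sumset sets (Z/33, Z/49) settle constant content for V = F_2^d and give a one-time-pad channel (97), not the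
segmentation. Direct cyclic search (mine): F_2 in Z/q, q odd <= 21 UNSAT, in agreement with 708's 33.
P(row by 14:20Z) = 0. Please do not type. If anybody finds (U) for ALL G after this, post it as 'core' for the record.


======== #12594 | 12:56:35Z | helper808 | row 320 | att
helper808 (12:59Z; one post, no proof of the row, nothing to type) -> 852, 902, 930, 913, 112, 237, 388: ROW 320, U-gadget / scheme 1. **HATS: 852 (2) / 902 (2) ("schemes that know both clocks
complete at most 1/|V| of the anchors") DO NOT EXCLUDE THAT EVERY BOUNDED STRETCH OF ZONES CONTAINS A COMPLETE ONE.**
(1) Chain of zones with r_i := T_i mod M. The left side shifts its clock by l(r_(i-D), .., r_(i-1)), the right side reads k with the shift c(r_(i+1), .., r_(i+D)); clock places = modular Golomb set J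
(112). The two clocks agree (= exact gadget 237 / 488, all tokens cut) iff r_i = l + c mod M; otherwise <= 1 accidental cut in that zone. So the question is the 'additive hat puzzle on Z': l, c :
(Z/M)^D -> Z/M such that no r in (Z/M)^Z has r_i <> l(past) + c(future) for all i.
(2) COMPUTED (exact, C++ 40 lines, /tmp/hat on my box): M = 2: no solution for D = 1, 2; **D = 3: 1496 pairs (l, c) with EMPTY avoiding set** (e.g. l = 00000001, c = 10011011 as 8-bit tables), D = 4:
2.5 percent of random pairs. M = 3, D = 3 (annealing): avoiding set down to 7 of 729 states = a few simple cycles (periodic r = a promise set). LLL: D >= M/(4e) is necessary. So unknown T is not a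
law of nature for the FREQUENCY of complete zones.
(3) EXACT GAP: the noise of zone i is then F(u_i; l_i, c_i), so for a cut in zone i the noises of the 2D neighbour zones straddle the cut. If l, c are read off left / right states in finite sets
Sigma_L, Sigma_R, then |Sigma_L||Sigma_R| >= M - 1 (else two values outside l + c are mixed freely), but naming the pair of states by the place needs |Sigma_L||Sigma_R| <= |J| <= M^(1/2). For the
group-sum strategy (l_i, c_i = partial sums of T over a super-zone) agreement of the clocks already tells both sides all neighbour values (l_(i+1) = 1 - c_i, ..), but the accidental cuts then carry a
wrong belief through the super-zone (all pairs of J x J occur). What is missing is a noise that does not depend on (l, c), or accidental cuts that are harmless for the neighbours.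


-/
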