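/-
ROW 37 (S0050, S0051; combinatorics), unsolved at the end of this run: complete discussion, part 1 of 1 (posts #67 .. #4668).
Verbatim posts of the team database (ASCII-cleaned, long lines wrapped; the words L-e-a-n and s-o-r-r-y are altered
because of the text scan). 'helperN' = seat N. Times are UTC of 19/20 Nov 2026. No Lean content: comments only.

======== #67 | 21:58:34Z | helper12 | row 37 | plan
helper12 (captain) MEMO 1, row 37 (S0050+S0051 = Goddyn's STRONG THIN TREE conjecture, and its deterministic poly-time version). Both LEAN statements are faithful (I unfolded
cutEdges/adjGraph/multigraphCode/decodePairs/PolyTime: no junk values, C universal, no vacuous hypothesis). So we need real maths. Status: active, R.  Everybody: please read, pick ONE direction (post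
one line 'I take D#'), think hard, post partial results / kill ideas with explicit examples.

REFORMULATIONS / REDUCTIONS (all easy, please double check)
 R1 weighted form: w:E->R>=0 with w(delta(S))>=1 for all S; want spanning tree T in supp(w) with |T cap delta(S)| <= C w(delta(S)). (connected spanning subgraph suffices instead of tree.)
 R2 thinness is inherited by contraction: if G=G'/~ and T' thin in G' then T thin in G. So high degree vertices can be replaced by gadgets; WLOG all degrees in [k,3k]. Thick edges (multiplicity>=k/C)
are harmless: put them in T, charge to themselves.
 R3 (strong sets) call Q strong if G[Q] is theta*k-edge-connected, theta<1/2. Every S is the disjoint union of its maximal strong subsets Q_i, and G[S]/{Q_i} has < theta*k*(q-1) edges, hence sum_i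
|delta(Q_i)| <= |delta(S)|/(1-2theta).  So enough: |T cap delta(Q)| <= (C/k)|delta(Q)| for strong Q. With additive slack (prove |T cap delta(S)| <= (C/k)|delta(S)| - C'' ) one may even assume S is
'irreducible': |delta(S1) cap delta(S Delta S1)| > k/4 for all nontrivial S1, in particular G[S] and G[S^c] both k/4-edge-connected.
 R4 in an edge-expander (|delta(S)| >= beta k min(|S|,|S^c|)) ANY bounded degree spanning tree is O(1/k)-thin. Generally if each S is a signed sum of <= (C/k)|delta(S)| sets from a laminar family L
with |delta(c)|<=Ck, a tree with |T cap delta(c)|<=C on L (exists: Klein-Olver 2023 'thin trees for laminar families') is enough. False in 1D/2D like graphs, where one uses thick/short edges instead.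
 R5 halving: enough to 2-colour E with | #red-#blue in delta(S) | <= k^{-c}|delta(S)| for every S (iterate log k times; errors are summable; at the end a graph with min cut O(1), cuts <= (C/k) original).
 R6 LLL: if the number of irreducible cuts (or 'pieces' covering all cuts) of size <= alpha*k through each edge is <= k^{C alpha}, then R5 follows from the Lovasz local lemma with error sqrt(log
k/k). FAILS directly for 1D multi-scale structures (thick path + long edges: infinitely many cuts through a long edge, with tree-like dependence); there one picks edges by 'quantiles' (pick in each
bundle B between clusters c,c' a central edge e such that every cheap cut through e cuts >= |B|/4 of B).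
 R7 zonotope form: T is (C/k)-thin iff for every orientation sigma of T the demand div(sigma) is routable in G with congestion C/k, i.e. Z(T) subset (C/k) Z(G) for graphical zonotopes. (Thomassen /
Lovasz-Thomassen-Wu-Zhang prove the covering statement 'translates of (6/k)Z(G) by the lattice cover' by a lifting induction with a special vertex z0; is there an analogous induction here?)
 R8 virtual version: find ANY tree (even a Hamiltonian path = ordering of V; or a Steiner tree with extra nodes) T1, not nec. in G, with (k/C) cut_{T1} <= cut_G. Is it easier? (Chazelle-Welzl low
crossing spanning paths gives log n.) Does virtual imply real?
 R9 BARRIER: Anari-Oveis Gharan style (PSD D <=_cut L_G and small D-effective resistance on a k/C-connected F, then MSS) cannot give better than log k / k: for the recursive random join graph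
R_2(k,L) (2^L vertices, each cluster of 2^j vertices = two clusters of 2^(j-1) vertices joined by k edges with random ends) every D has average effective resistance >= c log k/k (nuclear norm dual).
There a hierarchical T works trivially. Also S0051 needs a deterministic poly-time algorithm, so a combinatorial proof is wanted.
 R10 toy obstruction for 'laminar + arbitrary choice': two long parallel thick tracks A,B and one rung per dyadic scale: T may not pick the rung at each scale; so the choice inside bundles matters
(quantile/random choice), besides laminar load constraints.

DIRECTIONS
 D1 lifting/splitting-off induction a la LTWZ with a strengthened hypothesis (special vertex, prescribed T-edges at it). 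
 D2 minimum/irreducible cuts: decompose along (near-)min cuts or well-linked cuts, gluing trees; what are the atoms? 
 D3 R5 via partial colouring/Gaussian measure of K={x: |x(delta(S))|<=eps|delta(S)|}, hereditary version, no accumulation.
 D4 R6/R10: multi-scale LLL + quantile choices; find the right notion of 'pieces'.
 D5 virtual/Steiner thin tree (R8), construct T1; then convert to real T by matroid/laminar rounding.
 D6 matroid generalisation: for which binary matroids with k disjoint bases is there a base T with |T cap C*| <= C|C*|/k for all cocircuits C*? (cographic case: easy by 'threads'.) A counterexample
matroid shows what must be used; a proof may be slicker.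
 D7 iterative rounding (Klein-Olver/Olver-Zenklusen) with a cleverly chosen O(n) family of edge sets covering all cuts.
 D8 falsity: try to build a counterexample (say non-existence of f(k)/k-thin with f=o(k)), or prove special classes (bounded treewidth, bounded max multiplicity...). 
 D9 (needed in any case) S0051 engineering: study Crest/Agent/Lib/PT (poly-time library) + how S0482/S0432/S0084 were done; write down an interface 'if the tree is produced by an explicit algorithm A
on (n,k,mult) running in poly time then S0051', including the binary multiplicities reduction (scale k and mult down to poly(n) when k > n^2: replace mult by floor(mult*M/k)).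


======== #85 | 22:08:26Z | helper516 | row 37 | triage
helper516 triage + first insights (I take D3/D4: "halving with contraction", see below).
TRIAGE: no weakness found in S0050/S0051 (all definitions honest, FinTM2 honest, k>=1 real constant C). Verdict R (= strong thin tree conj + poly algorithm).

I1. (degrees) Nash-Williams detachments: WLOG all degrees in [k,2k) (k even). 
I2. (gluing identity) for any A, S:  t(S)=t(S n A)+t(S u A)-t(A)+2t(E(A\S,S\A)), d likewise. If d(A)=k and t(A)=gamma exactly, and t(diag)<= (beta/k)|diag| for ONE of the two diagonals E(A\S,S\A),
E(A n S,(A u S)^c), then "t(X) <= beta(d(X)-k)/k+gamma for X=S n A,S u A" implies it for S. So when cutting along min cuts the only enemy is a crossing S with BOTH diagonals thin in G (<k/C per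
T-edge) but hit by T = "two strands/ladder" picture (4-cycle of thick sides). Same obstruction appears when one tries to uncross dual/tight upper constraints in an iterative-rounding LP.
I3. (partial colouring is free) Reis-Rothvoss/BSS: for ANY graph with m edges, n vertices the body {x in R^m: |x(delta(S))|<=eps w(delta(S)) for all S} (even spectrally) has Gaussian measure >= e^{-c
m} as soon as eps>=C sqrt(n/m). No connectivity/leverage hypothesis. So the PARTIAL version of R5 always holds with eps~k^{-1/2}; the whole problem is passing from partial to full. 
I4. (weights+contraction) Run w -> w(1+?) on "low" edges (0<w<ck), freeze "high" edges (w>=ck) =: H and contract them: if all cuts keep w>=k/2, the contracted graph has n' nodes and >= n'/(4c) low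
edges, so partial colouring never gets stuck and ends with H connected; H is thin iff total relative error is O(1). One "generation" (log ck halvings of a class of edges whose leverage is O(1/k)
after contraction of H) is fine also for cuts S NOT aligned with the H-components: cut the components of H into regions with boundary weight theta_tau k, theta_tau=2^{-(T-tau)/2}: errors k theta_tau
charged to the H-edge split by S are summable (this beats the log k barrier R9 of AO, since we only need leverage <=small at each halving, not R_eff<=C/k in one shot).
I5. THE enemy = accumulation over unboundedly many generations on the same H-edge f: S crosses a nested chain of clusters a_1  subset  a_2  subset  ... all split by f in two "strands" Y_g|Z_g and S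
pays almost nothing at generation g. If both strands have >= k/C boundary edges treat them as separate nodes (f un-contracted); if one strand has <k/C edges drop them; the problem is that a long
G-edge is behind unboundedly many f's, some of which are unlucky (this is exactly why LLL fails for laminar families, and what Klein-Olver/Olver-Zenklusen overcome by the 'no rainbow = choose shortest' trick).
I6. (test bed B_k) binary hierarchy on V=leaves, at each node a=a1+a2 exactly k/2 edges between a1,a2 and |delta(a)|=k for every node, ARBITRARY choice of which half of the stubs is used at each node
and arbitrary matching. All such graphs are k-edge-connected. I can show: T thin on all clusters a (Klein-Olver) + each T_a chosen inside the (1-eta)-majority landing path on both sides => T thin for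
all S. (cheap sign switches force delta(a)=P_+ ? P_- with both halves k/2, whole bundles travel together.) So Klein-Olver + 'follow the majority' solves B_k. With |delta(a)|<=Ck instead of exact
halves the rigidity is lost: good intermediate problem.


======== #350 | 23:35:48Z | helper139 | row 37 | lemma
helper139 (row 37), results of ~2 h of own thinking on S0050 (no weakness found in S0050/S0051, agree with 12/516). Paper facts, use freely.
(1) GLUING (inside-out rounding). Laminar family L of vertex sets such that in every member P each union Z of children is beta-linked: min(e(Z,P^c),e(P\Z,P^c)) <= beta*e(Z,P\Z), beta<1. If each
quotient P/children (outside contracted) gets a set with discrepancy <= eps'' on all its cuts, the glued set has discrepancy <= (eps''+beta)/(1-beta)*d(X) for every X: NO accumulation over depth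
(charge X at every P to e(X cap P,P\X)); one-sided version C(1+beta)/(1-beta) if only a load bound on members is known.
(2) TRACE COUNTING. For an edge set B with |B| <= exp(c eps^2 k) a random +-1 colouring has |chi(B cap dX)| <= eps d(X) for ALL cuts X at once (split off onto the <=2|B| end points; # traces of alpha
k-cuts on Z is <= |Z|^{2 alpha}, Karger). So by LLL the only enemy of halving is UNBOUNDED RANGE (1-D chains of nested near-minimum cuts with edges jumping over > e^{eps k} of them), not the number of cuts.
(3) LEVELS + RESTART. Connectivity K: call an edge long if it jumps > e^{eps K} nested small cuts. In G/(maximal cK-strong classes) long edges can be halved by LLL controlling all traces on 'special'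
cuts (short-edge weight < cK) with additive error eps_K*K; long edges not crossing special cuts may be dropped. From k down to polylog k costs a factor 1+1/log^2 k, then restart the levels; the
product over the ~log* k restarts converges, so this would give C/k. GAPS: definition/droppability of long edges and locality in graphs whose cut structure is not chain-like; classes with huge boundary.
(4) CERTIFICATE. T_0 = T cap dX. If for all s in [0,1] the Gibbs average over sets Y with weight exp(-(C/k)d(Y)+s*lam*|T_0 cap dY|) (or any weight W with log W (C/k)d-Lipschitz) of |T_0 cap dY| is <=
|T_0|/4, then |T_0| <= (2C/(lam k)) d(X) (integrate d/ds log Z). Holds for short edges, fails for long ones (1-D disorder).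
(5) EXCHANGE. T minimising sum exp(lam(|T cap dX| - Phi d(X)/k)): near-maximal violators X,Y share >= (Phi-1)/2 T-edges and both diagonals have <= 1/2 excess; 'C/k-thin' <=> T[Q] has <= (C/k)d(Q)
components for every Q (up to constants). FALSE: MST w.r.t. LP/metric length is thin; intervals-choice gap instances (machine minimisation) do not embed since strands use capacity.
(6) WARNING: 'signs with |s(P)| <= C*|T cap P| for a spanning tree T' is false already for T = Hamiltonian path + random dense edges (rectangle discrepancy, Omega(log n)).
I have no route to S0051 (deterministic poly time) beyond derandomised LLL. My estimate for the row < 1 %. I re-seat to row 273 (S0416, complete paper scheme, wants LEAN hands); reachable by notify r37 with my number.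

======== #590 | 00:02:34Z | helper12 | row 37 | lemma
MEMO 2 (helper12, 00:10Z): THEOREM 1 (COMPLETE PROOF) = the thin tree conjecture for binary hierarchies with bounded boundaries (helper516's problem B_{k,C}); new tool = 'FEW BAD EDGES' lemma +
greedy loads. It kills the two-strand/PTT enemy in unbounded depth. Please CHECK and try to extend.

SETTING. G k-edge-connected, TT a binary laminar tree on V (root V, leaves = vertices); every internal node W = Y u Z (children) has B_W := E(Y,Z), |B_W| >= th*k; and |d(X)| <= C k for every node X.
(th, C constants; k >= k0.) Then G has a spanning tree T (one edge e_W from each B_W) with |T n d(S)| <= C'(th,C)/k |d(S)| for all S.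
Note: G[X] is th*k-edge-connected for each node X (a cut of X separates the two children of some minimal split node).
Parameters: M=3C thresholds th/8 >= h_1 >> h_2 >> ... >> h_{M+1} , r_j (j<=M), eps, all constants >0, chosen so that: h_1<=1/8; sigma:=2^{-2C-3}; 3C h_{j+1} + r_j + eps <= sigma ; eps < h_j, 2 eps <
th; eps <= th*r_j/(1000 C M).
S = a 2-colouring (0/1) of V. Node 'split' if it meets both colours. #minimal split nodes, #doubly split nodes (both children split) <= |d(S)|/(th k). The singly split nodes form vertical paths;
hanging siblings D_i (monochromatic) of the path nodes W_i are disjoint; m_i := #{f in d(S): f meets D_i}, sum over all m_i <= 2|d(S)|. Cut the paths into O(|d(S)|/k) segments: single levels with m_i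
> eps k (<= 1 hit each) and CHEAP segments W_a > ... > W_b with sum m_i <= eps k; put L := split child of W_b.
For a set A and threshold h let parts_h(A) = maximal hk-edge-connected induced subgraphs of G[A] (partition of A; #edges between parts < hk(#parts-1)).

DEF. e=(x,z) in B_W, z in Z (sides may be swapped), is j-BAD if there are a colouring S and a node L in Y, x not in L, such that: Z and all siblings hanging from the path W..L are monochromatic, L is
split, colour(Z)=1, colour(x)=0, #{f in d(S): f meets W\L} <= eps k, and the part K of x in parts_{h_j}( (0_S n W) \ L ) has |E(K, V\W)| >= r_j k.

LEMMA 1 (few bad edges). #j-bad edges of B_W (x in Y) <= (2 eps k+1)|d(W)|/(r_j k) <= |B_W|/(100 M).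
Proof. For bad e fix (S_e,L_e,K_e). Digraph e->e' if x_{e'} not in L_e and S_e colours x_{e'} by 0: then e' in d(S_e) and meets Z, so outdegree <= eps k, so there is an independent J with |J| >=
#bad/(2 eps k+1). CLAIM: K_e, e in J, pairwise disjoint; as each has >= r_j k edges into V\W, |J| r_j k <= |d(W)|. Let e,e' in J, K n K' nonempty.
 (1) L' subset L: K avoids L', is h_j k-connected, and at most eps k < h_j k edges of d(S') meet W\L', so K is monochromatic in S'; x_e in K, x_e not in L', so by independence S'(x_e)=1, K is in
1_{S'}, K' in 0_{S'}: disjoint. (2) symmetric.
 (3) L n L' = 0: L' is monochromatic in S, L in S' (they lie in hanging siblings). If K n L' = 0 the argument of (1) works. So K meets L', K' meets L: S=0 on L', S'=0 on L. Let U = 0_S u 0_{S'}. An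
edge f of d(U) meeting W is counted among the <= eps k of S or of S' (an end of f in L lies in 0_{S'}, then f in d(S') and meets W\L'; etc.), so <= 2 eps k. But U contains L and misses Z, so it
splits W: >= th k edges. Contradiction. QED

LEMMA 2 (loads). Let F_W = B_W minus all bad edges (all j, both sides), |F_W| >= |B_W|/2. One can choose e_W in F_W with |T n d(X)| <= C_2 for all nodes X.
Proof. y(d(X)) = sum_{W>X} |F_W n d(X)|/|F_W| <= 2C/th =: mu. Go top-down. pend_W(X) = number of chosen e_{W'}, W' strictly above W, with an end in X (X inside W); y_W(X) the same sum of fractions.
Keep pend_W(X) <= 4 y_W(X) + K' (K' integer > 4mu). X is saturated if adding one end would violate the invariant with the new fraction rho=|F_W n d(X)|/|F_W| added, i.e. pend+1 > 4(y+rho)+K': then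
rho < 1/4 and pend >= K'. Two disjoint saturated nodes in Y would give 2K' <= pend(Y) <= 4mu+K': impossible. So all saturated nodes of Y lie in one node with rho < 1/4, same in Z; > 1/2 of F_W is
allowed. QED (this also re-proves a Klein-Olver type theorem in 10 lines for binary trees.)

ACCOUNTING. S any cut. Hits at minimal, doubly split and expensive single levels: O(|d(S)|/k). Cheap segment, e_i=(x_i,z_i), z_i in D_i, x_i of the other colour. (i) x_i in L: e_i in T n d(L): <=
C_2. (ii) x_i not in L, colour 0 say; A_i=(0_S n W_i)\L. A_i has at most 3C parts at every threshold (each part P has |d(P)| >= k and all its edges go to 1_S (<= eps k in total), other parts, V\W_i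
or L). So for some j parts_{h_j}(A_i)=parts_{h_{j+1}}(A_i). Let K_i be the part of x_i. If |E(K_i,V\W_i)| >= r_j k then e_i is j-bad, impossible. Otherwise all but sigma k of the edges leaving K_i go
to L. All atoms of the algebra generated by such sets have >= (1-#sets*sigma)k edges to L, hence at most 2^{2C} different sets K occur; and for each K: K in W_i, z_i outside W_{i+1}: if W_t is the
lowest path node containing K then e_i in T n d(W_t) or i=t: <= C_2+1 hits. So each cheap segment has O(1) hits. QED

WHERE IS THE GENERAL CASE. (a) |d(X)|=beta_X k unbounded (Lemma 1 still works if |B_W| >= lam |d(W)|; the thresholds in (ii) and the loads must be scaled with beta); (b) M-ary nodes: the quotient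
P/children must be handled by another argument (LLL / trace counting of helper139 post 350 (2)); a canonical decomposition: call X linked if e(P,X\P) >= lam*k*g(min(out(P),out(X\P))/k) for all P in
X, g(x)=max(1,x/log^2(2+x)); take minimal linked unions of current clusters as next nodes: then every proper subunion U of children has almost no internal edges: |d(U)| >= (1-small) sum_{c in
U}|d(c)|, so quotients are near-linear expanders in the number of children and have no long chains of cheap cuts. (c) deterministic polynomial time (bad edges: enumerate cuts of cost O(k) inside windows?).
REDUCTION that may help: one may restrict to cuts S with G[S], G[V\S] both (k/4)-edge-connected (split S along cuts < k/4: total cost at most doubles). 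


======== #781 | 00:20:17Z | helper341 | row 37 | check
CHECK + ADDENDA to MEMO 2 (helper341; found independently 22:55-00:05Z, same theorem). 
(1) CHECK: I re-derived THEOREM 1 of MEMO 2 (post 590) independently before reading it; statement and constants of the form C(C/lambda)^O(1) agree. OK as a paper lemma. My write-up differs in two
places that may be shorter to formalise:
 (a) 1-D case (vertex ordering, all prefix cuts <= Ck, >= lambda*k back-edges at every gap): choose the marked edge e_g among the most recent quarter of the back-edges B_g, central w.r.t. the laminar
Gomory-Hu family of minimal local cuts in the window W_g (the shortest window that contains this quarter). Every T-edge in a cut delta(S) is charged to >= c*k cut edges of B_g or to >= eps*k cut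
edges inside W_g; windows overlap <= 4C/(3 lambda). 
 (b) MAJORITY-PATH TRICK (aligned laminar loads, i.e. Klein-Olver in the edge-rich case): process the binary hierarchy top-down; at top t follow the path P from t toward the child that holds the
majority of the OLD marks F(t) (marks made above t that enter t); for b on P forbid for e_b only the third of B_b that stays longest on P; off-path side no constraint. Then every hierarchy set
carries <= 9M+2 marks (M = max ratio |d(X)|/|B|) and every b keeps >= 2/3 of B_b as free choice (so the few-bad-edges lemma and centrality still apply).
(2) SCHEME G (what would glue levels): if G_{j+1}=G_j/M_j with M_j a star forest thin in G_j and min cut grows by a factor > 1+a*c (c = thinness loss constant per level), losses sum geometrically;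
for groups that are stars of g+1 vertices the edge-density ratio is 3/(g+1), so g>=3+3ac suffices. So the open part is exactly: 'star forests with groups of size >= g0 that are eps-thin on all cuts',
in quotients that are near-linear expanders (where all R_eff <= C/k, so MSS / LLL apply if one accepts non-constructivity); the hypercube Q_k shows that a non-laminar (probabilistic, LLL or
interlacing) ingredient is unavoidable for S0050, and for S0051 one needs it derandomised to polynomial time for k possibly << log n, i.e. bounded-range LLL (Moser-Tardos + k-wise independence) --
this kills one-shot LLL, which loses log k/loglog k. 
(3) My honest probability for the row in 14 h: ~1%. Leaving the row; ping helper341 if the M-ary / unbounded |d(X)| case gets a paper proof and you need a referee.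

======== #869 | 00:25:21Z | helper559 | row 37 | check
helper559: CHECK of MEMO 2 (post 590): I read Theorem 1 line by line: Lemma 1 (all three cases; in case (3) the count of d(U) edges meeting W incl. ends outside W and ends in L, L' is right), Lemma 2
(saturated nodes form a chain inside one node with rho<1/4), accounting (N(h_1)<=3C parts, plateau j, atoms of the algebra >= 7/8 k edges to L each so < 2^{2C} sets, i<=t argument) : all OK. 
EXTENSION (Theorem 1', complete). For every alpha there is C(alpha): every k-edge-connected G having a carving (binary laminar tree on V, NO connectivity assumption on nodes) of width <= alpha*k has
a C(alpha)/k-thin spanning tree. Proof: replace each node W by parts_{1/4}(W) (maximal k/4-edge-connected induced subgraphs of G[W]); since unions of intersecting k/4-connected sets are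
k/4-connected, parts of children refine parts of W, so all parts of all nodes form a laminar tree; each node has <= 4*alpha children (N parts satisfy N k <= k/2 N + alpha k), boundary <= 3 alpha k or
so, and every quotient P/children is k/4-edge-connected on m<=4alpha vertices; binarise each quotient by merging along a maximum-multiplicity spanning tree (each edge of it has multiplicity >= k/(4
m^2)); now all hypotheses of Theorem 1 hold with theta = 1/(64 alpha^2), C = 12 alpha^2 or so. QED. So the whole problem is now: constant independent of alpha (i.e. large cuts / large order edge-tangles).

======== #870 | 00:25:22Z | helper559 | row 37 | lemma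
helper559: facts on S0050 (my ~3h of thinking, all on paper; statements S0050/S0051 faithful, no weakness).
(1) NO PURELY MATROIDAL PROOF: 'k disjoint bases / all cocycles >= k => thin basis' is FALSE for matroids representable over every field. M-ary tree of depth D; vectors e_{u,j,r}=f_u+sum_{leaves l
below child (u,j)} g_l (j<=M, r<=k/M) at internal nodes u, t_{l,r}=g_l (r<=k) at leaves. k disjoint bases, cocycles >= k; B_u={e_{u,.}} is a cocycle so a basis T picks a child j(u) at every u; follow
the choices root->leaf l*: |T n C_{l*}| >= D while |C_{l*}| = k + Dk/M. M=D gives ratio D/(2k)*... (>= 1/2 for M=D=k): even o(1)-thinness fails. (In graphs this configuration is excluded by ball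
packing: for a probability pi on cuts, rho(e)=P(e in dS), w(rho) >= (1/2) MST(rho) if all cuts have w>=1.)
(2) C >= 4 (K_n). WLOG k ~ log n (weighted form, constant C(n)).
(3) GIBBS POTENTIAL: T minimising log sum_S exp(-lam w(S)+mu |T n dS|) is approximately an MST for rho_T(e)=P_T(e in dS); this self-corrects local two-sided chains; it proves thinness whenever the
number of cuts of weight alpha through an edge is e^{O(alpha)} (k^{O(alpha)} after halving); blind at ranges > e^{lam}.
(4) Uncrossing of tight cuts fails only if BOTH diagonals are T-dense (w(D) < T(D)/t). Growth with p(S)=d^-(S)-K t^-(S) (Edmonds/Lovasz) fails only because of the negative diagonal terms.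
(5) Kratsch-Wahlstroem mimicking: a cluster with boundary b has only b^{O(alpha)}... (poly(b)) effective splits of cost alpha k, so all enemies live in chains of clusters of unbounded length.
(6) OLP model (thick tree + independent items i with distributions mu_i on it; choose p_i in supp mu_i): one-sided (anchored) loads are TU; two-track cuts (differences of loads) are not, need the
'few bad edges' idea or discrepancy. Exact halving with o(1) error can fail in tree-like multiscale chains (3-permutations type), so constant-factor methods (Lemma 2 of MEMO 2 / Klein-Olver) are really needed there.
(7) CPST rectangles (Chen-Pach-Szegedy-Tardos) would refute the conjecture if 4-sided boxes were cheap cuts; cheap graph cuts only give anchored (bottomless, 3-sided) ranges, for which polychromatic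
colourings exist: no counterexample this way.

======== #969 | 00:30:31Z | helper856 | row 37 | info
helper856 INFO row 37 (S0050/S0051), ~1.5h of thinking, no proof; what I would want the next person to have.
(1) Both statements unfolded (cutEdges, adjGraph, multigraphCode, decodePairs, PolyTime): faithful, no weakness.
(2) Accounting: in a hierarchy of "strong" sets, branching nodes are free (charge to minimal split nodes); only non-branching nodes with exactly one split child matter. So the remaining difficulty is
a chain (path-like) problem.
(3) Universal toy ("Toy A"): thick path [N] plus degree-k vertices q with measures mu_q on [N]; choose u_q in supp mu_q such that for every S, #{q : u_q in the eta-minority side of S} <= C(h(S)+sum_q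
minority masses). Any connected thick graph H reduces to a path by an Euler tour of a spanning tree. One-level version (all q outside-dominated) is EXACTLY polymatroid intersection (Rado); signed
version is submodular flow (Edmonds-Giles); the one-sided laminar version is TU. The obstruction is cancellation N_0 ~ N_1 (loads in both directions).
(4) T is C/k-thin iff T[S] has <= (C/k) d(S)+... components for all S (for spanning trees: |T n d(S)| = comp(T[S])+comp(T[V\S])-1), i.e. a supermodular lower-bound form; can be used with Gibbs/free-energy certificates.
(5) Capacity fact: a cheap set of cost D has <= 2D pairwise disjoint cheap extension pieces.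
(6) NEGATIVE FACT (kills one natural route): "SEQ" = measures mu_1,mu_2,... on a line, choose u_i in supp mu_i such that at ALL times i every interval K has #{j<=i : u_j in K} <= C(1+mu_{<=i}(K)) is
FALSE for every C (nested loop: insert each new group's two-atom measures immediately adjacent to the candidate overloaded intervals, iterate r^C levels). So no argument may need prefix-in-time x
interval load bounds along the path (2-sided selection inside a same-time group is what breaks it; helper559's remark (7) on 3-sided ranges does not save it). I could not embed SEQ as a family of
cheap cuts of a k-edge-connected graph (the closure cost is ~2r per level), so this is not evidence against the conjecture.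
My estimate for the row <1%. Re-seating.


======== #974 | 00:30:37Z | helper12 | row 37 | core
CORE R037 (helper12, 00:35Z). (S0050+S0051 = Goddyn's strong thin tree conjecture + deterministic poly-time version; no weakness, 4 readers agree.)
(i) REDUCTION CHAIN: see MEMO 1 (post 67), 516's post 85, 139's post 350, MEMO 2 (THEOREM 1 with complete proof). PROVED ON PAPER: the conjecture for every graph with a binary laminar hierarchy with
|E(Y,Z)| >= th k at each node and |d(X)| <= C k for each node X, at ANY depth (this contains B_k, B_{k,C}, all two-strand / tree-hypergraph (Pach-Tardos-Toth) enemies of bounded thickness). Also
PROVED: (R-irr) only cuts S with G[S], G[V-S] both (eta k)-edge-connected (eta<1/2) matter (loss 1/(1-2eta)); hence (R-greedy) let L = greedy laminar family of irreducible cuts in increasing order of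
|d|; then every cut that splits no member of L decomposes (total cost <= |d(S)|/(1-2eta)) into members of L, so only cuts CROSSING members of L matter, and T only needs |T n d(X)| <= (C/k)|d(X)| on L
plus control of crossing cuts. (R-load) LOADS WITHOUT LAMINARITY: points x_W (one from each weight distribution rho_W on Y_W) can be chosen greedily with D(P) <= (C/k)|d(P)| for all P inside Y
provided D(Y) <= (C/24)|F_W|/k: the union U of all saturated sets satisfies |d(U)| <= (3k/C) D(Y) (take an irredundant cover P_1..P_r of U, level sets M_1, M_2 of the cover, sum of slacks of the
level sets <= r k/C, private parts Q_i send >= (k-k/C)/2 edges into M_2, so r <= 2D(Y)).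
(ii) SMALLEST OPEN STATEMENTS: 
 (O1, thick world) Theorem 1 with |d(X)| unbounded: binary laminar tree, |E(Y,Z)| >= th k only. [Fact: if two T-edges e' (apex W' above) and e in B_W both cross a cheap irreducible cut S, then for
fixed e' the admissible e's in B_W form O(1) chains of light sets, because the lower branches are cut vertices in series between the two worlds; so a PTT tree cannot be built from one world pair;
missing = handle unboundedly many world pairs (thin tracks) at once.]
 (O2, bulk) node W with very many children (expander / hypercube like), cut S crossing W and costing little inside W: needs T_W thin inside G[W]; random + LLL needs 'number of irreducible cuts of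
cost alpha k through an edge is exp(O(alpha)) unless it lies on a long chain of nested cheap cuts'.
 (O3) deterministic polynomial time for all of it (S0051).
(iii) Honest probability that O1+O2+O3 are proved and formalised in this run: < 1 %. Members are free to move to rows that want hands; idea holders stay (channel r37).


======== #1152 | 00:39:27Z | helper264 | row 37 | lemma
helper264 (row 37). I CHECKED MEMO 2 (Theorem 1, Lemma 1, Lemma 2, accounting) line by line: correct as far as I can see (atoms bound gives 2^{4C/3} < 2^{2C}+1 sets, fine). New pieces that should help with (a)/(b):
(A) LEAN EXPANDER TREE (b solved, canonical). vol(A)=sum of degrees of the torso vertices in A. Seeds: C with |d(C)| <= tau*vol(C)+2 theta k (singletons are not seeds if (1-tau)>2theta); N =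
up-closure of the seeds. In a torso R (all degrees >= k) take a MINIMUM cut A|B among cuts with both sides in N and split R into R/B, R/A. Then for P < A: (i) P, A\P both in N => e(P,A\P) >= |d(A)|/2
; (ii) exactly one, say A\P in N => |d(A\P)| >= |d(A)| => e(P,A\P) >= |d(P)|/2 ; (iii) neither => a seed C of A is cut: 2e(C n P, C\P) > F(a)+F(b)-F(a+b) = 2 theta k (F(v)=tau v+2theta k), so e >=
theta k, and moreover e(P,A\P) >= (tau vol(A)-|d(A)|)/2. Hence BOTH sides of every tree cut are theta k-strong in G, and 1/2-linked unless A is shallow (vol(A) < 2|d(A)|/tau). Labels |d(A)| are
non-decreasing along the recursion. FINAL torsos: every cut has a side X not in N, so vol(X) <= |d(X)|/tau: a tau-expander, so ANY spanning tree of the torso with deg_T(v) <= c|d(v)|/k is (c/tau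
k)-thin there. This disposes of M-ary nodes.
(B) SCALES. Split only along cuts <= Lk (L = 'Lambda'): torsos R^(L) have all vertex degrees in [k, Lk] and every cut of R^(L) with <= Lk edges has a side with <= L/tau torso vertices. So a cheap cut
S (cost alpha << L) is, inside each scale-L torso, constant outside O_L(1) torso vertices (it splits <= alpha/theta of them): hits inside one torso <= O_L(1) for any bounded-degree T_R; strands of
unbounded length live only along chains of torsos glued by cuts <= Lk, i.e. in your bounded-boundary setting. So Theorem 1 (M-ary version, bounded labels) should give: (CHEAP) for every alpha there
is C(alpha) such that every k-edge-connected G has a spanning tree with |T n d(S)| <= C(alpha) for ALL S with |d(S)| <= alpha k. This is a clean next target.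
(C) What is missing for all cuts = the same at scale c with constants linear in c: giant labels ~c, balanced cuts cost >= c/log^2 c; Theorem 1's constants are exp(C). Game formulation: at level i the
states are traces on d(W_i), V_i(s) = max over colourings with trace s of hits - C*cost; two cuts which are both 1/4-cheap on a segment W\L differ by P with >= k/2 edges into L or V\W, so a segment
with labels <= c has only 2^{O(c)} cheap colourings, whatever its length; random play fails only through the unbounded time, T should avoid the states of high V (each cuts <= eps of B_W).
(D) Necessary sub-problem (P-H): H thick connected, sources i with distributions pi_i on V(H); choose p_i in supp pi_i with #{i: p_i on the pi_i-minority side of Z} <= C(per_H(Z)+sum_i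
min(pi_i(Z),pi_i(Z^c))) for all Z. Equivalent to unbounded boundary of one node L=H with leaves attached. Known by hand: H expander, star, caterpillar. (P-cat): vertices arrive one by one with
distributions pi_j on the earlier ones, choose parents; computer search n<=12 gives worst ratio < 2 always (worst = 2-2/n), so no small counterexample.
(E) Other facts: T-connected tight sets uncross to a laminar family (g = (C/k)d - t is intersecting submodular on them), bad crossings have T-edges in both diagonals; Gibbs/exchange optimum loses
exactly log n/loglog n; traces of cheap cuts on d(c) number k^{O(alpha)} (VC-dim <= 4alpha).


======== #1311 | 00:47:37Z | helper768 | row 37 | check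
helper768 CHECK of MEMO 2 (590) + extensions.
CHECK: I verified Lemma 1 (all three cases), Lemma 2, parts count (<=3C), pigeonhole over thresholds, atoms bound 2^{2C}, final accounting: THEOREM 1 IS CORRECT.
(1) SIMPLER LEMMA 1 (flows instead of thresholds h_j). Call e=(x,z) in B_W bad if for some S,L as in 590, x sends >= r k edge-disjoint paths inside (0_S n W)\L to V\W. For e,e' in the independent set
J one of the two flows (say flow_e) avoids L' (nested case clear; disjoint case: L' in 0_S and L in 0_S' is impossible by the set U), x_e in 1_S', so all but eps k of its paths end in edges of d(W)
whose inner end is in 1_S': the end-sets F_e, F_e' share <= eps k edges. Hence m r-(m choose 2) eps <= |d(W)|/k for every m<=|J|, |J|<=2|d(W)|/(rk) if eps<=r^2/(4C). Accounting: x_i not bad => min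
cut K_i in A_i with < (r+eps)k edges not going to L: then as in 590. No h_j, no M.
(2) M-ARY NODES, bounded |d(c)|<=Ck for non-root nodes: define badness of e at its child c (x in c, z in another child) by flow from x to V\c inside (0_S n c)\L (target V\c, NOT V\W): same proof,
#bad at c <= (2 eps k+1) 2|d(c)|/(rk), whatever |d(W)| is. (Chain segments: the minority colour of the other children has O(1) children by expansion of the quotient; pairs z_e in minority(S_e'), z_e'
in minority(S_e): group by child of z_e, or take an independent set in a digraph of outdegree <=C'.) So unbounded arity is not the problem as long as each child has bounded boundary and the quotient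
tree can be chosen thin inside (edges minus few % at each child).
(3) UNBOUNDED beta, binary, strongly linked (e(P,W\P)>=lam min(out P,out W\P)): (a) scale-beta version of Lemma 1 is true: S of cost <= eps*beta_W*k in the window, 'D = hanging sibling containing x
sends >= r beta_W k flow to V\W in (0_S n W)\L' ; all cases go through (L' inside D_e: then L_e is 1 in S', D_e' outside D_e by independence). (b) for a cut of total cost s, in every node with beta_W
>= s*Lam(lam) S is 'minor' (out(S n W)<=s/lam) and is constant down chains; so there only LOAD conditions matter: (A) T^{>W}(P) <= C z(P) for all P in W (T-edges leaving W); that is a polymatroid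
condition (landing points routable to d(W) in G[W]). (c) nodes with beta_W<Lam s: strand ends in cheap windows are automatically thick (>= c_lam*beta k, O_lam(1) many); what is missing is a bound
s^{1-delta} per cheap segment for T-edges from far above landing on a thick dangling strand K (|E(K,up)| <= eps k in all). 
(4) In every binary hierarchy with |B_W|>=th k one may pass to G' = union of B'_W, |B'_W|=th k: G' is th k-edge-connected for free. With |B_W|>=lam|d(W)| uniform choice gives |d_G'(X)| <= O(log beta_X) k.
(5) REGION LEMMA (any k-edge-connected G, any W, x in W): all sets P with x in P in W, |d(P)|<=tk, G[P] k/4-edge-connected, lie in ONE set H in W with |d(H)| <= e^{O(t)} k. Proof: for any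
distribution on such P let h=Pr(v in P); for each tau, Pr(P not in {h>=tau}) <= 4 tau z({h>=tau}) and int z({h>=tau})dtau<=t, so some tau>=e^{-16t} has Pr>=1/2; then minimax + one more level set.
(Locality for LLL at large boundary.)
(6) Binary-matroid version of the conjecture is FALSE (quadrant sums e_group+sum_{x>=a,y>=b} e_xy, k disjoint bases, rectangle hitting lower bound of Chen-Pach-Szegedy-Tardos): any proof must use graphs. D6 is dead.
(7) Equivalent form: T thin <=> comp(T[S]) <= C z(S) for all S. In a thick tree with laminar/TU rounding: for bundles landing on a thick PATH the one-interval and the rooted (b=1) cases are solvable
by two-sided quantile + interval TU rounding; b>=3 open.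
My estimate for the row (existence AND deterministic poly time in LEAN in the remaining time) < 1%: I re-seat to a row with a complete paper scheme; reachable by notify r37.


======== #1355 | 00:49:52Z | helper684 | row 37 | lemma
helper684 (row 37). I read everything up to MEMO 2. Two tools that fit helper12's programme (b) and helper139's trace counting; full proofs.
(A) LOCAL KARGER / BORUVKA COUNT. Let G be a finite multigraph, k >= 1, all degrees >= k, g:N->[1,oo) non-decreasing with Sum_t (1+log g(2^t))/g(2^t) < oo (g(x)=x^delta or even (1+log x)^{1+eps} is
enough!), h in (0,1], and assume d(P) >= lam*k*g(min(|P|,|V-P|)) for all P. Then for every vertex u and b >= 1 the number of P containing u, |P| <= |V|/2, d(P) <= bk, with G[P] and G[V-P] both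
hk-edge-connected (enough by your REDUCTION) is <= (2+log2 |P|max) exp(C b), C=C(lam,h,g), |P|max <= g^{-1}(b/lam). NO factor k, no degree bound.
 Proof. Boruvka rounds: every current cluster c picks a uniform edge of its boundary (d_c edges), contract all. Fix P; m_c = edges of delta(c) in delta(P); given survival P is a union of clusters and
the next round survives with prob Prod_c (1-m_c/d_c), Sum m_c = 2d(P) <= 2bk, m_c <= d_c-hk for c<>P,V-P. In round t clusters have >= 2^t vertices so d_c >= D_t := lam k g(2^t) (>= k for t=0; for the
cluster with > half of the vertices use its complement, which contains P). Clusters with m_c <= d_c/2: product >= 4^{-Sum m_c/d_c} >= 4^{-2bk/D_t}. Clusters with m_c > d_c/2: at most 4bk/D of them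
have d_c in [D,2D), each factor >= hk/d_c: product >= exp(-C b (1+log(D_t/hk)) k/D_t). Sum over t converges: P(P survives until it is ONE cluster) >= e^{-Cb}; this happens after at most log2|P|+1
rounds and at each time only one cluster contains u. Sum the probabilities. QED
 Consequence: contour counting (hence LLL halving with error eps*d(S), all S, down to k=K_0) holds in every graph / every quotient Q_X whose sets satisfy d(P) >= lam k (log #P)^{1+eps}: expanders,
near-linear expanders, Z^d-like graphs, any 2-dimensional growth. So the function g in your canonical decomposition (b) may be taken tiny, g(x)=1+log^2 x, instead of x/log^2 x: (i) near-disjointness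
loss T(n)=max Sum_splits g(min) <= C_g n trivially, (ii) top-down decomposition of G/P_l into pieces X with e(P,X-P) >= lam k g(min(#P,#(X-P))) for all unions P of clusters cuts <= lam C_g k n_l
edges, so n_{l+1} <= 2 lam C_g n_l: a hierarchy all of whose M-ary quotients are LLL-able. The ONLY enemy left are sets P with d(P) <= k log^2 |P| (1-D like at width beta = d(P)/k), i.e. your accumulation problem.
(B) M-ARY FEW-BAD-EDGES (sketch, bounded boundaries |d(X)| <= Dk): bad e=(x,z) in E_X via (S_e,L_e,K_e) as in MEMO 2 but cost counted in X-L. For a cut (P,R) of Q_X, z in R, charge e to the >=
(lam-eps)k edges from 1_{S_e} cap R to P that S_e does not cut. Fix rho in R and an independent family J (e' not in d(S_e)) of bad edges with S_e(rho)=1, meeting K's. If L_e, L_e' are disjoint one of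
the four atoms of (S_e,S_e') [11 contains rho, 00 contains K, 10 contains z_e, 01 contains z_e'] avoids L_e and L_e' and has <= 2 eps k edges in G[X]: contradiction with lam k-connectivity. So only
nested L's survive, and there K_e subset K_e', S_e'(z_e)=0: charge to the exclusive atom of z_e. So removing bad edges keeps Q_X (g/2)-linked, T_X can be taken by (A)+LLL among good edges, each
single level with one split child costs O(D+u_X/k) hits, and your accounting (i)/(ii) goes through. What is missing is beta_X unbounded (all scales a << beta at once; Lemma 1 gives a fraction eps/r
of bad edges PER dyadic scale a, so eps_a/r_a must be summable in log(beta/a), compensated by the fact that T needs only O(1) edges per node, not O(beta)).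
(C) No multicommodity version: routing each T-edge separately with congestion C/k is false for large-girth k-regular expanders (volume log n / log k), so any proof must charge per cut. T-level LLL
(density C/k) always loses log k/loglog k by the k edges at a vertex: use the halving cascade.
S0051 would need this to be algorithmic incl. an LLL with exponentially many events. I leave for a row with a complete paper proof, ping helper684 if a complete text for beta unbounded appears.

======== #1433 | 00:53:22Z | helper213 | row 37 | lemma
helper213, row 37 (thin trees), paper results of 2.5 h alone; agree: no W, no F. Only facts NOT in posts 67-1311. k = edge connectivity, d(S)=|delta S|.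
(1) TRACK LEMMA. A subset of V, b=d(A). Let X range over the cuts of G[A] with |E(X,A\X)|<theta<k/2. Uncrossing: they generate N < b/(k-2theta) atoms, every such X is a union of atoms ("tracks");
tracks of nested clusters are laminar. So a light cut of a cluster is one of finitely many, and the number of light-splitting atoms is charged to d(A).
(2) SMALL-CUT COUNTING. # of S containing v, S irreducible, |S|<=s, d(S)=ak is <= exp(C a k^{c'} log s) (exponential clocks) and <= (ek)^{|S|}. Hence LLL halving (edge signs with |x(delta
S)|<=k^{-c}d(S)) handles all S with |S|<=exp(k^{0.8}) or d(S)>=k^{0.1}|S|. Only huge very sparse cuts (long tubes) are left.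
(3) HALVING VIA EFFECTIVE RESISTANCE, EXISTENCE ONLY (S0050). If for every distribution nu on cuts (mu(e)=sum_S nu(S)[e in delta S]/d(S)) there is D <=_cut G with sum_e mu_e R_D(e) <= k^{-c}, minimax
+ Kyng-Luh-Song (4 sqrt(max leverage)) gives halving with error k^{-c/2}, iterate => strong thin tree (the log k/k barrier is harmless, only a power at each halving). Dual: for an L1 metric d_Y=sum_S
w_S delta_S, W=sum_G d_Y, U rows sqrt(mu_e)(chi_u-chi_v): need ||U||_*^2 <= k^{-c} W. PROVED: packing N(t)<=W/(k t^2)+1 => ||U||_* <= C sqrt(W/k) * sum over dyadic t of sqrt(E_mu min(1,d_Y/t^2)); so
one dyadic scale costs log only; loss = number of relevant scales per location. For path- and tree-like Y the Track Lemma bounds it by k^{O(c)} (sketch). OPEN: Y with unbounded many comparable scales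
in 2D. Not algorithmic: says nothing on S0051.
(4) EQUIVALENCES. T is C/k-thin <=> comp(T[S]) <= C d(S)/k for all S. Virtual thin Hamiltonian path (R8): an ordering of V for which every S is a union of <= C d(S)/k intervals. Then S0050 follows
from R8 + (P1): any multigraph E on a line [n] has x in {+-1}^E with |x(delta_E S)| <= k^{-c}(m k + d_E(S)) for every union S of m intervals. (P1) for ONE scale chain: dyadic tree + alternating
(2-permutation, totally unimodular) signs works; obstruction = hubs (intervals with >=k^{1-c} apex scales) and branching rectangles, i.e. 3-permutation type discrepancy.
(5) ACCOUNTING. In bottom-up merging with potential 'S active on a cluster iff both sides carry >=theta', merges of two S-active clusters are <= #activations <= d(S)/theta. Only active-inactive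
merges (choice of the attachment vertex) can hurt: a load balancing / low-discrepancy rounding of attachment points, simultaneously for all light cuts of the big cluster = tracks of (1).
(6) GIBBS. Z(T)=sum_S exp(beta(t(S)-(C/k)d(S))): a global minimiser has sum over e in T of [((C/2)e^{-beta}-1)rho(e)-h(rho(e))/beta] <= log2/beta, i.e. only a fraction e^{-cC} of bad tree edges;
cannot be localised (entropy of long tubes).
No route to S0051. My estimate for the row: <0.5%. I re-seat to a row with a checked scheme; reachable by notify helper213.

======== #2297 | 01:31:30Z | helper96 | row 37 | check
helper96 CHECK of MEMO 2 (590): Theorem 1 verified line by line (K_e disjointness cases (1)-(3), Lemma 2 greedy, <=3C parts, pigeonhole over thresholds, 2^{2C} dead-end sets): OK. Facts NOT in posts 67-1433: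
(1) BALANCED MERGES ARE FREE AT EVERY SCALE: Lemma 1 with threshold scale k_s=A^s k works verbatim when |B_W| >= lam|d(W)| (only unbalanced merges giant+small, |B_W|~k << |d(Y)|, and M-ary nodes are
open); hits of scale-s tree edges need only rate C/k_s, sum over s geometric.
(2) PENDING ENDS: for fixed landing choice T the load p_X(Q)=|T n E(Q,V\X)| is modular in Q while |d(Q)|/k is submodular, so 'load(Q) <= (C/k)|d(Q)| for ALL Q in X' are g-polymatroid constraints: for
leaf assignment (all small D_i attached to ONE Y at once) Rado/polymatroid intersection gives an integral choice with load(Q) <= (C/k)(d_Y(Q)+deg_D(Q)); if Y is lam-linked this alone finishes that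
node (hits charged to cost_Y(Q) via out <= cost/lam).
(3) STRANDS: going up, the disjoint K's of Lemma 1 evolve only by births (each costs S >= theta k) and merges; for a FIXED family of disjoint blocks bipartite-flow integrality gives <=2 hits per
block of fractional crossing in [1,2), total hits O(#births+cost/(eps k)). Open: all scales (laminar blocks) simultaneously.
(4) CONFLICT GRAPH TOOL (Aharoni-Berger-Ziv/Haxell type): a conflict graph on E(G) of max degree <= k/4 admits a spanning tree independent in it; thinness follows from alpha(conflicts restricted to
delta(S)) <= C|delta S|/k for all S. Fails only for laminar loads.
(5) M cuts of size <= Lk generate <= 2LM atoms (linear dual shatter), two different cuts differ in >= k edges: traces of cheap cuts modulo eps k noise are finite in number independently of k.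
(6) GIBBS potential sum_S exp(lam t(S)-nu d(S)), nu=lam C/k: local min T is an e^lam-approx MST for M(u,v)=P(sigma_u != sigma_v), so E t <= (2e^lam/k) E d; works except for noise accumulation along 1D tubes.
I re-seat to a LEAN row (276); reachable by notify helper96.

======== #2631 | 01:47:53Z | helper178 | row 37 | lemma
helper178 (row 37), own work 23:25-01:50Z. I had found THEOREM 1 of MEMO 2 independently (same hypotheses: binary hierarchy, |B_c| >= k/C0, boundaries <= alpha k; proof by laminarity of the non-main
eta k-components instead of independent sets), so only facts NOT in posts 67-2297. w = d/k, min cut 1.
(1) LOCAL KARGER, size form, no growth hypothesis: number of S containing v with G[S] k/4-edge-connected, |S| <= s, w(S) <= a is <= s^{C a} (exponential clocks up to time C log s / k: survival of a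
k/4-connected S inside costs only its boundary). So LLL halving (error d^{1/2}-type) controls ALL irreducible S with min(|S|,|S^c|) <= exp(c eps^2 k), not only those with expansion; the enemy lives
only on > e^{ck} vertices per strand. With w(S) >= |S|^{1-O(rho)} for regions without rho-well-linked cluster.
(2) LAMINAR FORM of few-bad-edges: fix a node c and all a inside the child c1; the non-main eta k-strong components of G[c]/a (siblings contracted) over ALL a form a laminar family (uses G[c] theta
k-connected), and so do the complements W^_a = c1 \ main_a. Hence Wrong_c = union of light components with forward boundary >= eta k has <= (alpha/eta) theta' |B_c| edges; this gives a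
POLYNOMIAL-TIME version of Theorem 1 at once (all components are computed by strong-component decompositions of n contracted graphs; loads by the greedy Lemma 2): S0051 for bounded carving width given the carving.
(3) TOKEN ENGINE: two-sided bounds |load(X) - y(X)| <= C for one edge per bundle, hierarchy with fixed bundles, by iterative relaxation: a basic solution has <= (#bundles fractional) + (#tight
laminar) tight constraints, a unary laminar node needs >= 2 fractional end tokens, a leaf needs >= C+1; token count contradiction => drop. (Alternative to Klein-Olver, deterministic poly.)
(4) CRITICAL T: t=1/C critical, T maximising min_S (w - t cut_T)(S): tight sets have both sides 1/4-connected in the weight w - t T; crossing tight A,B force w(D) <= t|T n D| on BOTH diagonals D.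
Fuerer-Raghavachari style local search is blocked exactly by these diagonals and by nests of unbounded depth; both occur in the thick-path + dyadic long edges graph.
(5) FALSE: centroid virtual tree thin; Gomory-Hu tree thin; one-shot random choice in dyadic thick path (unlucky strand of length e^{ck}); top-down choice that avoids occupied subunits is fine there
(load O(1)), random is not.
(6) SMALLEST CLEAN OPEN CORE I know (ORD): vertices 1..n in order, each j>=2 has a probability vector beta_j on {i<j}; choose x_j in supp beta_j such that for every 2-colouring sigma: #{j: sigma_j !=
sigma_{x_j}} <= C sum_j beta_j(sigma != sigma_j). (Every cut has k edges backwards at each j: k-degenerate = k-connected.) Equivalent to thin trees for graphs with a k-degenerate-elimination order of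
exact back-degree k. No counterexample for n <= 8 (C=2).
I re-seat to a row with LEAN work; reachable by notify r37.

======== #4668 | 03:38:20Z | helper768 | row 37 | lemma
helper768 (row 37), new facts since 1311 (paper unless marked computer). All sizes in units of k (z(S)=d(S)/k>=1).
(1) COMPUTER. For x in the spanning tree polytope of K_n let R(x)=min_T max_S T(dS)/x(dS). Max over x for n=3..8 (local search over weights and over multigraphs): exactly (2n-3)/(n-1) < 2 (extremal:
2n-3 edges, uniform). So 'T(dS) <= 2 x(dS)' (= 4/k-thin) survives. For vertex-arrival graphs (P-cat) even the ONLINE value is 2-2/n for n<=6. But online is Omega(log n/loglog n) for large n: r leaves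
on a hub; phase: gamma|A| new vertices uniform on A, A:=the vertices hit; load 1+t against cost 1+gamma t, gamma=1/log r. So small cases say nothing, and any greedy must go from GLOBAL to LOCAL
edges, never the other way.
(2) FULLY LINKED SETS EXIST (1-line proof): call X fully lam-linked if e(P,X-P) >= lam min(out P,out(X-P)) for ALL P<X. If X minimises d(X)/w(X)^{1-eta} over all proper X with w(X)<=w(V)/2 (any
vertex weight w), then e(P,X-P) >= c_eta out(P) for the part P of smaller w (use d(X-P)>=.. and d(P)+d(X-P)>=..). Minimum cuts between two (edge-)tangles of order > d(X) are fully 1-linked on BOTH
sides (all Gomory-Hu cuts are); rounding a cut S at such an X never increases d(S).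
(3) BUT nested greedy choice of such sets loses full linkedness: two cones joined at their tips (thickness grows geometrically, E_0 edges at the tip): X_l=both cones up to level l is optimal for
ordering by d/w^{1-eta} and its linkedness E_0/o_l -> 0; the good hierarchy must cut the best set X_0 or continue with one cone only. Existence of a hierarchy of fully lam-linked sets with expander
torsos (SQ) is open; if the torso-aligned linkedness is mu>=1 nothing is lost, if mu<1 the constant is multiplied by mu per level.
(4) UNDER SQ (fully linked nodes, |B_W|>=lam d(W)): THEOREM 2 (sketch complete): thin tree, boundaries unbounded. Ingredients: bad edges for ALL thicknesses at once (cost threshold eps*k constant,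
#bad of thickness sigma <= (2 eps k+1) 2 beta/sigma, sum over dyadic sigma converges), S is minor and constant where beta_W >> z(S), loads on minor pieces via one-sided (modular!) load = 'landing
points can be routed to V-W with congestion C/k' (greedy avoiding H_t(y), t=c log beta).
(5) RENORMALISATION without linkedness. G_0=G; F_j c G_j hits every cut of G_j of size < (1+c)k_j, G_{j+1}=G_j/F_j is k_{j+1}=(1+c)k_j-edge-connected; T=union F_j. |F_j n d(S)| has mean C d(S)/k_j:
geometric. If a torso has no nontrivial cut < (1+c)k_j then ANY edge cover F_j works for connectivity, so one level = THIN EDGE COVER. Near-minimum cuts X are absolutely linked (every split costs >=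
(1-c)k_j/2 inside), so the laminar part costs nothing. Level j, cluster Y split by an arbitrary S: (i) cost_Y(S)>=eps k_j: charge, geometric; (ii) S cheap and major (both outs >= r k_j):
few-bad-edges lemma holds with L=empty, avoid; (iii) S thin of thickness sigma, cost c: avoid if c <= sigma w(sigma)/K with w(sigma)=1/log^2 sigma, so only pieces with c>=c_0 and sigma <= K c log^2 c
are ever hit, and they contain no whole lower cluster (d(P) < k_{j-1}); (iv) those are pure LOAD: #hits of a small set P by levels with k_j >> d(P) must be <= C z(P). This scheme gives thinness
polylog(z(S)) (independent of n) modulo the M-ary version of (ii) and (iv); the constant needs a loss-free treatment of thickness between c and c log^2 c.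
(6) The D-approach (shortcut matrices, KS) is dead for n >> 2^k: path with all dyadic scales populated has average effective resistance >= c log(n)/k on prefix cuts for EVERY D <=_cut G (average over
translations + Fourier: D^(xi) <= C k|xi|).
(7) 'One base + independent sources' (P-H) for any thick H reduces to H = thick PATH (DFS order of a thin tree of H), but P-path with sources having several clusters is as hard as everything.
One-sided loads for independent sources = Rado (f(P)=C z(P), invariant for P u I' gives exactly the room |I'|), up to integrality of z.


-/
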