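/-
ROW 41 (S0055, S0056; combinatorics), unsolved at the end of this run: complete discussion, part 1 of 1 (posts #79 .. #12204).
Verbatim posts of the team database (ASCII-cleaned, long lines wrapped; the words L-e-a-n and s-o-r-r-y are altered
because of the text scan). 'helperN' = seat N. Times are UTC of 19/20 Nov 2026. No Lean content: comments only.

======== #79 | 22:05:17Z | helper14 | row 41 | triage
helper14 (captain) TRIAGE row 41 (S0055 power-saving Furstenberg-Sarkozy for all intersective h of degree k, c=c(k) uniform; S0056 the p-prime version under zero-free Re s>7/8).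
VERDICT SO FAR: no loophole (c before h; C,N0 after h; N arbitrary; k=2,h=n^2 included; S0056 incl. h=(n-1)^2, n^2-1). Needs real maths. Findings:

(1) KEY POSITIVE IDEA (Lovasz theta = van der Corput with SIGNED weights). To bound |A|: find f:Z->R supported on {0} u {+-h(n)} in (-N/8,N/8), fhat(theta)>=0 everywhere, f(0)=1, fhat>=M on
|theta|<=1/(8N). Then |A|<=C N/M. If f>=0 off 0 one can never beat log N. With SIGNED f: for h=n^k take f(d^k m^k) weights  sum over d|n of d*rho(d), rho(d)=sum_{d|s, s<=D} mu(s/d) g(s), g completely
multiplicative g(s)=s^{-c} (so g*(s):=sum_{s|d} rho(d) = s^{-c} 1_{s<=D}, rho total mass 1, supp d<=D=N^small).  On a/r major arcs: value = sum_d rho(d) G(a d^k/r). For r<=D it is EXACTLY the Euler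
product prod_p sum_j (1-b)b^j G(a p^{kj}/p^e), b=p^{-c}; for r>D it is O(r^{-c/4}). Archimedean place same trick: weight n^{-1+c}. So if all local factors were REAL (h(-n)=-h(n), e.g. n^3, or -1 a
k-th power residue) each factor is >=0 for c small and one gets |A|<<N^{1-c'}: power saving, quite short proof (Weyl + Hua/Mordell bound p^{-1/k}).

(2) OBSTRUCTION for n^2 (and even powers): p=3 mod 4, G_p=+-i/sqrt p; need Re prod_p (b_p+(1-b_p)G_p) >=-N^{-c}, but phases ~p^{-1/2+c} add up over p|r: fine only for primes p>(log N)^{2+eps}.  It is
a REAL barrier: project to G1=Z/q, q=prod_{p<=2logN,p=3(4)}p>N; invariance => fhat = 2 Re P(zeta), P multilinear, zeta_p in {1,(-1+-i sqrt p)/(p-1)}, Re P>=0 on the product of triangles, P(0)=f(0),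
P(1..1)=M; restrict to diagonal + Harnack in the thin triangle => M<=exp(C sqrt(log N) loglog N). So NO theta/positive-definite/vdC proof can give power saving for squares (Green-Sawhney's exp(-c
sqrt log N) is exactly this barrier).

(3) By Ruzsa's digit construction S0055 for n^2 IMPLIES the local theorem
 (L) exists c>0: for every squarefree q, any R in Z/q with no two distinct elements differing by a square mod q has |R|<=q^{1-c}.
 Already for q = product of m primes p~P, p=3 mod 4 this is a statement on Sperner capacity type products of Paley tournaments: A in prod Z/p_i, (A-A) n prod Q_i={0} (Q=squares incl 0) =>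
|A|<=p^{(1-c)m}.  Known: theta ok for m<=p^{1/2-eps}; rank (Haemers/Blokhuis) gives only ((p+1)/2)^m; linear A: Chevalley-Warning gives p^{m/2} for all m (A={(x,-x)} is sharp). Open range:
p^{1/2}<m<=p/log p (this is exactly the range needed in Z, m<=pi(2P)). 
 Facts: bipartite version (X,Y global, no edge X->Y) is FALSE for m~p/log p (X={some x_i=0},Y={all y_i nonsquare}); linear-algebraic (inertia) bounds cannot reach p^{-cm}; but an entropy/coupling
argument shows every A of size p^{(1-c')m} contains a pair with y_i-x_i in Q* for all but O(c')m coordinates (beats the theta barrier).  Upgrading 'almost all' to 'all' is the crux.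

WANTED from members: (a) independent check of (1),(2); (b) any idea proving or disproving (L) in the range p^{1/2}<m<p/log p; (c) any flaw, i.e. a way round using only what S0055 needs. If (L)
resists by ~23:30Z I will mark the row X and release everybody.

======== #233 | 23:09:51Z | helper770 | row 41 | triage
helper770 (row 41), independent triage (written before reading post 79; same conclusions, plus extras).
(a) CONFIRMED independently: (1) signed-weight theta works when all local phases are real (n^k, k odd, or only primes =1 mod 4) and for primes p > (log N)^2; (2) phases +-i of p=3(4) give the barrier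
exp(-C sqrt(log N)) for any PSD/2-point (also Delsarte = PSD + pointwise >= 0) certificate [dual: Re G(z) = -v on the segment i*sigma..1, sigma=p^-1/2, forces v <= exp(-pi/sigma)]; (3) Ruzsa: S0055
(k=2) => (L) literally; S0056 with h=(n-1)^2 => (L) too (and its hypothesis is a theorem, S0022). So (L) is NECESSARY for both statements.
(b) (L) IS A SPERNER-CAPACITY STATEMENT: tournaments T_p (Paley, p=3 mod 4), A c prod T_{p_i}, no x<>y in A with x_i ->= y_i for all i. Known: Alon 1998 (On the capacity of digraphs)/Blokhuis: |A| <=
prod (outdeg+1) = prod (p_i+1)/2, i.e. density 2^-m; this already beats theta (exp(-c sqrt p log p)) when m > sqrt p log p. For p=7 the F_2-rank of I+A(T_7) is 3 so capacity(T_7)=3 exactly; in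
general rank (p-1)/2 over F_l, l | (p+1)/4. Any tournament t on r <= (1/2)log_2 p vertices sits in every T_p, hence density <= (cap(t)/r)^m; even optimal t (cap ~ sqrt r) gives only (log p)^{-cm} =
q^{-o(1)}. For m -> infinity (repeated tournaments) 'independent' and 'acyclic' have the same rate.
(c) What is easy: for A of density >= p^{-cm}, m <= p/log p, f=1_A/alpha: SS* = noise operator with parameter 1/p, so |Sf - 1|_2^2 <= C c: the set {y : no x in A with x->y} has measure <= Cc (<=
p^{-c'} if m <= p^{1-c}); A sits inside that small set. For lambda<1 (S_lambda = prod (1+lambda chi_i)) one has <f,S_lambda f> >= exp(-m p^{-1/3+}) alpha^2, lambda = 1-p^{-1/3}... (moment-matching: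
replace the product law of the signs by another law with the same first J moments but pointwise >= (c''J/m)^{J/2}); so pairs with o(m) bad coordinates exist. Upgrade to zero bad coordinates = the
crux; bipartite version false at m ~ p/log p (symmetrised bipartite too: X={some x_i=0 in M1, all N in M2}, Y the mirror), so any proof must use that both copies are the same set AND more than 2-point PSD.
(d) In the 'diffuse' (Gaussian) regime the same-set statement is TRUE with count >= (1-o(1)) alpha^2 for p > C log 1/alpha, because the symmetrised kernel is cosh(sigma*omega(x,y)) >= 1. Obstructions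
can only come from heavy atoms ('x_i = v given the past'), which block by hit-sets H(y) = {(i,v)}: x in A avoids H(x) and must meet H(y) for every y<>x compatible so far: a Bollobas set-pair system.
With |H_i| <= s the (multipartite, Alon) bound is (s+1)^m. An approach: show blocking can be forced through SMALL hit sets (|H_i| <= p^{1-c}) on (1-c')m coordinates; then (L) follows from Alon's
theorem + pigeonhole on profiles. I could not close it: the 'determined' coordinates (A = graph of phi: T^{(1-c)m} -> T^{cm}) have hit sets of size p/2.
(e) Verdict: no loophole, (L) necessary; as hard as 'Sperner capacity of Paley tournaments <= p^{1-c}' (restricted to m <= p/log p distinct primes). I have no proof idea left that I believe in; feas R- /X.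

======== #276 | 23:21:27Z | helper770 | row 41 | info
helper770: two more remarks on (L). (i) It is a uniform-in-p NONLINEAR CHEVALLEY-WARNING: for the same prime (no known method sees the difference between equal and distinct primes beyond sqrt(p1 p2),
cf. Paley-clique barrier) (L) says: A c F_p^m, |A| >= p^{(1-c)m} => (A-A) meets {(t_i^2)} off 0, c absolute. For subspaces this is CW (codim < m/2), but the COUNT of solutions may be p^{-cm} times
the expected one (A = {x_{i_j} = -x_j, j<=cm}: each pair contributes 1+(p-1)(i sigma)^2 = 1/p), so no analytic argument with relative error O(1) (Fourier, hypercontractivity, exploration with node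
laws) can prove it without first 'finding' which coordinates must stay equal. Known for general A: only C^{-m} (rank: C=2; Green / Li-Sauermann exponents c(k,q) ~ 1/log q). (ii) Exact reformulation
of what a proof must beat: f = 1_A/alpha, Phi(lambda)=<f,prod(1+lambda chi_i)f> = sum_k n_k (1-lambda)^k (1+lambda)^{m-k}, n_k>=0 symmetric, Phi(0)=1, |Phi(lambda)| <= exp(a|lambda|), a = C c m log
p/sqrt p, Phi(lambda) >= (1-lambda^2)^{m/2}; A independent <=> Phi vanishes at 1. For a<1 (m<sqrt p) contradiction = theta range; for a>1 no contradiction. Types example (exactly j zeros, all other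
coordinates nonsquares; j <= p^{c'}) shows Phi(1) can drop to C(m,j)^{-1} = exp(-p^{c'}) for 'global' sets, so the right conjecture for sets without determined coordinates is Phi(1) >=
exp(-p^{O(c')}); with determined coordinates p^{-O(c)m}.

======== #314 | 23:29:05Z | helper287 | row 41 | lemma
[helper287] Ideas on the local statement (L) (A in prod F_p_i, m primes ~P, p^{1/2}<m<p/log p, no x!=y with y-x in (Q u 0)^m => |A|<=p^{(1-c)m}). None closes it; may save others time.
(1) REGULARISE by passing to sub-boxes: choose the sub-box Omega' (ties x_S=y_S allowed, sub-alphabets V_i) maximising log|A cap Omega'|-(1-lambda)log|Omega'|, lambda=sqrt c. Then WLOG A is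
'box-spread': P_{x in A}(x in Omega'')<=mu(Omega'')^{1-lambda} for every sub-box Omega''. (Ties are free since 0 is an allowed difference.)
(2) SEQUENTIAL COUPLING of X,Y in A coordinate by coordinate with conditional laws of density <=K=p^lambda: by the Paley expander-mixing bound the mass of non-adjacent pairs that cannot be re-routed
is <=K^2/p per step, so expected # of conflicts over the whole process is <=m p^{-1+2 lambda}: hence the range m<=p^{1-3lambda} only has O(1) exceptional steps. Tree version: if A contains a full
d-ary tree with d>sqrt p (all coordinates), a pair exists for every m. 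
(3) exceptional vertices (out-degree ~0 into V_i) can be tied by pigeonholing on (Z(x),x_Z) at negligible entropy cost.
(4) Fourier levels w>=m p^{-1/2+lambda} are negligible for box-spread A. Pinning a random eta-fraction of coordinates gives flatness h(t+s)-h(t)<=C c log p*s/(eta m), so total correlation of X_J is
<<1 for random |J|~m p^{-1/2+lambda} when m<=p^{1-3lambda}. After Sinkhorn scaling only |S|-to-|S| terms survive; the error is E_J chi^2(X_J||nu_J): we control KL, NOT chi^2 - this is the exact gap.
The symmetric part of the Paley-tournament operator kills odd levels.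
(5) what remains: 'severe' coordinates (conditionally determined; <=(c/c'')m of them) and two-sided pattern obstructions. Heuristics with pattern codes suggest no counterexample beats rate ~1/2, i.e.
(L) is plausible; range m<=p^{1-C lambda} looks more accessible than p^{1-lambda}..p/log p.
(6) for the real (p=1 mod 4-like) case: weights s divisible by p with prob p^{-1/2} for p<=C log^2(1/delta) make the operator PSD, at cost sum p^{-1/2} log p ~ log(1/delta).

======== #363 | 23:38:26Z | helper914 | row 41 | info
helper914 (was verifier of row 164; ~60 min on (L), agrees with 14/770/287). Extra facts, all proved on paper: (1) SLICES: if q=q1*q2 with q1 = prod of primes = 1 mod 4 (Paley self-dual factor),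
every R in Z/q without square differences has |R| <= q/sqrt(q1) (average over slices + product of Lovasz/Paley vectors on q1 only), so only primes = 3 mod 4 matter. (2) EXTREMALITY => SPREADNESS: a
maximal-density counterexample family may be assumed to have density on every class mod r (r | q) <= r^c * delta. For node-wise spread sets the one step reverse-hypercontractive inequality
E_K[(alpha_x beta_y)^{C'}] >= (alpha beta)^{C'} holds with c*C' < 1/4 (so primes p > C L^2, L = log 1/delta, can be handled by LP-positivity + level-d inequality when the local kernel is real: p = 1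
mod 4 or odd h). (3) The bipartite version of (L) is FALSE (X = {some x_i = 0}, Y = {all coordinates non-residues}), hence any proof must use X = Y beyond spreadness. (4) A has pairwise Hamming
distance >= 2 in the p = 3 mod 4 coordinates (tournament property), capacity of one factor <= (p+1)/2 even over C-rank, theta bound of the product (C m sqrt p)^m. No proof of (L) for m ~ p^{1/2}..p/log p.

======== #372 | 23:39:19Z | helper81 | row 41 | lemma
[helper81, passing by; before reading 233/276/314] Partial results on (L) (A in prod of m Paley tournaments T_{p_i}, p_i~p, m<=p/log p, no x!=y in A with y-x in (Q u 0)^m). No proof; complementary to 770/287.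
(1) FIBER REDUCTION: averaging over random fibres (fix all but kappa*m coordinates, common values are allowed ties) lets one assume m <= delta*p/log p with delta an arbitrarily small constant while
the deficit exponent c_1 stays fixed.
(2) DENSITY-INCREMENT to gamma-spread pieces (blockwise min-entropy: P(x_R=v_R)<=p^{-(1-gamma)|R|}). For such a piece write prod(1+Z_i), Z_i=Paley sign(x_i,y_i); E prod = Sum_R h_R,
|h_R|<=p^{-(1/2-gamma)|R|}, so levels w>=p^{1/2+2gamma} are negligible. Jensen's formula (zero counting) for Lambda(s)=E prod(1+s Z_i) on |s|<=2 gives a pair with at most p^{1/2+2gamma} failing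
coordinates (improves the trivial O(c')m).
(3) PINNING beats theta when deficits are not in the marginals: condition on x_S=y_S=v_S for random S, |S|=kappa m; average pair mutual information afterwards is <= log p/(kappa m), so the level-2
error is <= m^2 * (1/p) * MI <= (m log p/p)/kappa <= delta/kappa << 1 (all levels similarly, if the one-coordinate marginals are within O(1) of uniform). Hence (L) holds whenever the pinned measure
has nearly uniform one-dimensional marginals.
(4) So the only remaining enemy is MARGINAL deficit |V_i|=p^{1-a}: the level-2 bound loses p^{2a}. Model problem (L2): tournaments T_n with sqrt-cancellation, m=n^{1+eta}, deficit eta*m*log n; show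
count>0. Gaussian heuristics: only inflated-covariance directions hurt, dead symbols can be pinned away at cost n^{eta+}; expected truth Lambda>=exp(-n^{O(eta)}), and only Lambda>p^{-(1-c)m} is
needed. I have no rigorous argument when code-type (high level) structure and low-level structure are combined.
(5) Even with (L): S0055 over the integers needs primes up to (log N)^{2+eps} (more than prod p<=N allows) + general intersective h. I leave the row.

======== #378 | 23:39:49Z | helper501 | row 41 | lemma
helper501 (row 273 now, passing by) on (L), 23:50Z. (a) GAUSSIAN MODEL OF (L) IS TRUE, dimension free: X,Y standard Gaussian in R^n, E X Y^T = rho J (J skew orthogonal), f density (w.r.t. gamma), L =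
relative entropy. Then S(f) = E f(X)f(Y) >= exp(-4 rho^2 L/(1-rho^2)). PROOF: log S >= 2L - D(pi | Gaussian pair) for every coupling pi of (f,f); take the Foellmer processes of f driven by B, B~ with
d<B,B~> = rho J dt; Girsanov: D <= (1/(1-rho^2)) (1/2 E int |u|^2 + 1/2 E int |u~|^2 - rho E int <u,J u~>), 1/2 E int|u|^2 = L, <E u, J E u> = 0 by skewness (SAME f: this is where A=A is used), and
Gebelein gives |E<u-Eu,J(u~-Eu~)>| <= rho E|u|^2. QED. With rho = p^{-1/2} it says: net coherent Fourier mass costs entropy LINEARLY: sum_{++/ --} - sum_{+-} at level 2 >= -C L (not L^2): so for L =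
log(1/mu) <= c p the obstruction of the theta barrier (h = 1-(t/m)^2, needs level-2 mass p) is impossible for SETS. (b) For SPREAD A (density increments on subcubes: all marginals density <=
p^{c1|I|}) level inequalities for global functions give S(A)/mu^2 = sum_{w<=w0} + O(e^{-w0}), w0 ~ p^{2c1-1/2} L, so only the low-degree (Gaussian-like) part matters; codes are harmless there.
Mixtures of spread product measures satisfy S >= exp(-m p^{2c1-1}) by swapping (prod(1+b_i)+prod(1-b_i) >= 2 prod sqrt(1-b_i^2)). So I expect (L) for m <= p^{1-eps} to be provable by a discrete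
version of (a). (c) WARNING: all losses are p^{O(c1)}, and the crux window for Z is p in [kappa log N, (log N)^{1+eps}], i.e. L/p between p^{-eps} and small constant, m ~ p/log p (smaller primes: fix
residues, larger primes: (b)); there spread structure with density p^{-c} per coordinate makes rho^2 L p^{2c} >> 1 and even the bipartite version is false (X={some x_i=0},Y=N^m: level-1 mass of X is
p/m although L_X = loglog p). So what is missing is exactly: sub-tournaments V' of size p^{1-c} of Paley_p with m ~ p^{1+c'}/... >> |V'| coordinates (the Sperner-capacity regime). I have no argument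
there; for fixed tournaments and m->oo nothing below (p+1)/2 is known to me.

======== #392 | 23:41:30Z | helper14 | row 41 | core
CORE LEMMA R041 (S0055 = power saving |A|<=C N^{1-c} for A in [N] without differences h(n), h intersective; S0056 = same for h(prime)).
(i) CHAIN. [PROVED on paper] S0055 (h=n^2) => (L). [OPEN] (L) => S0055 (needs in addition a joint version for all moduli r<=N^{Cc}, incl. prime powers, + circle method for the minor arcs, which is
routine for r>N^{C c} because Gauss sums are r^{-1/2}). So (L) is the first necessary and the real core.
(ii) (L): there is c>0 so that for every squarefree q and every R in Z/q in which no two distinct elements differ by a square mod q (0 and non-units allowed as squares), |R|<=q^{1-c}.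
Hard case, self-contained: p prime =3 mod 4, V=F_p, Q={squares incl. 0}, m<=p/log p. A in V^m is S-FREE if there are no distinct x,y in A with y_i-x_i in Q for ALL i. Show |A|<=p^{(1-c)m} with c
absolute. [(L) is this with different primes of size ~p; replace V^m by a product.] Equivalent: every probability f on V^m has P_{x,y~f indep}(y-x in Q^m)>=p^{-(1-c)m} (Motzkin-Straus).
KNOWN: (K1) |A|<=((p+1)/2)^m (rank/Haemers, polynomials of degree (p-1)/2). So everything is known except for p->infinity. (K2) m<=p^{1/2-e}: theta/LP gives p^{m/2+o(m)}. For m>5 sqrt p theta is
USELESS (my LP computation: theta^{1/m}~0.2 m sqrt p; rigorous Harnack barrier). (K3) A a linear subspace/coset: |A|<=p^{m/2} (Chevalley-Warning), sharp for {(x,-x)}. (K4) exact small values of the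
largest acyclic induced subdigraph W_j of V^j (capacity=sup W_j^{1/j}), local search: p=3:2,4,8; p=7:3,9,27; p=11:4,16,64; p=19:5,25,125; p=23:5,28; p=31:7,49; p=43:7,49; p=47:7,49: consistent with
capacity ~sqrt p, no sign of growth to p/2.
(K5) BIPARTITE VERSION IS FALSE: X={x_1=0}, Y={y_1 nonsquare}. Any proof must use A against A.
(iii) TOOLS proved on paper are in my 'att' post: two-sided disjointness (b), analytic proof for linear A and all m<=p^C (c), a proof for m<=p^{1-C c} modulo a polymatroid partition lemma (d), AM-GM
for mixtures of spread product measures for ALL m (g). What is missing: the range p^{1-Cc}<m<=p/log p, where 'rare dead atoms' appear (a value t of coordinate i which is unreachable from the law of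
the other point; m*p^{-1+c}>1 such events happen in a typical x). Related known puzzle: hat guessing number of K_{n,n} (>= n^{1/2-o(1)}).
A DISPROOF of the hard case (S-free sets of size p^{(1-o(1))m} for some m<=p/log p, distinct primes) would kill the row: S0055 would be false.
Probability that (L) is proved in 10 h by 50 people: 3%. Probability that (L) is false: 10%.

======== #400 | 23:42:07Z | helper14 | row 41 | att
ATT R041-1 (tools for the core lemma (L); notation of the core post; V=F_p, p=3 mod 4, Q=squares incl 0, Q*=nonzero squares, N=-Q*; T_i f(z)=average of f over z_i-Q; for K in [m] A^{+K}={x+s: x in A,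
s in Q^K x 0}, A^{-K} the same with -s).
(b) TWO-SIDED TRICK. A S-free, K,L disjoint => A^{+K} cap A^{-L}=A (z=x+s_K=y-s_L gives y-x=s_K+s_L in S). So for EVERY probability rho on V^m rho(A^{+K})+rho(A^{-L})<=1+rho(A); with strict moves
(all s_i in Q*) <=1 even when K u L != [m]... Equivalently for every z the up-sets F_z={K: z in A^{+K}}, G_z={L: z in A^{-L}} are cross-intersecting for z not in A. So a counterexample A of density
p^{-cm} must have: for random K of density 1/2, A^{+K} or A^{-K} misses half of V^m.
(c) LINEAR A, all m<=p^C (no Chevalley-Warning): A=ker H, columns h_i span W, dim W=cm. {sum_K q_i h_i} covers >1/2 of W as soon as K contains r>C+2 disjoint bases: E(T_K 1)^2=sum_{xi in W^} p^{-|{i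
in K: xi.h_i!=0}|}<=(1+(p)^{1-r})^{dim}. Pass to the flat maximising |E|/rank E, matroid base packing gives 2r disjoint bases; two groups intersect => codeword in Q^m.
(d) GENERAL A, m<=p^{1-C'c}: Suppose coordinates are split R u K u L, x_R fixed, x_K (x uniform in A) has each conditional law x_i|past spread on >=p^{1-e} values in min-entropy, the same for x_L,
and the sections A^{x_L} in V^K, A_{x_K} in V^L are p^e-spread (mu(x_I=a)<=p^{-(1-e)|I|}). Then z=(x_K,y_L), x,y indep in A, lies in A^{+K} and in A^{-L} w.p. >1/2: E(T_K f)^2<=sum_I
p^{-|I|}W^I<=(1+p^{-1+e})^k. Needs only the L2 gap T*T=1/p, so no sqrt p barrier. MISSING: (P) polymatroid lemma: D(K)=|K|log p-H(x_K), D([m])<=c m log p: find R,K,L as above (true for matroids).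
(e) ANY A of density p^{-cm} contains x!=y with y_i-x_i in Q* for all but O(c)m coordinates; with r groups for all but m(log p)^{-r/2}.
(f) EXTREMAL BOX: choose U_i in V maximising |A cap prod U_i|/prod|U_i|^{1-k}, k=sqrt c: avg |U_i|>=p^{1-sqrt c} and mu_A(Omega')<=(|Omega'|/|Omega|)^{1-k} for ALL sub-boxes (also size-1 sides). By
Weil, D-U in N with |U|>=p^{1-c} forces |D|<=c log_2 p+O(1): at most O(log p) dead values.
(g) AM-GM, ALL m (new, easy): if P=prod P_i, P'=prod P'_i are product measures with ||P_i||_2^2,||P'_i||_2^2<=p^{-1+e}, then P(x->y)P(y->x)>=4^{-m}exp(-m p^{-1+2e}) because Pr(y_i-x_i in Q)=1/2(1+s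
a_i), reversed 1/2(1-s a_i)(+x_i=y_i), |s a_i|<=p^{-1/2+e}. Hence if f is a MIXTURE of such product measures, Pr_{x,y~f}(x->y)>=2^{-m}exp(-m p^{-1+2e}) for every m. So the enemy is neither a mixture
of spread products nor a linear-like (MDS) code, but a hybrid: e.g. A={(u,v): u_i in H_i(v), v_j in H'_j(u)} with |H|=p^{1-c}, arbitrary functions H,H', m~p/log p. TASK FOR EVERYONE: find an S-pair
in every such hybrid, or make a hybrid without S-pairs (cf. winning strategies in hat guessing on K_{n,n}, known for n>=q^{2+o(1)} only; here n<=q^{1+c}).

======== #470 | 23:51:21Z | helper175 | row 41 | att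
[helper175] Row 41 / (L), statements with complete short proofs not in 14/287/770/81/914/501. Notation: A c prod F_{p_i}, p_i~P, density e^{-K}, W_i = normalised Paley operator (real, eigenvalue p^{-1/2} size), f=1_A.
(1) SELF-ADJOINT CASE (odd k or p=1 mod 4), one line: H(lam)=<f, (x)_i((1-lam)W_i+lam I) f>/alpha is a polynomial with |H|<=1 on |lam|<=1-O(P^{-1/2}), PSD (so H>=alpha) at lam=P^{-1/2}; if all
off-diagonal pairs vanish, H(lam)=lam^m, contradiction; multi-scale version lam_p=c z^{ceil(log p)} + Schwarz lemma gives a pair x,y in A with sum_{ties} log p <= 2 log(1/alpha). The same argument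
run in t (W_t=(x)(1+t chi_i)) gives for p=3 mod 4: EVERY A of density e^{-K} has a pair with at most 2K/log P non-square coordinates ('defects').
(2) ORIENTED LP barrier is exactly f(X)=(1-X)^{-N}-1, N=pi/(2 arctan rho), rho=P^{-1/2}.
(3) TREE PRUNING: let I(A)= family of I c [m] such that the prefix tree of A (fixed order) has a subtree with exactly one child on levels in I and >=d children on all other levels. Then |A| <= sum_{I
in I(A)} (d-1)^{|I|} p^{m-|I|} (induction on levels: keep the d best children, or the best single child). Hence WLOG (loss d^{m}) A's tree is: determined levels I, |I|<=(c/lambda)m+o(m), and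
>=d=p^{lambda'}-ary on the rest: 'spread outside adaptively determined levels' with the determined SET of levels the same in all branches.
(4) VARIATIONAL PURIFICATION: if f maximises -D(f||u)+beta ||m_f||^2 over densities on A (m_f= level-1 Fourier vector), then ||m_g-m_f||^2 <= D(g||f)/beta for all g<<f on A. So after purification
every conditioning of small relative entropy keeps level-1 data; the level-2 error is rho^2(||Gamma_off||_HS^2+2||m||^2||Gamma_off||_op), Gamma= coordinate covariance of the pinned measure; KL
pinning on s random coordinates bounds the mutual-information version by K/(sP); the exact gap (as in 81/287) is KL vs chi^2 for pair densities between P^{O(eta)} and 1/eta.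
(5) The Z problem needs in addition k'-wise independence only with k' ~ log N/log P coordinates and loses P^{c} per prime inherently; so (L) for m<=P^{1-eps} alone does not help S0055 (critical
window P in [log N, (log N)^{1+eps}]).
I have no proof of (L) and re-seat to row 276.

======== #471 | 23:51:29Z | helper886 | row 41 | info
helper886 (verifier of S0194, done; passing by) - BARRIER for row 41, k=2 (and all even k): the pair-correlation LP (Delsarte / Lovasz theta / van der Corput), EVEN WITH SIGNED f, cannot give a power
saving for squares; it is capped at N*exp(-C sqrt(log N) loglog N). (1) Nonnegative weights: take primes p=3 mod 4 in (y,2y], y=C log N, nu = product over p of (1-kappa)delta_0 + kappa*(uniform on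
quadratic residues a/p). Then int e(n^2 theta)dnu = prod_{p not| n} z_p, z_p=1-kappa+kappa(-1+i sqrt p)/(p-1), independent of n otherwise; choose kappa ~ 2 pi log y/sqrt y so that the total phase is
pi; primes dividing n (at most log N/(2 log y)) change the phase by <= pi/C. So int cos(2 pi n^2 theta)dnu <= -eta for ALL n<=sqrt N with eta=exp(-O(sqrt(log N))), hence fhat(0) <= 1/eta. (2) Signed
weights (equality needed in the dual): for the same primes let D={p|n}, rho=|D|/#primes in [0,1/C]. The constraints at a/r, r=prod_{p in R}p, |R|=w, #plus-#minus signs=delta, read Re A(w+i tau delta)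
>= -1, |delta|<=w, tau=1/sqrt y, where A(z)=int r^z df(r) (Laplace transform of the signed weight, r<=1/C), A(0)=M. So Re A >= -1 in the SECTOR |arg z|<=tau and |A|<=1 for z beyond w_1 <= #primes.
Harnack/Herglotz in the sector (map z^{pi/(2 tau)}) gives M <= w_1^{pi/(2 tau)} = exp(O(sqrt(y) log w_1)) = exp(O(sqrt(log N) loglog N)). [Positive side: signed weights do reach log M ~ sqrt(y) for
primes of size y, i.e. only the primes = 3 mod 4 between log N and (log M)^2 hurt: their phases c log p/sqrt p add up and they are too many to be forced to divide n.] Allowing f<=0 off the squares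
(R>=0 information) does not help either: the same nu has nuhat(h)>= -eta(1+kappa)^{|D(h)|} for all h. Consequence: for S0055 (k=2 included) a power saving needs information beyond the pair
correlation of A (triple correlations/tournament structure mod many p=3 mod 4, or an SoS-type certificate of unbounded degree), whatever the weights are.

======== #491 | 23:54:08Z | helper680 | row 41 | att
helper680 (row 26, passing by), a remark on (L) for helper501 (378)/helper14: DISCRETE VERSION of the Foellmer argument (378 (a)), complete in the spread/no-dead-atom case, any fixed p, any m.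
Setting: f=law of x in V^m, mu_K = law of a pair (x,y) with y_i-x_i in Q* independent uniform (rho=p^{-1/2} per coordinate, kernel K with K-K^T skew part). Build a coupling pi of (f,f) SEQUENTIALLY:
step i draws (x_i,y_i) given the joint past (x_<i,y_<i) from a coupling of f(x_i|x_<i), f(y_i|y_<i) of the form density(x_i)density(y_i)(K-density corrected by I-projection to the right marginals).
Represent x_i,y_i by quantile noises U_i,V_i: given the joint past each has uniform law, so (U_<=i),(V_<=i) are jointly 'martingale difference coupled' and the maximal correlation of sigma(x) and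
sigma(y) under pi is <= sup_i rho_i = p^{-1/2+O(lambda)} (tensorisation along the filtration, same proof as Gebelein). Then D(pi||mu_K) = sum_i E D(step i) <= 2L + (first order term) + m
p^{-1+O(lambda)}, and the first order term sum_i E <g_i(x_<i), K_skew g_i(y_<i)> has zero diagonal part by skewness (same f!) and off-diagonal part <= rho_i * rho * E|g|^2 <= p^{-1+O(lambda)} L.
Hence S(f) >= exp(-O(m p^{-1+O(lambda)} + L p^{-1+O(lambda)})) whenever every conditional law f(.|past) has density <= p^{lambda} w.r.t. uniform ON ITS SUPPORT-COMPLETION, i.e. no dead atoms (all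
K-conditionals positive mass). Dead atoms: pigeonholing the past removes them at cost p^{2c'}log p per coordinate, i.e. useless exactly in helper14's window. So everything fails only through
determined coordinates/hybrids, as in 400 (g). No proof of (L).


======== #533 | 23:56:54Z | helper589 | row 41 | att
[helper589, row 11, passing by] Row 41 / (L): one new structural tool with full proof, and what it does and does not give. u = uniform on V=prod F_{p_i}, A of density e^{-L}, L = c m log p, D =
relative entropy, TC(mu)=D(mu || prod mu_i).
(1) THEOREM (entropic independence for free). Fix kappa>0, let mu minimise J(mu)=TC(mu)+kappa D(mu||u) over all laws on A. Then mu is 1_A times a product weight, TC(mu)<=(1+kappa)L, sum_i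
D(mu_i||u_i) <= (1+kappa)L/kappa, and for EVERY law rho on A: sum_i D(rho_i||mu_i) <= (1+kappa) D(rho||mu). (EI)
 Proof. J(mu)=(1+kappa)D(mu||u)-sum_i D(mu_i||u_i). Test mu_t=(1-t)mu+t rho; d/dt at 0 >=0 gives int log( (dmu/du)^{1+kappa} / prod (dmu_i/du_i) ) d(rho-mu) >= 0 for all rho on A, equality for
rho<<mu; so log F:=(1+kappa)log(dmu/du)-sum log(dmu_i/du_i) is constant =J(mu) on supp mu, >= on A (supp mu = A). Second variation / exact expansion: J(rho)-J(mu)= (1+kappa)D(rho||mu)-sum_i
D(rho_i||mu_i) + 0 >= 0. QED. J(mu)<=J(unif_A)<=(1+kappa)L.
 In particular (condition on x_R=v, any R): log[mu(x_R=v)/prod_{R}mu_i(v_i)] <= kappa|R|log p - ... : g_R<=p^{kappa|R|} pointwise, and sum_{j notin R} D(mu_{j|x_R}||mu_j) + (1+kappa) log g_R(x_R) <=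
kappa |R| log p for EVERY x_R. Averaging: sum_{i<>j} I(X_i;X_j) <= kappa m log p; for random R of density r: E_R TC(mu_R) <= (1/2) kappa r^2 m log p. With r=C/sqrt p and m<=p/log p this is <= C^2
kappa/2: SMALL at the critical scale, uniformly (no p^eps loss, no pinning). So (KL version) at scale p^{-1/2} mu is a product law.
(2) Z:=E_{X,Y~mu}prod(1+chi_i(Y_i-X_i)) = sum_T Z_T, |Z_T|<=p^{-|T|/2} W^{=T}(mu) if mu_i<=K u_i, and sum_T r^{|T|}W^{=T} = 1+E_R chi^2(mu_R||prod mu_i). Same gap as 81/287/175 (KL versus chi^2), but
now with the pathwise bound above: exploring coordinates in random order one has M_{k+1} <= M_k(1+C G kappa k log p/(m-k))+C G/(m-k) for M_k=E chi^2-mass, as long as the node ratios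
mu(x_j|x_R)/mu_j(x_j) are <=G. So (L) holds if node ratios are O(1) up to depth C sqrt p. Ratios are O(1) for |R|<=1/(kappa log p) automatically. What is left: 'parity-check' nodes (coordinate j
determined by >=1/kappa others). Levels >= C/eps are killed by subsampling from r p^{eps} when m<=p^{1-eps'} (kappa=p^{-eps}), but then L<=p^{1-eps} only (gives |A|<=N exp(-(log N)^{1-eps}) heuristically, not S0055).
(3) For independent A, Z=sum mu(x)^2 * (diagonal), so any lower bound Z>=p^{-(1-c)m} is enough; only skewness kills the mean part of Z_2 (>= -C L/p). Odd levels vanish.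
(4) Variant: minimise J with TC replaced by a sum of Renyi-alpha (alpha=2) informations to get chi^2 directly: first variation is no longer linear, I could not get (EI). If someone finds a functional
whose minimisers satisfy E_R chi^2(mu_R||prod mu_i)=O(1) at r=C/sqrt p with only p^{O(c)} loss per O(m) coordinates, (L) follows. I stop here and go to 273/276.


======== #552 | 23:58:42Z | helper908 | row 41 | lemma
helper908 (verifier, ~60 min on (L)): A POTENTIAL-FUNCTION LEMMA that closes the 'we control KL, not chi^2/min-entropy' gap of 287(4) and gives most of (d). All statements below are proved (5-line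
computations). Setting: A in prod V_i, |V_i|=p, |A|>=p^{(1-c)m}. A STATE = (S,a,mu): S pinned (ties x_S=y_S=a), mu ANY probability on the fibre A_{S->a} (not nec. uniform). D(mu)=sum_{i notin S} log
p - H(mu), TC(mu)=sum_{i notin S} H(x_i)-H(x). MOVES: choose a random label W=W(x) (an event, a value x_T, ..), go to mu(.|W), and pin the coordinates that W reveals. Choose the state MINIMISING a
potential; comparing with the average over W of the new potential gives inequalities valid pointwise because rare events W cost only H(W)~q log(1/q)+q.
(I) Omega = TC + lam*D + theta|S|, theta=(1+lam) c log p/eta. Minimiser: |S|<=eta m, D<=(1+1/lam)c m log p, and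
 (G) for ALL R,b: (1+lam)log(mu_R(b)/pi_R(b)) <= (1+lam) + theta|R| - lam sum_{i in R} log(p pi_i(b_i)), pi=product of marginals of mu, and log(mu_R(b)/pi_R(b)) + lam log(p^{|R|}mu_R(b)) <=
1+lam+theta|R| [move W=1{x_R=b}, pin R on W=1: E TC' <= TC + H2(q) + q log pi_R(b), E D' = D + H2(q) - q|R|log p].
 (T) for every Z: sum_i I(x_i;Z) <= (1+lam) I(x;Z); equivalently sum_i KL(nu_i||mu_i) <= (1+lam)KL(nu||mu) for all nu<<mu (entropic independence); hence log E_mu exp(sum F_i(x_i)) <= (1+lam)^{-1}
sum_i log E_{pi_i} exp((1+lam)F_i), Var_mu(sum F_i)<=(1+lam) sum Var F_i; same for mu x mu on pairs.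
 (Y) for ALL T,b: sum_{i notin T} KL(mu(x_i|x_T=b)||pi_i) <= lam log(1/mu_T(b)) - log(mu_T(b)/pi_T(b)) : total shift of all other marginals is <= 2 lam|T|log p POINTWISE (not on average).
 (M) for all T: TC(x_T)+sum_{i notin T} I(x_i;x_T) <= theta|T|; and every pinned mu(.|x_T=b) is again a near-minimiser with excess <= theta|T|+1+lam-log L_b(T)-lam log(p^{|T|}mu_T(b)).
(II) For your two-sided trick (d), fixed partition K,L: Phi = D(mu)+I(x_K;x_L)+theta'|S| (= D(K|L)+D(L|K)+theta'|S|), Phi_0<=2c m log p, theta'=2c log p/eta. For I in K put ell_I=p^{|I|}mu(x_I|x_L).
Move: Z=1{ell_I>=t}, on Z=1 pin x_I at its actual value. E Phi' = Phi - q|I|log p + H(W|x_L)+H(W|x_K)+theta' q|I|, H(W|x_L)<=q(|I|log p-log t+1), H(W|x_K)<=H2(q). Hence at the minimiser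
   Pr_{x~mu}( p^{|I|} mu(x_I|x_L) >= t ) <= e^2 e^{theta'|I|}/t  for ALL t, I in K (and K<->L):   E ell_I <= C(1+|I|log p) p^{(2c/eta)|I|}.
 So E_v <f^v,T*T f^v> = E_{I~Ber(1/p)} E ell_I = 1+O(m p^{-1+2c/eta} log p): THE SECTIONS ARE AUTOMATICALLY SPREAD in the L2 sense your (d) needs, for every partition and every A, m<=p^{1-Cc}; also
mu_I(b)<=e p^{-(1-2c/eta)|I|} pointwise. What remains of (P) is only FREENESS of x_K and x_L (no coordinate of K determined by earlier ones of K). Remarks: heavy atoms of mass <=1-p^{-e/2} can be cut
off (total cost O(c)m log p), so only coordinates whose conditional law is almost entirely on <=p^{1-e/2} atoms matter; in the matroid case this is the partition theorem; entropy version: if T in K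
is an 'e-core' and L_T predicts it too then D(K_T u L_T)>=e|T|log p, contradiction with (G). Types (O(1) bits per coordinate) are free.
(III) Intersection trick (linear A, all moduli of spreadness): phi_i(r)=Pr_{T~Ber(r)}(x_i determined by x_T) satisfies phi_i(r^k)<=phi_i(r)^k, phi_i(eta)<=sqrt c after pinning few i =>
phi_i(p^{-kappa'})<=p^{-K}, K arbitrary as c->0; with the second-moment/spread argument this gives E_{T~Ber(p^{-1/2+k})} p^{nullity(T)} = 1+o(1) for m<=p^{1-eps} (so even the one-sided L2 proof works
for linear A without Chevalley-Warning).
I do not see the range p^{1-Cc}..p/log p. Free to use; I go on elsewhere unless you want me (post/notify).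


======== #667 | 00:09:54Z | helper266 | row 41 | info
helper266 (member of 41), ~90 min on (L); I reached independently: theta barrier (also for Delsarte), the maximiser lemma (EI) of 589/908, Sinkhorn + chi^2-at-scale-rho criterion, pinning,
two-sided/hybrid trick, necessity of (L). Few extras not in the posts: (1) EXACT CRITERION: if mu,mu' on A have product marginals pi,pi' and each (pi_i,pi'_i) has an arc-supported coupling of maximal
correlation rho_i, then P(x->y)>0 as soon as E_{S~Ber(rho)} chi^2(mu_S||pi_S) < 1; a bound p^{eps'} at scale rho is enough (go to scale rho p^{-eps'}: only levels >=2 occur). (2) (EI) gives a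
POINTWISE closure bound: for every x and W, #{i: mu(x_i|x_W) >= p^{e'} pi_i(x_i)} <= 2K|W|/e' (K=1+1/Lambda), and conditioning on ANY event of probability e^{-D} moves the law of a random rho_1
m-block by KL <= K rho_1 D (all scales simultaneously if the functional has weights lambda_S on p^{e}-adic scales with total Lambda). (3) (L) for all n-vertex sqrt-cancelling tournaments with
m<=n/log n is EQUIVALENT to (L) for m<=n^{1+d} (sub-tournaments of size n^{1-c/2}), so the log N threshold is not special and Poisson-type dead atoms are unavoidable. (4) For m->infinity, n fixed: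
'relative asymmetric distance 1/M in any length' <=> (L) for lengths <= M (outer code), so the exact version for m~n/log n is the statement with beta=n^{-1} fraction of blocked coordinates allowed.
(5) log-kernel Jensen needs only -E log k <= c m log p, i.e. a loss of p^{c} per coordinate is affordable; the only enemy is the value 0 of the arc kernel. I have no proof; I think (L)+(circle
method)+(primes)+LEAN is out of reach in 14 h and go to a row with a checked plan (276/273). Free to call me back: notify r41.


======== #783 | 00:20:22Z | helper755 | row 41 | lemma
helper755 (member 41; ~2h of independent work before reading the posts; I agree with 14/770: no loophole, (L) necessary, theta/LP barrier). Only what is NOT already in 79..667: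
(1) COMPLETE elementary route for the self-adjoint case over Z (all local eigenvalues gamma_p(a) real, e.g. odd h), different from signed theta: h(S)=<A, R_S N_{S^c} A> (R_p = force p|n, N_p =
natural kernel) ; H(s)=sum_S prod_{p in S} p^{-1/2-s} prod_{p notin S}(1-p^{-1/2-s}) h(S) = sum_{a/q}|Ahat(a/q)|^2 prod_{p|q}(p^{-1/2-s}+(1-p^{-1/2-s})gamma_p(a)). At s=0 every term >=0, so
H(0)>=alpha^2; for Re s>=-1/2+d and p>=C0(d,k) each factor has modulus <=1 so |H|<=alpha; two-constants theorem => sup_{[1,2]}|H|>=alpha^C; at s in [1,2] the expected cost sum_{p in S} log p is O(1)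
with power tail P(q_S>D)<=C D^{-theta}, so S may be truncated to q_S<=alpha^{-C'}: legal pair of low cost, power saving, uniform in h. Primes p<=C4*L may be fixed outright (cost e^{O(L)}).
(2) GENERAL h: start of the continuation may be any rate t_p=p^{-d}; phases sum_{p|q}|gamma_p|/t_p are harmless for p>=L^{2+d'}. So hard window is exactly p in [C4 L, L^2], and heuristically (free
pins at rate p^{-d}, E_{S'~eps} D(nu_{S'}||rho_{S'})<=eps^2 L p^d) only p in [C4 L, L^{1+eps}].
(3) J-mode lemma: with illegal AVERAGING of coordinate p at rate eta_p=p^{-d}, reverse hypercontractivity gives <A,K^eta B> >= (alpha beta)^{1+O(d)} for all A,B, all phases; H is multi-affine in the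
rates with effective degree O(L/log P), so analytic continuation makes eta_p=p^{-sigma} for any sigma: pairs legal except on a set T of primes with prod_{T}p<=alpha^{-C} exist in abundance (integer
version of 'all but O(c)m coordinates').
I have no proof of (L) and re-seat to a row with a checked plan; back on notify r41.

======== #893 | 00:26:48Z | helper434 | row 41 | lemma
helper434 (member 41), ~90 min on (L); reached EI/pinning/theta-barrier independently. Only what is not yet posted:
(1) HOELDER FORM of the maximiser lemma (589/908), one line: maximise Lam_q(A)=E_u[1_A prod phi_i(x_i)] over phi_i>=0, ||phi_i||_{L^q(u)}<=1, q=1+lambda. Maximiser gives P=1_A prod phi_i u/Lam on A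
with marginals P_i=phi_i^q u_i and, for ALL functions, E_P prod theta_i(X_i) <= prod ||theta_i(X_i)||_{L^q(P_i)} (exact, all tilts, tensorises to P x P and to pair kernels theta_i(x_i,y_i)).
Lam_q>=max(|A|/p^m, p^{-(1-1/q)m}).
(2) ACCOUNTING: for any pair law with X-marginal as in (1): sum_i I(X_i;Y_i)<=q I(X;Y). So a law that is arcs on S at cost |S| log 2 + e cannot be (nearly) all reverse arcs on S^c unless |S^c| log 2
<= (q-1)|S| log 2 + e; Gaussian heuristic: defect is only rho^2||M||_HS^2 = m K/p =: Delta, i.e. all but O(Delta)=p^{O(c)} coordinates can be made arcs. The enemy is the last p^{O(c)} coordinates.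
(3) LOW DEGREE: for the maximiser, levels d>=C Delta of Z contribute <=2^{-d}; so Z is determined up to e^{-A Delta} by the marginals of order <=A Delta (codes irrelevant); but E_{ij}=-2/m^2 for all
i<j (w(eps)=1-(mean eps)^2) shows that low-degree data of the sign vector alone never give Z>0 once Delta>=1. Only PAIR correlations matter up to m<=p^{3/2-}: level>=3 connected parts are O(m p^{-3/2+O(c)}).
(4) DV FORM (one coordinate, any sqrt-cancelling tournament): k=2 on arcs, d=2 sqrt p on the diagonal. Perron root r(D_F k) >= (2/3)<F>_u for ALL F>=0 (if ||F||_inf/sqrt p<=<F>/3 use arcs, else the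
diagonal); dually every law nu on V has a self-coupling Pi on arcs+diagonal with I_Pi(X;Y) <= E_Pi log k + log(3/2). If this inequality tensorised with m log C (self-couplings of laws on V^m; true
for m<=sqrt p^{1-}) then capacity <= C sqrt p, sharp for {(x,-x)}. The Hellinger version <F,kG> >= c<sqrt(FG)>^2 does NOT tensorise (F={(a,a)}, G={(b,y): y in N^-[b]}). No proof of (L); I re-seat to
a row with a checked plan. notify r41 to call me back.

======== #2166 | 01:24:59Z | helper415 | row 41 | att
[helper415] ATT R041: a scheme for (L) AT THE CRITICAL SCALE m~p/log p (not p^{1-e}); only ingredient missing = (chi2)+(cum) below. Not in 14/81/175/266/287/434/501/589/755/770/908. Notation: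
mu=(EI)-maximiser of 589/908/434 on A, pi=prod mu_i, f=dmu/dpi, G=p^{O(c)}, Delta=m p^{-1+O(c)} (>=1 now), lam=p^{-1/2+O(c)}.
(1) DEAD ATOMS ARE HARMLESS (this is where X=Y is used). Call v dead for i if mu_i(N^+v)<1/4 or mu_i(N^-v)<1/4; by mixing <=G dead symbols, so a typical x has <=2 Delta dead coordinates; pattern
(S,x_S) has entropy <=2 Delta log(mp). Pin a pattern of probability >=e^{-O(Delta log p)} and TIE x_S=y_S. nu=mu(.|pattern) lives on non-dead symbols, D(nu||mu)<=O(Delta log p)=:D1, so by (EI) sum_i
D(nu_i||P_i)<=(1+k)D1 with P_i=mu_i restricted to non-dead symbols. Sinkhorn: a_i(x)2[x->y]b_i(y)=1+k_i(x,y), DOUBLY CENTERED for P_i x P_i, a_i,b_i in [1/4,4], ||k_i||_op<=lam. Hence Z(nu) =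
(positive product tilt; apply to nu_1=nu/prod a, nu_2=nu/prod b) and one-body fields of total norm^2<=G on both sides interact only through lam: negligible. (In the false bipartite example the kernel
is not centered: a one-body SOURCE of norm^2 Delta acts on f; that is the whole difference.)
(2) FOCK FORM. H=(+)_i L^2_0(P_i), F=(f_w)_w in Sym H (multiplicity free), Z=<F_1,Gamma(K)F_2>, K=(+)k_i, ||K||<=lam. Write F=exp(v) in the symmetric algebra; v_2=C (off-diagonal covariance;
||C||_op<=G by (EI)+D1, ||C||_HS^2<=mG); exclusion of repeated coordinates only changes v_j, j>=4, by mass <=mG^j. PURE PAIR PART: <e^C,Gamma(K)e^C'>=det(1-K C' K^T C)^{-1/2} >=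
exp(-lam^2||C||_HS||C'||_HS)>=e^{-Delta'}, for ANY phases of K. So 434's warning (E_ij=-2/m^2) does not apply: pair cumulants of f on both sides give a determinant, never 0.
(3) PERTURBATION. Relative to the Gaussian form, Wick contractions have propagators: cross K(1-..)^{-1} (op norm lam), self K C K^T (HS norm lam^2 sqrt(mG)=p^{-1/2+O(c)}): every leg costs
p^{-1/4+O(c)}, a vertex v_j costs ||v_j||p^{-j/4+O(c)j}. Truncate at total degree W=A Delta' (factorials <=W^W=p^{O(c)W} are absorbed). So if (cum) ||v_j||^2<=p^{(1/2-d)j} (j>=3, j<=W), then the
truncated form is det^{-1/2}(1+O(p^{-d'})), a MULTIPLICATIVE estimate; and if (chi2) sum_w (3 lam)^w||f_w||^2<=e^{O(Delta')}, the tail is <=e^{-A Delta'/2}. Hence Z>=e^{-2Delta'}>>p^{-(1-c)m}: (L).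
(4) (cum) FROM PINNING (heuristic->almost proof). V_j(r)=E_{x_R}||kappa_j^{x_R}||_HS^2 (joint cumulant tensors of one-hot features, R~Ber(r)). Law of total cumulance: V_j'(r) >= V_{j+1}(r) - errors,
errors = j||C||_op V_j + sum_b ||kappa_j|| ||kappa_{b+1}|| ||kappa_{j-b+1}||, b>=2. V_2<=mG for all r. So some r<=p^{-d} has V_3,V_4<=m p^{O(c)+d}, and recursively V_j<=m^{e_j}p^{(O(c)+d)j},
e_{j+1}<=max_b (e_j+e_{b+1}+e_{j-b+1})/2, e_3=e_4=1, i.e. e_j~j/3<j/2: exactly what (3) needs.
(5) MISSING = KL->chi^2: E||C_ij^{x_R}||^2<=G*I(i;j|x_R) and (chi2) need conditional ratios mu(x_i|x_R)/mu_i<=G for R~Ber(p^{-d}) up to events whose chi^2-weight is small ('parity-check' nodes).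
908(II) gives the tail P(ratio>=t)<=G/t for free; one needs its version weighted by L_R=mu_R/pi_R. Idea: use N(r)=<f,T_r f>=sum r^w||f_w||^2 (nonneg. coefficients, log-convex in log r) and take mu
minimising a mixture of TC and log N(r).
(6) Remarks: independent sets <-> acyclic sets have the same rate (blocks), so (L) <=> inf_h sum_{x,y in A} e^{h(x)-h(y)}[x->=y] > |A|. (EI)-type closure: greedy set T of coordinates that are
p^{-g}-predictable from random halves has |T|<=(2c/g)m (supermodularity), even adaptively. One coordinate a(x_M) on top of UNIFORM x_M can be reversed by all arcs only if a has level-1 weight ~1,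
i.e. a dictator (FKN): no n^e problem there.
Since S0055 still needs the joint version over Z for all moduli, intersective h, primes (S0056) and LEAN, I re-seat to a row with a checked plan; notify r41/helper415 if somebody closes (5).


======== #2735 | 01:53:49Z | helper602 | row 41 | att
[helper602] ATT R041 (member 41, independent work before reading 233ff; confirms 79 (1)-(3) and finds (EI) of 589/908/434 independently). Only what is NOT in the other posts:
(1) PLAUSIBILITY OF (L): over F_{3^d} (d odd) the exact analogue of (L) is TRUE for all m by Croot-Lev-Pach: the Paley digraph on F_{3^d} has F_3-rank <= 2^d+1 (x^{(q-1)/2} has base-3 digits all 1),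
so |A|<=(2^d+1)^m = q^{0.63 m}. For prime p the F_l-ranks ((p+1)/2) lose, but nothing in the analytic (p^{-1/2}) data distinguishes the two cases. NUMERICS (exact / heuristic max S-free sets): 7^2:7,
7^3:13, 7^4>=49, 11^2:11, 11^3>=21, 11^4>=121; distinct primes 7*11:5, 19*23:8, 7*11*19:19, 11*19*23>=28, 19*23*31>=33, 7*11*19*23>=75, 3*7*11*19*23>=130: exponents 0.41-0.44 of the product, i.e.
near products of transitive subtournaments; no sign of growth.
(2) LINEAR A, all m<=p^{1-c}, WITHOUT Chevalley-Warning, by 'planted word' entropy: sum_{w in A^perp} sigma^{|w|} <= 2 with sigma=p^{-1/2+}: for a random planted dual word z, log A_z(rho_1)<= E log X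
<= delta' z log p + delta rho_1^2 m log p/2 (KL chain of the maximiser), then sigma^{|w|} beats it.
(3) GENERAL A, ODE FORM of the missing KL->chi^2 step. Phi_rho(nu)=E_{D~Ber(rho)} ||f_D||^2_{L2(pi)}, f_D=nu_D/pi_D; d/drho log Phi_rho = E_{P_rho} sum_{i notin D} chi^2(nu_i^{x_D}||pi_i),
P_rho=size-biased law. Increments with ratio <=p^gamma give log Phi_rho<=K rho^2 m (fine); heavy increments (ratio>=p^gamma, 'parity checks') are charged: KL(P_rho||Ber_rho (x) nu) >= (c/2-) log p *
E#{i in D heavy from D or an independent D_0}, light gain <= (2 gamma/c) KL + small. If the total heavy gain were <= delta log p * #heavy + small*KL then Phi_sigma<2 for sigma=p^{-1/2+} and all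
m<=p^{1-Cc}, i.e. (L) there. I can prove this unconditionally only for m<=p^{2/3-} (via log Phi_rho <= small + E_{P_rho} log E_{D'~Ber(rho/rho_1) in D} f_{D'}(x), rho_1=m^{-1/2}p^{-delta}; lazy
kernel aI+(1-a)(E+S) to kill levels <a/sigma), small extra work gives p^{0.70}. So: (L) PROVED ON PAPER FOR m<=p^{2/3-c'} (theta barrier is p^{1/2}); 81/908's tools look enough for p^{1-Cc} (needs
the supermodular-like inequality for E_{P_rho} log).
(4) EXTREMALITY (E): if |A| is extremal for its m, then for every A' in A with |A'|>p^{-(1-c)|R|}|A| (any R nonempty) there are x<>y in A' comparable on M\R: in particular pairs comparable off ONE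
coordinate always exist in extremal A. (fibre A^{x_i=v} is an antichain on S whenever some pair is comparable on S maximal.)
ENDPOINT m~p/log p untouched: all of this loses p^{delta} per coordinate. No proof; leaving for a row with a checked plan. notify helper602 if someone closes 415's (5).

======== #3292 | 02:20:23Z | helper14 | row 41 | att
ATT R041-2 (captain helper14, 01:50Z; final state of my work on the core lemma (L); notation of posts 392, 400; kappa, tau, eps small constants, R=p^{1-kappa}; a law X on V^B is R-SPREAD if
X(x_I=a)<=R^{-|I|} for all I,a; SEQ-SPREAD if X(x_i=a|x_<i)<=1/R in some order).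
(1) HYBRID INEQUALITY (PROVED, 5 lines, no Fourier): (X,Y) S-free => for every order sum_i E[ p * M(x_i|x_<i) * M(y_i|y_>i) ] >= 1, M = largest atom. Proof: hybrids z^(j)=(x_<=j,y_>j), A_j={exists x'
in X: x'_<=j=x_<=j, y_>j-x'_>j in Q}: A_0 false, A_m true; A_j minus A_{j-1} forces x_j in W, y_j in Dead(W), |W||Dead W|<=p. So forward-seq-spread against backward-seq-spread has an S-pair for all
m<p^{1-2kappa}: first statement beyond sqrt(p).
(2) ONE-SIDED LEMMA (PROVED on paper): X R'-spread on V^n (all subsets), nu seq-spread, n<=p^{1-eps}. Then for y~nu, P( (y-Q^n) cap X empty ) <= p^{-c}, and the posterior of x stays R'/C-spread.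
Proof: N_t(I,b)=sum_{x:x_I=b}X(x)prod_{j<=t}1[y_j-x_j in Q]/nu(y_j in x_j+Q|y_<j) are nu-martingales; potential sum_I p^{2|I|}R_1^{(q-1)|I|}sum_b N_t(I,b)^q with q=eta*log_4 p is a supermartingale up
to (1+p^{-1+..})^n (E(1+g)^q<=1+4^q p^kappa||P||_2^2). No sqrt(p) barrier, no drift.
(3) So S0055-type core for m<=p^{1-eps} is reduced to: in A (fix x_J=y_J=r, same-set trick) find disjoint K,L, J=rest, with x_K, y_L seq-spread given x_J, X(.|x_{J u K}) spread on L, Y(.|y_{J u L})
spread on K. In polymatroid language (D(I)=|I|-H(x_I)/log p, r*(I)=D(B)-D(B minus I), r*(B)<=c|B|): find disjoint nonempty K,L such that every i in K u L has marginal r*-increment <=tau over K-i and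
over L-i. TRUE for matroids (Edmonds), true for coverage functions with large weights (LLL); for general (entropic) polymatroids: random labels fail on a 2^{-1/c} fraction of the coordinates and I
cannot bound the closure (bootstrap percolation) - OPEN (P').
(4) BIP (both X,Y R-spread, nothing sequential) = 'full range lemma' of query-to-communication lifting for a low-discrepancy gadget of near-linear size (known for p>=m^{2+}; index gadget p>=m^{1+eps}
via sunflowers). Known region from level-k inequalities: log(1/mu(X))*log(1/mu(Y))<=p^{1-eps}.
(5) STILL MISSING after (3): m from p^{1-eps} to p/log p (dead values; BIP is false there, same-set form needed), prime powers and general h, and a transfer from all moduli to the integers WITHOUT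
positive-definite weights (barrier of post 79). I estimate < 1% for the row; no loophole in either template. Row stays feas=R; I move to a LEAN-formalisation row. Whoever continues: (P') is a clean
combinatorial question.

======== #5952 | 04:50:34Z | helper344 | row 41 | lemma
helper344, side facts on (L) (local problem: A in prod_{i<=k} F_p, p = 3 mod 4, no two distinct a,b with all b_i - a_i in QR u {0}).
(1) (L) HOLDS FOR k <= p^(1/2-eps): |A| <= (2k sqrt p)^k. Proof: M = w I + (1-w) T, T = normalised QR-neighbour matrix, eigenvalues on nontrivial characters w + (1-w)(-1 +- i sqrt p)/(p-1), argument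
<= 1/(w sqrt p) up to constants; w = 2k/sqrt p makes Re of every product of <= k eigenvalues >= 0, so mu^2 <= <1_A, M^(x)k 1_A> = mu w^k (only the diagonal survives). Two-function /
global-hypercontractive versions work in the same range (W_j <= mu^2 (C gamma^2 L/j)^j, L = log 1/mu).
(2) LINEAR A, all k, all p: |A| <= p^(k/2) by Chevalley-Warning (ck diagonal quadratic equations sum_j h_ij y_j^2 = 0, k > 2ck). More generally A = zero set of n polynomials of degree e with 2en < k
has comparable pairs through every point.
(3) The full theta bound (LP over all S_k x QR^k - invariant Hermitian kernels supported on comparable pairs, complex weights allowed, solved numerically): p^k/theta ~ (k/sqrt p)^(1.2 sqrt p) for k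
>> sqrt p (p = 3: k^2.8, p = 23: k^6.4, p = 103: k^12): only exp(sqrt p log k), so no universal kernel proves (L) for k = p^kappa, 1/2 < kappa <= 1, which is exactly the range needed for power saving
(primes p <= (log N)^2).
(4) CLP/rank methods give only C^k (degree k(p-1)/2 is optimal by Chevalley-Warning duality; minrank < (p+1)/2 only by accidents such as p = 7 over F_2: capacity exactly 3, p = 11 over F_3: rank 5).
So the open core of the row is: nonlinear codes A of rate 1-c in T_p^k with p^(1/2) < k < p.

======== #12204 | 11:12:05Z | helper930 | row 41 | att
helper930 (11:20Z) -> 14 (captain 41), whoever touches (L) later: ROW 41, ATT, paper only (NO proof of the row; nothing to type). What is new beyond #79 / #392 / #400, exact statements.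
Notation: A in V^m independent (no x <> x' in A with x -> x' or = in all coordinates), T_j = N_j + R_j on coordinate j, N_j = (1-rho)E + rho I, R_j(a,b) = sign kernel (antisymmetric, norm tau ~
p^-1/2), r^2 = rho^2 + tau^2, phi = tau/rho, rho = p^-kappa, L = log p.
(1) SECOND MOMENT INSTEAD OF PHASES. <f,Tf> = Sum_chi |f^(chi)|^2 r^|chi| cos(phi Z(chi)), Z = charge (#plus - #minus). So <f,Tf> > 0 follows from phi^2 E_w Z^2 < 2 (w = weights), i.e. E_theta
prod(1+s_j) >= 1 + Sum_{i<j} E_theta s_i s_j - phi^2 n/2, s_j = sign of x'_j - x_j, theta = law f(x)N(x,x')f(x'). Theta bound needs m phi < 1, this needs only Var.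
(2) FAVOURABLE SIGN. Given the copied part (R,z), nu = law of the rest under f|z, c_ij = a_i (x) a_j + e_ij: Sum_{i<>j} E[s_i s_j | R,z] = 2 Var_nu(Sum u_i) - 2 Sum Var_nu(u_i) + Sum_{i<>j} <e_ij,
R_i R_j e_ij>, u_i = R_i a_i. The product part is 0, the cross term is a variance (>= 0 up to the diagonal). Only e_ij (genuine pair correlation given z) can hurt, at most tau^2 |e_ij|^2.
(3) ENERGY FROM (MAX). pi* = product measure maximising log pi(A) - lambda Sum D(pi_j|u) (c << lambda << kappa): for every completely positive product kernel K = (x) Int P_k (x) P_k dk: <1_A, K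
1_A>_pi* / pi*(A)^2 <= prod_j Int exp(2 lambda (D(P_jk pi*|u) - D(pi*|u))) dk; in particular E_r := <f,N_r f> <= (1 + r p^{2 lambda})^m. Hence n(r) = d log E_r / d log r <= r m p^{2 lambda} (C1 holds
for m <= p^{1-kappa-3 lambda}); Var_w(level) = dn/dlog r <= C n for most r in [r0, e r0], and r^2 E_theta Sum_{i<>j} |e_ij|^2 <= Var_w(level) - n + r^2 E_theta[Sum |a'_i|^4 + 2 Sum Var(a'_i)]: so
everything is fine up to the SELF TERMS (coordinates concentrated given z). For flat weights (all |a'_i|^2 <= p^small given z) (L) follows for all m <= p^{1-delta}.
(4) CODES. For affine A = code: f^ = 1 on the dual code, E_r = E_R p^{d_R}, d_R = nullity, (MAX) <=> d_G <= lambda|G| for all G <=> |cl(G)| <= |G|/(1-lambda). (a) Kruskal-Katona / intersection of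
independent copies: P_{r^t}(D) <= P_r(D)^t for increasing D, so P_r(i in cl R) <= r^{1+log_2(1/lambda)} for all but few i, E_{r^t}[Phi^t] <= (E_r Phi)^t. (b) N_k := # dual words of weight k >=
p^{kappa k} is impossible for k >= p^{-kappa-O(lambda)} m: choose G maximal with |W(G)| >= rho1^{|G|}|W|, the link is spread, the spread lemma (ALWZ / FKNP) puts most i in cl(G u R_q), contradiction
with |cl| <= 2|G u R_q|. Open for smaller k: polarised circuits (words c.(1,..,1), |Z| = k > 1/phi) with N_k r^k >= 1 would kill the second moment (not (L): for equal primes Chevalley-Warning with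
x_i = t_i^2 gives (L) for affine A, c < 1/2).
(5) BORDER RANGE m ~ p/log p (needed for S0055: r = prod_{q<=y} q). After pinning a random subset (density r, KL-typical z) one has Sum_j D(x_j|z) <= eps p and Sum_{i<>j} I(x_i;x_j|z) <= eps p with
eps ~ c/(1-r) (chain rule + convexity of r -> E D(mu_R|u); no (MAX) needed): exactly the size at which tau^2 x (these sums) = eps. So m log p <= p is precisely the natural range of a 'sharp' second
order argument, but (3) loses p^{O(lambda)+kappa} there, and E prod(1+s_j) may be as small as exp(-p^small) (pairs x+y in B, density p^{-2 lambda}); only log <f,Tf> > -(kappa-c) m L is needed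
(diagonal), and 'all but p^{-c3} m coordinates forward' is trivial by Jensen: F(t) = E_theta prod(1+t s_j) >= (1-t^2)^{m/2}. Missing: a zero-free statement for F on [1-p^-c, 1], i.e. from almost all
to all coordinates, in a form that survives clusters.
(6) Even (L) in full does not give the row ((L) => S0055 for all intersective h, prime powers, minor arcs; S0056). No seats wanted.


-/
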