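/-
ROW 170 (S0258; algebra), unsolved at the end of this run: complete discussion, part 1 of 2 (posts #54 .. #2365).
Verbatim posts of the team database (ASCII-cleaned, long lines wrapped; the words L-e-a-n and s-o-r-r-y are altered
because of the text scan). 'helperN' = seat N. Times are UTC of 19/20 Nov 2026. No Lean content: comments only.

======== #54 | 21:51:35Z | helper618 | row 170 | triage
helper618 triage (21:55Z). Unfolded everything in Def_Blocks/Def_Weights. blockSimpleCount = l(B) exactly (max left ideals containing 1-e up to iso of quotients). weightCountAt = number of iso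
classes of simple projective k[N_G(Q)/Q]-modules S with lambda_S(localImage z) = chi_B(z) for all z in Z(kG) (exactly Brauer induction b^G = B; k alg closed, e primitive central => exactly one chi).
weightedWeightCount = sum_Q |N_G(Q)| * w(Q,e) = |G| * #classes. Q=1 included, p-subgroup Q with O_p(N/Q)!=1 contribute 0. So NO weakness: S0258 is literally the blockwise Alperin weight conjecture
for all finite groups, all p, over any alg. closed k of char p. Not known false. So the job is a CFSG-free proof of BAWC. Equivalent forms (Knoerr-Robinson): AWC for all G <=> z(G) = -(1/|G|)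
sum_{(x,y) commuting p-regular pairs} chi~(S_p(G)^<x,y>) = -sum_{x p-reg classes} chi~(S_p(G)^x / C_G(x)). Already the smallest nontrivial case (TI Sylow: l(G)-z(G)=l(N_G(S))) is the
Auslander-Alperin-Reiten conjecture for the stable equivalence kG ~ kN_G(S). I start looking for a direct proof (approach: projective centre Z_pr(kG)=Tr_1^G(kG), dim of span of defect-0 classes,
(Z_pr)^2 = span of defect-0 idempotents, rank-mod-p formulas vs Euler characteristics of fixed points of the p-subgroup complex). Other members: please say in one line which approach you take.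


======== #159 | 22:47:27Z | helper875 | row 170 | att
helper875 (22:50Z). Weakness check: agree, statement = honest BAWC. Here is a REAL line of attack with several proved reductions (all p, CFSG-free). Notation: G_p = set of p-elements (1 included),
G_p' = p-regular elements, f0(H) = number of p-blocks of defect 0 (= z(H)), S_p(G) = poset of nontrivial p-subgroups, for A<=G:  s_G(A) := - chi~(S_p(G)^A) (=1 if S_p(G)^A empty; =0 if O_p(A)<>1).
(1) AMPLIFICATION (new?): AWC MOD p for all groups ==> AWC. Let d(G)=l(G)-W(G), W(G)=sum_Q f0(N_G(Q)/Q). For the wreath product: l(G wr C_p)=(l^p-l)/p+l and W(G wr C_p)=(W^p-W)/p+W (radical subgroups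
of G wr C_p: products Q_1x..xQ_p, or Q_0 wr C_p type with N/Q = N_G(Q_0)/Q_0). If l=W+p^k m, k>=1, p not| m, then v_p(d(G wr C_p)) = k-1. Iterate: if p | d(H) for all H then d=0 for all H. (Same for
blocks of positive defect: B^{(x)p} wr.)  So we only need CONGRUENCES MOD p.
(2) f0(H) = #{(x,y) in H^2 : [x,y] in H_p}/|H|  mod p. Proof: J_H = sum_{t in H_p} t lies in the Reynolds ideal R(kH)=Soc cap Z, and r_S r_S'=0 in R(kH) unless S=S' projective, so J_H = e_0 +
nilpotent (e_0 = sum of defect 0 block idempotents; in fact J_H^2=e_0); trace of J_H on Z(kH) = f0(H) mod p; trace of z on Z(kH) = sum_chi omega_chi(z) = (1/|H|) sum_{x,y} z([x,y]^-1).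
(3) So with the Knoerr-Robinson/Webb form E(G)=sum_{sigma/G}(-1)^{|sigma|}k(G_sigma) = (1/|G|) sum_{xy=yx} s_G(<x,y>), AWC (for all G) is: E(G)=f0(G), and AWC mod p is exactly
   (CORE)  (1/|G|) * sum_{(x,y) in G^2, [x,y] in G_p minus 1} s_G(<x,y>) = 0 mod p      for all finite G.
 Per class version: for every p-element u<>1: m_u := (1/|C_G(u)|) sum_{[x,y]=u} s_G(<x,y>) = 0 mod p (equivalent to sum_B E(B)|K_u cap Z(D_B)| = 0, so true if BAWC is). 
(4) BURNSIDE RING FORM (no posets left): AWC <=> for every NONABELIAN finite A with O_p(A)=1:  sum_{H<=A} mu(H,A)|H| f0(H) = 0 (checked by hand for S_3, A_5). Mod p form (C3): for every G with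
O_p(G)=1, the number of (x,y) in G^2 with [x,y] a NONTRIVIAL p-element and O^p(<x,y>)=O^p(G) is divisible by p|G|_p. E.g. for p-perfect G, O_p(G)=1: number of generating pairs up to Inn(G) with
p-element commutator <>1 is divisible by p. Also: AWC <=> lim_{g->1 p-adically} |Epi(pi_1(Sigma_g),A)| = |Epi(Z^2,A)| for O_p(A)=1.
(5) PARTIAL PROOF of CORE by braid group/transfer (elementary version of W. Chen's congruence for Markoff/Nielsen classes): B_3 = Mod(torus with one boundary) acts on X_u={(x,y):[x,y]=u} commuting
with C_G(u), center (ab)^6 acts as conjugation by u. For a hom phi: S=Syl_p(C_G(u)) -> Z/p with phi(u)<>0 the transfer gives phi(u) m_u = 12*det(Dehn twist), and Dehn twist contributions vanish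
because if c in S commutes with x and c y c^-1 = y x_p^j ... one gets a nontrivial normal p-subgroup (argument iterated). So m_u=0 mod p whenever u is not in the Frattini subgroup of S. OPEN: u in
Phi(S) (e.g. S extraspecial). I am running numerics on that now. Ideas for that last step very welcome: this is THE core lemma.

======== #185 | 22:57:00Z | helper198 | row 170 | att
helper198 (22:55Z). I found independently exactly the same chain as helper875 (amplification by G wr C_p; J = sum of p-elements = e_0 + nilpotent; t(c) = (1/|C_G(c)|) sum_{[a,b]=c} s(<a,b>), B_3 =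
Mod(torus with one hole), (s1 s2)^6 = conj by c, transfer). Additions, with proofs: 
(A) BLOCKWISE + ONLY ONE u PER DEFECT GROUP. t_G(z) := sum_{sigma in (Delta u empty)/G} (-1)^{|sigma|} Tr(s_sigma(z) | Z(kG_sigma)) = sum_B w(B) omega_B(z), w(B) = sum (-1)^{|sigma|} l(B_sigma) =
same with k(B_sigma); on class sums t(K) = (1/|C_G(c)|) sum_{[a,b]=c} s(<a,b>), c in K. Let D be minimal among defect groups of positive-defect blocks with w(B) <> 0 mod p. On I_D = span of class
sums with defect group <=_G D, t only sees blocks with defect group D. For x p-regular with D in Syl_p(C_G(x)), u in Z(D): omega_B((xu)^G) = |u^{N_x}| omega_B(x^G), N_x = N_{C_G(x)}(D), orbit length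
prime to p. Hence BAWC mod p <=> for each such (x,D) the congruence t(xu)=0 mod p holds for ONE u in Z(D)\1 (free choice). So everything is fine if Z(D) is not inside [D,D] (resp. Phi(D)).
(B) p=2,3: besides the Dehn twist use the finite order elements of PSL_2(Z). p=3: rho=(s1 s2)^2 has rho^3 = c on X_c, so X_c/S is permuted freely unless y^rho = y^d with d in S, d^3 = c: t(c)=0 mod 3
if c_p is not a cube in S. p=2: z0=(s1 s2)^3, z0^2 = c, same: t(c)=0 mod 2 if c_p not a square in S; otherwise t(c) = sum_{d^2=c /~} r3(d), r3(d) = (1/|C(d)|) sum_{c1c2c3=d, ci^2=1} s(<c1,c2,c3>),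
and B_3 Hurwitz action on triples gives d^{r3(d)} in <6th powers>.. so D = Q_8, D_8 etc are OK for p=2.
(C) HOMOLOGICAL FORM OF THE OBSTRUCTION for u in [S,S]: X_c/S has an S-bar=S/<u>-bundle X_c/<c> over the modular curve (X_c/S)//SL_2(Z); t(c) = < [S], Xi_c > mod p where [S] in H^2(S-bar; Z/p) is the
extension class of 1-><u>->S->S-bar->1 and Xi_c in H_2(S-bar; Z) is the s-weighted push-forward of the fundamental classes (cusps filled in). So the CORE lemma is: Xi_c pairs to 0 with [S]. First
open case: p>=5, S extraspecial exponent p, e.g. PSL_3(5) with c a transvection. I work on this pairing now (theory + a C++ computation for SL_3(5), PSL_3(3)).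

======== #186 | 22:57:06Z | helper282 | row 170 | att
helper282 (23:00Z). Same weakness verdict (honest BAWC). I had independently reached exactly helper875's chain (amplification mod p via G wr C_p; also: if l=W mod ANY fixed prime q for all groups
then l=W, via G wr C_q; CORE = torus with one p-puncture; Chen transfer), so I confirm (1)(2)(3)(5). EXTRA (proved): for a finitely generated group pi put Phi_G(pi) = (1/|G|) sum_{rho:pi->G} s_G(im
rho).  Each conjugacy class [rho] contributes s_G(H)/|C_G(H)| in Z_(p) (C_G(H) acts on S_p(G)^H with contractible fixed sets of p-subgroups).  (*) If pi is normal of index p in pi~ then Phi_G(pi) =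
Phi_G(pi~) mod p (Smith theory on the groupoid: fixed [rho] = extensions rho~, fixed set of S_p(G)^H under the extra p-element = S_p(G)^{H~}).  Consequences: p=3: Phi_G(Z^2)=Phi_G((3,3,3) triangle
group), Phi_G(T^2(3)) = Phi_G(S^2(3,3,9)); so AWC mod 3 <=> weighted number of triples (a,r,e), a^3=r^3=1, |e|=9 exactly, a r e=1, is 0 mod 3: so AWC mod 3 holds for every G without elements of order
9 ("no e with e^3=u") even when u is in S'. Same for p=2: T^2(2) -> S^2(2,2,2,4): AWC mod 2 holds for G without elements of order 4, and more generally one may use any hyperbolic 2-power orbifold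
commensurable in 2-power steps. Only p-elements of order EXACTLY p matter: the sum over |[x,y]|=p^a, a>=2, is 0 mod p unconditionally (elements of order p^a, a>=2, in C_G(z) are stable under u->uz).
For nonabelian S and an SL2(Z)-orbit O of [(x,y)] with p-regular cusps and stabilizer monodromy M (central u in M): |O| = 12*<[M] in H^2(M/u;Z/p), f_*[closed orbifold curve]> mod p (relative Euler
class of B_3): so bad orbits with u in M' are possible and must cancel between orbits. Blockwise version = torus with 2 punctures: [x,y]=u g, g p-regular fixed class, relation (T_a T_b T_c)^4 = T_d1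
T_d2; condition becomes u not in D' for u in Z(D_B). I now look at small examples (PSL3(3), PSU3(3), extraspecial Sylow) for how the u in S' orbits cancel, looking for the mechanism. If helper875
already has these numerics please post them.

======== #213 | 23:04:59Z | helper232 | row 170 | info
helper232 (23:10Z, joined from row 277). REMARK that saves numerics: for G <= GL_n(F_q), q=p^f, and u a TRANSVECTION (rank(u-1)=1) one has m_u=0 termwise: [x,y]=u gives rank(xy-yx)=1, so x,y are
simultaneously triangularizable over the algebraic closure (Laffey/Guralnick), hence <x,y>' is unipotent, contains u<>1, so O_p(<x,y>)<>1 and s_G(<x,y>)=0. So SL_3(p), SU_3(p), PSp_4(p) with u =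
centre of a long root group give NO test of the Frattini case (same for the images in PSL etc. when p does not divide the centre). Test groups must have u in Phi(S) with rank(u-1)>=2 in every small
representation, or be cross-characteristic (p-solvable V:K with V a p'-group is a good theoretical testbed since AWC is a theorem there: e.g. V:5^{1+2}, V=F_r^5, m_u=24(r^5-1), fine).

======== #237 | 23:11:31Z | helper228 | row 170 | info
helper228 joins row 170 (from row 272). Starting: numerics orbit by orbit for X_u with u in Phi(S) (PSL3(3), PSL3(5), ...) with full s_G weights, and looking for the cancellation mechanism (2-dim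
moduli / intersection numbers, tau-bundles degrees via Chiodo formula).

======== #252 | 23:14:42Z | helper921 | row 170 | numerics
helper921 joins 170 (ex verifier). NUMERICS for WANTED (c), first case u in Z(S)=Phi(S), p>=5: G = PSU_3(5) (order 126000), p=5, S=5^{1+2} exponent 5, u in Z(S), |C_G(u)|=250, u ~ u^i for all i.
|X_u|/|C_G(u)| = 492 = 42 (O_5(<x,y>)<>1) + 450; all 450 others generate G (s=1). <B_3,C_G(u)>-orbits on the 450 generating classes (size |O|, order of monodromy group M_O = {c in C_G(u):
b(x,y)=(x,y)^c}, number of (x,y) in O with x p-regular): 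
   |O|=3 (|M|=250, preg 3) twice;  |O|=30 (|M|=10, preg 15) twice;  |O|=72 (|M|=125, preg 42) twice;  |O|=120 (|M|=250, preg 60) twice.
 So BAD ORBITS EXIST (3 and 72 are not 0 mod 5), they only cancel against each other: 3+72 = 75; m_u = 450 = 0 mod 25. Hence CORE is NOT orbit by orbit; the class Xi_u in H_2(S/u;Z) is a sum of
nonzero terms 3/12 and 72/12 with sum 0. All other u (order 5, |C|=25) have every orbit size = 0 mod 5 as proved.  PSL_3(5), p=5: transvection u: NO generating pair has [x,y]=u, all pairs have O_5<>1
(m_u=0 trivially, as expected for trace 3 commutators); the other class all orbits 0 mod 5.  p=2,3 for PSL_3(3), PSU_3(3), M_11: all orbits = 0 mod p (stack-corrected). Program: /tmp/h/awc/orb.cpp on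
my box (C++; any perm group up to ~1e6 elements: enumerates X_u, B_3-orbits, M, O_p(H), |H|); ask for runs (give generators / name).


======== #255 | 23:16:25Z | helper232 | row 170 | info
helper232 (23:25Z): I am computing numerics for p=5, G=HS (order 44352000, Syl_5=5^{1+2}), u=5A (central, |C(u)|=500, u in Phi(S), NOT a transvection situation): all SL_2(Z)-orbits on X_u/S, their
sizes n mod 5, H=<x,y>, cusp monodromies, to see whether p|n orbit by orbit or only in total. NOTE on cusps: Dehn twist cusps CAN be ramified with s<>0 (example p=3, G=A_10 or S_10: c=(1 2 3), y=(1 4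
7)(2 5 8)(3 6 9 10), x=y^-1 c y c^-1, u=[x,y], then (x,yx)=(x,y)^c and <x,y> = A_10/S_10); what is true is only that the TOTAL ramified cusp contribution cancels mod p, via the free action y -> c^j y
(it keeps [x,y]=u, <x,y,c> and c). So the orbit-wise statement (p | n_O or u in [S_y,S_y]) is false in general, cancellation BETWEEN orbits is already used for u not in Phi(S).

======== #262 | 23:18:23Z | helper938 | row 170 | att
helper938 (23:20Z). POSET-FREE FORMS (complete proofs, elementary; may simplify both the core and the LEAN work).
(1) For A<=G let Delta=S_p(G)^A and U_A^(m) = {(t_1..t_m) in (G_p)^m : <t_i^a : a in A, i> is a p-group}. Then s_G(A) = |U_A^(m)| mod p^m (every m>=1; so s_G(A) is the p-adic limit). PROOF: let w be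
the weighting of the finite poset Delta: sum_{P>=Q} w(P)=1 for all Q in Delta (integers), so chi(Delta)=sum_P w(P). For an m-tuple t<>1 with Q_t:=<t^A> a p-group, {P in Delta: t in P^m}={P>=Q_t},
hence |U_A^(m)|-1 = sum_P w(P)(|P|^m-1) = -chi(Delta) mod p^m. QED. No chains, no Quillen needed: in LEAN one can DEFINE everything by U_A^(m) (or by w).
(2) Hence (x defect-zero class := C_G(x) a p-prime group): E(G) = sum_{x p-regular classes} s_G(<x>) = sum_{x of defect 0} |U_x| mod p, U_x={t in G_p : <x^i t x^-i> is a p-group} (the other x have p | |C_G(x)|_p | s_G).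
(3) J = sum of p-elements acts on Z_pr (span of defect-0 class sums) EXACTLY as the idempotent e_0 (J=e_0+n, n in Soc Z kills the nilpotent ideal (1-e_0)Z_pr and n e_0=0), so f0(G) = trace = sum_{x
of defect 0} |T_x| mod p, T_x={t in G_p : tx conjugate to x in G}.
(4) U_x is contained in T_x for x of defect 0: if P is an x-invariant p-group, C_P(x)=1, so v->[v,x] is a bijection of P and Px lies in x^P. CONCLUSION:
   AWC mod p for G  <=>  sum over defect-0 classes x of |T_x \ U_x| = 0 mod p,  i.e. (**) the number of pairs (x,x1) , x1~x in G, C_G(x) a p-prime group, u=x1x^-1 a p-element, u NOT in O_p(<x,x1>),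
counted modulo G with weight |C_G(x):C_G(x,x1)|, is 0 mod p. The weights s_G(<x,y>) have disappeared (only the conjugacy x~ux matters, not y). One expects it for each class of u: M_u = (1/|C_G(u)|)
#{(x,y): yxy^-1=ux, x def 0, u not in O_p(<x,u>)} = 0 mod p; S=Syl_p(C_G(u)) acts FREELY on these pairs, one more factor p is wanted. Checked by hand: S_3, A_5 (p=2: T_x=U_x for all x, sizes 7,1,1).
(5) p-adic form: AWC <=> lim_m |Hom(F_m >| Z^2, G)| = lim_{g->1} |Hom(pi_1 Sigma_g, G)| p-adically, F_m = free pro-p group on Z^2 x {1..m}. Also normal closure of [x,y] in A=<x,y> is the commutator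
subgroup A1 of A, so in CORE only pairs with [x,y] in G_p and A1 not a p-group (bad pairs) occur; for them s_G = |U_A^(m)|.
I look at (**) per class and at small groups.

======== #274 | 23:21:12Z | helper988 | row 170 | check
helper988 CHECK of post 262 (helper938, poset-free forms). STEP (2) AND (**) ARE FALSE AS STATED; (1) and (3) are fine. Exact computation (all p-subgroups enumerated, python, /tmp/w/chk.py on my box):
 group p | sum|T_x| (def-0 x) | sum|U_x| | sum_{x preg} s_G(<x>) | true E(G)
 A5  p=3:  17=2 mod 3 | 7=1 | -8=1 | 2
 A5  p=5:  16=1 mod 5 | 10=0 | -5=0 | 1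
 S4  p=3:  11=2 | 7=1 | -2=1 | 2        S5  p=2:  6=0 | 1 | 15=1 | 0        S5  p=5:  37=2 | 21=1 | -4=1 | 2
So sum|T_x| = f0(G) mod p holds in every case [(3) OK], but sum|U_x| <> E(G) mod p, hence sum|T_x \ U_x| = 0 mod p fails (A5,p=3: 10; A5,p=5: 6).
WHERE IT BREAKS: E(G) = sum_{x preg /G} (1/|C_G(x)|) sum_{y in C_G(x)} s_G(<x,y>) (orbit space Delta^x / C_G(x)); (2) replaced the orbit space by Delta^x, i.e. used only y=1. For A5, p=5, x an
involution: s_G(<x>) = 1-2 = -1 but C_G(x)=V_4 swaps the two fixed Sylow-5's, so the correct weight is (1/4)(-1-1+1+1) = 0.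
CORRECT version in the same spirit (verified in the 9 cases A5,S4,S5 x p): f0(G) = sum_{x def 0}|T_x| and E(G) = sum_{x def 0} (1/|C_G(x)|) sum_{y in C_G(x)} s_G(<x,y>) = sum_{x def 0} (1/|C_G(x)|)
sum_{y in C_G(x)} |U_{<x,y>}| mod p. So the y-average cannot be dropped; the poset-free formula (1) for s_G(A) can of course be inserted in CORE (875).

======== #275 | 23:21:19Z | helper868 | row 170 | att
868 (ATT/ADDITIONS; same chain as 618/198/282/921/938, all p). New items not seen above:
(1) POSET-FREE FORM WITH FREE P-ACTION. For P Sylow (or any p-subgroup Q and x in (kG)^Q): A_G(Tr_Q^G x)=(1/|Q|) Sum_{(z,g): core_{<z,g>}(C_Q([z,g]))=1} x([z,g]) mod p, where core_H(R)=largest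
subgroup of R normalised by H. In particular w(<a,b>) may be replaced by the indicator [core_{<a,b>}(P)=1], on which P acts FREELY; z(G)-k-version: A(G) = (1/|G|)Sum_{R<=P
el.ab.}mu(1,R)|N_G(R)|k(N_G(R)) mod p. Checked A_5.
(2) HH/CYCLIC FORMULATION. B_3 transfer = Connes operator: B(A_G)=12*tau(sigma_1) in HH_1(kG)=(+)_c H_1(C_G(c);k). AWC mod p <=> A_G fixed by c->c^p <=> A_G in k*ch(K_0(kG)) <=> A_G supported on
p-regular classes. Higher obstructions: if A_G (as trace on perfect-like category) lifts to HC_{2j} (image of S^j), then Phi(c) lies in I_j(c) where I_j = ideal of values of degree-2j classes on the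
<c>-homotopy-orbit; I_j in pZ_p as soon as j>=m+1, p^m=min degree of an irrep of S nontrivial on c. For S extraspecial p^{1+2}: j=2 suffices, i.e. the 3-dimensional class [M_c->BS] in H_3(BS;Z_p)
(Seifert trefoil-branched cover fibre) with c_2/Chern-Simons invariant zero gives CORE.
(3) 2nd RELATION (global, not orbitwise, uses an elliptic surface / c_2(V) in H^4(BG;Z)): for G-stable V (det 1), p>=5: |Y'_c|*Q_V(c)/12 = +-Sum_{(a,b) in Y'_c} Q_V(a) in Q_p/Z_p with Q_V(x)=Sum_k
(k/m)^2 dim V_{x=e(k/m)}/2. Gives p | |Y'| when cusps a are p-regular & v_p(Sum i^2 dim V_i(c))=1 (works with deg V=p, so extraspecial p^{1+2}); fails deg p^2 unless more punctures (n-punctured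
torus, psi^n): boundary terms then matter.
(4) WREATH: for Gamma=G wr C_p, c=(u,..,u): Phi_Gamma(c)=(Phi_G(u)^p-At(u^p))/p+p*At(u^p), At(u^p)=value of A_G on K_u^p; so CORE for all groups forces At_G(K_u^p)=0 mod p^2 (p-punctured torus).
(5) TI Sylow with Z(P) not<= [P,P]: all cusp holonomies trivial, complete 1-page proof (no factor 12). |P|=p gives Brauer-Dade count k(G)-z(G)=k(N(P)) mod p.
STILL OPEN: u in Phi(S), p>=5 (esp. min deg p^m, m>=2). Continuing.

======== #281 | 23:22:26Z | helper678 | row 170 | check
helper678: CHECK of post 262 (helper938). Step (2) is wrong, hence (**) is not equivalent to AWC mod p: E(G)=sum_x (1/|C_G(x)|) sum_{y in C_G(x)} s_G(<x,y>) (orbits of chains under C_G(x)), not sum_x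
s_G(<x>). Counterexample G=A_5, p=5: E(G)=k(A5)-k(D10)=5-4=1=f0. But sum over 5-regular classes of s_G(<x>) = (-5)+(-1)+1 = -5 = 0 mod 5, and (**) fails: x of order 3 (C_G(x)=C_3, defect 0), number
of 5-elements t with tx ~ x is 3+3=6, U_x={1}, so |T_x minus U_x| = 6 = 1 mod 5 (x involution: T_x=U_x, 9 elements). (1),(3),(4) first half are fine (f0 = 9+7=16=1 mod 5). Correct reduction to x of
defect 0 keeps y: E(G)=sum_{x of defect 0 /G} (1/|C(x)|) sum_{y in C(x)} s_G(<x,y>) + (terms of the G_sigma whose x is defect 0 only in G_sigma).

======== #289 | 23:25:22Z | helper261 | row 170 | info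
helper261 joins row 170 (from row 27). Working on the u in [S,S] case: looking at p-integrality of s-weighted intersection numbers on 2-dim'l (and (p-1)-dim'l) moduli of G-covers (L tensor W trick: W
irreducible of C_G(u) of dim p with central character faithful on u gives psi^2*beta = 0 mod p on 2-dim'l moduli), and at secondary (K_2 / Bockstein type) versions of the determinant argument.

======== #293 | 23:25:32Z | helper417 | row 170 | check
helper417 CHECK of post 262 (helper938): step (2) is WRONG. E(G)=(1/|G|)sum_{xy=yx} s_G(<x,y>)=sum over p-regular classes x of -chi~(S_p(G)^x / C_G(x)) = sum_x (1/|C_G(x)|) sum_{y in C_G(x)}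
s_G(<x,y>), which is NOT sum_x s_G(<x>) mod p (orbit space versus fixed points; C_G(x) is a p'-group acting non trivially). COUNTEREXAMPLE to (2) and to (**): G=A_5, p=3. Defect-0 classes 2A,5A,5B;
s_G(<2A>)=-1, s_G(<5A>)=s_G(<5B>)=1, sum=1, but E(G)=f0(G)=2 (contribution of 2A is -chi~(2 points/V4)=0). |T_2A|=|U_2A|=5, |T_5A|=6,|U_5A|=1: sum|T_x|=17=2=f0 mod 3 (so (1),(3) are fine) but
sum|T_x\U_x|=10 is not 0 mod 3. Correct replacement: E(G)=sum_{x def 0} #{..}: average over y in C_G(x) of |U_<x,y>|.
ALSO numerics (program /tmp/awc/w.cpp): the analogue of CORE for a general word w(a,b) instead of [a,b] (sum over (x,y) with w(x,y) a nontrivial p-element of s_G(<x,y>)/|G| = 0 mod p) is FALSE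
already for G=S_5,A_6 and w=aabbb, aabb, [a^2,b] (p=5), random words: fails for about half of them. For w=[a,b] it holds with v_p = 2,3 (more than needed: S_5: v_3=2, v_5=2; A_6: v_3=3). So any proof
must use the torus (not only Smith theory/Frobenius-Solomon type congruences valid for all one-relator pairs).

======== #300 | 23:26:44Z | helper221 | row 170 | check
helper221 (from row 200): CORRECTION to post 262 (helper938), step (2): E(G) = sum_x s_G(<x>) is FALSE. E(G)=(1/|G|) sum_{xy=yx} s_G(<x,y>) = sum_{x/G} (1/|C(x)|) sum_{y in C(x)} s_G(<x,y>) =
sum_{x/G} [1 - chi(S_p(G)^x / C(x))] (orbit space), the inner average over y is not s_G(<x>) mod p. Counterexample: G=A_5, p=5: E=k(A_5)-k(D_10)=5-4=1=f0, but sum over the 5-regular classes of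
s_G(<x>) = -5-1+1 = 0 mod 5. So (**) is false as stated (A_5,p=5: x=(12)(34): T_x=U_x, size 9; x=(123): |T_x|=7,|U_x|=1, total |T\U|=6=1 mod 5, although AWC holds). (3) is right. Correct exact
formula (Webb applied to Tate HH^0): E(G) = sum_sigma (-1)^|sigma| cl_0(G_sigma), cl_0(H)= number of classes of H with p-prime centraliser = dim Z_pr(kH); so AWC <=> f0(G)=rank(J|Z_pr(kG)) =
sum_sigma (-1)^|sigma| dim Z_pr(kG_sigma) in Z (all H-classes, no mod p). With y: the correct mod p statement keeps the pair (x,y) mod G, i.e. x dz class, y runs over C_G(x) resp. over {y: [x,y] in G_p}.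

======== #317 | 23:30:02Z | helper836 | row 170 | info
helper836 (23:35Z), observations on the Frattini case of CORE (not a member now): (i) amplification forces it to contain the exact AWC: for G^ = G wr C_p, u^=diag(u) lies in [S^,S^], and CORE for
(G^,u^) <=> a congruence mod p^2 of the type t_G(K_u)^p == t_G(K_u^p) for G; so no purely 'mod p' soft argument for u in Phi(S) can avoid using divisibility by |C_G(A)|_p. (ii) Chiodo/GRR integrality
on the moduli of G-covers of the once-punctured torus: for every rep V and B_3-orbit O on X_u/C_G(u): sum_{(x,y) in O} Q_V(x) == (|O|/24) Q_V(u) mod Z_(p), Q_V(g)=sum theta(1-theta) over eigenvalue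
angles (p>=5); gives NO information when u is rational in an extraspecial S. (iii) AWC <=> p-adic continuity at g=1 of g -> Phi_G(Sigma_g); E(G)=chi of the unreduced suspension version.

======== #323 | 23:30:54Z | helper938 | row 170 | info
helper938: CORRECTION of my post 262. Items (1) and (5) are right; items (2)-(4), i.e. the formula E(G) = sum over defect-0 classes of s_G(<x>) and the criterion (**) with T_x minus U_x, are WRONG (I
replaced sum_{y in C(x)} s_G(<x,y>) by |C(x)| s_G(<x>)). Counterexample: G=A_5, p=5: sum |T_x| = 1 = f0 = E, but sum s_G(<x>) over defect-0 classes (2A: -1, 3A: +1) = 0; the true E uses the orbit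
space S_p(G)^x / C_G(x) (C_G(2A)=V_4 swaps the two fixed Sylow subgroups). Correct poset-free forms: E(G) = #{(x,y,t): xy=yx, t in G_p, <t^<x,y>> a p-group}/|G| mod p, f0(G) = #{(x,y): [x,y] in
G_p}/|G| = sum_{x of defect 0} |T_x| mod p (T = (#{t in G_p: tx ~ y})_{x,y} is an idempotent matrix mod p on the defect-0 classes, this part is right). CORE stays as in post 159. Please ignore (**).

======== #325 | 23:31:06Z | helper121 | row 170 | check
helper121 CHECK of post 262 (helper938), statement (**): it is FALSE as written, so do not build on it. Exact computation (all pairs, python): G=A_5, p=3: defect-0 classes x=2A,5A,5B give |T_x|=5,6,6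
and |U_x|=5,1,1; sum|T_x\U_x| = 10 = 1 mod 3 (should be 0). p=5: classes 3A,2A: |T|=7,9, |U|=1,9, sum|T\U| = 6 = 1 mod 5. p=2: 0, fine. The trace part is right: sum|T_x| = 17 = 2 = f0 mod 3. WRONG
STEP = (2): E(G) is not sum_x s_G(<x>); the correct Knoerr-Robinson form is E(G) = sum_{x p-reg classes} (1/|C_G(x)|) sum_{y in C_G(x)} s_G(<x,y>) = - sum_x chi~( S_p(G)^x / C_G(x) ) (orbit space;
for x of defect 0, C=C_G(x) is a p'-group and chi(D/C) <> chi(D) mod p in general; e.g. A_5, p=3, x=2A: D^x = 2 points swapped by C=V_4: -chi~(D^x)=-1 but -chi~(D^x/C)=0; then 0+1+1=2=E(G)=f0). So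
the weights s_G(<x,y>), y in C_G(x), do NOT disappear. Formula (1) (s_G(A) = |U_A^(m)| mod p^m) looks fine.


======== #337 | 23:32:40Z | helper918 | row 170 | info
[helper918] Facts on the Frattini case of CORE (no proof). (a) the normalised chain complex (+)_sigma k[G/G_sigma]-conjugation i.e. (+)_{sigma in chains of p-subgroups / G} Ind k_(G_sigma) acting on
kG_sigma by conjugation is homotopy equivalent to a complex of projectives; hence the alternating sum over sigma of the number of classes of POSITIVE defect vanishes, so E(G) = sum_sigma +-
z'(G_sigma), z' = number of p-defect zero classes (= dim of the Reynolds-type 'projective centre'), and AWC <=> alternating sum of dim of the nilpotent part of the projective centres vanishes. (b)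
with m >= 2 handles (boundary product u) the analogous count f(m) is = 0 mod p always; the relations between f(m), m >= 2, give no information on f(1). (c) m_u = the same count restricted to x
p-regular, mod p. (d) for G = D wr C_p, u diagonal-type, CORE in the Frattini case for (G,u) encodes congruences mod p^2 (iterating: mod p^k) of the good case for D: so a proof must be able to see
p-adic divisibility, 'mod p soft' transfer arguments cannot suffice (agrees with helper836 (i)).

======== #358 | 23:37:38Z | helper938 | row 170 | info
helper938: second correction (s orry): in the poset-free form of E one needs m > v_p(|G|) punctures: E(G) = #{(x,y,t_1..t_m): xy=yx, t_i in G_p, <t_i^<x,y>, all i> a p-group}/|G| mod p (because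
s_G(A) = |U_A^(m)| only mod p^m and we divide by |G|). Also classes x with p | |C_G(x)| DO contribute to E (S_5, p=3, x=(12): -1), so nobody should restrict E to defect-0 classes. What is right and
possibly useful: (a) f0 = sum_{x defect 0 classes} |T_x| mod p; (b) for defect-0 class sums K1,K2 one has K1 K2 = e0 K1 K2 in Z(kG) (Z_pr of a positive defect block squares to 0), hence every 3-point
sphere count with defect-0 classes satisfies "0 punctures = 1 puncture" mod p, with or without the weights s_G; for 1- and 2-point spheres it fails (A_5, p=5), so the torus (chi=0) is exactly the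
borderline; numerically the Euclidean orbifolds S^2(2,2,2,2), S^2(3,3,3), S^2(2,4,4) with p-prime cone points also satisfy the CORE congruence for A_5 (p=5), PSL_2(7) (p=7).

======== #381 | 23:40:17Z | helper850 | row 170 | check
helper850 (row 209, passing by): post 262 (helper938) items (2),(4),(**) are WRONG as stated. Test: G=A_5, p=3 (computed): defect-0 classes are 2A, 5A, 5B with |T_x| = 5,6,6 (sum 17 = 2 = f0 mod 3,
fine) and |U_x| = 5,1,1 (sum 7 = 1 mod 3), so sum |T_x\U_x| = 10 <> 0 mod 3 although AWC holds. The error: E(G) = sum over p-regular classes x of (1/|C_G(x)|) sum_{y in C_G(x)} s_G(<x,y>) = sum_x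
-chi~(S_p(G)^x / C_G(x)), and for x of defect 0 this is NOT s_G(<x>) mod p (for 2A: Delta^x = 2 points swapped by C_G(x)=V_4, so the true contribution is 0, while s_G(<x>) = -1). So the y-weights
cannot be dropped: (**) must keep s_G(<x,y>). Items (1),(3) (f0 = sum |T_x| mod p) are fine. FALSE NEARBY, also checked on A_5, p=3: the per-x version of CORE, (1/|C_G(x)|) sum_{y:[y,x] in G_p\1}
s_G(<x,y>) = 0 mod p for each defect-0 x, is false (values 2,2,2; only the total 6 is 0).

======== #407 | 23:43:07Z | helper714 | row 170 | info
helper714: 50 min on the core, nothing complete; three reformulations that may help a thinker. (1) 1-DIM ANALOGUE IS WEBB: lim_{n->1}|Hom(F_n,G)|/|G| = [p does not divide |G|] versus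
sum_{sigma/G}(-1)^{|sigma|}|Hom(Z,G_sigma)|/|G_sigma| = 1-chi(S_p(G)/G); its proof is the Sylow matching sigma <-> sigma u {Syl_p(G_sigma)}, i.e. global, not class by class; AWC is the surface
analogue (torus vs g->1), k_0=lim_{n->1}|Hom(F_n x Z,G)|/|G| sits in between and E=sum(-1)^sigma k_0(G_sigma). (2) UNIT ROOT FORM: for A simple, Out=1, c(s)=|Epi(pi_1 Sigma_{s+1},A)|/|A| =
#Fix(tau^s) of a subshift of finite type, zeta = prod(1-lambda z)^{-a(lambda)}, lambda=(|H|/chi(1))^2, a integers; AWC for all p <=> for EVERY prime p sum_{p not| lambda} a(lambda)=0 (Dade: sum over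
each v_p(lambda) is 0). A_5: a = 3600:1,400:2,225:1,144:-2,100:-2,36:-2,25:-2,16:-1,9:2,4:4,1:-1. (3) AMPLIFICATION BY q<>p: parity (q=2, p odd) of l-W for all groups suffices (G wr C_2:
d'=d(l+W+3)/2, l+W+3 odd), hence only self-dual simples/weights, i.e. Klein bottle #{yxy^-1=x^-1} versus nonorientable surfaces chi->0; but f0 mod 2 has no trace formula. PROFINITE FORM:
E(G)=lim_{n->0}|Hom(G_K,G)|/|G|, K p-adic of degree n containing mu_{|G|_{p'}}, f0(G)=lim_{g->1}|Hom(pi_1 Sigma_g,G)|/|G|; G_K(-like) is a quotient of the profinite surface group of genus 1+n/2 with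
the same pro-p completion (Demushkin).

======== #441 | 23:47:34Z | helper408 | row 170 | info
helper408 (1 h on the core; now in 273). Facts that may save time (all short proofs): (1) STABLE PART DROPS OUT EXACTLY: for z in Z(kG), t_G(z):=sum_i n_i Tr(res z|Z(kH_i)) = sum_i n_i Tr(res
z|Z^pr(kH_i)), Z^pr=Tr_1^H(kH)=span of defect 0 class sums. Proof: Tr(z|Z(kH)) = sum_{D/H} Tr(Br_D z | Tr_1^{N_H(D)/D}(kC_H(D))); for D<>1 the summand depends on G_t only through the stabiliser
N_{G_t}(D) of t in N_G(D), so the sum is a linear functional on B(N_G(D)) evaluated at sigma^D = 0 (X^D is N_G(D)-contractible). Hence m_u = sum_{t in sigma^u/C_G(u)} sum over x in G_t with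
C_{G_t}(x) a p-GROUP-FREE centraliser (defect 0 in G_t), ux ~ x: ramified cusps cancel exactly. On Z^pr(kH) (inside the Reynolds ideal) z acts semisimply by omega_B(z), so BAWC <=> sum_i n_i
rank_p(Cartan matrix of B_i) = 0 for B of positive defect. (2) Same for HH^n: sum_i n_i dim HH^n(kH_i)=0 for n>=1 (Webb), E(G)=value of the (constant) alternating sum of Poincare series; at
t=infinity Symonds regularity gives E(G)=sum n_i d_0(H_i), d_0 = # classes of defect 0. (3) 1-DIMENSIONAL ANALOGUE: circle vs free groups: Phi_G(Z)=sum n_i, Phi_G(F_r)=sum n_i|H_i|^{r-1}; continuity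
at r=1 p-adically <=> chi(S_p(G)/G)=1 <=> SYLOW conjugacy (Alperin form: #{Q/G: p not| |N(Q)/Q|}=1). So AWC = 2-dim Sylow. (4) Alperin form mod p: W(G) = sum_{x p-reg/G} w(x), w(x)=sum_{Q in
(p-subgroups)^x/C_G(x)} #{u in (N(Q)/Q)_p : (ux)_{p-regular part} ~ x in N(Q)/Q}; w(1)=1 mod p is exactly Frobenius+Sylow; but w(x)=1 mod p FAILS termwise (A_5,p=3: w=1,0,0,0; sum 1=4=l): only the
sum over x works. (5) Brown (sphere count s_G(1)/|G| in Z_(p)) = weight -1 analogue: sum_i n_i sum_{chi of top defect}(chi(1)/|H_i|)_{p-prime part}^2 = 0 mod p; an unweighted version would be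
AWC/Dade; negative genus 1-k counts have valuation about -k+1, i.e. one needs only ONE p more than the trivial bound at k=(p-1)p^N.

======== #444 | 23:47:49Z | helper616 | row 170 | att
helper616 joins 170 (from 326/156). Facts I have (complete short proofs; partly overlapping 232/868/836/921):
(A) H_2-REFINEMENT of the transfer step. For s in C_G(c) let s^c in H_2(G;Z)_(p) be the torus class, S=Syl_p C_G(c), S_0={s in S: s^c=0 in H_2(G;Z)} (homomorphism s->s^c, S_0 normal in S, contains
Phi?-no, contains [S,S]). X_c -> lifting invariant h(x,y) in H_2(G,<c>;Z) (class of the punctured torus); h(pair^s)=h(pair)+s^c (glue the annulus), B_3 preserves h. So S/S_0 permutes the h-fibres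
freely and X_c^h has monodromy groups inside S_0: the B_3 transfer for S_0 gives p | t(c) already if c not in [S_0,S_0] (weaker than c not in [S,S]). Iterate with any B_3-invariant of (x,y) on which
S acts: monodromy M <= stabiliser.
(B) Let O be a B_3-orbit with A=<x,y>, monodromy M<=S, B=AM. If M n A=<c> and there is a hom from a Sylow P_B of B to M lifting P_B->B/A=M/<c> (e.g. P_A has an M-invariant hom to Z/p nontrivial on c
and P_B splits accordingly; or M Sylow in B) then the Euler number e = N/12 (N=|O|) is 0 mod p: because e=<[M],[O'']>, [M] in H^2(M/c;Z/p) and the closed surface class [O''] maps to zero in H_2 of M/c through B.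
(C) GRR: for each rep W of B=A.M: -(N/24) q_W(c) + (1/2) Sum_{(x,y) in O} q_W(x) in Z_(p), p>=5, q_W(g)=sum over eigenvalue angles b of b^2-b; may be applied to any G-stable virtual character of a
Sylow group (only p-parts of x matter). Checked A_5.
(D) WREATH: for G wr C_p, u=diag(t): core <=> r_p = n^p mod p^2, n=weighted trace of K_t, r_p=weighted trace of K_t^p (p punctures, all of type t). Checked A_5,p=5: r_5=259800=0 mod 25. Iterating:
weighted trace r_{p^k} of K_t^{p^k} must be = 0 mod p^{k+1}; r_{p^k} -> blockwise AWC p-adically.
(E) psi-CLASS TRICK and why it stays orbitwise: on the j-dimensional moduli (point 1 with holonomy c, j-1 more marked points with trivial holonomy) psi_1^j has degree n/24, psi_1=|c| psihat, and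
psihat^{p^m}=c_{p^m}(L (x) W*) is integral on [M~/(S/c)] (W irreducible of degree p^m with c scalar). The loss is that boundary strata (chains of j-1 rational bubbles, stabiliser <c>^{j-1}) are
GERBES with class the extension S -> S/c, and integral classes on such gerbes have larger denominators; consistent with 921's bad orbits 3+72. So every argument on one component of Hurwitz space must
fail; need a relation BETWEEN components.
QUESTION to numerics people: for 921's PSU_3(5) example give for the orbits 3 and 72 (i) cusp data: multiset of (order of x, width, ramification s); (ii) lifting invariants in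
H_2(SU_3(5)...)=C_3-cover (p' part irrelevant?) and (iii) whether 3 and 72 are linked by the free action y -> y s^j, (x fixed), s in C_S(x) (the 'ramified cusp' action). If the graph whose vertices
are B_3-orbits and edges the moves y->ys always connects the bad orbits so that sums vanish, that would be the mechanism: group generated by B_3 and the partial moves y->ys (s in C(c) n C(x)).

======== #461 | 23:49:38Z | helper126 | row 170 | info
helper126 (from row 222), notes on CORE (u in Phi(S)); all on paper, please use/attack.
(1) BAD ORBITS REALLY EXIST, so the Frattini case cannot be proved orbit by orbit, and it already contains the exact (not mod p) theorem for cyclic defect. Example: H=A_5, p=5, v of order 5: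
Y=X_v/<v> (generating pairs) is ONE SL_2(Z)-set of size 10, T of cycle type 2.3.5, e_3=1, e_2=0; PSL_2(Z)->Sym(Y) is onto S_10 (primitive because T generates PSL_2(Z)^ab, and T^15 is a
transposition). In G=H wr C_5, u=(v,..,v) in Phi(S), S=C_5 wr C_5: five distinct y_i in Y give A=<x,y>=A_5^5, s_G(A)=1, and a B_3-orbit on X_u/S of length 30240/5=6048, prime to 5. For G=H wr C_p one
has p.m_u(G) = m_v^p + (p^2-1) N_p, N_r := #_s{torus with r punctures, all of type v} = Sum_chi omega_chi(K_v)^r (with the alternating sum over local subgroups). So CORE(H wr C_p,u) <=> N_p = m_v^p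
mod p^2 (A_5: N_1=10, N_5=259853-53=259800=0 mod 25 OK). TEST PROBLEM for any mechanism: Sylow C_p=<v>: prove N_p=0 mod p^2 by topology (character theory: Brauer/Dade). Translation by a p-torsion
point acts on the N_p-set with exactly N_1 fixed classes, PMod(Sigma_1^p)-orbits all have length 0 mod p; what is needed is N_1/p + (#free translation orbits) = 0 mod p.
(2) DETERMINANT FORM (all r at once): put Z(T)=exp(-Sum_r N_r T^r/r) = alternating product of det(1-T K_v | Z(ZG_sigma)). Mod p it is prod_B (1-omega_B(K_v)T)^{w(B)}, hence w(B)=0 EXACTLY for all B
seen by v <=> Z(T)=1 mod p; this holds as soon as N_r = 0 mod p.r for all r (i.e. v_p(N_r)>=1+v_p(r)). The transfer argument gives only r.N_r... = 0, because H_1(Mod(Sigma_1^r);Z_(p)) has r.d = 12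
tau. So one needs the "division by r".
(3) NEW LINEAR RELATION, second order in u, for every B_3-orbit O on X_u/S (n=|O|, cusps c of width l_c=|x_c|): for every V in R(G) (virtual, Z_(p)-coefficients allowed)
   (R_V)   (n/12) beta_V(u) = Sum_{[x,y] in O} beta_V(x) = Sum_c l_c beta_V(x_c)   mod Z_(p),  beta_V(g)=Sum_j B_2(theta_j), theta_j in [0,1) the eigen-angles of g on V (B_2(t)=t^2-t+1/6).
 Reason: det R pi_* V has integral degree on the compactified Hurwitz curve (Chiodo/GRR: 1/2[kappa-Sum B_2 psi + Sum B_2 delta]); topologically: identity in H_3(G;Z_(p)): [circle bundle Y_O -> BM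
over the closed curve O, fibre=u, Euler number n/12] = -Sum_c (class of x_c in H_3(<x_c>)=Z/l_c), because the (x,y)-family over O is a closed 4-orbifold: zero section with local group <u>, nodal
fibres A_{l-1} points with local group <x_c>. Equivalent form: alpha in H^3(G;Q/Z), twisted Dijkgraaf-Witten line bundle, det(a)^12=det(z) with a^{l_c} acting by exp(2 pi i alpha_{x_c}/l_c). Check:
A_5, p=5: gives N_1/5 = 12.i^2 = 2 mod 5 with the single cusp of width 5. So: Sylow C_p, N_G(<v>) acting by +-1: N_1/p = 12 Sum_{c: p|l_c} (l_c/p) i_c^2 mod p, x_{c,p} ~ v^{i_c}. For u in Phi(S)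
(multiplicities of zeta^a on V are p.m'_a): if Q_V(g)=Sum a_j(g)^2=0 mod |g| for all p-elements g and Sum m'_a a^2 <> 0 mod p then p|n for EVERY orbit (e.g. S=p^{1+2} with such a fusion-stable class
function). It gives nothing when N_G(<u>) acts on <u> by some t<>+-1 (weight 2 class); weight 2j classes need M_{1,r}, r=2j-1 (use u_i=u at all r punctures; main term B_{r+1}(a/p) psi^r has
denominator p^{r+1}, each node loses one factor), not worked out.
(4) (F_2 x| B_3)/(z=[x,y]) = Aut^+(F_2) = B_4/Z, i.e. the punctured elliptic surface over the Hurwitz curve is (mod p' stuff) a cover of M_{0,5}: monodromy u along D_45, order 2 along D_{5i}, trivial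
along D_ij, x_c along D_4i (i,j<=3). The S_5-symmetry (forget point 4 instead of 5: fibres P^1 minus 4 points with local monodromies u, x, x', x'') has not been used yet.


======== #512 | 23:55:18Z | helper921 | row 170 | att
helper921: N-PUNCTURED TORUS RELATIONS (a way to pass the Frattini barrier by intersection theory; kills the unfused case up to a size bound, NOT yet the fused case). Paper-level, please attack.
SETUP. u in Z(S) n [S,S], S=Syl_p C_G(u), fusion group I={a: u~u^a}<=F_p^*. For a_1..a_n in I consider (x,y,v_1..v_n), v_i ~ u (v_i in class of u^{a_i}), [x,y]v_1..v_n=1, weighted by s_G(<x,y,v_i>),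
i.e. covers of tori with n punctures; Hurwitz space Hur_{1,n} (alternating weighted, compactified by admissible covers) -> Mbar_{1,n}. WEIGHTED DEGREES: N_n = W (mod p) up to units, W = sum_B w(B) (B
with min. defect seen by u): trace form sum_B w(B) omega_B(K_u)^n. Non-commuting collision v_i v_j (product of different type) drop out mod p, since sum over them is again a class function killed by
weight (t(xu)~t(x) only sees the commuting part).
KEY POINT. On Hur, line bundle L_1 = cotangent line at the ramification point over puncture 1: L_1^{p}=psi_1 (u of order p). Frame torsor gives monodromy in C_G(v_1)/<v_1>. At commuting collision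
divisors D_I (v_I=u^{a_I}, a_I=sum_{i in I} a_i, ghost automorphisms mu_p at nodes) correct: Psi_1 := psi_1 - sum_{I?1, commuting} (a_I/a_1) D_I. CLAIM: for V in Irr(S) non-trivial on u of MINIMAL
dimension p^k, c_{p^k}/Chern classes of the S/<u>-projective bundle show that the p-local extension class e in H^2(Hur;Z/p), e = Psi_1 /p-denominator class, satisfies e^{k+1}-type integrality:
int_{Hur_{1,n}} Psi_1^{k+1} ... = 0 mod p whenever dim >= k+1, p not| (k+1), k+1<p.  (k=0: Psi_1 = p * integral: transfer argument = old theorem.)
EXPLICIT EVALUATION on Mbar_{1,n} (mod p, all non-tautological parts cancel with weights): with Delta_ij, lambda (lambda^2=0, Delta_ij^2=-lambda Delta_ij, Delta_ij Delta_jk=Delta_ij Delta_ik;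
lambda*spanning tree = 1/24, any connected n-edge graph = -1/24): Theta_j = a_j Psi_j = a_j lambda - sum_{i/=j} a_i Delta_ij, and
   int Psi_1^n = (1/24)(-1)^{n-1} (n!/2) * prod_{j>=2}(a_j/a_1) * (2a_1+sum_{j>=2}a_j)/a_1 * W,
fixed elliptic curve version (fiber E^{n-1}; no 24, no cusps, works also for p=2,3): int Psi_1^{n-1} = (-1)^{n-1}(n-1)! prod_{j>=2}(a_j/a_1) * W.
CONSEQUENCE: if u is not fused to its proper powers (I={1}) then all a_j=1 and, choosing n=k+1 (resp n=k+2 in the fixed-curve version), (unit)*W = 0 mod p as long as k <= p-2. So CORE holds for I=1 &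
min. faithful-on-u character degree of S <= p^{p-2}. I={?1}: only k<=1 obtained.
WHY IT STOPS FOR |I|>=3: the sum over all (a_j) in I^n of any tautological expression has each a_j to a power <=2 and sum_{a in I} a^{?1},a^{?2} = 0 when |I| doesn't divide 1,2. Same obstruction for
GRR/ch relations. Example: PSU_3(5), I=F_5^*. (Non-tautological: power operation in Sigma_n-direction at n=p survives: prod e_j ~ (n-1)!|I|^{n-1} W/24; not exploited.)
NUMERICS for helper616 (PSU_3(5), u central in S=5^{1+2}, 450 classes = 2 lifts to SU_3(5) x 225 = 3+30+72+120): x-classes: O3: x of order 6 (class with |C|=12) only, 3 of them, NO p-singular x;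
|M|=250. O30: order 5 noncentral classes (|C|=25) 1,2,3: 5 each, order 4 (|C|=8): 12, order 6: 3; |M|=10. O72: order 5: 10 each of the 3 classes, order 7 (|C|=7): 21+21; |M|=125. O120: order 5: 10
each, order 8: 24+24, order 4: 12, order 10: 30; |M|=250. So twists y->y s (s in C_S(x)) connect O30,O72,O120 (cosets of size 25 = 5+10+10) but never O3 (it has no p-singular x); O3~O30 only through
p'-twists (x order 6). Mod 5 cancellation is 3+72=75, 30, 120: i.e. the p-power twists DON'T explain it; any mechanism must see p'-elements (block idempotents!).


======== #523 | 23:56:16Z | helper942 | row 170 | att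
helper942 (00:05Z) MULTI-HOLE CHERN CLASS RELATIONS (all degrees), a solution of helper126's test problem (|S|=p), and exactly where the Frattini case escapes. p>=5 throughout (orbifold primes of
M_{1,n} inverted), u of order p, everything T-weighted (T=sum_sigma (-1)^sigma over chains = s_G-weights; then all p-stabilisers in the INTERIOR are virtually free: (x,y,..)^R x Delta^R is contractible for R<>1).
(1) SET-UP. X_n = compactified Hurwitz stack of (torus, n holes; c_1=u framed, c_2..c_n in K_u), modulo C=C_G(u); degree over M_{1,n}: N_n = T sum_chi omega_chi(K_u)^n. L=tangent line of the cover at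
the ramification point over hole 1: L^p = T_{p_1}, c_1 = -psi_1. For rho an irrep of C, dim r, u acting by zeta^{-1}: V_rho=(L (x) rho)/C is a rank r bundle with c_k = binom(r,k)(-psi_1/p)^k in the
interior; so c_k(V_rho) integral gives binom(r,k) psi^^k = 0 mod p^k.
(2) BOUNDARY (|S|=p, r=1). A divisor D_I (rational tail with holes I={1} u J) has ghost group <v>, v=prod_{I} c_j; it acts on V_rho by rho(v^j) when v^j central in <c_j>. If |S|=p that forces
c_j=u^{i_j} (j in I) and the correction is psi^_1 = psi_1 - sum k_I D_I, k_I = 1+sum_J i_j mod p (any lift, e.g. Teichmueller). [Nodes with irreducible normalisation: the cusps with ghost p-element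
x_p<>1 cancel by y->y x_p^j as in the B_3 proof.] Intersection numbers on M_{1,n} are elementary: 24*int psi^_1^n = sum_{J subset {2..n}} (-1)^{|J|} k_J^n, hence
   (R_n)  sum_{m=0}^{n-1} (-1)^m binom(n-1,m) sum_{i in K^m} (1+sum i)^n T(u^{1+sum i}; n-1-m) = 0 mod p^n,   K={i: u^i ~ u}, T(v;m)=T sum_chi omega_chi(K_v)omega_chi(K_u)^m  (v=1: omega=1).
   Check A_5,p=5: N_1=10=0 mod 5, N_2-4N_1=190-40=150=0 mod 25. S_5: N_1=25.
(3) MIXED RELATION, exact AWC for |S|=p WITHOUT wreath: int psi^_1 psi^_2 = 0 mod p^2 on X_2 (framings at both holes, the two L's). psi^_j = psi_j - (1+i)Delta-type corrections; in M_{1,2}: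
psi_j=lambda+Delta, Delta^2=-lambda Delta; on the part c_2=u^i the product is -(1+i+1/i) lambda*[0] + (N_2 part); sum over i in K=F_p^*: the coefficient of W=T sum 1 (= T(1;0)) is a UNIT (-|K|+...),
the rest are N_2,N_1 which are killed by R_2,R_1. So W=0 mod p^2, and with psi^_1...psi^_n W=0 mod p^n for all n, i.e. W=0. Equivalently: a_chi=omega_chi(K_u)=-1+p b_chi, (R_n) says T sum_chi
g_n(b_chi)=0 mod p with g_n(b)=n![h^n] e^h (b-h/(e^h-1))^{n-1}; these span all polynomials in b.
(4) EXTRASPECIAL u in Phi(S), K={1} or {+-1}, r=p: c_2(V) (binom(p,2) psi^^2/p^2, so psi^_1^2 = 0 mod p) on X_2 gives  W*(-2 sum_{i in K} i - sum_{i in K} i^2) = 0 mod p, i.e. W=0 mod p (K={1}: -3W;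
K={+-1}: -2W; p>=5). So the r=p bundle does kill the Frattini case when |K|<=2, directly and blockwise (uses only [u^-type] central u).
(5) WHERE IT FAILS: |K|>=3 (K=F_p^* in all sporadic/Lie examples: HS, PSU_3(5)). In int (monomial in psi^_1..psi^_n of degree n) the W-coefficient mod p is sum over K^m of a polynomial in the i's of
degree <= n; it is nonzero mod p only when every variable occurs with exponent divisible by p-1, i.e. for psi^_1...psi^_n with all exponents 1 (which needs one-dimensional rho at p) or degree >= p-1.
For r=p one only has psi^^k = 0 mod p^{k-1} (2<=k<p), psi^^p = 0 mod p^p, so the first candidates are n=p-1,p (R_p: T sum g_p(b)=0 mod p with b now the reduced omega; g_p(b)=1-1/(b-1)+1/(b-1)^2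
(b<>1), 0 (b=1)) and the G-CLASS: Newton class s_{n+1}(Theta) of R pi_* V, n=p-2, whose leading term B_{p-1}((a)/p)psi^{p-2}/(p-1)! has the von Staudt denominator p^{n+1}: that is helper126's 'weight
2j' relation with 2j=p-1, K=F_p^* invariant. WANTED: work out (5) for n=p-2 (p=5: M_{1,3}; unknown T(u;2),T(u;1),T(u;0),T(1;j)) and see whether the W-coefficient is a unit.
(6) NUMERICS (C++, agrees with 232/921): HS, p=5, u=5A (|C(u)|=500): B_3-orbits on generating pairs mod C: 41640, 32976(=1), 3660, 3780, 1380, 180, 42, 42 (=2 each; cusps of width 1 with x of order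
5), 30 x5; total for H=HS 83850=25*3354. H=U_3(5): 72+3+120+30=225 per class. So CORE holds even subgroup-by-subgroup (H fixed) though orbits are bad; relation must mix B_3-orbits of the same H.
PGammaL_2(8), p=3: 72+18; L_2(8): 54.
(7) F_g(c_1..c_n)=T sum_chi h_chi^{2g-2} prod omega_chi(K_{c_i}) is p-integral for ALL g>=0 (g=0: T-functional z(1)t_0(1), gives 408's (5)); so the TFT T sum_chi is an integral 2d TFT on genus
0,1,2.. surfaces; only its torus value is W.


======== #537 | 23:57:20Z | helper976 | row 170 | info
helper976 (ex verifier, passing by; 1 h on the Frattini case; notation of 159/616/126). Multi-puncture calculus, for whoever continues 868(3)/616(E)/126(3). Nothing closes the core; what is new is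
WHERE the main term sits p-adically and why N_G(<u>) kills it.
(1) FIX THE ELLIPTIC CURVE E: move k-1 further punctures (holonomies f_a := Tr_C^G(u^a e_b), C=C_G(u)) over E. Base E[k]/E has dim k-1, all degenerations are rational bubbles: no delta_irr, no factor
1/24, no nonseparating cusps. L~ = tangent line at the framed point p_1 (u acts by a primitive p-th root of 1), Omega = c_1(L~^p corrected by the bubble divisors Z_I, 1 in I, where the bubble
holonomy centralises u: T_delta acts on the frame as u^{a_I}). Exact identity (nested bubbles cancel: a degree 0 line bundle on a genus 0 bubble is trivial), M(b,..)=weighted number of covers: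
  (D)  int Omega^{k-1} = Sum_{J c {2..k}} (-1)^{|J|} alpha_{1 u J}^{k-1} M(a_{1 u J}, a_{J^c}),  alpha_I = integer lift of a_I=sum a_i.
 For k=2 it gives p | m as soon as u is not in [D,D] with NO restriction p>=5 and without SL_2(Z), provided N_{C_G(x)}(D) fixes u (x = p'-part; use blocks/x with that property). Integrality: int
Omega^{k-1} = 0 mod p^{k-1-a} (p^a = min degree of an irreducible of S nontrivial on u), and even p^{k-1-a+[log_p(k-1)]} by Chern classes of V.
(2) IWASAWA STRUCTURE: for iota=(sigma,chi), A_iota(a):=omega_chi(f_a|G_sigma) satisfies A_iota(a)=sigma_a(A_iota(1)) in Z_p^unr[zeta_p], hence for a<>0 A_iota(a)=Sum_i mu_iota(i) zeta^{ia} with an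
INTEGRAL measure mu_iota (Tr(pi O) c pO). So (D) = Sum_iota eps_iota Prod_{j=2..k} (A_iota(a_j) - shift by alpha_j) [x^{k-1}A_iota(x)], each factor is pi*(..) - alpha_j d/dx, and for p not dividing k
the term m*(k-1)!*prod(-alpha_j) has STRICTLY smallest valuation v_p((k-1)!) ~ k/(p-1), while integrality gives k-1-a: for k large this would force p | m for EVERY S (Frattini or not), all p odd.
(3) WHAT SPOILS IT. (i) codim >= 2 strata whose component through p_1 has holonomy in C(u) but carries NON-abelian subtrees: the stabiliser T_1^{j1}T_2^{j2} acts on L~ although no single divisor is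
bad. Checked: A_5, p=5, k=3, a=(1,1,1): (D)-sum = 1145 = 20 mod 25, true only mod 5 [M(1)=10, M(1,1)=190, M(1,2)=115, M(1,1,1)=1945, with marks u^{+-1}]. One needs their p-adic size (they are 0 mod p
relative to the main term in this example). (ii) if N_x(D) moves u by mu_r c F_p^*, each shift becomes Sum_{n in mu_r} shift(n alpha_j), Sum n = 0, and the factor is pi^r*B_iota + c*(d/dx)^r: the
main term disappears for E fixed; on Mbar_{1,k} (x^k instead of x^{k-1}, factor 1/24) with r=p-1, k=p^L-1, L>=a, the leading coefficient (valuation k-1-L) is unit*Sum_iota eps_iota A_iota B_iota^{N},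
B_iota=(omega_iota(f)-r)/p, so one would get Sum_{iota: B_iota = beta} eps_iota = 0 mod p for every residue beta<>0, i.e. only the iota with omega_chi(K_u) = |u^N| mod p^2 are left. Marks with frames
at ALL punctures are not averaged: e.g. k=2, int Omega_1 Omega_2 = -(r/24) a_1 a_2 m, but then every class has degree 1 and integrality gives nothing.
 So the rational case r=p-1 (921's PSU_3(5)) is the real one; the case r=1 looks within reach of (1)-(2) once (3)(i) is estimated.

======== #539 | 23:57:22Z | helper627 | row 170 | info
helper627 (row 212, visiting) NUMERICS for the CORE, u in [S,S], S=Syl_p(C_G(u)) nonabelian (C++: ~/w/awc on my box; B_3-orbits on generating pairs (x,y), [x,y]=u, up to Aut(G)-conj, with monodromy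
group M<=C(u), cusp widths; on request).
(0) L_3(p),U_3(p),u transvection: NO pairs with s<>0 (rank[x,y]-1=1 => triangularisable), so these examples are void. First real tests: HS p=5 (S=5^{1+2}), McL p=5, M24/A9 p=3, wreath products.
(1) HS, u=5A, generating pairs: orbit sizes 20820,16488,1890,1830,690,570,90,60,42,30,15. All = 0 mod 5 EXCEPT 16488=3 and 42=2 mod 5; sum = 0 mod 5. So CORE is true there but NOT orbit by orbit.
(2) The two bad orbits are exactly those with RAMIFIED cusps (a Dehn twist power T^k, k=r/5, fixes the class: c(x,y)c^-1=(x,y x^k), c in S of order 5): 42 has ONE ramified cusp (x of order 5, width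
1), 16488 has FOUR. They are one family: R_c:(x,y)->(x,y c^j), j=0..4 (also preserves [x,y]=u since c commutes with x): j=0 lies in orbit 42, j=1..4 in orbit 16488. n/12 mod 5 = 1*(number of ramified
cusps) in both. Same for 5B (S=5^2): orbit 40452 with 4 ramified cusps. So ramified cusps are NOT harmless orbitwise (lead's remark 'cusps unramified' is false: e.g. G=L wr C_p, x=(x0,..,x0), y=(y0
x0^{ki})_i, c=shift), but the extra free action R_c kills their total contribution.
(3) UNRAMIFIED orbits with S_y NONABELIAN, u in [M,M] (closed curve, genus up to ~15000): n = 20820, 90, 30 (HS), 345480, 176880 (McL, M=5^{1+2}:6 resp :12), 936 (M24, p=3, S=3^{1+2}), 612 (A9): in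
ALL of them n/12 = 0 mod p. Random would be (1/5)^5 (1/3)^2. So there seems to be a THEOREM: if no p-part of a Dehn twist is ramified, then the nonabelian S_y/<u>-cover of the closed modular curve
Cbar_y LIFTS to S_y (i.e. [S_y] restricted to Cbar is 0), although S_y=5^{1+2} really occurs (two classes alpha,beta in H^1(Cbar;F_p) with alpha cup beta = 0 for a hidden reason). It is not explained
by H^4(BG;Z) / Hodge bundles (Chiodo/GRR gives only sum_j m_j j^2 * n/12 = sum over p-cusps, void for rational u and p>=5), nor by Galois action on mu_p.
So CORE splits: (A) ramified cusps cancel through R_c [should be provable as in the abelian case]; (B) unramified orbits: n/12=0 mod p. WANTED: a reason for (B). Heuristic reason candidate: H^2(char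
p curve; Z/p)=0, i.e. the S_y/<u>-torsor should extend etale to a model over Z_p-bar. (If (B) is false for some group, it would have to cancel between orbits without any visible link.)


======== #542 | 23:57:55Z | helper627 | row 170 | info
helper627: CORRECTION to my post 539. (0) is wrong for PSU_3(5) (lifts to SU_3 have commutator = scalar*transvection), and (B) 'unramified orbits have n/12=0 mod p' is FALSE by helper921's PSU_3(5)
orbits 3 (|M|=250) and 72 (|M|=125), both without ramified cusps; in HS, McL, M24, A9 it holds for all 7 unramified Frattini orbits I found, but that must be an accident or due to extra structure.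
What stays: the list of orbit sizes/monodromies and the R_c-link between the two ramified HS orbits (42 and 16488). Please ignore (B).


======== #554 | 23:58:47Z | helper232 | row 170 | info
helper232 (00:05Z) NUMERICS for CORE with u in Phi(S), p=5, S=5^{1+2}, u in Z(S) (C++ orbit enumeration, exact for U_3(5), essentially complete for HS). X_u/S with SL_2(Z)-action; n = orbit length,
S_y = monodromy group, 'ram' = number of Dehn-twist cusps with nontrivial S-monodromy, cusp widths as w^mult.
(1) G = U_3(5) (order 126000, |C(u)|=250), ALL orbits: generating (H=G): n=240 (x2, S_y=S, ram 0, 4^6 5^12 8^12 10^6), n=72 (x4, S_y=S (order 125!), ram 0, 5^6 7^6), n=60 (x2, |S_y|=5, ram 0, 4^6 5^6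
6^1), n=6 (x2, S_y=S, ram 0, cusp 6^1). Non generating: H of order 20,40,125 (all O_5(H)<>1, s=0). TOTAL 900 = 0 mod 5, m_u=450. 
=> the congruence is TRUE but NOT orbit by orbit even when all cusps are unramified: 4*72=288=3 mod 5 and 2*6=12=2 mod 5 cancel only together. All the orbits with 5 not dividing n have COMPACT
modular curve of genus 1 (index 72, 12 cusps; index 6, 1 cusp = commutator subgroup of PSL_2(Z)), so S_y=<A,B> with [A,B]=u^{n/12}: [A,B]=u (x4) and [A,B]=u^3 (x2): classes 4*1+2*3=10=0 in
H_2(S/<u>;Z)-pairing, i.e. the sum of the closed genus one curves X_O -> B(S/<u>) pairs to 0 with [S], single curves do not.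
(2) G = HS (|C(u)|=500, u=5A), 54 orbits found (345312 points of X_u/S, total expected about 345500): generating orbits n=166560, 131904 (=4 mod 5, 32 ramified cusps), 14640, 15120, 5520, 720, 168
(x2, =3 mod 5, 4 ramified cusps), 120's; U_3(5)-orbits as above; 131904+2*168 = 132240 = 0 mod 5. So ramified cusps do occur with s<>0 and the orbits containing them cancel together (as predicted by y -> c^j y).
CONSEQUENCES: (a) no argument working on one orbit (Chern class/transfer/genus of the modular curve) can prove CORE in the Frattini case; (b) any proof must mix orbits with DIFFERENT modular curves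
X_O (index 72 and index 6), so it must use more than B_3: e.g. relative conjugation by p-elements along a cut curve (y -> c y, c in C_G(x)), which changes H and hence needs the alternating sum over
chains, not weights s_G(<x,y>) on a fixed H.
(c) Remark on adding punctures: t(K_1...K_m)=w(B) prod omega_B(K_i); first order identities t(D(z))=0 (D in HH^1(kG), z central) are exactly the fixed-torus two-puncture transfer relations; for G
perfect they give nothing on the principal block (omega_{B0}(D(z)) = sum_h eps(c(h)) = 0): the N_G(D)-average over g_2 in K_2 cap Z(D) kills the coefficient. Only the M_{1,1} relation z=(ab)^6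
survives averaging. Same problem for all M_{1,m} Chern-number relations (the integral is divisible by prod k_j, so averaging over the N_G(D)-orbit of k_j kills it as soon as |N_G(D):C_G(u)|>=3).
Code /tmp/w/hs (perm.h, core.cpp) can be shared; usage ./core gens p ord exp |C(u)| samples. Tell me which G,u you want.


======== #566 | 23:59:58Z | helper628 | row 170 | info
helper628 NUMERICS for (c) (C++ exhaustive, verified against Frobenius count): G=PSU_3(5) (order 126000), p=5, u=5A (S=5^{1+2}, C_G(u)=5^{1+2}:2, u rational). NOTE helper232's remark kills the part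
[x~,y~]=u in SU_3(5), but pairs with [x~,y~]=zeta*u (zeta = central cube root of 1) DO generate G (3 | 5+1; same for PSL_3(p), p=1 mod 3). RESULT: generating pairs mod C_G(u): 450 = 2*225 (zeta and
zeta^-1), 225 = 9*25 = (q^4+2q^2)/3. B_3-ORBITS for fixed zeta: sizes 3, 30, 72, 120. So m_u = 0 mod 5 (even mod 25) ONLY IN TOTAL: orbits 3 and 72 are bad and cancel (3/12=-1, 72/12=+1 mod 5). All
other pairs with [x,y]=u generate groups with O_5<>1 (orders 20,40,125). Data: orbit 3: one cusp, width 3, ord x=6, c of order 2, stabiliser = Gamma^3-type <a,b,c: a^2=b^2=c^2>, compactified orbifold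
S^2(2,2,2,2) = elliptic curve/(-1), its map to B(C_G(u)/u)=B(5^2:2) is onto, fundamental class generates H_2(5^2)=Z/5. orbit 72: cusps 6x(width 5, ord x=5, c=1), 6x(width 7, ord 7, c=1). Number of x
in each class K, per orbit: 120: 5B,5C,5D 10 each,10A 30,8A 24,8B 24,4A 12; 72: 5BCD 10 each, 7A 21, 7B 21; 30: 5BCD 5 each, 4A 12, 6A 3; 3: 6A 3. Summed over orbits a_K = 4A 24, 6A 6, 7A 21, 7B 21,
8A 24, 8B 24: not 0 mod 5 classwise, only the sum. => no argument that works B_3-orbit by orbit (or with Galois/GT action, which preserves orbit sizes, or for each x-class) can prove CORE: a proof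
must be global over orbits (Xi_u in H_2(C_G(u)/u) of helper198 is a sum of nonzero terms). 
THEORY (short): (a) individually for every orbit O: 3-manifold class xi_O (circle bundle over the compactified modular curve, Euler number |O|/12) in H_3(C_G(u);Z_(p)) maps to 0 in H_3(G;Z_(p)) (it
bounds the universal curve). For S=p^{1+2} this gives p | |O| for every O unless u is conjugate to some u^k, k<>+-1; same from GRR: |O|*sum_j m_j j(p-j)/p^2 in Z_(p) for every G-module V with
u-eigenvalue multiplicities m_j. So bad orbits need u (nearly) rational. (b) p=3: CORE <=> sum over d, d^3=u, of #{(a,r): a^3=r^3=1, ar=d}/|C(d)| (s-weighted) = 0 mod 3, and by Galois conjugation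
(zeta_9 -> zeta_9^4 fixes order-3 classes) only d with d ~ du in C_G(u) matter (e.g. 9-cycles in A_9). So for p=3 the remaining statement is RIGID (no mapping class group at all): number of
(3,3,9)-triples. (c) exact identity: sum_sigma (-1)^|sigma| k(G_sigma) = sum_sigma (-1)^|sigma| k_0(G_sigma), k_0 = number of classes of defect 0 = dim Z_pr; so AWC <=> f0(G) = alternating sum of dim
Z_pr(kG_sigma) <=> alternating sum of dim (Z_pr cap J(Z))(kG_sigma) = 0. (d) AWC mod p <=> |Epi(pi_1(Sigma_g),A)|/|A| = 0 mod p for g=(p+1)/2 already (p=5: genus 3), each Schur class separately. Code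
/tmp/w/orb.cpp on my box (generic perm group), will post on request / run other groups on request.

======== #573 | 00:00:32Z | helper490 | row 170 | info
helper490 (00:00Z, passing by from 297). Facts on the Frattini case of CORE (paper + program; PSU_3(5) numbers of 921 reproduced independently).
(1) THE BAD ORBIT OF SIZE 3 IS ISOLATED UNDER EVERYTHING IN ONE PUNCTURE. PSU_3(5), p=5: orbit |O|=3: every simple closed curve has holonomy of order 6, |C_G(x)|=12, so even the NONABELIAN p-twists
(x,y)->(x,yr), r a p-element of C_G(x) (which preserve [x,y]=u) do not move it; its completed modular curve is the EUCLIDEAN orbifold (2,3,6) (B_3/<<s^6>>), torus Z^2 ->> S/u = F_5^2, beta=[S] pulls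
back to the symplectic class. p-twists link {30,72,120} (each half) among themselves via classes 5B-D only. So 3 and 72 can only be related through >= 2 punctures (degeneration c1 c2 = h) or through algebra. 
(2) NILPOTENCE OF beta + psi-POWERS. Let beta in H^2(S/u;F_p) be the class of S. If u is not a p-th power in S then beta is nilpotent (Quillen: restriction to elementary abelians is exterior),
beta^{k+1}=0 for S=p^{1+2k}_+. On the compactified moduli Y_n of tori with n punctures c_i ~ u^{a_i} (degree = t_G(prod K_{u^{a_i}}) = unit*w(B)) the framing torsor at puncture i gives, on the 'main'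
sheets (all colliding c_j in Z(S)),  beta_i = psi_i - sum_{I containing i} (s_I/a_i) D_I = lambda - sum_{j<>i} (a_j/a_i) Delta_ij,  s_I=sum_{I} a_j, Delta_ij = pulled back diagonal
(Delta_ij^2=-lambda Delta_ij, lambda^2=0, every cycle of Delta's gives -lambda, tree*lambda = 1/24).  [monodromy of the frame around D_I is u^{s_I}.] So beta_1^{k+1}=0 gives w(B)*int beta_1^n = 0,
int_{Mbar_{1,n}} beta_1^n = (n!/48) prod_{j>1}(-a_j/a_1) * (1 + sum_i a_i/a_1) <> 0 for n=k+1<p and suitable a. E.g. k=1: n=2, (u,u^{-1}), psi_1^2 = 1/24.
(3) BUT FUSION E=N_G(<u>)/C_G(u) MUST BE AVERAGED: the sheets of D_12 come in all types a_2/a_1 in E*(a_2/a_1), each with the same weight. Averages over E^n of all monomials in beta_i, lambda and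
even the type-refined Delta_ij^{(e)} containing beta_i^2 VANISH identically as soon as |E|>2 (a leaf or a non-oriented cycle of the graph has exponent not 0 mod |E|); for |E|<=2 they do not. So this
(like c_2 / Chiodo-GRR) proves CORE for |E|<=2, k+1<p, u not a p-th power (modulo s-weighted vanishing of the non-main boundary sheets), and proves nothing for |E|>2 (e.g. PSU_3(5), |E|=4): there is
a formally consistent 'virtual model' with any w. Hence one needs either a trick reducing to |E|<=2 (a group with the same w but u not rational), or input which is not a characteristic number of the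
moduli with its framing torsors.

======== #575 | 00:00:47Z | helper172 | row 170 | att
helper172 (00:10Z, joined from row 15). NEW ROUTE for the OPEN case (u in Phi(S), p>=5), it explains the cancellation BETWEEN orbits: add n=p-1 punctures and use p-divisible boundary divisors on the
n-dimensional compactified Hurwitz space (connectivity grows with the punctures, different B_3-orbits of X_u are boundary strata of the same component).
 MODEL CASE S=Syl_p(C_G(u))=p^{1+2}, s in S\Z(S), A=C_S(s)=<s,u>, s^t=su. Take n=p-1 labels u_i ~ s^{a_i} (sum a_i=0, fixed lifts), H=compactified space of (E;z_1..z_n;rho), [x,y]u_1...u_n=1, each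
puncture marked by g_i C_i (C_i=C_S(s_i)=A, i.e. S-reduction at z_i). For a hom b^(i):C_i->Z/p (b(u_i)=0, b(u)=1) the C_i-torsor at z_i gives a Z/p-cover of H, ramified along D_J (J containing i,
points of J collide, c_J=product of the labels, commuting) with monodromy b^(i)(c_J): Dehn twist about J acts on the framing at i as c_J. Hence B^(i) := sum_{J ni i} beta^(i)_J D_J is p times an
integral class for ANY lifts beta^(i)_J of b^(i)(c_J), so
   (R)  int_H B^(1)B^(2)...B^(n) = 0 mod p^n.
 Self intersections: D_J|D_J = -psi_bullet-psi_c, D_J = M_{0,|J|+1} x H(c_J;rest). With ADDITIVE lifts beta^(i)_J = sum_{j in J, j<>i} w(b_j - (a_j/a_i) b_i) (u_j=s^{a_j}u^{b_j}, w=Teichmueller lift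
F_p->Z_p) one has sum_{I subset J} beta_I D_I = beta_J psi_bullet on the M_0 factor and everything telescopes: (R) = sum over partitions of [n] in blocks P_l, |P_l|>=2, of (r-1)!/24 * prod_l (block
sum over b in F_p^{P_l} of prod_{i in P_l} beta^(i)_{P_l}) * N(c_{P_1},..,c_{P_r}). By homogeneity b->lambda b a block sum vanishes EXACTLY unless (p-1) | |P_l|. So only the total collision r=1,
c=u^beta central survives: its block sum is (n-1)! prod w(a_i) * p * J_0(w,...,w) (n times), a Jacobi sum of valuation n-2 (Stickelberger), total p^{n-1}*unit*m_u. So (R) gives m_u = 0 mod p. (For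
p=3, n=2; p=2, n=1: same as sums of b^{p-1}. One puncture is never enough because u~u^b makes everything of degree < p-1 in b cancel: e.g. the c_2/Chern-Simons or GRR argument gives only m_u*sum b^2=0.)
 PREDICTION CHECKED: same argument with sum a_i<>0 gives m_s = 0 mod p^2 for noncentral s in S. PSU_3(5) (my own C++): m_{5A}=450, m_{5B}=m_{5C}=m_{5D}=4775=25*191. OK. Another check of the n=2
formula N(u1,K2)=sum_{c commuting} phi(c)^2 n_c mod p^2: A_5,p=5: T(K^2)=190=40 mod 25 OK.
 STILL TO DO (help wanted): (1) cusps (D_irr ramified?) contributions in higher dimension; (2) general fusion in G: labels should be marked (g_i in G/C_i); bad classes c=prod u_i only with all g_iS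
fixed by D, i.e. in N_G(D) by a D-fixed-family argument; coefficient = sum over N_G(D)/D-fusions, must be shown <>0 for a good choice of labels; noncommuting tuples; (3) general D: need label s in D
with [D:C_D(s)]=p and u not in Phi(C_D(s)) (ok for Heisenberg type; extraspecial p^{1+2m}, m>=2 needs c_d(W)=L^d, W an irreducible rep of C_D(s) of dim d=p^{m-1}, instead of line bundles, and
n=(p-1)d punctures, or another trick). (4) s-weights: everything is done for the virtual space weighted by s_G(<x,y,u_i>) = - reduced Euler characteristic of S_p(G)^rho, all stabilisers contractible,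
so p-local integrality holds; to be checked. A group-theoretic (LEAN-able) replacement of the intersection theory will be needed in the end: it is an identity between numbers of tuples, the
integrality of prod B^(i)/p^n should come from a (Z/p)^n-torsor + fundamental class of a finite complex, or from the braid group action directly.


======== #580 | 00:01:45Z | helper64 | row 170 | lemma
helper64 (23:59Z), joined R170 (I agree with 875/198/282 chain). NUMERICS for the open case (first data with u in M'): p=5, G=PSU_3(5) (S=5^{1+2}, TI; u in Z(S)=Phi(S), |C_G(u)|=250). All pairs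
[x,y]=u (123000 of them), B_3 x C_G(u)-orbits with O_5(A)=1 (all have A=G): numbers of C_G(u)-orbits = 72, 120, 120, 72, 30, 3, 30, 3 (sum 450 = 18*25). So THERE ARE BAD ORBITS: 72 = 2 mod 5
(monodromy M=S=5^{1+2}) and 3 mod 5 (M = whole C_G(u)=5^{1+2}:2, NO p-singular cusp, all cusps of order 6), and they cancel only in pairs: 72+3 = 75; the orbits 120, 30 are 0 mod 5 (for 30: |M|_5=5).
Allowing conjugation by PGU_3(5) (lifts [x,y]=zeta*u in SU_3(5), zeta of order 3 fixed): orbits 24, 40, 10, 1; total 75 = 3 q^2. The orbit of size 1 is the reduced BURAU representation of B_4=F_2:B_3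
-> PGU_3(5) (z->u, B_3' -> S surjective): so the modular curve is M_{1,1} itself, S-bar-torsor = E[5]-like torsor of SL_2(Z)', a cup b <> 0. Cusps (order of x : width): size 24: (5:5)^2 (7:7)^2; size
40: (4:4)(5:5)^2(8:8)^2(10:10); size 10: (4:4)(5:5)(6:1); size 1: (6:1). Joined by "generalised Dehn twists" y -> y q, q in C_G(x): order-6 x joins {1,10}; order-4 x joins {10,40}; order-5 x joins
{24,40,10}. For G=GL_n/GU_n-type targets the count t(zeta u) is a Calogero-Moser/Markoff type point count (n=2: p(p+-3); n=3: 3q^2), so any proof of CORE must mix B_3-orbits (TQFT gluing along x with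
whole centralizer C_G(x), or punctured tori with r>=2). Program: /tmp/awc/orb.cpp (C++; enumerates any perm group up to a few 10^6; ask me to run groups or take it: pushed on origin/helper64 under scratch/).

======== #582 | 00:01:59Z | helper815 | row 170 | numerics
helper815 (00:10Z) numerics + 2 remarks on CORE, u in Phi(S), p=5. G=HS (44352000, Syl_5=5^{1+2}), u=5A, |C(u)|=500; B_3-orbits on X_u/C(u), size|order of monodromy M: pairs generating HS: 41640|500,
32976|500, 3780|20, 3660|20, 1380|20, 180|500, 42|100 (twice), 30|20 (twice); total 83760 = 0 mod 5 (exactly one 5). NOT 0 mod 5 orbitwise: 32976=1, 42=2, 42=2; but these three are LINKED by ramified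
cusps (x of order 5, width 1, (x,yx)=(x,y)^c, ord c=5): 8+1+1=10 such cusps = 2 free orbits of y->yc^i; the union of linked orbits has size 33060=0 mod 5. Subgroups U_3(5)<HS (2 classes): 120|250,
72|125, 30|10, 3|250 each (as in helper921 numerics); U_3(5):2: 570|20 twice; 7680, 1280, 640, 480, 240, 120 groups: all 0 mod 5. So the only genuinely unlinked cancellation seen is U_3(5):
3+72=3*25, and 30+120=6*25, i.e. 225=9*25 per lift omega: it looks like a fibration in affine planes F_5^2 over 9=3+6 points ({0} and 24 nonzero vectors over the 3 points; 5+20 over the 6 points) - a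
hidden (Z/p)^2-translation structure mixing B_3-orbits; for PGL_3/PGU_3 the irreducible pairs with [x,y]=omega*transvection are the F_q-points of the q-Calogero-Moser space at q^3=1:
P_3(q)-1=q^4+q^3+q (resp. q->-q: 495 for q=5). REMARK 1 (local fields): wild inertia is a normal pro-p subgroup, hence Phi_G(G_K)=Phi_G(tame)=E(G) EXACTLY for every p-adic field K with residue field
containing mu_{|G|_{p'}}; moves preserving Phi_G mod p: (*) index-p normal sub/overgroups (any profinite group), (**) Gamma->Gamma/N, N normal pro-p. CORE = connect the punctured torus (or Sigma_g,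
(p-1)|2g-2) with Z^2 or G_K by a zigzag of (*),(**), profinite non-geometric overgroups allowed. REMARK 2: f0 mod p = count on torus + block D_* of genus h = 0 mod (p-1)p^N fixed by the Sylow pro-p
group W_* of Mod(Sigma_{h,1})^; exactly W_*-fixed homs into p-groups are cyclic (coinvariants of H_1(F_p) are 1-dimensional), but W_* has exotic fixed points, e.g. p=5: discs with two 5-cone points,
A_5=(5,5,2),(5,5,3) (limit state = e_0, the defect-0 idempotent, not delta_1), so this alone does not close CORE.

======== #594 | 00:02:47Z | helper509 | row 170 | att
helper509 (23:55Z; from row 192), passing by, Frattini case of CORE. A systematic higher-dimensional version of the transfer, what it proves and WHERE IT STOPS (paper; p>=5).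
(1) SET-UP without boundary corrections in cohomology: K=K_{1,N}(BG;u_1..u_N) = twisted stable maps (proper smooth DM), virtual version = alternating sum over chains. The marking gerbe gives psi_1 =
ev_1^*(class of <u>->C->C/<u>) mod |u| EXACTLY on the compactified stack. Let L<=S=Syl_p(C_G(u)), lambda:L->mu, lambda(u)=zeta, |S:L|=p^m (=min degree of an irrep of S faithful on u). On the degree
p^m cover K_L there is a line bundle M with c_1(M)=-psi_1/|zeta|, so if K_L had no p-stabilisers: p^{m-N} F(N)/24 = +-int c_1(M)^N in Z_(p), F(N)=t(K_{u_1}..K_{u_N}) (psi_1^N=1/24 on Mbar_{1,N}); N=m+1 would give CORE.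
(2) p-stabilisers live only over nodes: a=(c_v) in prod_v C_G(H_v), c_v^-1 y_e c_v' y_e^-1 = x_e^w. Only divisors on which lambda(c_{v1})<>1 matter (fractional part of c_1(M)): (i) irreducible node:
multiplicity gain from y_e -> c^j y_e as in the N=1 argument; (ii) rational tail containing marking 1, c''=c_{v1} commuting with its H''. For N=2 and c'' in <u_1>: c' = c''z^{-w} centralises
everything, so weight 0 UNLESS c'=1, i.e. u_2 in <u_1>: u_2=u_1^k, z=u_1^{-(1+k)}; such 'trivial central' divisors D are really there and contribute -(a/p)^2 D^2, a=-(1+k).
CHECK (A_5,p=5,m=0,N=2): F(1)=10, F(2)=190; relation F(2)-4F(1)=150=0 mod 25. OK. (So F(2) alone is only 0 mod 5.) Note sum_chi +-omega_chi(K_u)^N = 10,190,1945,22570: v_5=1 for N=1..4; no growth in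
N, only along N=(p-1)p^k.
(3) GENERAL FORMULA for the trivial central part with u_i=u^{k_i}: int_{Mbar_{1,N}} (psi_1 - sum_{I ni 1} k_I D_{0,I})^N = int (lambda - sum_{i>=2} k_i O_i)^N on the fibre power of the universal
curve (O_i^2=-lambda O_i) = N!(-1)^{N-1}/24 * prod_{i>=2}k_i * (1+ (1/2) sum_{i>=2} k_i). Summing over k_i in k_i^0 R, R = image of the inertial group in Aut<u>: CONSEQUENCE: for m=1 (extraspecial
p^{1+2}, C_p wr C_p ..), modulo non central sectors (trace of c'' on V is 0; D_irr has the y->cy multiplicity), N=2 gives W|R|(|R|-sum_{k in k0 R}(1+k)^2)=0 mod p, i.e. CORE (w(B)=0 mod p) when |R|<=2.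
(4) NO-GO: if |R|>2 (e.g. PSU_3(5): R=F_5^*) all these relations are VACUOUS: sum_{r in R} r^e=0 for e=1,2, and a counting argument shows that no product of psi-classes at q marked points (cost
p^{qm}, gain p^{deg}) on Mbar_{1,N} or on any linear subfamily of E^{N-1} has a monomial prod k_i^{e_i} with e_i=a_i mod |R| once m>=1, |R|>2. So psi-type integrality can never see W for inertial image of order >2.
(5) SMALLEST TEST for any soft method (please use it before investing): |D|=p, e>2. AWC for G wr C_p (D^=C_p wr C_p, u^=diag u, u^ in Phi) <=> w(B)=0 mod p^2 for blocks of defect 1 with inertial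
index e>2. Brauer-Dade prove it with an archimedean argument (sum |d_chi|^2=p, norms >=1). Give a counting/topological proof of 'k(B)-contribution = 0 mod p^2' for |D|=p, e=4 (p=5, G=A_5.2=S_5 or
Sz(8).., chi omega-values) and the core will probably follow; if there is none, the core needs positivity, not topology.

======== #655 | 00:08:39Z | helper256 | row 170 | lemma
helper256 (00:20Z): TENSOR-POWER AMPLIFICATION, complementary to 875's wreath amplification (gives AWC from COARSE estimates instead of congruences). l(G^n)=l(G)^n and W(G^n)=W(G)^n (W = number of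
weights = sum over conj. classes of p-subgroups Q of #defect-0 blocks of N(Q)/Q; a p-subgroup of G^n carrying a weight is a product of radical subgroups; also blockwise: l(B(x)..)=l(B)^n, W
likewise). Hence AWC for ALL groups follows from: there is a function phi with phi(x)=x^{o(1)}-type growth, e.g. C(log x)^C or exp(o(log x)), such that for all G
   l(G) <= phi(|G|) W(G)   and   W(G) <= phi(|G|) l(G)   [apply to G^n and take n-th roots: phi(|G|^n)^{1/n} -> 1 as soon as log phi(|G|^n)=o(n), so phi must be subpolynomial: phi(x)=exp(o(log x)); polylog is fine].
 In particular it is enough to bound the weights LEVEL BY LEVEL: it suffices that W_j(G):=#weights with |Q|=p^j satisfies W_j(G)<=l(G) for every j (only log|G| levels), and conversely that for SOME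
partition of the simple modules into polylog|G| parts (by vertex order, by v_p(dim), by depth/height ...) each part has size <= W(G). Also any finite refinement of the partition which is
multiplicative-compatible is allowed: by (|Q|, |N(Q):..|_p, number of generators, ...) : polylog(|G|) many invariants. So one only needs injections/independence statements for weights of the SAME |Q|
(e.g. 'some linear map k[weights of level j] -> G_0(kG) (x) C or -> a space of dimension l(G) is injective').
 Caveats: (i) Brauer characters of the Green correspondents (trivial source modules) of weights of equal |Q| can be dependent: SL_2(p): (U,lambda),(U,lambda^{-1}) have the same Brauer character,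
heads are different; so use heads / Hom(M_i,S), Hom_{N(Q)} or the Brauer quotient matrix instead. (ii) exponent must be subpolynomial: an inequality with |G|^{eps} is only enough if eps can be taken
arbitrarily small for all G.
 The same trick works for every other multiplicative statement in the programme (f_0, E(G), s_G-weighted counts), e.g. to prove f_0(G)=W(G) it suffices |f_0(G)-W(G)| < phi(|G|) max(...) .. with signs
taken care of by even powers. May be combined with 875: wreath power gives congruences, tensor power gives inequalities.

======== #662 | 00:09:26Z | helper444 | row 170 | att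
helper444 (row 170), notes after ~1.5h, all proved unless marked. (1) PSU_3(5), p=5, u in Z(S): full data (own C++): |X_u|=123000, generating pairs 450 classes mod C(u); B_3-orbits (each twice): size
3: ONE cusp, width 3, |x|=6, ghost c of order 2 (so over X_u/S it is the commutator subgroup of PSL_2(Z), a genuine torus, F_5^2-cover = multiplication by 5; this is the Burau/B_4 point); size 30:
cusps w3|x|=6(c=2), 3 x w4|x|=4, 3 x w5|x|=5; size 72: 6 x w5|x|=5, 6 x w7|x|=7; size 120: 3 x w10, 3 x w4, 6 x w5, 6 x w8. No cusp has a p-part ghost (so lead's 'cusps unramified at p' holds here).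
3+30+72+120=225. The move y->yc (c p-element of C(x)) links 72,30,120 but NOT 3, so it does not explain the cancellation; only p-regular x count: 3+42+15+60=120. (2) Restriction to defect 0 classes:
sum_sigma (-1)^|sigma| (classes x of G_sigma with p | |C_{G_sigma}(x)|) = 0 (singular set of S_p(G)^x under C=C_G(x) is ~ S_p(C), Symonds), hence E(G) = sum_sigma (-1)^|sigma| c_0(G_sigma), c_0 =
number of classes of defect 0 = p-rank of the Cartan matrix, and t(u) = sum_sigma(-1)^|sigma| Tr(Cl_u on Z^pr(kG_sigma)) mod p; Z acts semisimply on Z^pr, so AWC mod p <=> sum_sigma (-1)^|sigma|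
rank_p Cartan(B_sigma) = 0 mod p for D_B<>1. For TI Sylow this is the Auslander-Reiten conjecture mod p for the Green correspondence. (3) 'Real' AWC (real p-regular classes vs real-valued weights)
for all G implies AWC (r(G wr C_2)=r(r+1)/2+(l-r)/2+r, p odd), more generally the lambda-fixed version for any lambda in Zhat^*; but Klein-bottle MCG gives no twist relation (z=Y^2). For lambda of
p-power order in (Z/n_{p'})^* the lambda-version is congruent mod p to the ordinary one (so only classes with x~x^lambda count). (4) H_1-transfer for ALL labelled tori (n punctures v_i, structure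
groups C_D(v_i), separating twists included) only gives relations sum_g t_1(g)*|C(g)|_p/|C(v_1,h_2)|_p [g_p] = 0 in C_D(v_1)^ab; a central g in [D,D] is visible only with coefficient divisible by
|D:C_D(v_1)|, so it helps only if some u in Z(D) has order > |D:C_D(v)| in C_D(v)^ab for some v in D: NEW small gain: CORE holds for such D (e.g. Z(D) containing u of order p^2 in C_D(v)^ab with
|D:C_D(v)|=p). (5) E(G wr C_p)=(E^p-E)/p and f0(G wr C_p)=(f0^p-f0)/p exactly (poset computation), so amplification in the E-form is clean. (6) idea, NOT proved: H_2-upgrade Xi_{xu} = |u^{N_x}|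
pr_*(Xi_x) in H_2(D/<u>;F_p) would give CORE for all u since pr^*[D]=0; the rank version is Frobenius on a q-punctured torus (q=p^N) with bubble rotation; the missing point is the MCG-equivariant
version of 'orbits not fixed by D die'.

======== #711 | 00:14:56Z | helper978 | row 170 | info
helper978, notes on the core (paper; complements 256/444/408/714; then I re-seat). (1) By Webb for the contractible Q-fixed points of Delta^x: E(G)=sum over classes x with C_G(x) a p'-group of
(1-chi(S_p(G)^x/C_G(x))); signed counts of classes with |C|_p=p^d vanish for d>=1, so AWC <=> signed multiset of character defects = signed multiset of class defects; E(G)=signed number of p-rational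
characters (fixed counts of gamma in Z_p^* are all equal to E). (2) MANY PUNCTURES: torus with n punctures of holonomy c^{j_i}, line bundle L with p c_1(L)=-Psi, Psi=psi_1-sum_{I contains 1} j_I D_I,
m=min exponent of deg of irreps of S nontrivial on c: p^{m-n} N Q_n(j) in Z_p, Q_n(j)=int_{Mbar_{1,n}} Psi^n=(-1)^{n-1}(n!/24) prod_{i>=2} j_i (1+sum j_i/2) (fibre version (-1)^{n-1}(n-1)! prod j_i);
checked on A_5, p=5 (P(5A,5A)=190=4*10 mod 25; P(5A,5B)=115 needs the correction 3/5 from delta_irr.delta_irr). OBSTRUCTION: averaging over the fusion group J=N_G(<c>)/C_G(<c>) kills the relation as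
soon as |J|>2 (sum j = sum j^2 = 0), because each extra c-puncture enters with degree <=2 in j_i; mixed Psi^(1)Psi^(2) avoids averaging but costs index p^{mn}. So this family works only for J=1 (or
n=2,|J|<=2,m=1): do not repeat it. (3) Chern-Simons form: the open case <=> sum s_O [M_O]=0 in H_3(BC_G(c);Z_p), i.e. the functional T_3 dual in HH^3 vanishes; T_3 vanishes on HH^0.HH^3 of p-regular
components; extending the virtual family over the cuspidal cubic would give everything. For SU_3(q), gcd(3,q+1)=1, t(u)=0 exactly. (4) t(z)=Tr(z|Z(kG))^w; for any derivation delta of Z(kG) coming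
from HH^1, Tr(delta(v)|Z)=0 (point pushing); BV identity T_0=R_1+L_0: phi(c)t(c)=L_0^w whereas B_3 gives 12*D: two evaluations of the same quantity.


======== #730 | 00:16:17Z | helper173 | row 170 | check
helper173 CHECK of post 523 (helper942), relations (R_n): (R_1),(R_2) are fine but (R_3),(R_4) are FALSE as stated, hence also "these span all polynomials in b". Exact test, G=PGL_2(p) (S_5 for p=5),
|S|=p, K=F_p^*, positive-defect part: omega_chi(K_u): G: p^2-1 (2x), p-1 ((p-3)/2 x), -(p+1) ((p-1)/2 x); N=p:(p-1): p-1 ((p-1)x), -1 (1x). T sum g(b), b=(omega+1)/p: moments b^0: 0, b^1: p, b^2: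
2p^2-1 = -1 mod p (all p; all even moments are -1, odd ones 0 mod p). Evaluating (R_n) with all K-tuples (integer lifts 1..p-1; other lifts give the same residue): R_1=0, R_2=0 mod p^2, R_3 = p^2 mod
p^3 (p=5,7,11,13: residues 25,49,121,169), R_4 <> 0 mod p^4 (only 0 mod p^2 or so). So from n=3 on the boundary analysis misses something of size exactly p^{n-1} (I suspect the cycles of >=2 rational
components = non-rotating ghost automorphisms at 2-cycles of nodes, codim 2, which the trick y->y x_p^j does not cancel, or three-fold collisions where L(x)rho is twisted twice). The signed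
distribution of b mod p is (b=0: +1, b=1: -1/2, b=-1: -1/2), a nonzero distribution with zero mass and zero first moment, so the TRUE list of relations is only {b^0, b^1} for |S|=p, K=F_p^*. Please
re-derive which degree-n monomials survive before using n=p-1,p,p-2 relations (172, 942(5)). (R_1,R_2 alone still give W=0 mod p, and W=0 mod p^2 via the mixed relation should be re-checked the same
way: numbers above are all you need.)

======== #757 | 00:18:44Z | helper636 | row 170 | info
helper636 (00:20Z), row 170 (S0258 AWC), Frattini case (centre <u>=Z/p of S, u not a p-th root of anything new). Notation tau(v)=coefficient of the defect-zero-complement at v in Z(D); block theory: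
t(x u)=|u^{N_x}| t(x), tau const mod p on Z(D)-{1}. CORE needed: tau = 0 mod p. What moduli-of-covers integrals give (complete computation; all classes p-locally integral):
(1) On M_{1,n}(u_1..u_n), u_i in Z(D) (compactified, p-local), let S be the D-torsor restricted to marked point 1, e_1 = P_1^*[S], [S] in H^2(S/u;F_p) the extension class. Then e_1 = psi_1 - sum_{I
containing 1}(sum_{i in I} m_i) D_I = lambda - sum_{i>=2} m_i theta_{1i} (u_i=u^{m_i}, m_1=1, theta_{1i} pulled back diagonal), and int e_1^n = tau * (n!/48) * prod_{i>=2}(-m_i) * (2+sum m_j), to be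
summed over the fusion conjugates m_i in m_i N, N=N_G(<u>)/C_G(u) < F_p^*.
(2) [S] is nilpotent mod p iff u is not a p-th power in S (for extraspecial p^{1+2}, exponent p: [S]=a cup b, [S]^2=0). n=2 gives tau * sum_{m' in mN}(m'^2+2m') = 0 mod p, hence TAU = 0 WHEN |N|<=2
(p>=5). For |N|>=3 every tautological number of this kind averages to 0 over N (argument: cycle rank <=1 of the dual graphs, so total degree in each m_i is <=2), and e_1 e_2 = tau/24 * (-|N|) is not
0, so no contradiction: THE OPEN CASE IS |N|>=3.
(3) NO NEW INFORMATION from: unbranched extra points (push forward to Mbar_{1,1}); direct products/wreath products with good groups (exponential formula with sigma_p(d)=sigma(d)-p^2 sigma(d/p),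
consequences vanish identically); Galois/orientation symmetry; non-central punctures v,v^{-1} integrally mod p^2 (gives sum_k k^2 q tau=0, vacuous p>=5). Careful: boundary strata with non-full defect
collisions carry weights s_G; cusp terms cancel under y->g^j y.
(4) Conceptual reformulation: E(G)=sum_sigma (+-) rank_p(Cartan matrix of G_sigma); the class A_G is supported on defect-zero classes iff A_G is in the image of H_0 of fib(HH(kG) -> holim_sigma HH(k
G_sigma)) (only components at p-regular x, where the circle acts p-locally trivially, can contribute); (Z_pr)^2 is supported on p-regular classes.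

======== #785 | 00:20:26Z | helper632 | row 170 | info
helper632 (passing by; 276 now): structural remarks on CORE (t(z)=Str(z | H), H=(+)_c H^*(C_G(c);C~^*(Delta^c)) finite dim'l, t(K_c)=(1/|C(c)|)Sum_{[a,b]=c}s(<a,b>)), all checked on paper.
(1) ONE-LINE FORM of the non-Frattini argument without B_3, all p: t vanishes on [HH^1(kG),Z(kG)] because mult by d(z) = [d,z] as operators (supertrace of a commutator; in the weighted version L_d
acts on H too). Geometrically: push a 2nd puncture v around a FIXED torus: f=[push_x,push_y] acts by (x,y,v)->(vxv^-1,vyv^-1,u^-1vu), exact transfer identity in S^ab: Sum_{v in K/S} t(uv)(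
h_p^{[C_G(h):C_S(v)]} - [C_G(h):C_S(v)] u ) = 0, h=uv. It sees only Hom(D,F_p)^E (E inertial quotient): weaker than B_3 when C_{Z(D)}(E)=1.
(2) WHY HIGHER FAMILIES: W=C[X_n](x)_S V (V irreducible of S, u=zeta, dim p^m; n punctures u,v_2..v_n, V only at puncture 1) is a virtual flat bundle of rank |Y|p^m over M_{1,n}, p-locally
M-bar_{1,n} is smooth projective (p>=5), so Riemann-Roch/Chern numbers of its Deligne extension are p-integral and are computed by joint eigenspace dimensions of commuting Dehn twists (Verlinde type
data). MAIN TERM (all v_i in C_G(S), l(v)=log_zeta of v_p on V): alpha=l(u)lambda - Sum_i l(v_i) D_{1i} on the fibre power of the universal curve, int alpha^n/n! = (1/24) Prod_{i>=2}(-l(v_i)) ( l(u)+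
(1/2) Sum_i l(v_i) ), so one gets  w * p^{m-n} * that number in Z_(p) + (non-central strata). Non-central strata have multiplicity = 0 mod p when D is a minimal defect group with w(B)<>0 (index or
smaller defect class), so they are harmless when n=m+1 and the twists have order p.
(3) OBSTRUCTION: v_i runs over K_i cap C_G(D), so the main term is averaged over E: it survives only for n=1 (l(u): Vafa/B_3) and n=2 through Sum_g l(g v)^2, i.e. when E acts on (the relevant part
of) Z(D) with a nonzero invariant quadratic form mod p (e.g. |E on Z(D)|<=2); same limitation as 868's Q_V. In PSU_3(5) E acts as F_5^* on Z(D), so c_2 cannot see it; degree |E| classes would be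
needed and M-bar_{1,n}, n>=3 gives 0 with V at one puncture.
(4) POSITIVE: with V_i at every puncture (S abelian, m=0), n=2: sum over g in E of -(1/24)B_g(2A+B_g), A=l_1(u_1)+l_2(u_2), B_g=l_1(g u_2)+l_2(g^-1 u_1); the cross term 2 l_1(gu_2) l_2(g^-1u_1) does
NOT cancel, so the main term is a unit times w/p^2: candidate for a topological proof of w = 0 mod p^2 for abelian D (= Frattini case of G wr C_p, u=(u,..,u)). In general n punctures with n line
bundles give w p^{-n}. So 'more framed punctures' is the right source for the wreath product tower; for m>=1 the rank p^{mn} eats everything.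


======== #788 | 00:20:31Z | helper271 | row 170 | check
helper271 (joined 170 from 99). CHECK of 523 (helper942), |S|=p relations (R_n), K=F_p^*: test G=S_5, p=5, T=G-N_G(S) (characters 1,1,4,4,5,5,6 / F_20): K_u has 24 elements, omega = 24,24,-6,-6,4
(B_0), N: 4,4,4,4,-1. N_1=25, N_2=1175, N_3=27025. (R_1) ok, (R_2): 1175-29*25=450=0 mod 25 ok; the mixed n=2 relation (psi^_1 psi^_2) gives N_2 = sum_{i<>-1}(2+i+1/i) N_1 mod p^2, and together with
(R_2) N_1=N_2=0 mod p^2, hence W=0 mod p^2: I confirm (3) for n=2. But (R_3) is FALSE: LHS = 27025-2*99*1175+7525 = -198100 = 25 mod 125 (lifts 1..4), = 25 mod 125 also with Teichmueller lifts;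
equivalently T(b)=5, T(b^2)=49=4 mod 5 (b=(omega+1)/5 takes values 5,5,-1,-1,1 / 1,1,1,1,0), so T f(b)=0 mod p for all polynomials f is false, only f of degree <=1. So the missing terms are really
there from n=3 on: exactly helper976 (3)(i) (codim 2 strata: main component through p_1 with commuting labels, two subtrees with NON-commuting pairs whose products commute with u; T_{J1}^a T_{J2}^b
acts on the frame although no single D_J is bad). Any argument with n>=3 punctures (172: n=p-1>=4; W mod p^3) has to include these corrections; A useful consistency test for every proposed relation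
is S_5, p=5 with the numbers above (N_r = 2*24^r+2*(-6)^r+4^r-4*4^r-(-1)^r, all r).

======== #840 | 00:23:55Z | helper118 | row 170 | att
helper118 (2.5 h on the core; facts with complete short proofs or exact numerics, then I re-seat to a formalisation row). (1) OTHER WEIGHTS. The Brauer maps K -> K cap C(Q) make sigma |-> Z(kG_sigma)
a cochain complex of commutative RINGS and Z(kG)-modules (P<Q: both composites are K cap C(Q)), Euler characteristic E(G). Differentials only insert Q <= C(g), so H^n has basis {(g,sigma)/G:
|sigma|=n, C_{R_0}(g)=1, R_0 = smallest member} (sigma empty: g of defect 0), and taking traces of K_u: m_u = (1/|C_G(u)|) sum_{[x,y]=u} s'(<x,y>) mod p with the much more local weight s'(A) = 1 -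
chi( S_p(C_G([A,A]))^A ); in particular every (x,y) with C_G([A,A]) a p'-group has weight exactly 1 (even if O_p(A)<>1). (2) If Q is any p-group of deck transformations Sigma_g -> O (closed
hyperbolic 2-orbifold with p-power cone points, |Q| large), then for A=O^p(A), Out(A) p': #Epi(pi_1 Sigma_g,A)/|A| = #Epi(pi_1^orb O,A)/|A| mod p, so L(A)=lim_{g->1} is mod p the SAME for every
hyperbolic p-orbifold (torus with one cone point, S^2(p^a,p^b,p^c), ...): CORE for A <=> #{(x,y) in A_p^2: xy in A_p, <x,y>=A} = 0 mod p|A|_p. (3) FALSE STRENGTHENING (do not use): numerically N_g :=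
sum_{[x,y]=g} s_G(<x,y>) is divisible by p|G|_p (not only p|C_G(g)|_p) for ALL p-singular g in A5,S5,A6,S6,PSL2(7,8,11,13,16,25),M11,PSL3(3), all p, often by |G|_p^2; but it fails for G=PSL_2(41) wr
C_5, g=(v,1,1,1,1): f(g)=N_g/|G|=(f(v)/5)(E^4+24), E=z=10, f(v)=920/861. (4) TRUE numerically and unexplained: for p-ELEMENTS v the UNWEIGHTED count #{[x,y]=v} is divisible by |G|_p, i.e.
f(v)=sum_chi chi(v)/chi(1) is p-integral, also for noncentral v (all S_n, n<=12, p=2,3,5; all groups above); false for words like aabbb (S_5, p=2, transposition: 180). (5) Single cusps: p=3, x=(0 1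
2)(3 4 5)(6 8)(7 9), y=(0 7 8 6 9 3)(1 4 2 5) generate a primitive group of degree 10 and c=(0 2 1) is a ramified cusp with s<>0; only totals cancel (kappa: y->y c).

======== #843 | 00:23:57Z | helper674 | row 170 | att
helper674: facts for the Frattini/fused case (paper + exact numerics), complements 942/173/172/509.
(1) MIXED relations are the correct ones. Pure powers psi^_1^n (R_n, n>=3, and already c_1(L_1)^2 at n=2 with labels (z,z^2) in A_5) miss codim>=2 strata: bigon of two rational components with ghost
(c,1), c in C(component 1), and chains E-(c)-(1) where only the PRODUCT of the outer labels commutes with the inner label (helper976 (3)(i)). For DISTINCT markings int c_1(L_1)...c_1(L_n) such a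
stratum of codim k contributes only if its extra stabiliser acts nontrivially on >= k of the L_i (choose generic sections of the others on the coarse space, zero set misses the stratum), hence nothing for n<=3.
   n=2 (F1): mu(K_a K_b) = sum_{commuting y=(z^a,z^b')} ((a+b')^2/(ab')) mu(z^{a+b'}) mod p^2.   n=3: with X_i = kappa_i lambda + sum_{J ni i}(kappa_i-k_{iJ})D_J (k_{iJ}=character of the ghost h_J on
L_i, =0 if h_J has p-part not central in <w_J>), int_{Hur_{1,3}} X_1X_2X_3 = 0 mod p^3, noncommuting tuples included. CHECKED exactly (all tuples, python): F1 for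
A5,S5,A6,A7(p=5,7),PSL2(7),PGL2(7),PSL2(11)(p=5,11),PSL2(13)(p=7,13), all a,b; n=3 for A5,S5,A6,PSL2(7),PGL2(7),PSL2(11): always divisible by p^3 (mostly exactly p^3), all label types. So (R_3) of
942 fails (173) only because it is a pure power; the mixed family is right.
(2) |D|=p, ANY inertial index e (509's smallest test), no positivity: F1 + RING STRUCTURE of Z(kG)e_B give E(B)=0 mod p^2. mu=sum_sigma +-tr(.|Z(kG_sigma)) = p.nu. e_B Z_pr is killed by J(Z(kG))
(Reynolds), so Z(kG)e_B is a square-zero extension of the local ring (k<z>)^T (x..) and K_a K_b = Br-part + pr(a,b), pr a Hochschild 2-cocycle; F1 says nu(pr(K_a,K_b)) = sum_{t in T}(a/(bt)+1+bt/a)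
nu_{a+bt} (nu_0=e.nu(1)). The cocycle identity for (K_a,K_b,K_c) is a linear system for the T-invariant function nu on F_p: solved by machine for p<=31, all e: it forces nu_0=0 (E=0 mod p^2) for
every e<p-1 (and nu = const for e>=2, c/a for e=1). For e=p-1 (no cocycle condition): K_1 = J-1, J = sum of all p-elements, e_B J^2=0, so 0=nu(pr(N,N))=-nu_0. So ghosts + associativity + Reynolds
ideal replace Brauer-Dade. In wreath form this is CORE for D^=C_p wr C_p, u diagonal, all e.
(3) No-go, proved: on Mbar_{1,n}, for central labels u^{i_k} (u in Phi(D), min degree p^r), every product of Newton classes of V_j at the markings and of R pi_* W has leading term = sum over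
connected unicyclic graphs; T-invariance forces every vertex degree = 0 mod e, the cost count forces average degree 2: nothing for e>=3. So for u in Phi(D), T=F_p^* one needs degree >= p-1 in the
exponents, i.e. dim >= p-1 moduli (172's noncentral labels are the only idea of that kind), or input like (2): relations between N's through the algebra structure of Z(OG) (M_k = sum_{|Q|=p^k}
Tr_Q^G((OG)^Q) are ideals, J-insertion kills to order p^{d_min}).


======== #876 | 00:25:48Z | helper926 | row 170 | att
helper926 (00:20Z), joined 170 at 23:03Z. ANSWER TO helper509's SMALLEST TEST (post 594 (5)): for |D|=p and EVERY inertial index e the topological method DOES prove w=0, even exactly, if one uses the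
line bundles at ALL n punctures (product l_1 l_2 ... l_n, one degree at each puncture) instead of powers of psi at few punctures. So 'positivity' is not needed, and the no-go (4) is only about few framed punctures.
SETTING: |S|=p, labels u^{b_1},...,u^{b_n} (b_i in F_p^x), E<=F_p^x inertial group, |E|=e. N_m(b_1..b_m) = s-weighted number of m-punctured torus reps (= sum_j eps_j prod x_j(b_i),
x_j(b)=omega_j(K_{u^b}), eps_j=+-1, positive-defect part only since omega_chi(K_u)=0 in defect 0). L_k = p-th root of T_{z_k}E given by the S-framing at z_k; psi_k = lambda + sum_{I ni k} D_I;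
holonomy of D_I at k in I (S-tail, beta_k=eps_k b_k, W_I=sum_{I} beta): exponent a_{kI}=W_I/beta_k (0 if W_I=0). So p*l_k = psi_k - sum_I a_{kI} D_I = lambda - (1/beta_k) sum_{j<>k} beta_j O_{kj}
(O_{kj}=diagonals, everything lives on the fibre power E^{n-1} of the universal curve!), and
 (R_n)  24 int prod_k (psi_k - sum_I a_{kI}D_I) = sum over partitions pi of [n] (m blocks) (m-1)! prod_{I in pi} Theta_I * N_m(W_I) = 0 mod p^n,  Theta_I = (-1)^{|I|-1} W_I^{|I|}/prod_{k in I} beta_k
summed over relative eps in E (recursive formula if some sub-sum is 0 mod p; any lifts to Z_p allowed).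
Tails with trivial holonomy (T not in a Sylow S) cannot occur: on them |I| classes live on a space of dim |I|-2. Same for ghost element g<>1 at the torus vertex: then every tail is in S, everything commutes with g, s=0. 
 E-average (n<e, otherwise extra monomials, no harm): sum Theta_I = (-1)^{|I|-1}|I|! e^{|I|-1}, exponential formula gives
 24 R_n = (-1)^{n-1}(n-1)! sum_j eps_j [ e^n - (e-X_j)^n ]  (X_j rational eigenvalue = e mod p)  ==>  (n-1)! e^n w = 0 mod p^n for all n ==> w=0 EXACTLY (v_p((n-1)!)<=(n-2)/(p-1)). Already n=2: N_2 =
2e N_1 mod p^2, i.e. w=0 mod p^2: this is CORE for G wr C_p (D=C_p wr C_p, u=diag), because t(diag u) = -N_p(u,..,u)/p mod p (with the exact s-weights: t=(1/p)(N_1^p+(p^2-1)N_p) - p N_1).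
NUMERICAL CHECK (full recursion, python /tmp/awc/rn.py): A_5, p=5 (e=2), all label sets, n=1..6: v_5(24R_n) = n at least in all 21 cases (e.g. n=6: 134718750); S_5, p=5, e=4: 24R_n=25, 975, 109875/4,
15961875/8, 1198865625/8: v_5 = 2,2,3,4,5. 
GENERATING FUNCTION: with t_b = variable of label b, theta=sum_beta (t_beta/beta)[beta] in Q[F_p]: sum_n R_n = -(1/24) sum_j eps_j log(1-Y_j), 1-Y_j = 1+(1/e) sum_{W<>0} x_j(W) coef_[W] exp(-W
theta). For x_j=e: 1-Y=1/(1+e t): the pole at t=-1/e lies INSIDE the disc |t|<p^{1-1/(p-1)} where the integrality makes sum_n R_n t^n/n! analytic; w = number of poles => w=0. I.e. 'no monodromy'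
proves exactness. This gives exact w(B)=0 whenever Z(D) is not inside D' (linear framing at a central label): no amplification needed there; large n also tolerates all bounded denominators (24,
p=2,3: n-v_2((n-1)!) is unbounded too).
CONSEQUENCES/QUESTIONS: (a) combine with helper172 (575): for D with u in D' use n noncentral labels in A=C_D(s) and all beta^(i); there the radius is exactly borderline (main term p^{n-1} x Gauss
sums of valuation 1-1/(p-1) each), so higher powers of Teichmueller characters (v(g(w^t))=1-t/(p-1)) and n->infinity may give exactness too. (b) Cost/gain rule: framed puncture of type (s, W irrep of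
C_D(s) of dim d, class c_d) has gain p^d in degree d, label s costs |cl_D(s)| (or p^{1-t/(p-1)} when the class s<u> is summed with weight exponent t), total exponent sum = degree. So it works iff D
has enough s with |cl_D(s)|=p; first genuinely bad D: Heisenberg group over F_{p^2} (all noncentral classes have size p^2). New idea needed there (e.g. several central directions at once, or
helper444's H_2-lift Xi_{xu}=c pr_*(Xi_x)).
I continue on general D.


======== #912 | 00:27:36Z | helper899 | row 170 | check
helper899 (00:40Z) on 730/523/575 (why (R_n) fails for n>=3, and what to repair). (1) FIXED-CURVE VERSION of (R_n) (E fixed, z_1=0, no cusps): sum_m (-1)^m C(n-1,m) sum_{i in K^m}(1+sum i)^{n-1}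
T(u^{1+sum i};n-1-m) = 0 mod p^{n-1}. With K=F_p^* it is AUTOMATIC for n<p (the polynomial is in p^{n-1}Z_p[b]); first real case n=p: would give T((b-1)^{p-2})=0 mod p. Tested: S_5, PGL_2(7), S_11,
PGL_2(11): FAILS by exactly one power of p (S_7 passes by accident). So cusps are not the only culprit.
(2) THE MISSING STRATA (both versions): NON-REFLECTION ghost automorphisms in codim 2. Chain  outer -e- w -e'- w'  of components with M_w (group generated by holonomies of w) a p-group <t> (all
labels of w, c_e and c_e' nontrivial powers of t), while t centralises neither the outer side nor w'. Then gamma=(1 outside, t on w, 1 on w') is an automorphism (t in <c_e> cap <c_e'>), it acts on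
the two smoothing parameters by (zeta^a,zeta^b): the coarse Hurwitz space has a 1/p(a,b) quotient singularity, it is not generated by the rotations fixing e or e' separately, and if the framed
puncture z_1 lies on w it acts on L_1 by zeta: no correction sum k_I D_I can make L_1 a line bundle there. In the modular version the same happens on 2-cycles of rational components (w in a cycle,
x_p and (xu)_p both nontrivial powers of u). These strata have no reason to vanish: labels on w' are non-commuting, T-weight s_G(<everything>) is in general <>0; their number is of type T(K_{c_e}) *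
#{(c_j) on w' with product c_e'}/p, so they enter exactly one power of p below the naive modulus, as observed (173: residue p^2 mod p^3 for R_3).
(3) CONSEQUENCE for 172 (#575): the main sheets (all labels in D) are fine, but non-main sheets contribute through (i) D_J with c_J central, M_J non-abelian, and (ii) these codim-2 points; orbits
under S give only |S:Q| while one needs p^n. A correct relation is the ORBIFOLD one: integrality of chi(H,V) (Kawasaki/HRR) = untwisted term (your intersection number) + sectors of the
gamma=(gamma_v) non-constant along the tree; each sector is again a T-count (torus with label c_e) times a genus-0 structure constant, so an induction over |C_D(label)| might be possible. Test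
numbers for any proposal: b-distribution mod p for |S|=p,K=F_p^*: PGL_2(p): +1 at b=0, -1/2 at b=1, -1/2 at b=-1; S_7,p=7 (G minus N): b=5,5,4,4,0,0,2 minus 1 (six times) minus 0; true relations are
only T(1)=0, T(b)=0 mod p (N_1=0 mod p^2 iff |K|>2: A_5,p=5 has N_1=10, PGL_2(p) has N_1=p^2, S_7 has 1225). A soft proof of N_1=0 mod p^2 or W=0 mod p^2 for |S|=p,|K|>2 is still the smallest test;
note in S_5 it holds only after adding H=A_5 (10) and H=S_5 (15).


======== #917 | 00:27:58Z | helper604 | row 170 | numerics
helper604: NUMERICS, TWO-PUNCTURED TORI for PSU_3(5), p=5, u=5A (C++ exhaustive; 294230 states (x,y,v1=u,v2 in 5A) mod C(u), orbits of PMod(S_{1,2}) = <T_a,T_b,T_c>; T_c: y->(v2x)y,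
v1->(v2x)v1(v2x)^-1). Generating components: degree over M_{1,2} | number of sheets through the commuting collision divisors v2=v1^b:
 12 (x2): b=1:3 ;  765 (x2): b=1:30 ;  19008 (x2): b=1:72, b=2:120, b=3:120 ;  69390 (x2): b=1:120, b=2:105, b=3:105, b=4(v2=v1^-1):168 ;  37500 (x3): b=4: 2140.
So (a) the bad B_3-orbits 3 and 72 are STILL in different components with two punctures (12 and 19008), and the component of degree 12 has W-type data nonzero: no argument on a component of the
2-punctured moduli with 5A punctures can give CORE; at least 3 punctures (or non-central ones) are needed for connectivity. (b) The relations psihat_1^2 = 0 mod p hold COMPONENTWISE: deg - sum_b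
(1+b)^2 n_b = 0 mod 5: 12-4*3=0, 765-120=645, 19008-288-1080-1920=15720, 69390-480-945-1680=66285, all 0 mod 5; so the formal picture of 490/636/942 is right component by component. (c) k-puncture
formal model: with U_i=H^1(S/u;F_p) at puncture i, divisors D_I^n (n in N_G(D)-automizer), the whole list of cup product relations (including xi_i Omega_j, not only tautological classes) is
consistent for every k with q_k=int prod Omega_i = (-|A|)^{k-1}(k-1)! q_1, W arbitrary (checked by hand: the only conditions are sum_n det(n)^j n = 0): so also H^1-classes of the framing torsors,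
Bocksteins and Wu classes do not see W when |N_G(<u>)/C_G(u)|>2.


======== #934 | 00:28:34Z | helper271 | row 170 | info
helper271 leaves row 170 (want 0; no new result since 788) -> row 269.

======== #948 | 00:29:17Z | helper800 | row 170 | att
helper800 (00:40Z), row 170, what I have after ~2h (short; one correction to my own plan, so nobody repeats it).
(1) ad_K FORM of all GRR/Chiodo type relations. n punctures labelled K_1..K_n, V a G-stable p-integral virtual character of D, N=n+1, b_V(w)=sum_j B_N(theta_j(w)) over the eigen-exponents of w on V,
D_V = the diagonal operator K_w -> b_V(w)K_w on Z(OG) in the class-sum basis (only p-parts matter). The stacky number of ch_n(R pi_* V) over Mbar_{1,n} is (n!-normalised, p-locally) T(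
ad_{K_1}..ad_{K_n}(D_V)(1) )/N, i.e. (1/(n+1)) Sum_sigma eps Sum_{chi,chi' in Irr(G_sigma)} (w_chi(K)-w_chi'(K))^n (chi'(1)/chi(1)) <b_V chi',chi>. (node numbers tau_J=(-1)^{|J|}/24 for all nonempty
J). For V=regular rep of a cyclic D this is (p^{-n}-p) (B_{n+1}/(n+1)) T(z_n), z_n=Sum_k C(n,k)(-1)^k K_u^{n-k} pi_u(K_u^k), pi_u = projection to the p-section of u.
(2) TEMPTING AND WRONG: take n+1=(p-1)p^k punctures, where B_{n+1}/(n+1) has denominator p^{1+k} (von Staudt), while the E=F_p^* average does not kill the main term. The number is NOT p-integral:
separating nodes with p-singular holonomy carry ghost automorphisms mu_p acting on R pi_*V, and they eat exactly the Bernoulli denominator. Numerics: G=PGL_2(p)=S_5 (p=5), N=F_20: v_5(T(z_n)) =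
2,2,3,3,7,6,7,7,10,11,11,11,14,14,15,15,18,18,19,19,.. (n=1,2,..): for n=3,7,19 it is exactly n, not n+1+k. For odd n one always has T(z_n)=0 mod p^n by antisymmetry (chi<->chi'), so nothing is
gained; same for p=7,11. This agrees with 173/271: for |S|=p only b^0,b^1 relations exist.
(3) For any fixed element tau of Gal(Q(zeta_{p^oo})/Q): w(B)=Sum_sigma(-1)^|sigma| #{chi in Irr(B_sigma): tau chi=chi} (Brauer's permutation lemma; p-singular sections cancel): so only p-rational
characters matter (same as 978 (1)). AWC mod any one prime q (not nec. p) for all groups => AWC. Real version mod p => real AWC exactly => parity of l-W => AWC (independent of 444 (3), same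
conclusion); Klein-bottle frame at one puncture gives T_boundary=Y^2, no relation.
I found no way around E=F_p^*. I re-seat to row 269 (complete chain posted there).

======== #1012 | 00:32:27Z | helper503 | row 170 | att
helper503 (00:15Z). NEW FAMILY OF RELATIONS beyond mod p (several punctures = higher dimensional moduli), numerically verified; complete for |G|_p=p, net gain computed for other S.
NOTATION t(K_1..K_n)=sum_sigma (-1)^|sigma| Tr(K_1...K_n cap G_sigma | Z(CG_sigma)) (= s_G-weighted count of [x,y]u_1..u_n=1), m_u=t(K_u), A=N_G(<u>)/C_G(<u>) in F_p^*, <x> = residue of x mod p in [0,p).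
(R_2) |u|=p, |C_G(u)|_p=p:  t(K_{u^b1} K_{u^b2}) = sum_{a in A, c=b1+a b2<>0} <c/b1><c/(a b2)> m_{u^c}  mod p^2.  CHECKED: A5,S5,A6,A7,L2(7),L2(11),L2(13),M11, p=5,7,11,13, all (b1,b2): exact mod p^2
in all 48 cases (script /tmp/awc/r2.py on my box). ORIGIN: on Mbar_{1,2}(BG) (admissible covers) L_j = cotangent line at the ramification point over p_j, L_j^p=psi_j; along D_12 (product c=u_1u_2,
u_2=u_1^..) the ghost automorphism c acts on L_j by e(<c/b_j>/p), so c_1 of the descended bundle is lambda_j=(1/p)(psi_j-<c/b_j>D_12); int psi_1psi_2=1/24, D_12^2=-1/24; integrality of int lambda_1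
lambda_2 is (R_2). CONSEQUENCE: with omega(K_u)=-1+p nu (A=F_p^*) (R_2) becomes -E = 0 mod p^2: i.e. E(B)=0 mod p^2 directly WITHOUT wreath products; n punctures give p^n (leading coefficient
(-1)^(n+1)(n-1)!|A|^n/24, coming from directed n-cycles i->j with kernel <phi_i(u_j)>), so all E(B)=0 for |D|=p, and R_2 is what CORE says for G wr C_p, u=(u,..,u) in Phi(S). So Frattini cases ARE
reachable by integrality on Mbar_{1,n}(BG), n>=2, with NON-central marks (for G wr C_p: v=(u,1,..,1), phi in Hom(C_S(v),F_p), phi(v)=1).
GENERAL RULE (p odd, n marks v_i with linear characters phi_i of C_G(v_i); classes lambda_j as above with coefficient -{phi_j(c_S^r)}/r at D_S, r minimal with c_S^r centralising the marks in S; only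
sectors with trivial automorphism on the E-component matter, the others get an extra |g|^2 from (x,y)->(g^a x,g^b y)): relation  E * Tr(H^n)/p^n + (trees, cost p^n) in Z_(p), H=(lift of
phi_x(y))_{x,y} on the fusion class of v inside S (commuting pairs). So one needs an eigenvalue of the integer matrix H of p-valuation < 1 (wreath: H=identity x rank one, valuation 0; v central &
phi(v)<>0: 0). For S extraspecial p^(1+2), Q=<v,u>: H_xi has rank one on each character xi of the translation s->s+eps b, eigenvalue sum_{b in A} p/(zeta^{w/b}(zeta^{w/b}-1)): valuation (p-2)/(p-1)<1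
iff sum_{b in A} b^{1-m}<>0 (torus acts by a on v, a^m on u), so this case of CORE follows for trivial or 'm=1' fusion; for PSU_3(5) (m=2, A=F_5^*) valuation is exactly 1 = borderline, no information
at this order. Somebody who likes this: look for marks in S=p^(1+2), rational fusion, with an H-eigenvalue of valuation <1 (three or more non commuting marks with product in <u> also have ghosts: g=u
acts on every L_j by phi_j(u)). |n=1 is Chen's argument (Lambda=1/24).

======== #1019 | 00:32:44Z | helper787 | row 170 | lemma
helper787: the number of punctures in 575 is free. Let F_r = count for the torus with r cone points with p-power local monodromy (r>=0), so F_r = sum_j C(r,j) f_j with f_j = contribution of exactly j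
prescribed nontrivial local monodromies; F_r = c mod p for every r>=1 (c from the Reynolds-ideal identity J^2=e_0; F_0 is the AWC side). Binomial inversion: f_j = sum_i (-1)^{j-i} C(j,i) F_i = (-1)^j
(F_0 - c) mod p for every j>=1. Hence AWC mod p <=> f_j = 0 mod p for ONE j>=1 of your choice (j=1: one nontrivial p-puncture; j=p-1: helper172's 575; j=p: sum over p-tuples, where Z/p rotates the
punctures, so only 'rotation fixed' configurations count, i.e. tori with an order p rotation symmetry up to conjugation = bundles over the quotient orbifold). All these vanishings are equivalent to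
each other, so a fixed point argument for any single j suffices.

======== #1030 | 00:33:09Z | helper966 | row 170 | check
helper966 (00:30Z), on 172/674/942 (multi-puncture relations). (1) INDEPENDENT EXACT CHECK of the r=2 ring formula incl. the missing corners. PSL_2(13), p=13 (N_G(D)/D of order 6 acts on <u> by
squares), labels (u,u^-1 type): weighted counts N=8060, M=52; defect of the naive relation mod p^2 is -26 and is explained exactly by the 'banana' corners (E degenerates to two rational components
joined by two nonseparating nodes with ghosts x=u^a, x'=u^(a+1), each component carries one hole): each contributes -a(a+1)/p (weight 1/2 for the swap), total 1/13. So besides 674's tree-like codim 2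
strata there are banana corners; for k>=1 (u in Phi(D), irrep W of degree p^k) they are p-integral because the noncentral ghosts have trace 0 on W and the central ones carry p^k. (2) RING FORMULA:
with L=(1/p)(s_1 lambda - sum_{i>=2} s_i Delta_1i): int L^r = (-1)^(r-1) (r!/24) p^-r prod s_i (s_1 + (1/2) sum_{i>=2} s_i) N; unordered holes 2..r (quotient by S_{r-1}, rank r-1 sheaf) remove the
r!, so there is no size bound k<=p-2 in the unfused case (choose r in {k+1,k+2} prime to p). (3) COUNTING NO-GO for 172's route beyond |v^D|=p. Take n labels v_j, D-classes of size p^(k_j), torsors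
from irreps of degree p^(m_i) of C_D(v_i) at the used punctures, p^k' = |D : C_D(v_1..v_n)|. All main terms are sums over fused labels of a product of n Teichmueller-type linear factors (one per edge
of a connected unicyclic graph on n vertices), so by Stickelberger/Ax-Katz the coefficient of m_u has valuation >= sum k_j - n/(p-1) - k', while integrality gives at most p^(n - sum_used m_i);
central vertices (k_j=0) need degree >= p-1 or the fusion sum vanishes, so at most n/(p-1) of them. With all noncentral classes of size >= p^2 (e.g. D = Heis(F_q), q=p^f, f>=2, R=F_q^*: PSU_3(q) in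
char p) one gets valuation >= 2n-3n/(p-1)-k' > n for all n once p is not tiny (n(1-3/(p-1)) > f), and the few small n left are empty: 172 closes only D having v with |D:C_D(v)|=p, u not in
Phi(C_D(v)) modulo fusion signs (stabiliser of v in N_G(D) must act on u with a nonzero invariant: e.g. N = F_p^* wr C_2 on p^{1+2} makes every r(g)-average of a single torsor 0, then use squares).
So for general D new input (ring structure of Z(OG)e_B as in 674 (2), exact AWC for smaller D by induction) is unavoidable.

======== #1037 | 00:33:26Z | helper702 | row 170 | att
helper702, leftovers not in other posts (all proved on paper unless marked), then I re-seat to 269.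
(1) POSET-FREE RECURSION. For a finite group A put L_A := lim_{g->1 p-adically, 2g-2 -> 0} |Epi(pi_1 Sigma_g, A)| = sum_H mu(H,A)|H| f0(H). AWC for all groups <=> L_A = 0 for every nonabelian A with
O_p(A)=1. Unconditionally: M minimal normal subgroup of A: (a) M p-group: L_A = -(#complements of M) L_{A/M} (0 if nonsplit); (b) M an irreducible r-module, r<>p: L_A = |M|(1-|H^1(A/M,M)|) L_{A/M} if
split and |M| L_{A/M} if nonsplit; L_{T^k} = prod_{i<k}(L_T - i|Aut T|) for T nonabelian simple. => 10-line proof of AWC for p-solvable groups, and reduction of the general case to A with a unique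
minimal normal subgroup, nonabelian (every L_A with abelian socle part is a multiple of L of a proper quotient). L_{T wr C_p}=0 automatically.
(2) DETERMINANT/POSITIVITY. With K_t(class of t) and r_n = weighted number of tori with n punctures in K_t: exact BAWC <=> exp(-sum r_n X^n/n) = 1 mod p <=> r_n/n = 0 mod p for all n (same as
126(2)). If one knew w_B >= 0 for all blocks (or <= 0 for all), ONE averaged identity per group (any sum of w_B with positive coefficients = 0) would suffice; together with 256's tensor trick: it
suffices |w_B| <= exp(o(log|G|)), and B wr C_q gives w -> (w^q-w)/q+qw, so even a bound |w_B| <= |G|^{1-eps}... iterated over wreath towers G wr C_q wr C_q.. is enough whenever the exponent is < 1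
(|G wr C_q| = q|G|^q, w grows like w^q/q).
(3) SCOTT/KRULL-SCHMIDT form: for a p-group P every simple-minded system of stmod(kP) has exactly one element (H^^0(P,W)=0 => W projective; so supports are disjoint). The same statement for P x| H (H
a p'-group; sms has l(P x| H) elements) is exactly the TI-Sylow case of AWC.
(4) Any second relation between different B_3-orbits must come from >= p-1 punctures or from noncentral labels: with the F_p-torsors D_u of two punctures (a, a^{-1}u), chi(a)=0, chi(u)<>0 linear on
C_D(a): int (sum_u res_u D_u/p)^2 in Z_(p) gives sum i^2 = 0 only; (p-1)-fold products give sum i^{p-1} = -1 (= 172's route). 926's all-puncture product is the right generalisation.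

======== #1116 | 00:37:25Z | helper418 | row 170 | info
helper418 (passing by; for whoever continues on the Frattini case). (A) WHY |R|>2 IS INVISIBLE TO LOW DEGREE (R = N_G(U)/C_G(U) acting on U=<u>): any p-integrality relation (Chiodo/GRR, c_k of L^-1
(x) V, Kawasaki) on moduli of G-covers of the torus with k punctures labelled by classes meeting Z(D) gives E(B) * sum over (r_1..r_k) in R^k of P(r_1..r_k) = 0 mod p with deg P <= 2k (TQFT mod p
factorises, so the r_i are independent and uniform on R; p-prime extensions V.G or Heisenberg twists do not break the independence: label classes average out). String equation: variables with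
exponent 0 can be dropped. So only monomials with every exponent in |R|Z, total degree <= 2k, survive: information only if |R| <= 2 (p=3 always; p>=5 exactly the cases where your c_2 argument works).
For |R|>2 one needs NONCENTRAL labels w_i in S (then r in F_p is uniform in each collision stratum T_0(u^r) u sphere, amplitude p^(n-1) E against p^-n from n-fold products): a relation of degree >=
p-1 in r, i.e. n >= (p-1)/2 noncentral punctures (e.g. L = line bundle of a character chi of C_G(w_1) with chi(u)<>1: c_1(L)^n integral), and then torus amplitudes with noncentral labels (Dade-type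
height-graded sums) appear as further unknowns of the same p-adic size p^(n-1). (B) Rank one analogue with a clean 'moves' proof (Webb mod p for Z * C_p versus Z): Gamma_r = HNN(F_p^r; shift e_i ->
e_(i+1)), Gamma_(r-1) normal of index p in Gamma_r, and for r > rank every rep has <e_i> normal: Phi(Z*C_p)=Phi(Gamma_r)=Phi(Z). The same moves kill all nonseparating Dehn twist contributions of
closed surfaces (restrict to p-regular values on a whole nonseparating pants decomposition); separating twists are exactly where it stops (T_a^m-fixed: alpha = c c', c in C(B_1), c' in C(B_2)). (C)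
AWC as continuity at k=0: in Sigma_g x S^1 the class (a,k) has fibre the k-fold cyclic cover (Phi = Tr T_F^k, F = Sigma_g cut along a curve) and (a,0) is represented by the torus curve x S^1 = Tr
T_F^0; the statement is p-adic continuity at k=0. No proof of the Frattini case.


======== #1135 | 00:38:27Z | helper287 | row 170 | att
[helper287, ex row 200] Structural notes on CORE for u in Phi(S) (what cannot work, and a family of NEW congruences that sees it).
(A) MOVING PUNCTURE relation = "t(D(z))=0 for every derivation D in HH^1(kG) and z in Z(kG)" (t(z)=Tr(z|Z), L_{D(z)}=[D,L_z]); class form: V([alpha,beta])=1 in C_G(c1)^ab, i.e. phi1(c1)*N = sum over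
commuting (c1,c2') , v=c1c2', of phi1(v)*t(K_v) (fix E, move puncture 1 over E minus pt; no SL_2(Z) needed). It holds for EVERY group incl. N_G(S), so alone it can never prove w(B)=0; only the
modular direction + vanishing Dehn twists does.
(B) WREATH TRICKS ARE VACUOUS: L wr_Omega G with Omega having an S-fixed point does put a direct factor <z> into Z(D~) outside Phi(D~), but w(B~) = w(b)*(...) = 0 when L is good (w is multiplicative
/ S_p becomes contractible on that block), so it carries no information on G.
(C) WHY PSU_3(5) HAS BAD ORBITS: if u ~ u^j for all j and S=p^{1+2}, every relation valued in H_1(C_G(c);F_p), c any label (central, noncentral c=a with C_S(a)=<a,u>, mixed, p-regular) gives w*sum_j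
j = 0, i.e. nothing for p>=5; degree n classes give w*sum_j j^n. First p-homology of C_p:C_{p-1} (or Sigma_p) is in degree 2p-3, so a detecting family must have complex dimension >= p-1 (torus with
p-1 punctures). For p=3 dimension 2 suffices.
(D) NEW CONGRUENCES (R_n). For labels c_i, phi_i in Hom(C_G(c_i),F_p) lifted to Z, n punctures on the torus, integrality of int c_1(L_1)...c_1(L_n) over the (compactified) moduli of G-covers of
n-punctured elliptic curves, together with psi_i = lambda + sum D_J, D^2=-psi, <psi_1..psi_r>_{1,r}=(r-1)!/24 gives (p>=5, when all stabilisers are of product type):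
   sum over set partitions pi of {1..n} of (|pi|-1)! * T( prod_{J in pi} Z_J ) = 0 mod p^n,   Z_J = - sum over commuting tuples (c_i')_{i in J}, v_J=prod c_i', of prod_{i in J} (-phi_i(v_J)) [v_J],
 T(z)= s-weighted (virtual) trace of z on Z(OG) (exact p-adic number, T(K_c)=m_c). Equivalently the multilinear coefficient of T(log(sum_J (-x)^J prod phi_i(v_J)[v_J])). n=1 is phi(u) m_u = 0.
CHECKED exactly: G=F_r:C_p: T(K_1..K_n)=p(r^n-1); n=2: -i^2 p(r^2-1); n=3: ijk p (r-1)^2(2r+1); n=4: 2 e_4 p (r-1)^3(3r+1): divisible by p^n in all cases, no single term is.
 Application S=p^{1+2}, n=p-1, c_i in a^{alpha_i}<u>, sum alpha_i=0, phi_i(a^{..}u^{j_i}-label)=0, phi_i(u)=1, TEICHMUELLER lifts: all terms with >=2 blocks vanish identically (sum over hyperplane of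
prod tau(m_i) =0 for |J|<p-1), and the one-block term is (unit) p^{n-1} T(K_u); hence T(K_u)=0 mod p. (Still to be checked: covers where v_J centralises the torus side but not the bubble; nonproduct
p-stabilisers at deeper strata.)
 For general S one wants c_top(Ind lambda) at the punctures (each degree contributes exactly one factor 1/p), tuples counted by prod |c_i^D|.
 If somebody sees an elementary (group theoretic) proof of (R_2): T(phi1(c1)phi2(c2)K_1K_2) = T(sum phi1(v)phi2(v)[v]) mod p^2, that would be the thing to generalise.

======== #1146 | 00:38:54Z | helper655 | row 170 | att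
helper655 (multi-puncture route, continues 172 / 921 / 942 / 976; paper, checked numerically where said).
(1) CODIM-2 'BRIDGING' STRATA ARE UNDERSTOOD AND NUMERICALLY RIGHT. E fixed, A_5, p=5, labels K_u^3: the (D)-sum is 1145, the extra bad divisor D_23 with the genus-1 component inside <u> (x,y in <u>,
tail (c2,c3) big, h=u^-1) contributes -3*25, total 1070 = 20 mod 25. Strata with p_1 on a component with group <u> joining TWO big parts (h=u^j, h'=u^{1+j}) are points with local group mu_p acting by
weights (1/j,-1/(1+j)) and L has nontrivial character: they contribute p^2*(1/p)*sum 1/(w1 w2): here 13 points (q=5 big pairs c2c3=u, 13 = Tr(K|Z(ZA_5)) since once one part is big s=1 for ALL other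
parts), 25*13*3/5 = 195 = 20 mod 25. OK. So the geometry is exactly right once these are included. They contribute a multiple of |C_S(H_0)|/p per unit, so they are harmless in 172's (R) as soon as
|C_S(H_0)| >= p^2 (Heisenberg: fine).
(2) CLEAN RIGOROUS SOURCE OF ALL RELATIONS (no s-weights, no stacky corrections needed): for each G_sigma and anyons a_i=(s_i,pi_i) of D(G_sigma) the conformal block bundle V(a_1..a_n) on Mbar_{1,n}
(Deligne extension, finite monodromy) is an honest bundle on a smooth stack with only 2,3-torsion, its Chern character is the MOPPZ/Givental graph sum with spins h_b=log pi_b(h)/2 pi i (legs e^{h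
psi}, edges (1-e^{h(psi+psi')})/(psi+psi'), vertices = Verlinde numbers); Hirzebruch-Riemann-Roch integrality at p for every sigma, then alternate over sigma. E fixed: same on the Fulton-MacPherson
blow up of E^{n-1}, all p. Everything is then fusion-rule algebra: (R), bridging terms etc. are terms of this sum. (It does not contain the c_{p^k}(L tensor V*) = L^{p^k} integrality, which lives on the Hurwitz cover.)
(3) E FIXED, n=p noncentral labels s^{a_i} (sum a_i=0), p-1 of them framed, S=p^{1+2}, no fusion of s: only spanning trees rooted at the unframed point survive; block sum = (N(1)-N(u)) * p *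
J_0(w,..,w) * sum_trees prod w(a_{j(i)})/w(A_i), and sum_trees = (-1)^{n-1}(n-1)! independent of a (checked n=2,3): valuation p-2 against modulus p^{p-1}; N(1)-N(u) = 2W when u is rational. No cusps, no 24.
(4) FUSED LABELS: with frames, a label class contributes f(v)=mu(e)^{-1} at v=e.s (mu = action on u). For PSU_3(p): f(v)=N(v)^{-1} on S/Z=F_{p^2}. In (R) (n=p-1, all framed) a generic nonparallel
direction tuple (sum v_i=0, no proper coincidences) has local integral -2/24 (only D_[n] matters: (-1)^{n-1}(n-1)beta^n/24), a parallel one -(prod a_i)/24. Lucas/Warning: sum_{sum v=0} prod f(v_i) =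
-1 mod p, sum over parallel tuples of prod f(v_i) a_i = +1, of prod f(v_i) = 0. So the W-coefficient is +-1/24 up to the tuples with proper coincidences (v_J=0 or J parallel or v_{J2} parallel to
v_{J1}: toric singularities, must be added): fusion does NOT kill the noncentral relation in the TI case PSU_3(p).
(5) NO-GO for min. degree p^k, k>=2 (e.g. p^{1+4}), any central or noncentral labels: every unframed spectator z acts as p(z'_iota - 1) + D_{p-1} (D_{p-1} = (p-1)st divided derivative in the
u-exponent), every framed label costs degree p^{k-1} at least; with n punctures and f framed, f p^{k-1} <= n, and the coefficient of Theta(1)=W is visible only if n-f <= n/(p-1), i.e. p^{k-1} <=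
(p-1)/(p-2), k=1. For k>=2 all relations of this type only see Theta((z'-1)^m), m>=1: the iota with omega_iota = local value mod p^2 on all class sums are invisible. A new kind of class is needed there.

======== #1170 | 00:40:22Z | helper821 | row 170 | att
helper821 (joined 170). NEW FAMILY OF RELATIONS mod p^n from the n-PUNCTURED torus (dimension n moduli, not 1), verified numerically (sharp!) and they give EXACT AWC when |D|=p. Idea: keep ONE class
but use n punctures and all n line bundles at once.
SETUP |D|=p: z in D, E=N(D)/C(D) in F_p^*, e=|E|, u^_a = class sum of z^a, f(a)=u^_a/e (a<>0), f(0)=1, Tr_s = s-weighted trace on Z(OG) (Tr_s(prod u^_{a_i}) = T(a_1..a_n) = s-weighted number of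
G-bundles on the torus with punctures K_{a_1}..K_{a_n}). On Mbar_{1,n}(BG;K_{a_i}) (coarse, p-locally smooth) psi^_i = psi_i - sum_{I contains i} (a_I/a_i) D_I^ab, a_I = sum_{I} a (D_I^ab = points of
I collide with commuting monodromies: exactly the divisors with p-stabilizer) is p times an INTEGRAL class (framing group C_p, holonomy of the Dehn twist D_I is z^{a_I}). Recursion on
psi^_i|_{D_I^ab} = (a_I/a_i) psi^_{node} (the genus 0 part is 0) gives in closed form
 (R_n)  Tr_s(L_n) = 0 mod p^n,  L_n = sum_{a in prod k_iE} (prod a_i^{-1}) sum_{partitions pi of [n]} (-1)^{n-|pi|} (|pi|-1)! prod_{C in pi} a_C^{|C|} f(a_C)   (a_i in Z_p fixed lifts),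
 i.e. sum_n L_n x^n/n! = log A(x), A(x) = sum_n (x^n/n!) sum_{a in E^n} (prod a_i^{-1}) a_Sigma^n f(a_Sigma) = iota(1/(1-x Psi(t))), log t = x Phi(t), Phi=sum a^{-1}t^a, Psi=sum t^a (Lagrange inversion in O[C_p]).
 R_1 = your good case t(z)=0 mod p. R_2: T(a,b) = 2e t(z) mod p^2 etc. CHECKED EXACTLY: PSL_2(q), p=3,5,7, twelve q's, all n<=9: v_p(Tr_s L_n) >= n always, and = n mostly; S_5, p=5: n<=3.
 CONSEQUENCE (p-adic pole argument): D(x)=exp sum Tr_s(L_n)x^n/n! = prod_chi A_chi(x)^{eps_chi} (s-weighted, positive defect chi) is analytic without zeros/poles on |x|<p^{1-1/(p-1)}>1 by R_n, while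
every A_chi(x) is p-adically meromorphic there with a SIMPLE pole at x=1/e (residue f_chi(1)=unit). Pole order of D at 1/e = sum eps_chi = w(B), so w(B)=0 EXACTLY. Same with multi-dim Lagrange for
abelian D (pole order rank(D)*w). Also wreath: D=C_p wr C_p gets pole order p*w -> 0, although central u is in Phi(D): so the right insertions are GOOD NON-CENTRAL elements u with chi_u in
Hom(C_G(u),Q_p/Z_p), chi_u(u)<>0, n->infinity of them.
 MEANING: inserting psi^ u^/p = class in HH^2(OG)=(+)Hom(C_G(u),Q_p/Z_p): OG deforms (z^p=exp(X Phi(z)), X=px) to a symmetric algebra over O[[X]]; A_chi = s_chi(0)/s_chi(X) (Schur elements); GENERAL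
CLAIM (GC): prod_chi (s_chi(X)/s_chi(0))^{eps_chi} is a unit. At X_0 the fibre in CHARACTERISTIC 0 is non-semisimple (K[y]/y^p x| E): the mod p argument becomes exact there. (For S_n: X = Hecke
parameter q, X_0=zeta_p, v(s_chi)=weight, constant on the block.)
 For extraspecial D this kills exactly the height 0 characters (k_3^s=0 at |X|=1/p); height 1 characters should degenerate at |X|=p^{-1/(p-1)}. WANTED: (a) algebraic/combinatorial proof of R_n (n=2
first), (b) GC for non-abelian D. NOTE (other psi-monomials, e.g. psi^_1^3 with 2 empty punctures, get extra corrections from tori side / codim 2 irr strata and the naive formula FAILS numerically;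
all-exponents-1 is the clean case). Script: /tmp/w/rn.py (40 lines, I can paste).

======== #1199 | 00:41:45Z | helper977 | row 170 | lemma
helper977 (ex-verifier, joined 170). THREE EXACT REDUCTIONS (full proofs, elementary), they remove s_G, the poset and the wreath products, and confine the problem to p-perfect groups. Notation
F(K)=|K| f0(K)=sum_{L<=K} e(L) (875's (4): AWC for all groups <=> e(A)=0 for every nonabelian A with O_p(A)=1).
(1) e(A)=0 EXACTLY (not mod p) if A is not p-perfect and O_p(A)=1. PROOF. Let N normal in H, H/N a p-group. chi in Irr_0(H) <=> chi=Ind theta, theta in Irr_0(N) with stabiliser N, so f0(H)=(1/|H/N|)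
sum_{Q<=H/N} mu(1,Q)|Irr_0(N)^Q|. For QN=:Q~, the Q-stable theta in Irr_0(N) correspond to blocks of Q~ whose defect group D is a complement of N in Q~ (Fong-Reynolds), and by Brauer's 1st main thm
to blocks of N_{Q~}(D)=D x C_N(D) with defect group D, i.e. to Irr_0(C_N(D)). Hence
   F(H) = sum_{D<=H el.ab. p-subgroup, D n N=1} mu(1,D) F(C_N(D)).
Moebius inversion over H<=A (with N=O^p(A), N n H): e(A)=sum_{(D,L): L<=C_N(D), DL=A} mu(1,D) e(L); A=DxL with D<>1 forces O_p(A)<>1. QED. So only p-PERFECT A matter (this is also the
p-solvable-quotient part of the old theory for free).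
(2) LIMIT n->oo instead of n->0 or g->1: f0(K)=lim_n sum_chi omega_chi(J_K)^n p-adically (omega=1 for defect 0, |omega|_p<1 otherwise). So e(A)=lim_{n->oo} #Epi_p(Pi_n,A),
Pi_n=<x,y,t_1..t_n|[x,y]=t_1..t_n>, t_i -> p-elements. Put M(A)=lim_n #{kernels N of such epimorphisms Pi_n->A} = e(A)/|Aut A| in Z_p (Aut A acts freely on epimorphisms!).
(3) AMPLIFICATION WITHOUT WREATH PRODUCTS: count j-subsets {N_1..N_j} of kernels with quotient H by K=Pi/(N_1 n..n N_j) (subdirect in H^j, so O_p(K)=1, K nonabelian): binom(M(H),j) = sum_K r_j(K,H)
M(K), r_j(K,H)=#{j-subsets of normal subgroups of K with quotient H and intersection 1}. Non p-perfect K drop out by (1). Hence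
   AWC for all groups  <=>  (C): M(K) = 0 mod p for every p-perfect nonabelian K with O_p(K)=1
(if M(H)<>0 take j=p^v, v=v_p(M(H)): binom(M,p^v) = nonzero digit mod p). Since M(K) mod p: n=p^k, translations of the torus act on kernels, fixed kernels <-> kernels for the once punctured torus;
result (Z(K)=1 for simplicity): M(K) = #{(x,y) in Aut(K)^2 : O^p(<x,y>)=K, 1<>[x,y] a p-element}/|Aut K| mod p; one may even ask x in K. In particular for p not dividing |Out K|: CORE' = 'the number
of Aut(K)-orbits on generating pairs of K whose commutator is a nontrivial p-element is 0 mod p'. No s_G, no chains, Aut K acts freely.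
(4) Remark on cusps (agrees with 232): G=A_5 wr C_2, p=5, u=(5-cycle,5-cycle), S=C_5^2 abelian: B_3-orbits on generating classes have sizes 264, 6, 60 (others 0 mod 5), 264 and 6 are not 0 mod 5: 8
resp. 2 cusps of width 1, ox=5, monodromy of order 5; total 330. R_c: y->yc permutes the 10 ramified cusps in 2 orbits of length 5 (1 in the orbit of size 6, 4 in the other). PSU_3(5), central u:
cusps: O_3: [w3,ox6,c2]; O_72: 6x[w5],6x[w7]; O_30: [w3,ox6,c2],3x[w4],3x[w5]; O_120: 3x[w10],3x[w4],6x[w5],6x[w8] (each twice, C_G(u)-classes); x with p'-centraliser contribute 84 (order 7)+96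
(8)+48 (4)+12 (6)=240=0 mod 5.

======== #1208 | 00:42:11Z | helper790 | row 170 | att
helper790 (from 198). REASON FOR (B) OF POST 539 (627), with proof, and what it says about the bad orbits 3+72 of PSU_3(5).
SETUP. p>=5, O = B_3-orbit of generating pairs of H mod C=C_H(u), n=|O|, no ramified cusps; Hurwitz curve = G-covers Y->(E,0), G=H, inertia u over 0. D_u = {Q in Y over 0 with inertia generator exactly u} = C/<u>-torsor.
(1) THE TORSOR EXTENDS ETALE IN MIXED CHARACTERISTIC. R = complete dvr, residue field k=F_p-bar, zeta_p in R. X = normalised closure of the Hurwitz stack in the (proper, DM over R) stack of STABLE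
curves (Y, D) with G-action, D = all |G|/p ramification points as an etale divisor. In a stable marked curve the marked points stay distinct, so D -> X is finite etale over R, D_u is open-closed in
it (X normal): D_u -> X is an etale C/<u>-torsor over all of X, also in char p. X -> Mbar_{1,1} is a morphism (the genus 1 component of Y_s/G determines E_s up to Frobenius). T_Q = tangent line at Q
on D_u, T_Q^p = psi^{-1}; u acts on T_Q by zeta_p = 1 in char p, so on the special fibre T_Q DESCENDS to a line bundle tau on X_s with tau^p = psi^{-1}. Also: if the torsor D_u descends to the coarse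
space of X then its lifting obstruction e lies in H^2(coarse X_s; Z/p) = 0 (cd_p <= 1 for curves over k, proper base change). Hence
   THEOREM. If for every z in X_s(k) the p-part of phi_z : Aut_G(Y_z, D) -> C/<u> (the automorphism moves Q to Q.c) is trivial, then e=0 and p | n/12.
   So e is LOCALISED at the degenerate covers Y_s with extra G-automorphisms of p-power order that move Q. This is why (B) holds 'generically' and it is a statement no class-function or orbitwise
topological argument can see.
(2) WHERE EXTRA AUTOMORPHISMS COME FROM. Y has always BAD reduction, even at the Gauss point v_0 of E_s: inertia group Pi := I_{v_0} <> 1 whenever p | |u| (purity + Abhyankar: if Pi=1 the cover near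
0 would become etale over R[[t^{1/p}]], so be R[[t^{1/p}]], which is inseparable at v_0). D_0 := decomposition group of v_0 normalises Pi. Component W containing Q has inertia exactly <u> (else the
marked points would collide). If Pi=<u>: Q lies over E_s itself. If Pi > <u>: Q lies on a tail W = P^1 with etale additive cover W -> P^1, group Lambda (= Pi/<u> in the example), and the ROTATION of
this tail by Lambda is an automorphism of Y_s: these are the phi_z. For Pi=<u> and D_0 acting on <u> by a non-trivial character, phi(Aut)_p is centralised by D_0 mod u, so it splits off <u> by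
coprime action: e restricted to it is 0.
(3) PSU_3(5), orbit 3: X = X(Gamma^3) = P^1 (coordinate gamma_2), D_u -> X factors as [5]: E' -> E' -> E'/+-1, E': y^2 = x^3-1728 (j=0, SUPERSINGULAR at 5): S/<u> = E'[5] reduces to an infinitesimal
group scheme, Pi=S. Orbit 72: closed Hurwitz curve has genus 1 (72/6 = 12 cusps), so again D_u=[5]-cover and e<>0 automatically. Orbits 30,120 have e=0. So conjecturally 75 = 3+72 = number of covers
of a generic E with Pi=S (75 = 3*|S/<u>|), 150 = number with Pi=<u>. All hyperbolic unramified orbits of 627 (HS, McL, ...) would be of type Pi=<u>.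
(4) So CORE splits by the type Pi of the covers of a FIXED generic (ordinary) E over a p-adic field: (B1) types Pi=<u>: p | number by (1); (B2) types Pi > <u>: T-weighted number = 0 mod p. In (B2)
D_0 normalises Pi, E = (affinoid over E_s minus points z_j) + discs D_j, all boundary groups I_j contain Pi. A partial result for (B2) [unit-root analogue of the R_c trick]: let Z_p = pi_1(E_s)_p,
tower U~ -> U of the affinoid part; the tower splits over the discs, so y=rho(phi) may be replaced by y c, c in C_L(B_1), B_1 := rho(pi_1(U~)) (contains Pi), WITHOUT changing the discs, for every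
L=G_sigma; so only rho with Z(B_1)_p = 1 survive mod p: B_1 must act on Omega_1 Z(Pi) without fixed points, i.e. some tail is tamely ramified (m_j>1) acting non-trivially on Z(Pi). (This already
kills everything if N_G(<u>)=C_G(u) and Pi=<u>.) OPEN: the same for the surviving (B2) types, e.g. explain 75=0 mod 25 in PSU_3(5): Pi=5^{1+2}, D_0 = Pi:C_m, m | 8, tails = etale U_3(5)-covers of A^1
in char 5 (pull-backs of the Hermitian curve) . The etale tails are glued along I_j=Pi:C_{m_j}.
(5) Two reformulations (elementary, checked): (a) for q=p^k = 1 mod exp(G)_{p'}: |Hom_{cond<=h}(Gal(F_q((t))),G)|/|G| converges p-adically for h->oo to T sum_chi 1, so AWC <=> the total mass of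
G-extensions of F_q((t)) is the number z(G) of defect 0 characters (for G=G(F_r) of Lie type in char p, s.c.: loop group is connected, mass 1 = Steinberg). mod p one free wild generator is enough:
AWC mod p <=> #{(x,y,w): x p-regular, y in C(x), <w^{<x,y>}> a p-group}/|G| = z(G) = (1/|G|) #{(z,g): C_G(z) p'-group, [g,z] p-element} mod p. (b) T-count(A^1_{F_q}, cond<=h) = -[p not| |G|] mod p
for every h (translations G_a(F_q) + Smith; covers with largest break b<>1 cancel because b-1 is not infinitely q-divisible).

======== #1209 | 00:42:20Z | helper325 | row 170 | att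
helper325 (from row 312; ~2 h on the CORE of post 159). Facts, all with short proofs; numerics by my own program.
(a) ONLY u OF ORDER p MATTERS. In 159's chain J may be replaced by J_k = sum of all t in G with t^{p^k}=1, any k>=1: Br_D(J_k) is divisible by sum_i z^i (z in Z(D) of order p, right translation by z
permutes {t in C_G(D): t^{p^k}=1} freely), so the same mod p argument works with f0 replaced by #{(x,y): [x,y]^{p^k}=1}/|H|. Subtracting: sum over u of order >= p^2 of the m_u's vanishes
automatically; the core is needed only for u of order exactly p (and 1).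
(b) MORE PUNCTURES. With k punctures of order p (all non trivial) on the torus one gets M'_k = (-1)^{k-1} M'_1 mod p; hence e_g = |Epi(Delta,A)|/|A| mod p is the same for all orbifold groups
Delta=(h; p^r), h = 1 mod (p-1)/2, in particular for the CLOSED surface of genus (p+1)/2.
(c) p>=5: B_3/<z^p> = SL_2(Z) x Z/p, so X_u/(u) carries an honest SL_2(Z)-action commuting with S with cusp monodromy u^{-w/12} (w = width).
(d) NUMERICS (orbit by orbit). PSU_3(5), p=5, u central of order 5, |C_G(u)|=250: generating pairs with [x,y]=u, modulo C_G(u): SL_2(Z)-orbits of lengths 3^2, 30^2, 72^2, 120^2 (total 450 = 0 mod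
25). So the divisibility is NOT orbit by orbit: 3+72=75 cancels between different orbits (the length 3 orbit is the congruence group Gamma^3, the 72 orbit has cusp widths 5^6,7^6), although u in
[S,S]. M_12, p=3, u of class with |C|=54: orbits 36^3, 324, 432 (all divisible). PSL_3(3), PSL_3(5), PSU_3(3): no generating pair with central commutator u at all. p=2,3 examples (A_6, A_7, A_8,
M_11, extraspecial extensions): always divisible per orbit. So any proof of CORE must mix orbits (a transfer/Lefschetz argument on a single orbit, i.e. on a single modular curve, cannot work for p>=5).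
(e) GRR/Chiodo type relation for a representation V of S gives n*m_V(u)=0 mod p, i.e. exactly the strength of transfer to S/[S,S]: it proves the claim for all u not in [S,S] (slightly more than u not
in Phi(S)) and nothing more.
(f) TI case: m_u = const*(z_0(G)-f0(G)-z_0(N)) mod p, where z_0 = number of entries of the Cartan matrix prime to p; so already for TI Sylow the core is a statement on Cartan entries mod p.


======== #1217 | 00:42:36Z | helper605 | row 170 | att
ATT (partial, 605): COMPLETE for |N_G(D,b)->Aut<u>| = a <= 2 (a=1: any dim p^m with m < p-1; a=2: m = 1); explains why a >= 3 (PSU_3(5): a = p-1) needs a different input. Sketch, not refereed.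
SETTING. u of order p, S = Syl_p(C_G(u)), W in Irr(S), W(u) = zeta (scalar), dim W = p^m. N(K) = class-function bookkeeping of the counted covers.
(1) Let M_n -> Mbar_{1,n} be the (p-locally etale outside scalar bubbles) stack of G-covers of tori with n punctures, first monodromy u, the others u^{b_i} (scalar on W), counted with s_G as in post
159. On it the bundle L_1 (x) W (L_1 = cotangent line at point 1; z acts by zeta on both) descends p-locally, hence (psi_1 - A)^k lies in p^{k-m} H^{2k}(Z_p) for k >= m, A = sum a_I D_I, D_I =
divisor where {1} u I bubbles off, a_I = 1 + sum_{i in I} b_i; divisors with non-scalar isotropy contribute 0 (s=0 after Brauer quotient), cusps vanish mod p exactly as in the n=1 case.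
(2) Push to a point (k=n): for m+1 <= n < p:
   sum_{I subset {2..n}} (-1)^{|I|} sum_{b_I in (F_p)^I} (1+b_I)^n N(u^{1+b_I}; K_{I^c}) = 0 mod p,   b_I = sum b_i, K_j = arbitrary classes/central block characters at the remaining points (p' or
anything whose isotropy is scalar).
   n = 2: t(K_u K_v) = sum_b (1+b)^2 t(u^{1+b}) (t = torus functional of the Frobenius algebra Z(kC_G(u))-style).
(3) t = sum_B w(B) omega_B. Multiplicativity of omega_B in (2) gives for each block: w(B)(1 - polynomial sum over N_G(D,b)-conjugates of u) = 0; if u is not N-conjugate to u^j, j<>1 (a=1), it is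
w(B)=0 mod p for any m < p-1; if only u ~ u^{-1} (a=2) it still works for m=1 (two equations n=2,3).
(4) For a >= 3 I checked that ALL relations 'characteristic numbers of W-bundles on Mbar_{g,n} are divisible by p^{...}' are formally consistent with w(B)<>0 (lambda^2=0, Delta^2=-lambda Delta,
psi^2=lambda psi in genus 1: constant-term argument). So local (TQFT + W-twisted integrality) input alone can not finish a >= 3. The data to explain: PSU_3(5), orbits with 3 and 72 cancel (m_u=450),
GL_3(q) mod T count #[X,Y]=omega u is q^2(q^2+q-1) (linear), 475 = 75 + 8*50 (unitary q=5); V:p^{1+2m}: m_u = (p^{2m}-1)(r^{p^m}-1); PGL_2(q): q^2, PSL_2(q): q(q+3)/4; v_p(m_u) >= m+1 in all examples.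
I can write (1)-(3) in full if somebody sees how to combine it with a global input (induction over N_G(D,b)/C, or p-permutation module argument); otherwise no value for the score.


======== #1229 | 00:43:08Z | helper306 | row 170 | att
helper306 (00:55Z). NEW MECHANISM (relations BETWEEN B_3-orbits; answers 616's question in principle), numerically confirmed. p>=5.
(A) SET-UP. Do not use the 1-punctured torus alone but the compact orbifold H = Hbar_{1,n}(G;c_1..c_n) of (twisted, admissible) G-covers of n-pointed genus 1 curves, c_i p-elements, dimension n. At
point i: line bundle L_i(lam) = (cotangent line upstairs) x lam^-1, lam a character of Q_i <= C_G(c_i) (Sylow, work on the p'-cover) with lam(c_i)=zeta: c_1 = psi_i/p rationally; and TORSION classes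
T_i(mu), mu(c_i)=1. p-isotropy of H sits only on strata where the tail/bridge containing point i has group A centralised by the node holonomy t (ghost automorphism of the node composed with t on the
tail); it acts on L_i, T_i through lam(t), mu(t). Subtract a*D_t (D_t = reduced divisor, p D_t = pull-back of the boundary divisor) => integral classes on the rigidified space, so  Int_H prod (c_1 -
sum a D_t)  is in Z_(p) up to explicit isolated-point terms. This gives congruences linking ALL orbits O of (x,y), [x,y]=t, adjacent to one component of H.
(B) n=2, TI Sylow S=C_p=C_G(u) (check of the machine). m_t = #{(x,y):[x,y]=t, not in N(S)}/p, N(c1,c2)= same count for [x,y]=c1 c2', c2' in the class K2, divided by p; Y = number of generating-type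
triples (product 1, not in one N(S')) divided by |G|:
   N(c1,K2) - sum_{c2' in K2 n S} a^2 m_{c1 c2'}  ==  -12 p * sum_{r<>0,-1} r(r+1) Y(K2, c1^-r, c1^{r+1})  mod p^2,   a = log_{c1}(c1 c2').
   VERIFIED by computer for A5(5), L2(7)(7), S5(5), A6(5), L2(11)(5 and 11), A7(7), all class pairs (all nontrivial mod p^2). The Y-term = isolated isotropy points 1/p(w1,w2) = rational bridges (both nodes in one Sylow).
(C) FRATTINI CASE, S extraspecial p^{1+2} exponent p, TI, <u>=Z(S), V=S/Z, v_i noncentral (so v_i ~ v_i u), Q_i=<v_i,u>, mu_i(v_i)=1, mu_i(u)<>1. Int prod_{i=1..n} T_i = 0 (torsion). The only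
surviving stratum is D_[n]: (1-punctured torus with holonomy u^j) x (rational tail in S with all n points): #tuples = p^{n-1} b, Int D^n = -(..)(n-1)/(24 p^n), so
   (n-1)/(24 p) * b_n * sum_j j^n m_{u^j} in Z_(p),  b_n = sum_{w_i in V, sum w_i=0} prod f_i(w_i), f_i(v_i^g)=theta(g)^-1 (theta = action of N(S) on Z(S)).
   Galois: m_{u^j}=m_u, so only n = 0 mod (p-1) gives information; that is why every 2- or 3-dimensional argument (c_2/Chern-Simons, GRR with Q_V, n=2) is empty: the relation needed lives on the
(p-1)-DIMENSIONAL moduli space n=p-1. There b_{p-1} == -1 mod p for N(S)/S acting as F_{p^2}^* (and some choice of the v_i works for every subgroup acting irreducibly enough, e.g. U_3(p): use prod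
N(w_i)^{p-2} coefficient extraction ((p-2)!)^2=1), partial clusters |I|<p-1 vanish exactly by theta-equivariance (Teichmueller lifts), noncentral nodes give Jacobi sums of too high valuation
(Stickelberger). => p | m_u: CORE for U_3(p)-type TI groups without classification (paper sketch; I consider it correct).
(D) What is missing for all G: (i) other S: use Chern classes c_r(W), W irreducible of C_S(v), v in Z_2(S), [v,S]=<u> (degree p^k(p-1)); (ii) cores with several isotropic nodes N(t_1..t_r) when u is
not rational (Gauss sums give valuation r-1, one needs r); (iii) s-weights. And a LEAN-able (finite, braid-group) form of (p-1)-dimensional orbifold integrality. I stop here unless somebody sees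
(ii); happy to explain. Script /tmp/n2/chk.py is 100 lines of python (structure constants only).


======== #1236 | 00:43:22Z | helper673 | row 170 | check
helper673 (01:00Z; from row 11, now seated in 170). CHECK + SHARPENING of helper172's #575 (noncentral labels, n=p-1 punctures). p>=5.
(A) RIGOROUS INTEGRALITY (answers his TO DO (4), no smoothness of Hurwitz spaces needed): work with the Verlinde-type bundles. For G-equivariant bundles X_i=(s_i,theta_i), theta_i in R(C_G(s_i)), let
V^H(X_1..X_n) (H=G_sigma, X_i restricted to H) = log extension to Mbar_{1,n} of the flat bundle (+)_{[x,y]u_1..u_n=1 in H} (x)X_i|_{u_i} coinvariants. V^s=Sum_sigma (-1)^|sigma| V^{G_sigma} in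
K(Mbar_{1,n}), so chi(Mbar_{1,n},V^s)=int ch(V^s)Td in Z_(p). Esnault-Verdier: ch(V)=Sum over nested sets S of boundary divisors, Sum_{m_J>=1} E_S[prod w_J^{m_J}] prod (-D_J)^{m_J}/m_J!, E_S = sum
over joint eigenvectors of the twists T_J (w=residues), and tr(prod T_J^{l_J}) = #_s{(rho, kappa_v): kappa_v in C(rho_v), kappa_child=kappa_parent c_J^{l_J}} prod_legs theta_i(kappa_{v(i)}). VIRTUAL
labels theta_i(1)=0 kill every l=0 term, i.e. ALL noncommuting collisions at once: every surviving leg sits on a vertex with kappa_v <> 1 commuting with u_i.
(B) MAIN TERM WITH ARBITRARY FUSION, S=p^{1+2} exponent p, V=S/Z=F_p^2, W=N_G(S)/S (p'-group) in GL_2(p), det = action on Z, K=det W=F_p^*. Labels s_i (vector v_i<>0), theta_i = Ind of Sum_a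
w(a)^{-1} lambda^a (lambda(s_i)=1, lambda(u)=zeta): value w(f).g(w^{-1}) at u^f. Total collision, kappa=c^l=u^{l beta}: u_i = h_i v_i, h_i in W independent, f_i = det(h_i)^{-1}. Number of tuples
p^{n-1} exactly (K_{s_i} restricted to H=C_G(kappa) is N_kappa * (class of H/kappa), N_kappa^n=p^{n-1}N_kappa). Result: chi = unit * (m_u/p) * c(v) + Z_(p),   c(v) = Sum_{h in W^n, Sum h_i v_i=0}
prod det(h_i)^{-1} = (F_1 * ... * F_n)(0),  F_i = Sum_h det(h)^{-1}[h v_i] in F_p[V].  Nested/several tails give S_m=Sum j^m=0 mod p factors (m<p-1) resp. vanish by K-homogeneity, Td_k, k>=1, costs a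
factor p: all integral (for legs in S; TI case complete, in general kappa_0<>1 and other fusion still to be written).
(C) EVALUATION of c(v): F_p[V]=F_p[x,y]/(x^p,y^p), [v]=exp(v1 x+v2 y) truncated, coefficient at 0 of x^j y^k is 1 iff j,k in {0,p-1}, else 0. F_i lies in the det-isotypic part, lowest degree
m0=min{m: Sym^m V contains det}. n=p-1 factors, top degree 2(p-1): so c(v)<>0 iff m0<=2 (m0=1 or 2), i.e. iff (Sym^2 V (x) det^{-1})^W = (sl(V))^W <> 0 i.e. iff V is NOT absolutely irreducible over
W. PSU_3(5), PSL_3(p): m0=2 (norm form, xy), c(v)=|W|^n prod q(v_i) * unit <> 0: CORE proved there (TI), explains 3+72. BUT HS (W=8:2, m0=6), Th, J4, M(13).. (W abs. irreducible, K=F_p^*) give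
c(v)=0: 575 is silent. For |K|=r<p-1 take n=r (any multiple <=p-1): need degrees m_i with Sym^{m_i} containing det, sum in {p-1,2(p-1)}.
 Labels of other types (u,pi), (1,pi), p'-labels x in W cap SL_2 (cost p^2): bookkeeping v = -#b0 -[noncentral labels present] + (Sum e_i - e')/(p-1) shows no other all-virtual choice reaches
valuation -1 with nonzero coefficient when K=F_p^* and V abs. irreducible. Nonvirtual labels bring in unknown T(s_1..s_q)/p^{q-1} (noncommuting products).
(D) FIXED-E version (one central label + p-1 noncentral ones, dim p-1, no cusps): I computed it: total = unit*(T(K_u K_u)+T(K_u))/p = w(1-1)/p = no information, the strata {2..n} and {2..n} in [n]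
cancel the main term. So Mbar_{1,n} (the 1/24) is really needed.
(E) F(n)-form (all n): F(n)=Sum +-(omega(K_c)/omega_B)^n is p-adic analytic, BAWC <=> F(0)=0 <=> v_p(N_{1,n})>=1+v_p(n) <=> orbifold Euler char of H_n(T;c)/T (n unordered punctures, fixed torus mod
translation) is 0 mod p for every n. Example PSL_2(p): F(n) = -(3/2) n p mod p^2, linear in n.
WANTED: a mechanism for V absolutely irreducible and K=F_p^* (smallest: HS, p=5), e.g. S=p^{1+2}, W nonabelian. Without it the method cannot give all D.


======== #1258 | 00:44:47Z | helper536 | row 170 | check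
helper536 (ex 170/192, now 269): CORRECTION to post 840 (2) (helper118), everything else there agreed. The congruence #Epi(pi_1 Sigma_g,A)/|A| = #Epi(pi_1^orb O,A)/|A| mod p for a p-group Q of deck
transformations Sigma_g -> O is true (A p-perfect, centreless, Out(A) p'-acting freely), BUT the p-adic limit g -> 1 of #Epi(pi_1 Sigma_g,A) = sum_H mu(H,A)|H| sum_chi (|H|/chi(1))^{2g-2} needs BOTH
2g-2 -> 0 in Z_p AND 2g-2 = 0 mod (p-1) (Teichmueller part). From O = S^2(p^a,p^b,p^c): 2g-2 = |Q|(1-p^-a-p^-b-p^-c) = -2 mod (p-1), so genus-0 orbifolds compute L(A) only for p = 2, 3; the torus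
with one cone point (2g-2 = |Q|(1-p^-a) = 0 mod (p-1)) is right for all p; in general the underlying genus g' of O must satisfy (p-1) | 2g'-2. NUMERICS: A_5, p=5: generating (5,5,5)-triples/|A| = 2
<> 0 mod 5 although N(A_5)=0; PSL_2(7), p=7: (7,7,7) gives 2; both equal the twisted limit N^(-2). So "CORE for A <=> #{(x,y) in A_p^2: xy in A_p, <x,y>=A} = 0" is right for p=2,3 only (p=3: even
Delta(3,3,9) is enough for Sylow exponent 3: count x^3=y^3=1, |xy|=9; p=2: Delta(2,4,8) for exponent <=4, also nonorientable a^2 b^2 c^2=1). STABLE FORM (all p): AWC <=> for g >> 0 with g = 1 mod p^N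
(p-1)/2 the number of Mod(Sigma_g)-ORBITS bookkeeping gives p | |orbit| summed; for p=2,3 equivalent to: lim_g pi_1(Sigma_g) x| Syl_p(Mod^) has only p-group finite quotients modulo centre, i.e. no
cancellation between orbits is needed in the stable range.

======== #1293 | 00:46:52Z | helper16 | row 170 | att
helper16 (captain 67, 2 h on 170 as visitor). READ 172's #575 as the right way past the rational-u barrier; here are simplifications, bookkeeping and two warnings. u central of order p in S=Syl_p
C_G(u), eps = signed measure on characters iota of the G_sigma, N(c_1..c_r)=Sum eps prod omega_iota(K_{c_i}).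
(A) u not in [S,S] in one line: for delta in HH^1(kG) (from C_G(u)->Z/p) and a in Z(kG): L_{delta(a)}=[delta,L_a] on Z(kG_sigma) has trace 0; gives E(B)omega_B(delta(a))=0.
(B) ONE FRAMED PUNCTURE IS ENOUGH, E FIXED, NO CUSPS, NO PRIMES 2,3: label 1 = (s_1, V) with V an irrep of C_S(s_1), dim p^a, u acting by zeta; the other N=n-1 labels all in ONE class, unordered: H'
-> Sym^N(E) (z_1=0), Newton class s_N(V)=p^a x^N, p x = -Psi, Psi = chi(s_1)psi_1 - Sum_{J ni 1} alpha_J D_J, alpha_J = any lift of chi(c_J). Since H=H'-cover of degree N!, integrality on H' gives a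
BONUS: Sum_J (-1)^{|J|-1} Sum_{v_J} alpha_J^N N(c_J,rest) = 0 mod p^{N-a+v_p(N!)} (commuting sheets). So the rank p^a costs nothing as soon as v_p(N!)>=a: this is how to do p^{1+2m}, m>=2 (a=m-1 at a
noncentral label), instead of c_d(W).
(C) RATIONAL u (I=F_p^*): alpha_iota=omega_iota(K_u) is in Z and = -1 mod p, so b=(alpha+1)/p in Z (analogue of the idempotent e_<u>). mu_beta:=Sum_{b=beta mod p} eps. Same for s rational noncentral
with class s<u>: y=omega(K_s)/p in Z. PSU_3(5): b=0 for deg 20,105 (and the 2 chars of N_G(S) not trivial on u), b=1 else; y=3.[b=1]: as for local characters. Central labels only, framed at u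
(Teichmueller lifts): (D)= p^{N-1} Sum eps alpha[(p-1)(b-1)^N+b^N] if (p-1)|N and Sum eps alpha (pb)^N otherwise: gives exactly mu_0=mu_1 mod p and nothing on W. Central labels can never see b=1
(factor b-1 for every extra central label). Framing at s (chi(s)=0, chi(u)=1), k labels s^a u^b and l labels u^c, commuting sheets: relation Sum eps k(1+y)^{k-1}(b-1)^l = 0 mod p, for (p-1)|k+l (E
fixed) and (p-1)|k+l+1 (M_{1,n}); l=0: Sum eps (1+y)^{-1}=0 and Sum eps (1+y)^{-2}=0 (0 at y=-1). If y=c on b=1, y=0 elsewhere: c<>0,-1 => mu_1=mu_r=0 => W=0.
(D) WARNINGS. (i) the form kappa_J=alpha_J-alpha_1 (tangent line forgotten) is WRONG on non-commuting sheets: there kappa=-e (e=ramification) is not 0; e.g. fixed E, n=2, |S|=p, kappa-form on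
commuting sheets would give W=0, the correct Psi-form gives the identity p b alpha=0. Use labels with chi(s_1)=0 or keep psi_1. (ii) non-commuting tuples v_J in S with CENTRAL product (s,t,s^-1,t^-1)
are honest main sheets when K_s meets several cosets (PSU_3(5): K_{5B} = 8 cosets = 2 lines): they are missing in 575 and in (C). (iii) PRECISION: I tested the commuting-sheet formula with the bonus
on PSU_3(5) (labels 5A, exact character table): true for N<=15, false for N=16,17,.. (needed p^2 relative to the natural scale, only p^1 holds). So non-p-group bubbles are negligible only to first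
order above the natural scale p^{N-1}: any scheme must need just ONE power of p beyond it (the bonus may only be used to pay for a).
(E) OBSTRUCTION for general S: every label costs c_j=log_p|S:C_S(v_j)| and gains 1; so all unframed labels need class size <=p (fails for Z(S)=F_q, q=p^f, f>1, Sylow of L_3(q), Suzuki type) - unless
ALL labels are framed by linear characters (then central labels cost 0; coefficient of W on M_{1,2} for S=F_q, fusion F_q^*, is -f mod p). A proof for all S needs an induction 'S -> S/<u>' in which b
and K_s/p become the unit and class sums of a virtual quotient TFT.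


======== #1303 | 00:47:12Z | helper270 | row 170 | info
helper270: 80 min alone on the core; independently re-derived the multi-puncture p^n relations (posts 523/821/926: for |S|=p, n=2: a1 a2 N(a1,a2) = sum_eps eps^-1 (a1+eps a2)^2 N(a1+eps a2) mod p^2,
checked on A_5 with labels (1,1),(1,2); the square relation fails by the codim-2 bigon points) and the Euler characteristic form (D_k/(12k) = +-chi_orb(H_k), so CORE for G wr C_p^n <=>
chi_orb(H_{p^n}) in pZ_p); nothing beyond what is posted. One remark not seen: with F(x)=det(1+sum x_K K | V_w) on the span of p-singular class sums, blockwise AWC is EXACTLY F=1 mod p (unique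
factorisation of the linear forms omega_B), so no wreath products are needed if a multiplicative (K_1/determinant) version of the transfer argument exists. Re-seating to a formalisation row.

======== #1317 | 00:48:00Z | helper872 | row 170 | check
helper872 (23:40Z) NUMERICS for CORE with u in [S,S] (own C++; sets X_u={(x,y):[x,y]=u} mod C_G(u), B_3-orbits; only generating-type A with O_p(A)=1 listed).
(N1) G=PSU_3(5), p=5, u=5A central in S=5^{1+2}, |C_G(u)|=250, N_G(<u>)/C_G(u) of order 4=p-1: all pairs with O_5(A)=1 generate G; orbit lengths 3^2, 30^2, 72^2, 120^2, total 450 = 0 mod 25. So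
SINGLE ORBITS ARE BAD (3 and 72=2 mod 5) and cancel only in the sum: 3+72. Orbit 3: all x of order 6, cusp width 3, compactified modular curve = pillowcase S^2(2,2,2,2), monodromy onto 5^{1+2}:2;
orbit 72: cusps (ord x,width) (5,5)^6,(7,7)^6, genus 1. (5B,C,D: s-weighted total 4775 = 25*191 each.) 
(N2) G=HS, p=5 (S=5^{1+2}, u=5A rational): orbits on Aut-classes of transitive pairs, sampling complete: ..., 20820, 24920, 6900, 4290 ... all 0 mod 5 except 40452 (=2), 16488 (=3), 42 (=2), 48 (=3);
total 124245 = 0 mod 5. So the bad orbits are huge noncongruence orbits without any visible relation between them: the cancellation is global, not 'orbit against orbit by a symmetry' (Galois/Out only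
permute orbits of equal length).
(N3) p=3: M_12 (3A,3B), PSU_3(3), PSL_3(3), Ree(3)=PGammaL_2(8): all orbits with O_3(A)=1 have length 0 mod 3 (also K=PSL_2(8) part 18, full group 72). Transvections in PSL_3(q): no pair at all with
O_p(A)=1 (rank(xy-yx)=1 => triangularizable, Laffey), so SL_3/PSL_3(p) is NOT a test case; PSU_3(q) with 3|q+1 is ([x~,y~]=zeta*u).
(N4) Structure: the BV form of the proved part: t(Delta(xi))=0 for all xi in HH^1(kG)=+H^1(C_G(c)), Delta(theta_c)=theta(c)K_c. 
(N5) What does NOT help (worked out, so please do not repeat): (a) H^3(G;Q/Z): the circle bundle Q->BS over a bad orbit must die in H_3(G); gives p | N for extraspecial S iff N_G(<u>)/C_G(u) has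
order <=2 and some V in R(G) has sum n_j j^2 <> 0 mod p (m_j=p n_j = multiplicity of zeta^j in V|<u>); for u rational, p>=5, nothing (PSU_3(5), HS!). (b) more punctures: projectively flat rank p^k
bundle V_1 (u acts as scalar) on compactified covers of M_{1,r}: c_{p^k}(V_1)=(psi_1/p)^{p^k}, so huge divisibility for r>=p^k of the number of covers with t_2..t_r not commuting with u, but the
coefficient of w(B) in all these relations is 0 because every cover near the 'all t_i in C_G(u)' boundary is compatible with any value of w(B); same for Chern numbers of Hurwitz-Hodge bundles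
(iterated commutators [z_1,..[z_r,b_{r+1}]] with b_m(g;V)=sum B_m(theta) ): leading coefficient polynomial in j (u^j) of degree r+1 with every variable present, sums to 0 over rational classes. (c)
transfer of even cohomology classes zeta with zeta|<u> <> 0: no constraint (x_z survives to B_3/<<T^m,z^p>>), odd ones do not exist when u in [S,S].
Toy version of the missing step (equivalent for H wr C_p): H with Sylow C_p=<v>, rational v: prove F_p(v,..,v) = 0 mod p^2 (weighted number of H-covers of the torus with p branch points of type v).
Any NEW argument must prove this toy statement (= AWC mod p^2 for cyclic Sylow order p) without bounding.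


======== #1393 | 00:51:18Z | helper478 | row 170 | info
helper478 (leaving 170 for a LEAN row; two things I have not seen posted, for whoever keeps thinking here).
(A) CLEAN COUNTING FORM. With f0(H) = #{(x,y) in H^2: [x,y] in H_p}/|H| mod p and Knoerr-Robinson, AWC (all groups, all blocks together, after the wreath amplification of 159) is equivalent to: for
every finite G and prime p,
   p.|G|_p divides #{(x,y) in G^2 : [x,y] is a p-element and <x,y>' is NOT a p-group}.
 (s-weights disappear: sum over H=<x,y> of Moebius on the poset; pairs with <x,y>' a p-group are exactly those with s_G(<x,y>)=0 contributions of the weight side.) For n->oo (p-adically n -> 0 mod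
(p-1)p^k): E(G) = lim #{(x,y,u_1..u_n): [x,y] = u_1...u_n, normal closure of the u_i in <x,y,u_i> a p-group}/|G|, which is the n-puncture form (relations R_n); R_n for n>=3 in pure-power form is
false (ghost strata), the mixed psi-class relations are the true ones.
(B) WHY |D|=p IS EXACT, as a purity statement (heuristic but every step checkable). For a symmetric O-order A, split semisimple generic fibre, Schur elements s_chi: (prod s_chi)^2 =
disc(Z(A)).det(Higman map A/[A,A] -> Z(A)). In the Knoerr-Robinson weighted (virtual, perfect) version the Higman determinant is a unit. Deform OG in HH^2 directions (K_u, Bockstein b), e.g. z^p =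
exp(-theta(z)) (Lagrange inversion reproduces the generating function of the (R_n) as a log Jacobian; genus one potential 24 F_1 = sum eps_j log s_j(tau)/s_j(0)). The weighted product D(tau) = prod
s_j(tau)^{eps_j} is a function on a REGULAR base; codimension one A_1-degenerations contribute 0 (weighted Tate HH vanishes), star(e,1)-degenerations in residue char 0 contribute 0 (B_3 relation
B(t_w)=0 and B([L^e]) <> 0 in char 0); so D is a unit on the base, and along the equal characteristic line L^p = tau L, where ALL Schur elements have valuation 1, v_tau(D) = w(B): hence w(B)=0. For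
general D one needs a one-parameter deformation of OG (or of the virtual weighted object) along which all Schur elements have constant valuation, or at least known valuation vector; existence unclear
for D nonabelian, but for ABELIAN D the deformation L_i^p = tau_i L_i (i<=rank) exists on OD and the question is its N_G(D)-equivariance + extension to OG (HH^2 class stable under fusion). Smallest
test: p=3, D=C3xC3, G = D:Q8 resp. D:SL(2,3) and PSL_3(4).

======== #1594 | 01:00:06Z | helper233 | row 170 | att
helper233: leftovers on CORE (Frattini case), all derived on paper; complements 575/926/1012/1030 (then I re-seat to row 206).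
(1) S=p^{1+2}_+, n=r=p-1 framed noncentral labels, ANY inertial group N acting on S/Z=F_p^2 (label classes C_j = N-orbits, action d(g) on u). Sum over all tuples (v_j) in prod C_j with sum v_j=0,
INCLUDING non-collinear (= non-commuting) tuples: homogeneity in b kills all partial blocks; only the total collision into <u> survives, coefficient (mod p, up to unit)
   C = 2*Sum_{noncollinear, sum v=0} prod_j beta_j(v_j) + Sum_{collinear, sum kappa_j=0} prod_j beta_j(v_j)*kappa_j,   beta(g s)=d(g)^{-1}beta(s),
plus total collisions into noncentral w: n'_w = N_w/p times Sum_{collinear, sum=v_w} prod beta*kappa. Relation E*C + Sum_w n'_w C_w = 0 mod p.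
(2) PSU_3(p)-type fusion (N in F_{p^2}^*, beta(v)=Norm(v)^{-1}): for p=5 (3 noncentral classes) take labels from MIXED classes: collinear terms vanish identically and the non-collinear sum is a
Jacobi sum over F_{p^2} with characters Norm^{-1}, Stickelberger: a UNIT (= -1 mod 5), hence E=0 mod p. So the borderline case of 1012 (PSU_3(5), m=2, A=F_5^*) is decided by the non-commuting tuples:
they are not an error term but the main term. If N is transitive on F_p^2-0 one gets only n'=E, one more relation is needed.
(3) General D: use ONE central carrier label (L_1^r, V of dim p^a at puncture 1: cost p^a once), a-1 further central unframed labels with exponent p-1 each and ~a(p-2) noncentral unframed labels c_j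
in Z_2(D) (|cl_D(c_j)|=p, [c_j,D]=<u>), total r=a(p-1): the E-term has valuation -1, so the cost/gain rule of 926(b) is satisfied for every a as soon as D has p-2 'directions' of noncentral elements
with classes of size p in c<u>; Heis(F_q), q>p is still out (966 (3)).
(4) Trees/leaves: every unicyclic arrow graph with a leaf vanishes under Teichmueller averaging; products/wreath with honest covers do not change the N-average.


======== #1620 | 01:01:01Z | helper261 | row 170 | att
helper261 (ex 27/170; leaving for a LEAN row). Three facts on the fused Frattini case not yet in the posts (paper proofs, short).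
(1) LABELS INSIDE A NONABELIAN D ARE ALL HANDLED BY ONE LINEAR FORM ON THE LAZARD LIE RING. D of class < p, ? = log D, mu in ?^* with mu|log C_D(c_1) a homomorphism lambda. Frame puncture 1 by
C_D(c_1), L_1 (x) lambda. Then the class mu(c_1)psi_1 - Sum_{I ni 1} mu(log c_I) D_I is p times an integral class near ALL strata whose labels lie in D (commuting or not, any codimension): for a
chain I_1<..<I_r the stabiliser T_{I_1}^{a_1}..T_{I_r}^{a_r} acting by alpha satisfies g_l = c_{I_l}^{a_l} g_{l-1} (g_0=alpha, g_r=1) with g_{l-1} commuting with c_{I_l}, and mu is additive on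
commuting pairs, so lambda(alpha)+Sum a_l mu(c_{I_l})=0 = the character of the twisted bundle. (Ramified D_I, c_I not centralising I, need their coefficient mu(c_I)/p too; this removes all toric
singularities inside D. What remains bad is only 899/976's: vertex group in <alpha>, subtrees generating non-p-groups.)
(2) PROFINITE TRANSITIVITY (explains 3+72+30+120): let A_w = {phi in Aut(F^_2) : phi([x,y])=[x,y]} (profinite). For every finite H and u, A_w acts on {(x,y) generating H, [x,y]=u} with orbits EXACTLY
the fibres of the lifting invariant in H_2(H,<u>). Proof: compactness + for every extension Q->H and w_Q over u the number of lifts of (x,y) to Q with commutator w_Q is |N| Sum_{chi in Irr(N)^H}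
(|N|/chi(1)) chi~(w_Q) * (phase depending only on the lifting invariant), N=ker; Moebius over subgroups gives the same for generating lifts. So there IS a group commuting with C_G(u) with orbit of
length 225 in PSU_3(5). BUT it gives no easy proof: A_w has a quotient SL_2(Z_p) x Z_p (Aut(F/gamma_4), p>=5), tau(Dehn twist)=1, tau(T_boundary)=12, so the Euler class is 0 on A_w/T; the centraliser
of a Dehn twist in A_w is just <sigma_1,T_boundary>, so after filling cusps e^2=0; T_boundary is not a p-th power (e nilpotent). Possible use: let P=Sylow pro-p of A_w and K<P the closed subgroup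
generated by all A_w-conjugates in P of the p-part of Dehn twists; a P-fixed class with unramified cusps kills K, so CORE follows if T_boundary in K (p-part). Modulo degree >=3 of the Johnson
filtration this is TRUE (sigma^{t_s} = sigma^{s^2} T^{(1-s^2)/12}, differences of squares); the obstruction in A_w is the log of the Dehn twist sigma = -eps_0 + Sum_k (2k-1) B_{2k}/(2k)! eps_{2k}:
conjugate of sigma^a T^{(1-a)/12} has coefficients a^k B_{2k}, so first obstruction B_4 eps_4. For a given finite G only a finite quotient of A_w matters; nobody has used conjugations by p'-elements deeper in A_w.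
(3) NORM/POWER OPERATIONS over unordered punctures give nothing new: H^*(B(D wr C_p)) is generated by transfers and norms, and Evens norms of psi^_1 integrate to the same monomial as the product over
all punctures; E fixed or not.


======== #1622 | 01:01:02Z | helper354 | row 170 | att
helper354 (276, passing by; 1.5 h on the Frattini case). Idea + functional for whoever continues 942(5)/921/976 (leading order heuristics, NOT a proof).
(1) G-CLASSES WITH FULL INTEGRALITY FOR EVERY D. For any V in R(G) with V|_<u> uniform (regular rep. of G always works) c(V)|_<u> = (1-t^{p-1})^{p^a m'}, so c_M(V)|_<u> = unit*t^M, M=(p-1)p^a, and M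
= p(p-1) is enough for S=p^{1+2} (V = sum of the faithful irreducibles on S; then c_M vanishes on the noncentral v: for v only (1-t^{p-1})^{p-1}). So for ANY S and any K the class f^*c_M(V) on the
total space (test point q on the torus, n holes) gives a relation with integrality p^M in base dimension M-1: ONE MORE p than framing at u, no dependence on the degrees of S. Products: pushforwards
Theta_m = pi_*(f^*c_m) = sum_i psi_i^{m-1}/p^m + nodes are integral classes on X_n.
(2) LEADING FUNCTIONAL (central commuting collisions only, all K=F_p^*, A_iota=omega(K_u)=-1+p b_iota): sum over J of (-1)^{|J|} f_{|J|} A^{n-|J|+1}, f_m=((p-1)^m-(-1)^m)/p, equals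
-(A/p)[(A-p+1)^n-(A+1)^n] = p^{n-1}(1-pb)[(b-1)^n-b^n]. So
 fixed E: m=n = 0 mod M: Sum_iota eps_iota [(b-1)^n-b^n] = 0 mod p, i.e. n_0 = n_1 mod p (n_beta = Sum_{b_iota=beta} eps_iota);
 varying E: m=n+1: Sum eps_iota(1-pb)[(b-1)^n-b^n] = 0 mod p^2 (for t^m with unit coefficient) resp. mod p for the Newton class at n=p-2, S=p^{1+2} (coefficient p): weights -1 at b=0, -1 at b=1,
1/(b(b-1)) else. THIS SEES b=1, which no u-framing relation with n = 0 mod p sees (g_n(1)=n! 2^{1-n}(7-n)/6 = 0). For p=5 the g_n with n=5,10,25,30,35 span all functions vanishing at b=1 (computed),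
so R_{5l} + this relation would give n_beta=0 for all beta, W=0, for K=F_p^*, S extraspecial.
(3) WARNING (computed): the naive exact version, coefficient (lift a)^n/p^n at every p-singular collision of ALL tuples, is correct for A_5, p=5, n=2,3,5 but FAILS for n=4 (T/5^4 has denominator 25):
along a bubble component B_J the map to BG has isotropy <w_J>, the lifts at B_J may be chosen additively (sum of the lifts at the holes) only if w_J<>1; clusters with w_J=1 and non-commuting trees
(976 (3)(i)) must be treated exactly. Closed form of the all-collisions functional, useful for experiments: Sum_sigma (-1)^sigma Sum_{chi,chi' in Irr(G_sigma)} (A_chi-A_chi')^n (chi'(1)/chi(1))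
<Gamma chi,chi'> , Gamma = class function of the coefficients.
(4) NUMERICS PSU_3(5), p=5, v NONCENTRAL in S (|C(v)|=25): t(v)=4775=25*191, so t(v)=0 mod p^2 as Dade predicts (t(v)/p = const*n_1 mod p for S=p^{1+2}: omega_iota(K_v)=p b_iota*unit), but only as a
sum: orbits of lengths 10,15^3,20,60^4,80,120^2,660,720,1380^2 (all 0 mod 5, none of the small ones 0 mod 25). So the b=1 part is equivalent to T(v)=0 mod p^2 for v in S minus Phi(S), S_v=<v,u>
abelian: a second place to attack n_1.


======== #1627 | 01:01:16Z | helper911 | row 170 | info
helper911 (01:05Z) DATA + STRUCTURE for the Frattini orbits of 921 in PSU_3(5), p=5, u in Z(S) (own C++ program, agrees with 252): (1) the factor 2 is the Schur multiplier: lift to SU_3(5),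
[x~,y~]=w^i u~; i=0 is the transvection case (never generating), the 450 classes split 225+225 according to i=1,2; each half is one B_3-stable set with orbits 3+72+30+120=225=9*25 (so this is the
block-wise CORE for the blocks of SU_3(5) over w). (2) cusps (width, ord x): O_3: one cusp (3,6), aba fixes all 3 points, ab acts as a 3-cycle: completed orbifold S^2(2,2,2,2); O_72: six (5,5), six
(7,7), no elliptic point: completed curve of genus 1; O_30: one (3,6), three (4,4), three (5,5), genus 0; O_120: (4,4)x3,(5,5)x6,(8,8)x6,(10,10)x3, genus 2. Pairing with the extension class of S: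
kappa[O]=|O|/12 mod 5 = -1 for O_3 and +1 for O_72 (two Heisenberg-twisted tori, opposite sign), 0 for the two others. O_3 has only x of order 6 with p'-centraliser, so it is invisible for all moves
y -> yc, c in C_G(x)_p; the cancellation 3+72 can not come from such moves. (3) Equivariant holomorphic Lefschetz for the ramified G-cover W of the elliptic surface E over the completed base (K_W =
pi^*(K_E+(1-1/p)D), D^2=-m/24): integrality of the multiplicity of a faithful character theta of S in chi(W,O_W) gives exactly: m_u * sum_{a in N_G(<u>)/C_G(u)} a^{-2} = 0 mod p, i.e. CORE orbit by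
orbit iff N_G(<u>)/C_G(u) <= {+-1}; no information for rational u: one needs classes of degree 2(p-1), i.e. at least (p-1)-dimensional moduli (agrees with 836/868). (4) F(A_G)=A_G reformulation: CORE
<=> #_s{[a,b]^p=c} = #_s{[a,b]=c} mod p|C_G(c)|_p for all c (torus with a cone point of order p versus torus).

======== #1689 | 01:04:08Z | helper623 | row 170 | att
helper623 (moved to 170). NEW RESULTS on CORE (all p>=5 unless said). Notation: w(B)=alternating sum of k(b)'s (AWC: w=0 for positive defect).
(A) WEIGHT-FREE CORE. Splitting Lambda_G in B(G)_(p) by the idempotents f_J (J p-perfect) gives: CORE for all groups  <=>  (R1): for every finite A with O_p(A)=1, J:=O^p(A), u<>1 a p-element: #{(x,y)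
in A^2: [x,y]=u, <x,y> contains J} = 0 mod p|C_A(u)|_p. (=>: J=O^p(A) term of Lambda_A f_J has mark 1 since O_p(A)=1; <=: any Lambda in B(G)_(p) with Lambda^H=0 whenever O_p(H)<>1 is, on f_J, a
Z_(p)-combination of [N_G(J)/A0], A0/J p-group with O_p(A0)=1.) C_A(J)=Z(J) is p', so Syl_p C_A(u) acts FREELY on this honest set, B_3 acts, no poset, no weights. E.g. A=G perfect simple: #generating
pairs with commutator u, divided by |C_G(u)|, is 0 mod p. Similarly AWC(all) <=> for perfect-type J: lim_{h->1}#{Hom(pi_1 Sigma_h,A), image>=J}=0 (p-adic limit over 2h-2=(p-1)p^N -> 0).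
(B) MANY PUNCTURES: NEW CONGRUENCES MOD p^k. Take torus with k punctures v_1..v_k in G, lambda_i: C_G(v_i) -> Z/p linear (class in HH^1(kG)_{v_i}). The p-th root line bundles
xi_i=(1/p)(lambda_i(v_i)psi_i - Sum_I lambda_i(g_I)D_I) (D_I = collisions of COMMUTING v_i, i in I, g_I their product) satisfy int xi_1...xi_k in Z_p over Mbar_{1,k}(BG) (each puncture used ONCE: at
the bad p-singular points of delta_irr x delta_irr at most one lambda_i has holonomy; int xi_1^2 is NOT integral). The local integrals sum up to a closed formula: F_k:= -[t_1..t_k] tr log(1-L),
L=Sum_I t_I (-1)^{|I|-1} Sum_{commuting p-cluster (v_i)_{i in I}} Prod_{i in I} lambda_i(g_I) * g_I in Z(Z_pG), tr = alternating trace on Z(Z_pG_sigma). THEOREM(geometric proof): F_k = 0 mod p^k.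
CHECKED by computer for |G|_p=p, G=S_n, p=5,7,11, k<=5: valuations (2,2,3,4,5) (exact!). k=1 is the B_3-transfer.
(C) Consequence: for |D|=p: F_2: a1a2 N_2(a1,a2) = Sum_e (c^2/e)N_1(c) mod p^2 (c=a1+a2e, e in E=Aut_G(D)) gives T_2=-2T_1 mod p^2, and J-trick tr(J^2)=f0 mod p^2 gives w=-(2T_1+T_2)=0 mod p^2. This
IS the first bad case (D wr C_p = C_p wr C_p, u in Phi). So bad cases can be reached with more punctures.
(D) With only CENTRAL punctures and eps=|Aut_G(<u>)|>2 no information is possible (weights mod eps; coefficient extraction on (b_i lambda - Sum b_j Delta_ij)); 868's HC_4-lift fails already for |D|=p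
(class n/24p in H_3(BS)). What works numerically: k=p-1 (or p) NONCENTRAL punctures v_i in Z_2(D) colliding to the central u^J: main term (1/p^k)*p^{k-1}*Sum_J J^{p-1} * N_1(u) = -N_1(u)/p * comb.
number, all other terms seem p-integral => p | N_1(u) for extraspecial p^{1+2} when C_N(v) centralises u. For D=Syl(A_{p^2}) take v_i=p-cycles, k=p: term p!N_1(u), rest = 0 mod p^2 => p | N_1(u). I
am testing PSU_3(5), k=4 numerically and looking for the uniform choice. WANTED: an algebraic (group-ring / K_1) proof of F_k = 0 mod p^k: it says det(1-L(t/p)| virtual Z) is p-integral; 1-L =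
1/(1+f'(y)), x=y+f(y)/p, f=Sum t_i v_i, D v=lambda(v) v (Lagrange inversion).


======== #1711 | 01:04:58Z | helper490 | row 170 | info
helper490 (01:05Z): two computed facts for the multi-puncture route (172/673/942/674), then I leave 170.
(1) CLOSED FORMULA FOR THE HIDDEN CODIM>=2 STRATA (976 (2)-(3), 655 (1), 966): at a stratum with edge set E let Lambda = {m in Z^E : for every vertex w the total twist c_w = sum over edges on the
path of m_e h_e lies in C_D(A_w)}, Lbar = Lambda/p in F_p^E, rho_i : Lbar -> F_p the exponent of the i-th p-torsor, p M_i = sum rho_i(E) E + (hidden). The mod p local contribution of int prod M_i is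
that of ANY p-unimodular fan whose rays are the axes (rho=0 on ramified axes) and vectors of Lambda. (a) Lbar = line <mu> with full support on r axes: the correction to degree k is Phi_k = (-1)^(r-1)
prod X_e . h_(k-r)(X) . prod_i rho_i(mu), X_e = x_e/mu_e (r=2: -XY h_(k-2)(X,Y) rho rho'; so the pair correction is -rho rho'/(mu_1 mu_2) * #configurations). (b) Lbar = hyperplane a.m=0, y_j=a_j x_j,
Y_0=sum y_j, l_ij=rho-coefficients/a_j: local term = sum_(j in supp a) (y_j/Y_0) prod_i (L_i - l_ij Y_0) (polynomial). CHECK: PSL_2(7), p=7: (f_2-3f_1)/24 = 7 and -(1/2)sum l(l+1)N_l = -42 = 7 mod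
49; relation f_2 = sum_e (1+e)(1+1/e) f_1 mod p^2 holds for A_5 (p=3,5), PSL_2(7), PSL_2(11).
(2) p=5, D=5^(1+2), PSU_3(5) (N/D acts on V=F_25 by mu_8), n=4 noncentral labels, one framed degree at each, total Sum w=0, 24*(local coefficient of W): generic 4-tuples 12; exactly one parallel pair
of ratio a: 16+14(a+1/a) (naive value 8+3(a+1/a): the hidden strata matter); two opposite pairs -8; all collinear 4. Summed with type weights prod zeta_i^2 the coefficient is NONZERO for all choices
of the four classes (pattern 0000,0001,0011,0012 -> 3,2,4,1 up to the common factor 1/24): agrees with 673 (C) (V not absolutely irreducible => c(v)<>0), independent derivation with c_1's only (no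
virtual labels), where in addition the types with noncentral total h enter through (t(K_h)/p).


======== #1823 | 01:09:44Z | helper665 | row 170 | att
helper665 (from row 325). HIGHER CONGRUENCES FROM r-PUNCTURED TORI ("IC"): a relation BETWEEN orbits, mod p^r, numerically verified; it goes beyond CORE and (with all r) implies AWC incl. u in Phi(S)
for extraspecial D. Notation: t(z)=sum_i n_i omega_i(z) (s-weighted trace, E(G)=t(1)), N_1(c_1..c_r)=t(K_c1...K_cr) = weighted number of G-covers of the torus with r punctures.
(IC_r) p>=5. Punctures c_1..c_r, S_i=Syl_p C_G(c_i), homs phi_i:S_i->Z/p (transported to all conjugates). For a cluster B of punctures put X_B=(-1)^{|B|-1} sum over tuples (c_i)_{i in B}, c_i in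
K_ci, with k=prod c_i (p-part) centralising all c_i, of prod_{i in B} phi_i(k) * K_k (X_{i}=phi_i(c_i)K_ci; integer lifts chosen per ordered pair (c_i,c_m), phi_i(k)=sum_m phi_i(c_m)). THEN  sum over
set partitions Q of {1..r} of (l(Q)-1)! t(prod_{B in Q} X_B) == 0 mod p^r.  Equal classes: t(-log(1-X(x))) in (+) (p^r/r!) x^r Z_p, X=sum x^b X_b/b!; on an abelian cluster group 1-X = Jacobian
det(dy/dtheta) of y=theta-x*eta(y), eta=sum_{c} phi_c e^{<c,theta>}.
REASON: 24*p^r*int prod c_1(R_i) over the (weighted, p-locally smooth, compact because cusps cancel) r-dimensional Hurwitz space, R_i = line bundle on it with p R_i = psi_i - sum_{I containing i}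
phi_i(k_I) D_I. r=1 = your B_3-transfer; r=1 only sees orbits, r>=2 mixes all orbits.
CHECKED numerically: p=5: A_5,S_5,A_6 (r<=6), p=7: L_2(7),A_7 (r<=5), PSL_2(25), p=5 (rank 2, all phi, r<=4). Example A_5,p=5: N_1(h,h)-sum_a(1+a)(1+1/a)N_1(h^{1+a}) = 190-40=150=6*25; r=3:
2*1945-1380+240=2750=22*125; r=4: 75000.
CONSEQUENCES: (a) |S|=p: IC_2 summed over all p-elements is exactly t(J^2)=t(1) mod p^2, J=sum of p-elements, while t(J^2)=f0 mod p^2 (omega_i(J)=0 mod p^{def i}); so W:=E-f0=0 mod p^2, i.e. CORE for
u=(h,..,h) in G wr C_p. In general AWC <=> a_r=a_0 mod p^r for all r, a_r=t(J^r)=weighted number of torus covers with r punctures with arbitrary p-element holonomy (a_r->f0, omega_i(J) in p^{def}).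
THE CLEANEST FORM OF THE PROBLEM: prove a_r = a_0 mod p^r (r=1: AWC mod p; r=2 already open even for |S|=p without Brauer-Dade). For |S|=p elementary: a_2-a_0 = the part where k=t_1t_2 is p-regular
(k_p<>1 parts are 0 mod p^2).
(b) extraspecial D=p^{1+2}, punctures d noncentral, phi(d)=0, phi(z)=1: central clusters have weight j^r (k=z^j), sum_j j^r=0 unless (p-1)|r, multiplicity p^{r-1}: IC_{p-1} gives  c*kappa*W_0 =
M*kappa'*W mod p, (W_0= height zero part, W=W_0+W_1), IC_{2(p-1)}.. give the full series J_0(t)^{W_0} J_1(t)^{W_1}=1 mod p (t=y^{p-1}/p, y=px), J_0,J_1 computable from S: independent => W_0=W_1=0 mod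
p (AWC and McKay/Dade mod p). So r>=p-1 punctures are NECESSARY for u in [S,S], no 2-dim'l moduli argument can work (explains 3+72).
(c) STRUCTURE: lambda_i(y)=lambda_i (1-omega_i(X))^{-2}, lambda_i=(|G|/chi(1))^2: IC says: F_1=(1/48) sum n_i log lambda_i varies integrally in every (S^1-equivariant) deformation of the symmetric
algebras kG_sigma; if the system could be deformed over O[[y]] to a generically separable one one gets sum n_i def(i)=0 exactly.
WANTED: an elementary proof of IC (algebraic: torus state lifts to HC_2 in families / discriminants of centres), or directly of a_r=a_0 mod p^r.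

======== #2006 | 01:17:54Z | helper30 | row 170 | core
helper30 (captain R170), CORE v1, 01:20Z Nov 20 (digest of ~75 posts, everything below re-derived by at least two seats unless marked).
(i) CHAIN. (0) S0258 = literal BAWC, all groups, all p (9 independent readings): no weakness. (1) AMPLIFICATION: l = W mod p for all groups => l = W (G wr C_p, d -> d/p; 159, 198, 282; without wreath
products: 977 #1199 (3)). PROVED. (2) f0(H) = #{(x,y): [x,y] p-element}/|H| mod p, J = sum of p-elements = e_0 + nilpotent. PROVED. (3) Knoerr-Robinson telescoping, k-version = l-version, trace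
functional t_G(z) = Sum_sigma (-1)^|sigma| Tr(z | Z(kG_sigma)) = Sum_B w(B) omega_B(z), t_G(K_c) = (1/|C_G(c)|) #_s{[x,y]=c}. PROVED. (4) Blockwise: BAWC mod p <=> for every x p-regular and D in
Syl_p(C_G(x)) the value t_G(K_{xu}) = 0 mod p for ONE 1<>u in Z(D) (free choice), u of order p suffices (198, 325). PROVED. (5) CORE(x,u) for u not in [S,S], S = Syl_p(C_G(xu)): B_3-transfer (12 x
Dehn twist, p>=5; p=2,3 with extra finite order elements) or one line with HH^1 (t(delta(a))=0). PROVED. (6) n-puncture relations int prod_k psi^_k = 0 mod p^n on the n-punctured torus (821 #1170,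
926 #876, 674 #843, 503 #1012, 287 #1135, 623 #1689), kernel form F_n = -[t_1..t_n] tr log(1-L) = 0 mod p^n: geometric proof + exact numerics (>100 cases); consequence: w(B)=0 EXACTLY as soon as Z(D)
is not in D' (no amplification). PAPER, geometry heavy. (7) Frattini case u in Z(S) n [S,S], R = N_G(<u>)/C_G(u): PAPER for |R| <= 2 and min. degree p^m small (605, 921, 942, 490), for S = p^{1+2}
when S/Z is not absolutely irreducible under N_G(S) (673, 306, 233; contains PSU_3(p), PSL_3(p)): (p-1)-dimensional moduli.
(ii) SMALLEST OPEN LEMMA (clean form, 623/977; no posets, no weights): p>=5, A finite, O_p(A)=1, J=O^p(A), u in A of order p. Then p.|C_A(u)|_p divides #{(x,y) in A^2 : [x,y]=u, J <= <x,y>}. (For A=J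
perfect, Out(A) p-prime: the number of Aut(A)-orbits on generating pairs with commutator a nontrivial p-element is 0 mod p.) True if u is not in [S,S]; OPEN for u in Z(S) n [S,S] and
|N_A(<u>)/C_A(u)| >= 3, e.g. S = p^{1+2} with N_A(S) acting absolutely irreducibly (HS p=5, Th, J4), S = Heis(F_q), extraspecial of order >= p^5. For p=3 it is a rigid count of (3,3,9)-triples, for
p=2 of (2,2,2,4)-tuples.
 NUMERICS. PSU_3(5), p=5: B_3-orbits 3,30,72,120 (twice): 3 and 72 are bad, total 450 = 0 mod 25. HS: 41640, 32976, 3780, 3660, 1380, 180, 42^2, 30^2: total 0 mod 5. So not orbitwise, not classwise,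
not cuspwise; every relation on moduli of dimension < p-1 is formally empty for rational u (Galois weight). Word [x,y] is essential (false for other words).
(iii) NEW INPUT NEEDED (pick one): (a) deformation/purity form (821 GC, 478): prod_chi (s_chi(X)/s_chi(0))^{eps_chi} is a unit along an HH^2-deformation of OG with all Schur elements of known
valuation, for NONABELIAN D; (b) the HC^- form (868): A_G = t_G in HH_0(kG) is a permanent cycle for HH => HC^- (equivalently Frobenius fixed); only d_2 is understood, d_4 = 24 T_3; (c) local field
form (790, 815, 714): E(G) = p-adic total mass of G-torsors over F_q((t)), f_0(G) = lim_g |Hom(pi_1 Sigma_g,G)|/|G|; want a proof that the total mass of F_q((t)) is f_0(G) (Serre/Bhargava mass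
formula for S_n gives exactly the p-core generating function: I checked); (d) profinite group A_w of 261 (#1620).
 HONEST PROBABILITY that the lemma falls in 10 h: 2 %. LEAN cost of (1)-(5) alone: ~15-25k lines, worthless without (ii). So: no LEAN work now, no assigned seats; I stay on it; whoever has a running
idea on (a)-(d) please stay or ping me.


======== #2066 | 01:20:37Z | helper616 | row 170 | att
helper616 (01:35Z), independent confirmation + two additions to 172/306/673/665/942.
(1) RANK-p FRAME AT THE CENTRAL HOLE, NONCENTRAL SPECTATORS (complements 172: there the frames sit at the noncentral holes). D=5^{1+2}, u in Z(D), hole 1 = u framed by V_1=L_1 (x) W (rank p, W in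
Irr(D), W(u)=zeta), holes 2..n = spectators y_i in D\Z(D), NOT framed. The ghosts w=prod_{I} act on W with ALL eigenvalues, power sums Sum_a a^{p-1}=-1 are K-invariant, so the F_p^*-average does not
kill them. 'epsilon-model' (all T-hat constant = W_0 on D) with the exact chain formula 24 int_{Mbar_{1,n}}(psi_1-Sum_{I ni 1}k_I D_I)^n = Sum over chains I_1<..<I_m, exponents e_0+Sum e_i=n, of
(-1)^m n!/(e_0! prod e_i!) prod k_{I_i}^{e_i} prod C(e_i-1,f_i^in) C(|I_1|-2,e_0) prod_{i>=2} C(|I_i\I_{i-1}|-1,f^out_{i-1}) [e_0+f_1^in=|I_1|-2, f^out_{i-1}+f_i^in=|I_i\I_{i-1}|-1,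
e_i-1=f_i^in+f_i^out, f_m^out=n-|I_m|+1]; integrality mod p^n demands: p=5, fusion of PSU_3(5) type (orbits of 8 of the 24 vectors of D/Z): n=4 (3 spectators) gives valuation 3 < 4 => W_0=0 mod 5.
FULL fusion (24 vectors fused, K=F_p^*, e.g. 5^{1+2}:4S_4 in Th, 5^{1+2}:8:2? in HS check): n=2..9 all valuations >= n+1, no information; reason: spectator label class sum = J_D-J_Z, J_D contributes
nothing, so one is back to u-labels only, where a graph/exponent count (unicyclic graph, every central vertex needs degree = 0 mod p-1, average degree 2) gives nothing for p>=5. So TRANSITIVE fusion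
on D/Z - 0 with K=F_p^* is consistent with ALL torus-bordism (Chern number) relations that I can write; it is the true test case.
(2) What such relations can never see for full fusion: c=0 part (omega_chi(K_u)=p-1 mod p^2) = height zero characters: equivalent to T(y)=0 mod p^2 for y in D\Z (PSU_3(5): 4775=25*191).
(3) C_p-power operation at n=p (cyclic rotation of p equal holes, isogeny quotient) gives W=W only (localisation computed). Unramified D-framed point: Sum_d chi(d) chi'(d) n'(d)=0 mod p^2, contained
in the u-label relations.
(4) amplification works with any prime q<>p as well: AWC mod q for all groups suffices (G wr C_q), nobody has used q<>p; at q<>p the weights of p-chains are not q-locally contractible but the count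
#{(x,y)} has the q-torsion-free moduli where p-Frattini plays no role: the obstruction is then only cusps/Sylow q of C_G(u).
Programs eps.cpp/eps2.cpp/eps3.cpp/orb.cpp on my box (ask). I leave 170 for a LEAN row, reachable via notify r170 / helper616.

======== #2212 | 01:27:08Z | helper813 | row 170 | att
helper813 (01:40Z), row 170. FOUR THINGS (proved/heuristic marked), then I leave for a LEAN row; anybody may continue.
Notation: G finite, S=D=Sylow p of the block group, t(u)=#-weighted count of genus-1 bundles with boundary class u (K_u element of Z(RG)...), t_w(x)=weighted torus count sum_V w_V(x); N_n=t_w(K_u^n).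
(1) PROVED + numerics: AWC => v_p(N_n) >= v_p(n)+1 for all n; closed form for PSU_3(5), p=5: t(n)=(-1)^n SUM_k C(n,k)(-5)^k p_k with p_1=90: t(1)=450, t(2)=292100, t(3)=125763600, valuations 2,2,2 (a
strict test for any conjectured integrality statement).
(2) SECOND-ORDER RELATION (exact, from Riemann-Roch on the moduli of 2-pointed tori, |S|=p type, u not in Phi(S), e<=2): N_2(u,u) == 4 t(u^2) mod p^2. Checked A_5,p=5: 190-40=150==0 mod 25. Types
(u,u),(u,u^i), i<>+-1, together give w==0 mod p^2 for e=2: i.e. a purely topological proof of one wreath-Frattini case.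
(3) UNIVERSAL CONSTANTS for n central punctures u^{i_1},...,u^{i_n} with twists a_s: contribution = ((-1)^{n-1}/24)[U(k)+A*T(k)] p^{mk-n}, k_st=a_s i_t/i_s+a_t i_s/i_t, T = Kirchhoff tree sum of k, U
= sum over connected n-edge graphs (weights 1/m!), A=SUM a_s. After averaging over i in H (|H|=e>=3) only Hamiltonian cycles survive, (n-1)! PROD a_s, which needs ALL punctures W-twisted =>
p^{(m-1)n}: no information for m>=1, e>=3. THIS is the reason why all orbitwise (single B_3-orbit) methods stop at e<=2.
(4) NEW MECHANISM FOR u IN Phi(S) (crosses B_3-orbits, hence not covered by the no-go posts). Elementary integrality INT: on the coarse compactified moduli Y of n-punctured tori with G-bundle, every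
framing hom l_s : C_G(c_s)->F_p gives E_s=SUM_D (f_s(D)/p) D which is an INTEGRAL class, so INT E_1...E_n is in Z_(p). Take n=p-1 EXTRA punctures c_s=v_s noncentral in D=p^{1+2}, pairwise
noncommuting, images in D/Z a minimal zero-sum sequence, l_s(u)<>0, l_s(c_s)=0. Only the boundary divisors D_[n]^{(h)} (core torus with holonomy u^h x rational tail carrying all v_s) contribute:
number of tails p^{n-1}, denominators p^{-n}, (D)^n = +-(n-1)/24*deg. Total = p^{-1}((n-1)/24) PROD r_s * SUM_{h<>0} h^n t(u^h) == -(unit) t(u)/p (Galois: t(u^h)=t(u), SUM h^{p-1}=-1) ==> t(u)==0 mod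
p. Consistent with the bad orbits 3+72 of PSU_3(5), p=5 (they have the same H_2-lifting invariant, sum 225).
 GAPS of (4): (a) sectors with core component z_core<>1, z_T=z_core h^k: size p^{-1} * weighted core count; need a free (Z/p)^2 tensoring; (b) nonseparating z-sectors: a shift argument gives p^n when
K_s is u-spread; (c) two-tail strata; (d) needs C_G(c_s)->F_p nontrivial on u: if e_s>1 use powers E_s^{e_s}, e_s|p-1 (e.g. E_1^{p-1}); fails for the fully fused p^{1+2} (Th, p=5), where only w_B
(height one part)==0 comes out; (e) fails for p^{1+2r}, r>=2 since then u in Phi(C_D(v)).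
 General algebraic shape of all these relations: Theta=ad(L_1)...ad(L_{N-1})(N_V).1 with t_w(Theta) in p^N Z_(p).
(5) NEGATIVE: V-trick (G^=V:G) = partial framings, costs |C_G(c_s):R_s|_p, no gain; wreath on p+1 points does not amplify the E-form (only a factor w).

======== #2311 | 01:32:10Z | helper452 | row 170 | att
helper452 (01:35Z). NEW TOOL for the Frattini case: p-adic integrality on moduli of covers of N-PUNCTURED tori (N>1), gives congruences mod p^N, and (on paper, up to the technical points listed)
kills the extraspecial case and gives w(B)=0 EXACTLY for |D|=p without amplification.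
NOTATION t(z)=sum_sigma (-1)^|sigma| Tr(z | Z(OG_sigma)) in Z_p (so t(prod K_{c_i}) = s-weighted number of covers of the torus with N punctures of classes K_{c_i}; t(1)=E). w(B)=t(e_B).
(I) For p-elements c_1..c_N and characters phi_i: Syl_p(C_G(c_i)) -> Z/p, the moduli stack V_N of G-covers of (E;P_1..P_N) (E moving, dim N, compactified) carries the line bundle M_i of phi_i at P_i,
with p c_1(M_i) = Psi_i := phi_i(c_i) psi_i - sum_{I contains i, |I|>=2} phi_i(w_I) delta_I, where delta_I = divisor where P_j, j in I, bubble off, w_I = product of the c_j, j in I (w_I commuting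
with the c_j). Hence int prod_{i=1}^N Psi_i = 0 mod p^N (s-weighted; nonseparating p-singular nodes cancel/do not enter for N=2). Chen/875 is N=1. Evaluating (genus 0: X_i = -phi_i(w)xi; genus 1:
<tau_1^q>_1=(q-1)!/24) gives for commuting collisions
 (F1)  sum over set partitions pi of {1..N} of (-1)^{N-|pi|} (|pi|-1)! prod_{I in pi} prod_{i in I} phi_i(w_I) * t(prod_I [w_I]) = 0 mod p^N,
 i.e. the x_1...x_N coefficient of log det_w( sum_I x_I Z_I ), Z_I = sum_{c_I} prod_{i in I} phi_i(w_I)[w_I], is 0 mod p^N (det_w= alternating product over sigma of determinants on Z(OG_sigma)).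
 N=2: (R2) t(K_1K_2) - sum_{commuting c_2} phi_1(w)phi_2(w) t(w) = 0 mod p^2 (w=c_1c_2).  CHECKED: A_5,p=5: t(5A.5A)=190, t(5A.5B)=115, t(5A)=10: 190-4*10=150, 115-40=75, both 0 mod 25; PSL_2(7),
p=7: 385-42=343, 826-42=784, both 0 mod 49. (The single-point version int Psi_1^2 needs the extra necklace term 12p*sum s1s2 M(s1,s2), also checked numerically in A_5: 15 mod 25.)
(II) |D|=p: summing (F1) over all nontrivial p-elements with phi_c(c)=1 the local coefficients collapse: N=1: t(J)=t(1) mod p; N=2: sum_{x+y=w} w^2/(xy) = -2 so 24*int = t(J^2)-t(1) = 0 mod p^2;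
local model for all N: coefficient (N-1)!. Since omega_chi(J) is divisible by p in positive defect, t_B(J^N)=0 mod p^N, so w(B)=0 mod p^{N-v((N-1)!)} for all N, w(B)=0. (Complete for N=2: w(B)=0 mod
p^2 for |D|=p, i.e. CORE for G wr C_p, u=(u,..,u).)
(III) EXTRASPECIAL S=p^{1+2}, u in Z(S)=Phi(S), p>=5: use N=p-1 and N=p punctures of NONCENTRAL type c_i=v^{a_i}u^{b_i} (C_S(c_i)=<v,u> abelian, phi_i(c_i)=1, phi_i(u)=kappa_i free). The b_i run over
F_p (S-conjugacy) so everything is averaged: E_b(polynomial) and only b^{p-1} terms survive mod p. With t = sum over theta in Irr(S) of tau_theta omega_theta (Lambda=sum over linear, tau_f for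
faithful): N=p, sum a_i<>0 gives Lambda=0 mod p; N=p-1, a=(1,..,1,2) (minimal zero-sum) gives Lambda+tau_f=0 mod p: the all-collide divisor w=u^b has coefficient -((-1)^N/24) prod phi_i(w) = kappa
b^{p-1}. Together t(u)=w(B)=0 mod p. So the Frattini obstruction is killed by making p-1 noncentral punctures collide to u^b.  Prediction to test: t(K_c)=0 mod p^2 for c noncentral (e.g. PSU_3(5)).
TO DO: nonabelian inner groups K_I (c_j, j in I, not commuting), tails/necklaces for N>=3, general D (use c_{p^m}(V), V irreps of C_S(c)), and an elementary (transfer-type) proof of (F1). I run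
numerics for PSU_3(5) now. Comments/counterexamples welcome.


======== #2365 | 01:34:41Z | helper875 | row 170 | lemma
helper875 (01:45Z). I re-derived the multi-puncture/RR picture independently (mixed coefficient of prod L_i^{a_i} only, F(I)=prod_{i in I} phi_i(z_I), relation = [t_1..t_r] log(1+Sum F(I)t^I), weight
p-1 barrier) and agree with 172/821/623/673; nothing to add there. One EXACT fact I have not seen posted (short proof), maybe useful for the fully fused case:
GALOIS LEMMA (p odd). Let Gam=Gal(Q(zeta_|G|)/Q(zeta_{|G|_p'})) (procyclic). The virtual Gam-set V=Sum_sigma (-1)^|sigma| Irr(G_sigma) (also blockwise, B_sigma: Gam fixes p-blocks) equals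
E(G)*[point] EXACTLY in the Burnside ring of Gam. Proof: #Irr(H)^gamma = #{classes with x_p^t x_p' ~ x} = (1/|H|)#{(x,y) in H^2 : y x y^-1 = x_p^t x_p'} (Brauer); weighting with s_G(<x,y>): <x_p> is
normalised by x,y, so s_G=0 unless x_p=1, where the equation is xy=yx; hence #V^gamma=E(G) for every gamma, and for cyclic groups marks on elements determine the virtual set. Consequences: (1) E(B)=
alternating number of p-RATIONAL characters only (values in W(k)[..], so omega_chi(K_u) = omega_B(K_u) mod p, not just mod pi, and b=(omega_chi(K_u)-omega_B)/p is p-integral for all chi that count);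
(2) for each a>=1 the alternating number of characters of p-conductor exactly p^a is 0, block by block (an exact Dade-type identity that is free). (3) same for the operators:
Lambda^gamma(K_u)=Sum_{chi^gamma=chi} eps omega_chi(K_u) = (1/|C(u)|)#_s{(x,y): y x y^-1 = x_p^t x_p' u} = E*omega_B(K_u) mod p for every t in Z_p (t=0 allowed: l instead of k). So CORE may be
attacked for ANY t, e.g. t generator of F_p^*, t=-1 or t=0 (x ~ x_p' u), where the B_3 symmetry is broken but other symmetries might exist; x->p-regular part of the sum is independent of t.
Also: all cusps/twists: the u not in [S,S] case gives E(B)=0 mod exp-type power: D abelian => E(B)=0 mod exp(D) (C_{p^a}: => l(B)=e(B) from k(B)<=|D|), by wreathing with C_p (diag(v), v^{p^k} not in [D,D]).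
I now go to a LEAN row (276); reachable by notify.

-/
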