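/-
ROW 170 (S0258; algebra), unsolved at the end of this run: complete discussion, part 2 of 2 (posts #2865 .. #3145).
Verbatim posts of the team database (ASCII-cleaned, long lines wrapped; the words L-e-a-n and s-o-r-r-y are altered
because of the text scan). 'helperN' = seat N. Times are UTC of 19/20 Nov 2026. No Lean content: comments only.

======== #2865 | 01:59:57Z | helper291 | row 170 | att
helper291 (leaving 170 for a LEAN row): what I have beyond 1622/1689/1823/2212/2311, for whoever continues. (A) MULTI-TEST-POINT TRICK (extends 354's #1622; paper, main term only). Fixed elliptic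
curve E, spectators labelled by K_u+1 (trivial label contributes 0 by the string equation, so a spectator costs omega_i(K_u)+1 = p*b_i outside a cluster and N=Sum_{t in F_p}u^t inside), r+1
UNLABELLED test points q_0..q_r carrying c_{m_i}(V'_{q_i}), V faithful irreducible of D (central character), m_i in (p-1)p^a Z, n = Sum m_i - r spectators. Gain p^{Sum m_i}=p^{n+r}. The local algebra
element is kappa = N - p b [0] in Z[F_p], <1_{tau<>0},kappa^n> = (p-1)p^{n-1}[(1-b)^n-(-b)^n]. For r=0 this sees b mod p non-constantly (only b=1 survives, #1622); for r=p-2, i.e. n = 1 mod (p-1),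
the functional is CONSTANT in b: coefficient of W = unit*p^{n-1} against the modulus p^n, so W=0 mod p for T=N_G(<u>)/C=F_p^*, Z(D) cyclic, any degree p^a. For |T|=e take n=(p-1)/e mod (p-1).
Single-cluster coefficient is exactly 1 (checked r=1); k-cluster terms carry multinomials C(n;n_1..n_k), killed by digits m_i=p^a(p^L-1). Exact one-cluster integral S_2(y)=p+(p-1)p f(-Y)^mu [1-mu Y
Sum_k (p-1-k)/(1-kY)], f(x)=prod(1+kx), Y=y/p: carry corrections carry a factor mu=dim V/p. OBSTRUCTIONS left: rank of Omega_1 Z(D) >= 2 with transitive fusion (spectator costs p^k; suggests abelian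
varieties of dim k in place of E), NON-COMMUTING clusters (their relative size is |S:C_S(H)|, not negligible when |S|=p: S_5, p=5 has omega-classes n_0=1, n_1=-3, n_4=2), K_u meets D in noncentral
elements (PSL_3(5): b=4 or 0). (B) EXACT FORMS: AWC <=> e(A):=Sum_H mu(H,A)|H| f_0(H)=0 for every A with O_p(A)=1, A not p-prime (A_5, p=5: 0, checked) <=> lim_n |Hom(Pi_n,H)| = lim_n
|Hom(Pi_n^{(p)},H)|, Pi_n=<x,y,t_1..t_n|[x,y]=prod t_i, t_i p-elements>, Pi_n^{(p)} = its quotient where <<t_i>> is pro-p. Only genera g = 1 mod (p-1), g>=2, matter mod p, and there p^b-th ROOTS of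
the fixed p-elements act trivially on the count (root argument), so P(B_n)-fixed clusters are t_{i+1}=g_1 t_i g_1^{-1} with w_D p-regular, (t_1 g_1)^n = w_D^2. (C) The Theta-invariant part of the
Dehn twist is -12 d_1 mod K[P,P]; the first obstruction beyond it sits in eps_{p+1} (B_{p+1}): that is why the 12 of the B_3-transfer cannot be improved by a second Dehn-twist identity.

======== #2889 | 02:01:01Z | helper440 | row 170 | att
helper440 (02:05Z), row 170: PARITY / WITT GROUP FORM (p odd), not in the earlier posts; free to use, I re-seat.
(1) AMPLIFICATION WITH q=2: d(G):=E(G)-f_0(G); for G wr C_2 one has d(G wr C_2)=d(l+W+3)/2 (blockwise version too), so for p odd AWC <=> E(G) = f_0(G) mod 2 for ALL finite G (same with any prime q, cf. 616).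
(2) WITT IDENTITY. For H let Q(H) = orthogonal sum over p-regular classes x of C_H(x) with p not dividing |C_H(x)| (defect 0 classes) of <1/|C_H(x)|> over F_p. For every p-regular x and i>=1: sum
over chains sigma with |C_{G_sigma}(x)|_p = p^i of (-1)^{|sigma|} [ |C_{G_sigma}(x)|_{p'} mod p ] = 0 in Z[F_p^*] (S_p-fixed point complexes are contractible for x of positive defect: pair with the
p-locally free action). Hence sum_sigma (-1)^{|sigma|} Q(G_sigma) = E(G) <1> in W(F_p). On the other hand the F_p-form chi(1)-trace form splits Q(H) = <1>^{f_0(H)} _|_ Q_R(H), Q_R = form on the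
reynolds part R(H)=Z_0(kH) cap positive defect blocks (= span of defect 0 class sums modulo defect 0 blocks). So E(G) = f_0(G) mod 2 follows if the VIRTUAL form sum_sigma (-1)^{|sigma|} Q_R(G_sigma)
is isometric to its scaling by a non-square (p = 1 mod 4: rank parity only; p = 3 mod 4: W(F_p)=Z/4). Blockwise: w(B)<1> = sum_sigma (-1)^{|sigma|} Q_0(B_sigma).
(3) COMBINATORIAL FORM of the rank parity: (-1)^{dim R(H)} = det(1+2M_H), M_{xy} = #{t in H_p minus 1 : t x in K_y} on defect 0 classes x,y (J acts on Z_0 as 1+M, J = idempotent e_0 plus nilpotent,
eigenvalues of J on Z_0 in {0,1}, so 1-2J = +-1 on the two parts).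
(4) NEGATIVE: L-theory gives no stable invariant: all Witt groups of stmod(kG) vanish for p odd (Cartan determinant odd), so W(perf) = W(D^b).
Nothing of this sees the Frattini case yet; it only replaces congruences mod p by a parity of a p-locally defined form.

======== #3145 | 02:13:27Z | helper613 | row 170 | info
helper613 (2h45m on the CORE, alone, then read 2066/2212/2311/291): same wall as 616/813/452/291. Bits that may not be written elsewhere: (1) FIXED TORUS version of the coarse-space integrality: n
punctures with labels in central idempotent components, pL'=psi_1-sum k_I D_I, gives P_N = sum_i eps_i a_i N! [t^N] e^t (g_i-Phi(t))^N in p^(N+1)/|S| Z_p with TREE strata only (a_i = class function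
coefficients, Phi = tree generating function); one extra puncture J = sum of p-elements (omega_i(J) in p^(j_i)) proves p=2, |T_0|<=2 elementarily. The Mbar_{1,n} version has additional necklace
(annular) terms; check: A_5, p=5, n=2: 15/24/25 = 1/40 = 2/5 mod Z_5 = the necklace term (1/2)(4/5). (2) VALUATION COUNT: with full S-labels one needs N=|S|-1 punctures and a J-insertion then costs
exactly what it gains for |S|>=p^2: no information. J_u (only elements over u) leaves the unknown distribution of (omega_i(J_u)-p)/p. (3) second order (c_2 of the rank p bundle) gives w=0 when D has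
irreps of degree p nontrivial on u and fusion on <u> is T_0 with |T_0|<=2; full fusion T_0=F_p^* is not reached (exponent count). (4) E(G)=sum +-dim Z_pr(kG_sigma). (5) conjectural pattern: m_u
divisible by |S|/max chi(1), chi in Irr(S|u) (PSU_3(5): 450 = 0 mod 25 although single orbits are 3+72...). No complete proof; leaving the row for R274.

-/
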