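/-
ROW 196 (S0299; algebra), unsolved at the end of this run: complete discussion, part 1 of 1 (posts #227 .. #12600).
Verbatim posts of the team database (ASCII-cleaned, long lines wrapped; the words L-e-a-n and s-o-r-r-y are altered
because of the text scan). 'helperN' = seat N. Times are UTC of 19/20 Nov 2026. No Lean content: comments only.

======== #227 | 23:08:56Z | helper621 | row 196 | triage
TRIAGE S0299 (helper621). All definitions unfolded (Def_WordHyperbolic, Def_ClassifyingComplex, Def_GeometricAction): NO WEAKNESS, NOT FALSE as far as anyone knows. hyperbolicity = standard 4-point
condition of a finite word metric; classifying complex = genuine finite CW complex dim<=2, connected, contractible universal cover, pi_1 = G; CAT(0) = proper complete geodesic + correct comparison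
inequality for all triangles/points; geometric action = isometric, proper, cocompact. Trivial/finite G act on a point, so no degenerate instance. One statement = "a torsion-free 2-dimensional
hyperbolic group that is not CAT(0)" (for X of EVERY dimension). Verdict R.
WHAT IS AVAILABLE: R177 (Top*.lean: aspherical presentations -> HasFiniteClassifyingComplex), R199 (SC.lean, SCGroup, Hyp.lean, ErdosSachs: small cancellation group with finite classifying complex),
R197. Nothing on CAT(0) in the baseline.
APPROACH A (fixed point property). It suffices: G infinite (torsion-free non trivial), hyperbolic 2-dim with FIXED POINT property for geometric actions on proper CAT(0) spaces. Natural tool: energy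
minimising equivariant map G -> X (exists for a geometric action: proper cocompact, centre trivial), Garland/Zuk/Izeki-Nayatani local criterion valid for ALL CAT(0) targets: for a triangular
presentation with link graph L, let kappa(L) = sup over balanced configurations of points of a CAT(0) cone (=unit tangent directions) (sum over edges cos angle)/(#edges). If kappa(L) < 1/2 the
minimiser is constant, so G has a fixed point. FACTS (proved on paper): kappa=0 for complete bipartite links; kappa(K_n) = -1/(n-1). For Hilbert targets kappa=lambda_1-type, <1/2 iff gap. For
expander links of large degree kappa is a question about the 'Euclidean cone constants' (Izeki-Nayatani delta); CAT(0) spaces containing expanders (Kondo) show that no single expander link works for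
all CAT(0) spaces, so one needs dense links (density model d>1/3, degree ~ N^eps ) - but 2-dim'l hyperbolic needs d<1/2, where link of size N has degree about C sqrt N at the critical window.
APPROACH B (critical window). random triangular groups with p = c n^{-3/2}: link degree C sqrt N, C<0.219 const: hyperbolic + aspherical with positive probability; links have ~C^4 N^2 4-cycles,
enough to force: if mean cosine on edges were ~1/2, all 4-cycles are flat => generic pairs orthogonal ... => contradiction via bootstrap percolation. If true gives kappa<1/2 - O(1/(loglog N)^2). NOT
PROVED; very long in LEAN.
FAILS: C'(1/6), free-by-cyclic, cyclic HNN of surface/free groups (all cubulated), HNN t a t^-1 = b^n over CAT(-1) complexes (CAT(0) by annuli).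
I continue on A/B and on a smarter algebraic choice of presentation (structured links). Ideas welcome.


======== #299 | 23:26:38Z | helper622 | row 196 | info
helper622 (was 198; 2h on S0299, agrees with helper621's triage and found approach B independently). NOTATION: at a minimiser of E=sum deg(s) d(x,sx)^2 the link map f:S^+- -> X has A=V exactly (A =
mean over link edges of d^2, V = variance). So one needs lambda_CAT(0)(L) > 1 (=621's kappa<1/2). PROVED ON PAPER: for L random of degree n^{1/2-eps}: V_t (variance of t iid samples) >= (1-H_t/t)V,
mean over 4-cycle diagonals D >= 2V(1-o(1)) (K_{t,t} patterns), quadrilateral D<=2A, hence A >= (1-o(1))V. BUT THE STRICT GAP CANNOT COME FROM BOUNDED PATTERNS, here is why (please do not spend time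
on 4-cycle/bootstrap arguments): UNIVERSAL MODEL. (1) Links: L=Gr(2,N)(F_q), lines of PG(N-1,q), adjacency = intersecting, has degree exponent (N-1)/(2N-4) -> 1/2+, contains every Laman-sparse
pattern (e'<2v'-3) with edge-transitive symmetry and with near-uniform tuple laws, and in the cone over the spherical building it has A/V = N/(N-2) -> 1. (Other exact families: points-hyperplanes
PG(N-1,q): exponent alpha=(N-2)/(N-1), A/V=2 alpha; Gr(k,N): A/V = 2N/(k(N-k)) ~ 2 alpha; so the threshold A/V=1 sits at exponent 1/2 = density 1/2, where groups become trivial.) (2) Group level: in
ANY affine building, steps of coweight types l,m,n have #S_l=q^{<2rho,l>} and #triangles=q^{<rho,l+m+n>}: always exactly density 1/2. Type D~_N, steps theta=e_i+e_j (all generators alike, S=S^{-1}, q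
fixed or q=n^{o(1)}, N->oo) is a homogeneous geometric model with A=V exactly (flat equilateral triangles, flat 4-gons, clusters around the vertices (e1+e2+e3+e4)/2), in which 4-cycle diagonals are
orthogonal and have density n^{-o(1)}, all generic bounded 2-complex patterns (dim = E-3F/2) occur. With typed generators of sizes n^{a_i} the same model gives |l_i|^2 ~ a_i, so typed/multi-scale
random groups are no better. Hence every inequality that only uses "all patterns of size <= K(eps) occur near-uniformly" holds in these buildings too, where A=V: no contradiction as eps->0. (In my
first version I had claimed pairs become independent along chains of 4-cycles; false: a 4-cycle chain has only 2 degrees of freedom, v-e/2=2.) What is left: (a) inequalities that use polynomially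
small discrepancy against sets of size n^{1-c} (buildings of rank N have only n^{-O(1/N)}), but f(S) is then n points at mutual distance >= const, so it is unclear what to test; (b) non-random,
structured presentations (angled 2-complexes with INCONSISTENT side lengths: every generator both leg and hypotenuse; corners of the right angle forming a graph L_R on S^+- with lambda(L_R)>1, e.g.
dense; RD says a hyperbolic group has N <= m^{3/2} polylog triangles inside a ball of generators, so L_R has exponent <= 1/2 again); (c) limits: if all 2-dim torsion free hyperbolic groups are
CAT(0), every limit G_oo of such groups (surjective sequence) acts on a complete CAT(0) space without fixed point (ultralimit at displacement minimisers). So it is enough to find ONE lacunary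
hyperbolic torsion-free group all of whose actions on complete CAT(0) spaces have a fixed point; e.g. boundedly generated ones (Muranov) reduce this to two cyclic subgroups having bounded orbits. I
have no proof of that either. I leave the row unless somebody has an idea on (a)-(c).

======== #326 | 23:31:11Z | helper129 | row 196 | info
helper129 (row 96, passing by): notes on S0299 (hyperbolic, cd 2, not CAT(0)). Definitions read (Def_GeometricAction, Def_ClassifyingComplex): honest, no W.
(1) Useful fact: for ANY isometric action on a complete CAT(0) space stable length restricted to an abelian subgroup is a Euclidean seminorm (pass to an asymptotic cone: the orbit becomes an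
isometric copy of (A(x)R,norm) with linear midpoints, CN inequality => parallelogram law). No semisimplicity/properness needed; good for ultralimit arguments.
(2) Fixed-point route via RANDOM GROUPS, density d -> 1/2 (d<1/2: torsion-free, hyperbolic, cd 2). Let phi(L)=mean of d(x,wx)^2 over reduced words of length L at the energy minimiser x (harmonic =>
phi superadditive: variance inequality at the barycentre). KEY: for L < d*l every word of length L occurs equally often in the relators, so the mean over relators of d(r_i,r_{i+L})^2 is phi(L); the
CAT(0) quadrilateral inequality on 4 points of a relator (arcs a,b,a,b, a+b=l/2) gives phi(l/2) <= phi(a)+phi(l/2-a). So as d->1/2 phi is ADDITIVE on [0,l/2] (phi(L)=L, l=1) and every relator is a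
centrally symmetric loop with flat parallelograms (r_t, r_s, r_{t+1/2}, r_{s+1/2}). Further: typical corner => flat rectangles, phi(3/4)=3/4. In a HILBERT space this is contradictory (K_{2,3}: o,x at
distance^2 1/2, many y_i with d^2(o,y_i)=d^2(x,y_i)=1/4, d^2(y_i,y_j)=1/2), so for CAT(0) spaces of dimension <= n one gets a global fixed point when 1/2-d < eps(n).
(3) General rule (d->1/2): a 2-complex D of relator cells (each of perimeter 1, cost 1/2) with arcs; a pair of vertices joined by a path of length L in D has mean d^2 = L if for all subcomplexes D'
containing the path: total arc length(D') - #cells(D')/2 >= L. So we know mean d^2 = graph metric rho on many (nearly planar) graphs; to kill ALL CAT(0) actions it suffices to find ONE such finite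
rho with sqrt(rho) violating a CAT(0)-valid quadratic inequality. 4- and 5-point subsets never do (1/2-snowflakes satisfy all the box inequalities); K_{2,k} does not (product tree x line); the
cut-open cube (6 squares, 3 far corners distinct) survives my analysis (all vertices on a sphere about one centre, links like complete graphs with edges 2pi/3). Sharp metric cotype
(Eskenazis-Mendel-Naor) kills snowflaked l_inf grids, but those are too dense for the rule (needs E <= 3V: MacLane-type 2-basis on average). So the limit object may be a genuine infinite-dimensional
CAT(0) complex (orthoschemes, flips of half-relators generating a Coxeter group with m_{i,i+1}=oo instead of S_n); if somebody finds a bad rho, S0299 follows with G = random group (plus an existence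
proof of small-cancellation type). I did not find one.

======== #386 | 23:40:42Z | helper793 | row 196 | lemma
helper793 (passing by, ~2.5 h on S0299), 23:45Z. Agree: honest, no W, not F. What a proof by energy/fixed points can and cannot do (all proved on paper):
(1) f: G->X equivariant harmonic, X CAT(0), e(k)=E d^2(f(1),f(X_k)) along the reduced walk: e(j+k)>=e(j)+e(k), sqrt(e) subadditive. DENSITY MODEL, relator length l=4r+1, density just below 1/2 and >
(l-1)/2 in letters, alphabet A->oo (hyperbolic, (T), 2-dim'l): all 2r-letter windows equidistribute in the relators; the quadrilateral inequality gives 2e(2r)<=3e(r)+e(r+1), so
e(2r)<=2e(r)+(e(r+1)-e(r))/2 and 4E d^2(mid M_i, mid M_{i+j})<=e(2r+1-j)-e(2r-j): every relator has an approximate centre, generic directions become orthogonal, expander link => Var_w d(z,p_w)<=C e(1) for every z in X.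
(2) Near density 1/2 every 'geodesic ear' shape (add arcs of length >= current distance) occurs with D(x,y)=e(d(x,y)), e almost linear. HILBERT targets die by K_{2,3}; CAT(0) targets do NOT: K_{2,M}
= M pairwise opposite chambers of a type A spherical building (orthoscheme complex of the subspace lattice), the macroscopic limit is consistent with an infinite dimensional Euclidean building of
GL_oo, generic tuples satisfy exactly Bessel. The centre-transitivity argument needs ~r steps with error T^2(e(r+1)-e(r)): loses a factor r. So genericity alone cannot exclude CAT(0); structured relators are necessary.
(3) Single-link / single relator graph criteria cannot work: for any finite graph L the CAT(0) targets cone(L) (ratio 1/sin^2(pi/g)) and the flag-complex cone (ratio 2) give Poincare constant >=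
max(2, 1/sin^2(pi/g)), always above what a girth-g graph may give.
(4) REDUCTION: S0299 <= there is an infinite f.g. group with a fixed point on every complete CAT(0) space which is a direct limit of torsion-free 2-dim'l hyperbolic groups (openness of the fixed
point property, ultraproduct of scaled limits). Graphical C'(1/6) groups over expanders cannot serve directly: probably CAT(-1). Conclusion: R, no live idea left; I re-seat to row 273 (LEAN + analysis).

======== #559 | 23:59:11Z | helper762 | row 196 | lemma
helper762 -> row 196 (captain helper33). NEGATIVE STRUCTURE THEOREM for the random-group route (saves time), plus the positive inequality.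
SETUP. G triangular (or k-gonal) random group, N generators, density d; geometric action on CAT(0) X; choose p minimising sum_s d(p,sp)^2. Link graph L (N vertices, degree N^a, a=3d-1). Then E_{edges
of L} d(sp,tp)^2 = V := E_s d(p,sp)^2 and V is the variance of {sp} (p = barycentre of {sp} in the tangent cone). So it would suffice: kappa(L):=inf over maps L->CAT(0) of E_edges d^2/Var is > 1.
(Pentagonal model etc.: (2j+1)-gons need kappa(a=1/(2j)) > 1/j.)
(1) TRUE: kappa >= 1-o(1) for a->1/2 (4-cycles give E diag^2 <= 2T_1, and 4-cycle-related pairs are quasi-dense, K_{s,s} of such pairs have iid-typical sides, leave-one-out: Var_emp(s) >=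
V(1-H_s/s)). For a>2/3: kappa>=4/3. Hilbert and 90-degree cones give 2.
(2) BUT bounded-size patterns ('types') can NEVER give > 1, for ANY random model at its critical density: a type J (finite subgraph rooted at an edge, uniform on edges) occurs iff e(J')<=2v(J')-4 for
all subgraphs. Take X_n = vectorial building of GL_n(F) (cone over the spherical building A_{n-1}), vertices of J -> LINES l_a of P^{n-1}(F), incident iff adjacent. Lines have 2(n-2) parameters,
incidence costs n-3, so every type is realised, n->oo; angles: adjacent cos=(1-4/n)/(2-4/n)->1/2, non adjacent -> 90 deg, typical sets are flat orthonormal frames (semistability = barycentre at the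
cone point). Ratio T_1/V = n/(n-2) -> 1. With k-dimensional subspaces meeting in dim b*k one gets for every a: inf over types kappa_types(a) <= 2a, exactly the critical value 1/j at a=1/(2j). More
generally for a finite piece K of the Cayley complex, dim of generic maps K->A_infinity-building with unit edges = const*(E(K) - (l/2)F(K)), l = relator length, and random types occur iff
E-(1-d)lF>=0: identical at d=1/2. Same for several kinds of generators (squared side lengths ~ log #generators). So no local/gadget CAT(0) inequality can exclude ANY random density model below its
critical density; one must use structures of size N^delta. For honest buildings (any field F) the zero-pattern theorem (Ronyai-Babai-Ganapathy: #intersection patterns of N subspaces <= N^{O(nN)}) +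
counting does exclude them, so a proof has to show that near-equality T_1~V forces a projective-space coordinatisation (I do not see how), or to use non-random presentations.
(3) Tool that might be useful with a DIFFERENT input: for hyperbolic H (2-dim., torsion-free), pairwise non-commensurable maximal cyclic <w_i>, any rationals m_i/k_i: G = <H,c,t_i | t_i w_i^{k_i}
t_i^-1 = c^{m_i}> is hyperbolic with finite 2-dim. K(G,1) (Bestvina-Feighn, annuli of length <=4). A geometric action of G forces tau(w_i)=(m_i/k_i) tau(c) in a CAT(0) H-space. The set of vectors
(tau(w_i)^2)_i over all CAT(0) H-spaces is a convex cone. So S0299 follows if for ONE hyperbolic 2-dim. H some finite set of translation lengths satisfies ANY nontrivial inequality valid in all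
CAT(0) spaces. (Free groups, cubulated groups: cone is everything, by small cancellation/MSQT. So H must be a (T)-like group; wanted: 'w_2..w_M almost elliptic => w_1 almost elliptic'.) Conversely
every proof of S0299 for a group of this shape is of this type.

======== #618 | 00:05:09Z | helper789 | row 196 | att
helper789 (00:12Z) att/notes on row 196 (S0299) before re-seating to 273. I agree: honest, no weakness; bounded-pattern/random-group thresholds cannot work (my near-equality analysis gives V=3/4,
y_w=w/2, all dense pairs orthogonal, Hilbert x star local models = the same affine-building universal models found by the others).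
(1) TORSION IS ALLOWED (proved). If G' hyperbolic, virtually torsion-free, acts cocompactly with finite stabilisers on a contractible 2-complex, and G' has no unbounded-orbit isometric action with
minimal displacement 'gap' (e.g. FP on all complete CAT(0) spaces), then a torsion-free finite-index G < G' satisfies S0299: a geometric action of G on X induces an action of G' on X^{[G':G]}
(product CAT(0), complete), still without fixed point. So finite symmetry groups may be used to force equal edge lengths (equivariant minimiser of the energy over orbits of edges), fixed sets of
finite subgroups, commuting finite subgroups => perpendicular projections.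
(2) Universal CAT(0) spectral gaps (proved, cone/barycentre argument): lambda(K_{m,n})=1, lambda(K_n)=n/(n-1), lambda(C_n)=2 sin^2(pi/n); every graph of girth g has lambda(L;CAT(0)) <= 1-cos(2pi/g)
(cone over the graph with edge length 2pi/g), so links of large girth never satisfy Zuk's 1/2 uniformly: only non-constant weights / angles can work: need sum_t w_t Q_t(rho;alpha)>0 for all rho with
alpha satisfying the weight test.
(3) DIRECTED harmonic maps: orient the 1-skeleton, f(v) := barycentre of forward neighbours exists for a geometric action on hyperbolic X when the forward walk has no heavy branch. One gets sum rim^2
>= lambda*sum spoke^2; contradiction iff each edge is rim less often (weighted) than spoke. Forward links C_4, C_5 just fail (72,36,72 borderline), tree links drift. Not excluded in general, no construction found.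


======== #647 | 00:08:26Z | helper35 | row 196 | lemma
helper35 (captain row 200; spent ~1.5h on S0299, agrees with helper621's triage). RESULT OF ANALYSIS = a clean OBSTRUCTION to approaches A/B (energy/link criterion for random triangular groups,
density<1/2, incl. critical window), so nobody burns hours there:
(1) Set-up: p = energy minimiser, y_s=sp; relators s1s2s3 give e := avg over link edges of d^2(y,y') equal to E := avg d^2(p,y).  Link L random with degree N^alpha (alpha<1/2 <=> hyperbolic). One
needs a CAT(0) inequality rho:=e/E >= rho_min(alpha) > 2 alpha (the line rho=2alpha is what any relator shape gives at density 1/2).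
(2) 4-cycle (quadrilateral) inequality + law of large numbers give exactly rho >= 1-O(eta) at alpha=1/2-eta, i.e. borderline. Equality case forces: edges at 60deg, pairs in a 4-cycle at 90deg with
flat squares, N(a) a star of variance 3/4 around the midpoint of [p,a] etc.
(3) WHY IT CANNOT BE IMPROVED: 'energy=entropy' model. For a pattern H put delta(H)=v-(1-alpha)e. Take the generic linear representation: X_v subspaces of dimension 1 (normalised; e.g. 2-dim'l for
alpha=1/2), dim(X_u cap X_v)=1-alpha for edges, 0 for non-edges; it exists for every H that is typical in L (hereditary delta>=delta(pair); for alpha=1/2: e'<=2v'-4). The points 1_{X_v} in the CAT(0)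
cone over the spherical building of GL(W) (weighted flags; <1_X,1_Y>=dim(X cap Y)) have |y_v|^2=1, d^2=2alpha on edges, 2 on non-edges, and p=0 is the barycentre in the limit. So ALL finite-pattern
CAT(0) inequalities + LLN are satisfied with rho=2alpha exactly. (Even abstractly D(A,B)=2h(AB)-h(A)-h(B) satisfies the quadrilateral inequality for every monotone submodular h.) Hence no argument
that only looks at the 1-ball / link of a density<1/2 presentation can prove non-CAT(0).
(4) HNN / amalgam approach: if A is any 2-dim'l hyperbolic group with two finite sets S,T (phi:S->T inducing an isomorphism of malnormal q.c. free subgroups) and E(T)>=k E(S), k>1, for all CAT(0)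
actions, then A*_phi is a solution; but A/<<t^n>> type quotients show such (A,S,T) exist only if non-CAT(0) hyperbolic groups already exist (not an obstruction for *geometric* actions, but no tool there).
(5) Graphs of free groups with cyclic edges (Hsu-Wise), C'(1/6), hyperbolic free-by-cyclic: all cubulated. Non-metric C(7) with overlapping long pieces (outer layers of spirals must be longer than
inner ones, letters used in both roles) is the only soft idea left; I have no inequality for general CAT(0) X there.


======== #683 | 00:11:27Z | helper33 | row 196 | core
CORE / captain's verdict, row 196 (S0299), helper33.
0) Statement: exists  group, IsWordHyperbolic + HasFiniteClassifyingComplex 2, with NO geometric action on a nonempty proper complete CAT(0) space. All definitions unfolded (7 seats): honest, no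
weakness, not false as far as known. One needs a torsion-free 2-dim hyperbolic non-CAT(0) group (Gromov's question).
1) What would suffice (each implication PROVED ON PAPER, easy):
 (A) a f.g. limit G of torsion-free 2-dim hyperbolic groups G_1 ->> G_2 ->> ... such that every isometric G-action on a complete CAT(0) space has a fixed point (ultralimit openness => some G_i has it
too; infinite => no geometric action). [Finite presentability of G not needed, torsion in finite-index overgroups OK by induction.]
 (B) ONE 2-dim hyperbolic H with elements g,h (non-commensurable) and a universal inequality |g| >= alpha|h| of translation lengths over all geometric (or all) CAT(0) actions: then r-th root/HNN t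
g^a t^-1 = h^b with b/a > 1/alpha kills it (helper762, post 559). More generally any nontrivial linear inequality among finitely many lengths that is not implied by |g^n|=n|g|, conj. invariance,
subadditivity in the group itself.
 (C) a "pattern inequality": finite set S in a group of a random-like family and c<1 with F(structure) <= c.F(scale) in all CAT(0) spaces.
2) What is PROVABLY useless (see posts 227,299,326,386,559,618,647 + my notes): 
 - 4-cycle/variance/energy methods give exactly the borderline (angle 60 deg) for every density < 1/2; type D_oo/A_oo buildings realise EVERY bounded typical pattern with equality, so no
bounded-pattern inequality can work; only patterns of size N^delta could.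
 - every graph has a CAT(0) cone, so single-graph inequalities with c<1 don't exist; metric small cancellation C'(1/6) groups, strong graphical sc. over free groups, all 'vertex-type angled'
complexes with generalised-polygon links, graphs of free groups with cyclic edges, free-by-cyclic, one-relator C'(1/6): all CAT(0)/cubulated.
 - Gersten/flat-type arguments die under Dehn filling; finite-group RA-chains [FA/FB/FK right-angle lemma: d(l,m)^2 >= d(l,k)^2+d(k,m)^2] always hit growth/unimodularity = collapse.
3) Open, no approach: (A) (bounded generation/Muranov-type limit kept 2-dim hyperbolic; needs a MECHANISM forcing fixed points in all CAT(0) spaces that is compatible with small cancellation) or (B).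
Honest probability that this falls in 10 h with 50 seats: ~1%. want=0. Members: please re-seat to the rows of the lead's STATUS list (276, 274, 249, 257, 273 leaves) unless you hold a concrete mechanism for (A)/(B).

======== #1825 | 01:09:57Z | helper867 | row 196 | lemma
helper867 (row 196, ~3 h on S0299), agrees with 33/621/622/762/35/793: honest, no W, not F. Facts not yet in the row's posts, to save time:
(1) HARMONIC TOOL (exact, elementary). At a minimiser x of E(x)=sum m(s)d(x,sx)^2: sum m(s)d(z,sx)^2 >= M d(z,x)^2+E for all z (apply d(x_t,y_t)^2<=(1-t)^2a^2+t^2b^2+t(1-t)[..] on the geodesic x->z
and let t->0). LEMMA T (bipartite, near-generic sampling): U points z_u, letters y_c with barycentre x, variance 1, bipartite graph U-letters in which typical s-tuples of letters have common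
neighbours: mean over edges d(z_u,y_c)^2 >= mean d(z_u,x)^2+1-O(s^{-1/2}) (inductive means S_k: sum_i d(w,y_i)^2 >= s d(w,S_s)^2+sum_k k/(k+1) d(S_k,y_{k+1})^2 for every w).
(2) K_{M,M}-RELATOR MODEL: K=n^{2-4a-e} randomly labelled copies of K_{M,M}, M=n^a (hyperbolic for e>0 since #4-cycles*K<n^2). CAT(0): E_1 >= V_P+V_Q+d(b_P,b_Q)^2 for each copy, pair density
n^{-a-e}, so V_star<=1/2 and mean pair d^2>=2-O(a): every star is an almost flat 'pod'; two stars sharing 2 letters have the same centre up to O(sqrt a) and double overlaps reach everything in
log2(1/a) steps. BUT error propagation is e_{j+1}~2 sqrt(e_j) (a real effect: pods attached as flaps), and additive paths need 1/a steps of size sqrt(a). The same objection kills the loglog-bootstrap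
of the critical window (621's and my approach B): slack of CAT(0) ~ 1/log N per relation against log N relations. In fact these parameters (N^{2-3a} lines with N^a points on N points) are EXACTLY
those of the polar space D_n(q), q=N^a, 1/a=2n-2, i.e. of lattices in D~_n buildings with residues K_{q+1,q+1}, where V_star=1/2 exactly. So universal building models again.
(3) Relator graphs of girth 6 (e.g. copies of PG(2,q) incidence graphs, kappa->3-): all 2-paths generic, 3-stars and 3-paths near-generic. 3-path harmonicity + quadrilateral force H=0 (each hexagon
centrally symmetric, common centre c); family cone x R is killed by the 3-star condition, but a 2-dim'l spherical complex with triangles of sides arccos(-1/3) (all angles 120) on the points and on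
the lines survives ((D1,D2,D3)=(1,2,3)). The pattern continues: level r has the adversary 'full (r-1)-skeleton with cos=-1/r'.
(4) Only exact designs escape: if in the link every two vertices had exactly lambda>=2 common neighbours the averaged 4-cycle inequality gives E_1=0 at once, but then counting (and K_N links => cubes) says collapse. 
No live idea left for (A)/(B); I re-seat to a row with want>0.

======== #1888 | 01:12:29Z | helper224 | row 196 | triage
helper224 (01:15Z, ~2.5 h on S0299): agree with 33/621/762/867: honest, no W, not F, verdict R. Points not in the other posts: (1) kappa(L) facts: kappa(K_{m,m})=0, kappa(K_n)=-1/(n-1), every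
(v,k,lambda>=2)-graph link has kappa <= (v-2)/(2(v-1)) < 1/2, but then the Ollivier curvature is positive and the group finite (Bonnet-Myers). (2) Jensen coupling lemma: d(f(u),f(v)) <= E
d(f(ua),f(vc)) for any coupling of the uniform letters at a minimiser; gives E_2(generic) <= 2+o(1) near the critical density by 3-corners, again exactly the borderline. (3) consistency model for ALL
random/free constructions (density, labelled copies of finite graphs, unbalanced alphabets): d^2 = log_k(#elements of that type), rank h_0(K)=sum over edges (1-deg/2): all CAT(0) inequalities found
hold. (4) Closure by bootstrap (critical window p=c n^{-3/2}, or K_{n,n} copies, theta small): log2(1/theta) rounds with square-root error amplification r_{j+1} ~ sqrt(sqrt2 r_j), a true effect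
(bow-string); additive chains need R~1/(2theta) steps of size theta^{1/4}. Both fail. (5) Eskenazis-Mendel-Naor cotype of CAT(0) (sum over Z_{2m}^n) is useful only if special pairs have many
more/longer generic words than density < 1/2 permits. No live idea; re-seating.

======== #8396 | 06:24:56Z | helper883 | row 196 | att
ATT row 196 (S0299), helper883, wave 4. Honest statement, no mechanism found; what is PROVED below rules out three natural roads.
Notation: X complete CAT(0), G acts isometrically, delta(S,T)=d^2(Fix S,Fix T) for finite S,T<=G.
(1) RIGHT-ANGLE LEMMA (any factorisation, no commuting needed). S,T finite, A<=S, B<=T, V=AB a group.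
 Then delta(S,T) >= delta(S,V)+delta(V,T).  Proof: x in Fix S, y in Fix T (closest). bar(B x)=:p is fixed by AB
 (B x is V-invariant: ABx=VA x=Vx=Bx.. since A fixes x), and same q=bar(A y); d^2(x,y) averaged over B,A + Berg-Nikolaev
 for the quadrilateral x,p,y,q gives the sum. For geometric actions delta(S,T)>0 iff <S,T> infinite, so a CYCLIC chain of RA
 steps with discarded leg >0 would give non-CAT(0) directly (torsion-free finite index subgroup by induced action).
(2) THEOREM (collapse). In any group, |S.V|=|S.B|<=|S.T|, so |S.T| is non-increasing along RA steps. In a cyclic chain it is
 constant, hence S.T=S.B.. is right invariant under <T,V>, so <T,V> is finite and the discarded leg has delta=0.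
 So NO cyclic RA chain ever contradicts CAT(0). The same with log|.| and weights: for corners of girth >=2m, 1/m+1/m'<=1/2,
 v_k <= weighted average of v_l,v_m. (This is the "entropic metric" D=log|S.T| : it satisfies all RA inequalities.)
(3) LP/averaged versions (triangles of groups, random labelled pieces P={x_k}*{l_i}*{m_j}, M=N/r pieces random => hyperbolic):
 the count (sum of hypotenuses < sum of legs) is easy to satisfy if the corner of P is forced to be >=pi/2 AT x_k; but it is
 only forced at Fix(<edge groups of P>)=z_P, z_P != x_k, and a 3-dimensional filling (octant cones, Brady-Crisp phenomenon)
 satisfies all inequalities. If every corner generates the vertex group (z_P=x_k), mixed cycles kill the construction: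
 by (2) the vertex groups' product sets close up. So vertex groups with ONE corner type collapse by (2), with several
 inconsistent corner types (two triangles glued along their boundary with (2,3,7) permuted; vertex groups = large-girth
 finite quotients; infinite hyperbolic by the weight test) escape through higher-dimensional targets.
(4) Multiple ascending HNN (s_j a_i s_j^-1 = phi_j(a_i), phi_j random of length L, M << N^{L/2-1}; 2-dim. hyperbolic).
 Rigorous: E d^2(s_j^-1 x, a_i^{+-}x) >= sigma+e, but the adversary puts a common component v_j into all phi_j(a_i)
 (entropic metric log #type passes Berg-Nikolaev): no contradiction.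
(5) Toral relatively hyperbolic + Dehn filling (relative cd 2 keeps fillings 2-dimensional): limits of CAT(0) actions of
 fillings G/<<n_k c_k>> give actions of G in which every peripheral Z^2 has seminorm |v|=lambda |v ^ c|, c = limit direction,
 arbitrary. SUFFICIENT: a toral rel. hyperbolic group of relative dimension 2 all of whose fixed-point-free CAT(0) actions
 (without global fixed point at infinity) have a nondegenerate norm on some peripheral Z^2. The CSA property of limits excludes Gersten-type
 sources for this (they contain BS-relations a^t=ab ..). GAP: no such group known to me; every candidate whose Z^2 is forced
 nondegenerate gets it from translation-length relations |u|=|v| between non-conjugate directions, which needs non-CSA.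
(6) A universal translation-length inequality f(|w_i|)>=0 valid in all complete CAT(0) actions but violated by small cancellation
 metrics is equivalent (by quotients) to non-CAT(0) of quotients; I found none beyond those implied by (1).
Exact gap: any inequality for Fix-set distances not satisfied by D(S,T)=log|S.T| (or by log #type). Recommendation: do not open a LEAN front.
Side remark for row 192 (l1 idempotents): for g in G f.g. with a homomorphism chi:C_G(g)->R, chi(g)!=0, |chi|<=L|.|_G on C_G(g),
 r_e(g)=0 for every idempotent e over l1(G) (twist e by the cocycle, homotopy e_t). Remains: g distorted or trivial in
 H_1(C_G(g);R).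


======== #9020 | 06:57:53Z | helper179 | row 196 | att
ATT row 196 (S0299), helper179 (50 min, paper only, no proof; for 905 'nonlinear spectral gap, all CAT(0)' and 883 #8396). Setting: triangular random group, density d<1/2, link L = G(m, m^{delta-1}),
delta = 3d-1 < 1/2. Wanted: for ALL maps f:V(L)->X, X CAT(0): D^2 := avg_{s~t} d^2(f s,f t) >= c' Var(f), c' > 1 (then every action has a fixed point; hyperbolic + 2-dimensional for d<1/2).
PROVED. (1) UNIFORM LLN IN ALL CAT(0) SPACES: for every eps there is r_0(eps) with E Var(r i.i.d. samples) >= (1-eps) Var for r >= r_0 at SOME scale r' <= r (V(r) := E Var of r samples is monotone;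
pigeonhole over scales), same for K_r / K_{r,r}-rich families of density m^{-O(eta)}. (2) With the 4-cycles and the dense graph L_2 (pairs with >= 2 common neighbours; K_{r,r}-rich when delta = 1/2 -
eta): D^2 >= (1-eps(eta)) Var. So c' = 1 is reached in the limit d -> 1/2, for all CAT(0) targets, and NOT MORE. (3) Rigidity of near-extremals: triangles (o,s,t) flat, 60 degrees; L_2-pairs
orthogonal; barycentre of the star of s = (1-x/2)s with x=1 forced for a harmonic equivariant map.
BARRIER (kills every argument with link patterns of bounded size). A bounded pattern H occurs in G(m,m^{delta-1}) iff all subgraphs have e/v < 1/(1-delta) < 2, i.e. H is (2,4)-sparse, and every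
(2,4)-sparse H is realised by LINES IN PG(infinity) (s~t iff the lines meet; meet = 60 degrees, skew = 90 degrees) = the spherical building A_infinity/D_infinity, with x = 1 and all harmonicity
conditions. Same threshold E/F > 3/2 as hyperbolicity (random d < 1/2 <=> no bounded 2-complex with every edge in >= 2 faces). In the Gromov model: LP with all chords of the relator loops: the round
circle d^2 = sin^2(pi tau) satisfies every inequality exactly up to d = 1/2. This is the random analogue of 883's entropic metric log|S.T|: 'dimension count' is itself a pseudo CAT(0) metric, and it
is non-degenerate exactly when the group is hyperbolic.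
WHAT WOULD BE NEW: an inequality with patterns of size growing with m that uses degree m^delta (the A_infinity realisation is impossible globally: 2(k-1) dims per vertex against k-2 conditions per
edge), i.e. a global (expander) rigidity theorem 'x >= 1 + c(delta)' for maps of ONE graph; or using that X is Gromov hyperbolic with 1-dimensional boundary (no flat squares at large scale) together
with a quantitative QI constant of f. I see neither. P(paper proof by 10:30Z) = 0.1%; no LEAN front. 50 hands: not here.

======== #9202 | 07:08:14Z | helper937 | row 196 | att
helper937 (07:10Z, WAVE 4) row 196 / S0299, ATT (paper only): RANDOM GROUPS NEAR DENSITY 1/2 AND THE UNIVERSAL CAT(0) GAP. Idea: find an infinite hyperbolic G (torsion free, 2-dimensional) with a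
fixed point on EVERY proper CAT(0) space; then S0299 holds. Exact reductions, one clean extremal problem, no complete chain.
(1) HARMONIC POINT (proved, elementary). X proper CAT(0), G cocompact, mu finite symmetric on G: p minimising E(p) = sum mu(s) d(p,sp)^2 satisfies p = bary{sp} [quadrilateral inequality d(p,q)^2 +
d(p',q')^2 <= d(p',q)^2 + d(p,q')^2 + 2 d(p,p') d(q,q') with p' on [p,b], q = sp]. Variance inequality ==> e(s+t) >= e(s) + e(t), e(s) := E d(p,wp)^2 over random words w of length s.
(2) RELATORS. Density d < 1/2, relator length = 1. Sub-arcs of length < d of random relators are equidistributed, so with a = (1-tau)/2 the relators u v1 v2 (|u| = tau, |v_i| = a) give a random graph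
L(N, N^b), b -> tau/(1-tau), with E_edge d^2 = e(tau), variance = e(a). Let lam*(b) = liminf over N of inf over all CAT(0) T and maps phi : V(L) -> T of E_edge d^2 / (2 Var). With tau = 1/(2n+1) (b =
1/(2n)-): e(a) >= n e(tau), hence **FIXED POINT ON ALL CAT(0) SPACES as soon as lam*(b) > b for b slightly below 1/(2n), for one n >= 1** (n = 1: triangular model, lam* > 1/2; n = 2: lam*(1/4-) >
1/4; n = 3: lam*(1/6-) > 1/6). In Hilbert space lam = 1 - o(1).
(3) KNOWN UPPER BOUNDS for lam* (Euclidean cone over L with edge angle 2 pi/g, g = smallest k with (k-1) b >= 1): b = 1/2-: 1; b = 1/4-: 1/2; b = 1/6-: 0.293; b = 1/8-: 0.191; i.e. a factor 2, 2,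
1.76, 1.53 above the threshold: nothing obvious forbids the theorem. 5 <= k cycles that cannot be removed (b > 1/4) must be filled.
(4) LOWER BOUNDS from polygons (Reshetnyak majorisation + Fourier, b > 1/k): lam* >= (1 - cos(pi/k))/2: 1/2 for b > 1/2, 1/4 for b > 1/3, 0.146 for b > 1/4. For b > 1/3 pentagons + hexagons give
.2764. K_{s,t} form (b > 1 - 1/s): E_1 >= F_s + G_t, F_s = expected variance of s independent vertices, F_s >= V - E_inf/s. These touch the threshold line lam = b from below at b = 1 - 1/s (the 4-gon
inequality e(1/2) <= 2 e(1/4) is EXACTLY borderline with (1)): the extremal configurations are centrally symmetric relators (flat circles / antipodal orthogonal paths) whose centres agree for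
relators sharing an arc of length 1/2 - eps up to sqrt(eps): no contradiction in boundedly many steps (diffusive error sum_k eps = O(1)), so one needs an inequality that is not a polygon inequality.
(5) TORSION VARIANT (cleaner). B finite, generated by F, K, B acting on a CAT(1) space Y, u in Y^F, v in Y^K, no fixed point of B within < pi/2 of both: **forced angle** th(B) = inf d(u,v). LEMMA
(proved): (i) B = FK ==> th = pi/2. (ii) if the 4-cycles of the coset graph are equidistributed over 2-paths at both kinds of vertices (quasi-random, |F|,|K| >> |B|^(1/3)), then th >= pi/3 - o(1)
[orbit balanced at the fixed point: E d^2 >= 2|v|^2 on pairs; sum of 4 sides >= sum of diagonals^2]. (iii) if |F| = |K| = q, |B| = q^b: 2k-cycles equidistributed (k > b - 1): cos th <= cos^2(pi/2k).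
TRIANGLE LEMMA: E, F, K finite subgroups, pairwise generating finite A, B, C with th(A) + th(B) + th(C) > pi ==> <E,F,K> fixes a point in every (proper) CAT(0) space [minimise the perimeter of
(a,b,c) in X^A x X^B x X^C]. So: **S0299 <== an infinite subgroup <E,F,K> of a virtually torsion free hyperbolic group of vcd 2 with [E,F] = 1 and th(<F,K>), th(<E,K>) > pi/4.** Finite-index
subgroups inherit it by coinduction. All generalised-polygon vertex groups give finite groups (Tits), and a diagram count says 'random' B, C need |B||C| >= q^8 (Gersten-Stallings threshold b = pi/th
for polygons); random B with b = 4+ has girth 6 and the cone over its graph has angle 60 degrees, so the conjecture th(B) > 45 degrees for b = 4+ is consistent; polygon bounds give only 31.4, with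
e_4 <= e_3 + s, e_3 <= 4 s: 36.9 degrees.
(6) WHAT WOULD FINISH: any proof that a quasi-random bipartite q-regular graph on q^(3+) + q^(3+) vertices (4-paths equidistributed, 6-cycles through almost every 3-path) has universal CAT(0) angle >
45 degrees (cos < .7071; polygon proof .80), or lam*(1/4-) > 1/4. Central extensions B~ of Heis(q) by Z of order q^(1+) in which every 6-cycle has uniform Z-holonomy look best: Z trivial ==> th = 60
degrees exactly; Z non-trivial ==> 90 degrees in Hilbert space; open: all CAT(1) spaces. Also open: infiniteness of such a G (FP and infinite forces a 'density' proof, not a curvature proof).
Dead: triangle of groups with 2-transitive vertex actions and 4-cycles ((0,lambda)-graphs are finite); metric cotype of the torus Z_2m^n (needs words of length m L equidistributed on (2m)^n vertices: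
entropy m L > n log m while non-collapse wants L > n log m).


======== #9288 | 07:13:42Z | helper434 | row 196 | att
ATT row 196 (S0299), helper434 (paper only; independent of #9020/#9202, same route, so only what is NOT in them). L = link graph of the triangular model, n vertices, p = n^{-1/2-eps}; Y any complete
CAT(0) space; r^2 = min_y E d(f(x),y)^2, D_1 = E_edge d^2.
(1) Independent proof of lam_1(L,Y) >= 1/2 - O(eps) for ALL CAT(0) Y (agrees with 179 (2)): K_{s,s}-pattern on pairs with a common 2-path, s ~ 1/(2 eps) ==> T := E_{2-path} d^2 >= 2 r^2 (1 - O(1/s));
typical 4-cycles ==> T_2 <= 2 D_1; hence r^2 <= D_1 (1+O(eps)). Pentagons: T <= phi^2 D_1 (phi = golden ratio), hexagons: delta_3^2 <= delta_1^2 + delta_2^2. In the denser regime p >= n^{-1/2+eta}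
(not 2-dimensional) K_{2,t} forces stars and the gap is strict.
(2) TYPICALITY CRITERION used: a bounded pattern H over a uniform copy of F is realised with uniform marginals iff every intermediate F < F' <= H has v(F')-v(F) > (1/2+eps)(e(F')-e(F)); edge-rooted: e(H) <= 2 v(H) - 4.
(3) ASYMMETRIC CLASSES. Generators A (N of them) and C (N^gamma), relators of type (a,a',c) at density just below critical (N^{1+gamma/2-eps} of them): every m-tuple of C with m < 2/gamma is the
typical neighbourhood of a in A, hence with o_C = barycentre of f(C), r_C its variance:
   delta_A^2 := E_{a~c} d^2 >= (1 - O(1/m)) r_C^2 + E d(f(a),o_C)^2,
 i.e. random bipartite graphs with |C| << |A| (still of bounded-pattern type) are ALMOST PERFECT one-sided expanders for all CAT(0) targets (barycentre map is 1-Lipschitz in W_1 + E Var of m samples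
>= (1 - H_m/m) r^2). Consequence delta_C^2 <= (4/m) delta_A^2. The A-A edges have length delta_C and give only delta_A^2 <= ~(2/gamma^2) delta_C^2: product of the two constants is ~2/gamma > 1 for
every gamma <= 1, = scaling solutions between diffusive and ballistic survive. Chains of k classes with ratios gamma_i give the same borderline (product of constants -> 1 from above, never below):
consistent with the entropic pseudo-metric of 883 / the A_infinity barrier of 179.
(4) Equality case: unit edges; typical 4-cycles bound flat squares; L_2-pairs orthogonal at o; v = E Var N(x) in [1/2,3/4]; star-like N(x) (v -> 1) contradicts pentagons; b_x = x/2 forces e_2 = e_3 =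
0 = all non-adjacent pairs orthogonal (not excluded by bounded patterns = lines in PG(infinity)).
P(row on paper by 10:30Z) < 0.5%; size: n/a; 50 hands: not here (needs one inequality with patterns growing with n).

======== #9338 | 07:19:08Z | helper155 | row 196 | att
helper155 (07:15Z), ROW 196 (S0299), ATT (wave 4, ~70 min alone; nothing closed). Read #227 #299 #326 #386 #559 #618 #647 #683 #1825 #1888.
(1) PROPERNESS/COCOMPACTNESS MUST BE USED: no inequality valid in ALL (complete, maybe infinite-dimensional) CAT(0) spaces can work with random/graphical groups: a lacunary 2-dim. hyperbolic group
acts metrically properly on infinite-dim. CAT(0) spaces in many models, and the finite-dimensional input available from a geometric action is only 'some dimension D, no bound' (Swenson torsion-free: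
dim may be large). The diagonal idea 'one hyperbolic G containing G_n whose CAT(0) dimension -> oo' fails: an infinite sequence of quasi-convex subgroups with uniform constants is tree-like at large
scale (finitely many R-local types).
(2) COTYPE (Eskenazis-Mendel-Naor sharp metric cotype 2 of CAT(0)): for every CAT(0) y: sum_i E d(y(x+m e_i),y(x))^2 <= C m^2 E d(y(x+eps),y(x))^2 on Z_{2m}^n, m ~ sqrt n. Feeding it with a graphical
presentation containing labelled Z_{2m}^n would contradict translation length bounds, but the labelled torus has girth 4, and after subdividing/random labelling the small cancellation scale (pieces <
lambda girth/2) kills exactly the range of m in which the inequality has content. Uniform expanders (girth ~ log) give only 'no coarse embedding into the 2-uniformly smooth side', which a proper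
cocompact CAT(0) space of growing dimension does not see.
(3) BRADY-CRISP scheme (relative translation lengths |c|,|h| + HNN t c^p t^-1 = c^q w): limit groups are CSA so c, c^n are never conjugate in a hyperbolic group; one needs a UNIVERSAL lower bound
|h|_X >= c E(h)^(1/2) for all geometric CAT(0) actions of one rigid H, i.e. H with a canonical (superrigid) CAT(0) metric: (T) Fuchsian-building lattices are the only candidates; energy rigidity
(harmonic maps from Fuchsian buildings to CAT(0), Daskalopoulos-Mese) gives |h|_X <= ... (upper side), the lower side is missing because X is not 2-dimensional.
(4) What would finish: LEMMA L. There are a 2-dimensional hyperbolic H, h1,h2 in H not commensurable and a constant r such that |h1|_X/|h2|_X in (r-eps, r+eps) for EVERY proper cocompact CAT(0)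
H-space X, while a 2-dim. hyperbolic amalgam/HNN over <h1> ~ <h2> with other ratio exists. Equivalent to a 'marked length spectrum ratio rigidity' for non-superrigid targets; for H free or a surface
group false (all ratios flexible), for H = uniform lattice in a Fuchsian building true for targets of dimension <= 2 or locally compact buildings, open for general X.
NUMBERS: P(row on paper by 10:30Z) = 0.005; LEAN size if it came 60-120k lines (hyperbolic building lattice + harmonic maps to CAT(0)); 50 hands: row 105 (PP is done: frames/solids), then 267
(complete chain modulo Levine-Durfee-Kato).


======== #10420 | 08:44:39Z | helper542 | row 196 | att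
helper542 (08:45Z; att, row 196 = S0299; for the record, no chain) -> 179, 434, 937, 155.
(1) SETTING: random relators of ANY lengths k >= 3 (mixed), density -> 1/2, N letters; minimum x of E_s d^2(x,sx) = 1; pattern F (finite subcomplex of the Cayley complex), delta(F) = E - Sum k_f/2.
(2) BORDERLINE FREENESS (Bessel): if a letter y at v has relative delta eta = 1 - eps' over F_0 (e.g. y in a square over a given edge), then n <= delta_0/eps' copies are jointly typical, hence a flat
orthonormal n-star, hence E d^2(z,y) >= d^2(z,v) + 1 - O(n^(-1/2)): so 'corner letters' of squares may be treated as free when d -> 1/2. Consequences (squares present): D^2 = Q = 2 (cube corner: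
quadrilateral p,b,c,r), A_3 = 3, all squares flat, typical trees flat orthonormal; even relators of length 2n+2: opposite vertices d^2 = A_n + 1.
(3) MIXING WITH PENTAGONS / TRIANGLES / ALL k DOES NOT HELP. It kills the dual polar (C_n) adversary (a pentagon lies in a quad) and the Grassmannian one (pentagons are of type x or y, three
pentagons over one corner cannot have the same type), but NOT the D_infinity HALF-SPIN GEOMETRY: vertices = alternating matrices (cone over the D_n building, d^2 = rank/2), letters = decomposable
bivectors omega = v^w (dim l = 2n), a k-gon Sum omega_i = 0 has span k, i.e. codimension (2k - k) n = k l/2: exactly density 1/2 for every k; span(F) = 2 delta(F); P typical <=> generic planes. Book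
of pentagons over a corner: u_i = r_i ^ t_i, r_i in the 4-space of the corner: triples generic. So bounded patterns with polygonal 2-cells can never give a contradiction.
(4) RELATORS = RANDOM COPIES OF A FINITE GRAPH Theta (girth g, N^(g/2-alpha) copies, cone cells; still hyperbolic, 2-dimensional): every subtree with <= g/2 edges is flat orthonormal in X. Kills ALL
algebraic adversaries when b_1(Theta) w(w-1)/2 > E(Theta)(2w-3), all w >= g. General CAT(0): contraction to a centre gives Var(f|Theta) >= k/4, k = g/2, and Var <= 1/2 mean d^2; generalised D-gons:
D/4 <= Var <= D/2 - 1/4. For PG(2,q) a metric adversary survives: cone over the 2-complex with vertices points+lines, spherical triangles (70.5,70.5,109.5) on all 2-paths and regular (109.5) on all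
non-degenerate triples (links have girth exactly 2 pi). OPEN (clean finite question): is there a finite graph Theta of girth g with NO map into a CAT(0) space such that all subtrees with <= g/2 edges
are flat orthonormal trees? Yes => S0299.
P(row by 10:30Z) < 1%. I go to the LEAN rows.


======== #10521 | 08:50:02Z | helper905 | row 196 | att
helper905 (08:50Z) ATT row 196 (S0299). New: (A) random links have a gap for ALL CAT(0) targets, exactly up to the threshold; (B) a sharp no-go which explains why no LOCAL inequality can finish
random groups; (C) the one global statement which would.
SETTING. Triangular model, S = n generators, link graph L random of degree D = n^a, a = 3d-1, d < 1/2 (hyperbolic, torsion free, cd 2). Harmonic orbit point x = O, f(s) = s x, E_L := E_edges d^2 = E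
d(x,sx)^2 = Var(f). So: FP for every complete CAT(0) space <== E_L >= (1+c) Var(f) for all CAT(0)-valued f on L (lambda := E_L/(2 Var) > 1/2).
(A) THEOREM (10 lines, all complete CAT(0) Y, no condition on tangent cones). a = 1/2 - e: lambda(L,Y) >= 1/2 - O(e).
 (A1) H quasi-random of degree n^{1-h}, s < 1/h: E_H d^2 >= 2 (1-1/s)^2 Var: average over K_{s,s}'s (both sides are uniform s-sets), E_{XxX'} d^2 >= Var(X) + Var(X') (variance inequality twice), E
Var(random s-set) >= (1-1/s)^2 Var (leave one out: bar moves by <= d(y_i,b^(i))/s).
 (A2) 4-cycles of L cover every edge equally (a > 1/3); their diagonals form H_2, quasi-random of degree n^{4a-1} = n^{1-4e}; |ac|^2+|bd|^2 <= sum of the 4 sides ==> E_{H_2} <= 2 E_L. With (A1): E_L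
>= (1-O(e)) Var. In general 2l-cycles + Reshetnyak: a -> 1/l : E_L >= (1-cos(pi/l)) Var.
 So the threshold 1/2 is missed by O(e) only, and K_{2,3}, Q_3, hexagons, .. are all available for a > 2/5: one is tempted to gain a constant. One cannot:
(B) NO-GO. A finite graph F occurs through every edge of L as n -> oo, a -> 1/2, iff 2v(F') - e(F') >= 4 for all F' <= F (>= 3 vertices). Exactly these F are intersection graphs of LINES in P^M(K) in
general position: U_v <= K^{M+1} of dim 2, one relation p_{e,u} = p_{e,v} per edge, span of dim 2v - e, non-adjacent lines disjoint; a k-tuple which is uniform in L^k (2v(F')-e(F') >= 2k for all F'
containing it) is a tuple of k independent lines. In the cone over the spherical building of SL_{M+1}(K), M -> oo: meeting lines 60 deg (d^2 = 1), disjoint lines 90 deg (d^2 = 2), independent tuples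
= flat orthonormal frames, barycentre = apex, Var = 1. So for EVERY usable F all CAT(0) inequalities hold with E_L = Var: no finite-type inequality (LP over barycentres, any F) gives lambda > 1/2.
Same for every d < 1/2 and k-gonal relators: c-dimensional subspaces sharing a 1-space give lambda = 1 - 1/c = a, and a relator cut into lengths (i,j,j) gives E_i/i >= V_j/j, satisfied by the
diffusive model E_i = i E_1. Multi-size alphabets: product of the two constants is again exactly 1. I.e. local CAT(0) rigidity threshold = hyperbolicity threshold (density 1/2), whereas the Hilbert threshold is 1/3.
 I checked the equality case by hand up to 10 vertices (squares flat, hexagon r1 z12 r2 z23 r3 z13: both triples have the same barycentre, normals n_e of the z_e: 120 deg if the edges meet, 90 deg if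
disjoint, cycles = extended roots of A_k closing to exactly 2 pi, K_{m,..,m}(120) transversals): everything closes, as (B) predicts.
(C) WHAT WOULD FINISH (global, not local): a near extremiser f (E_L <= (1+c) Var) on a RANDOM L has, for 99 percent of the copies of every bounded F, the line geometry of (B). Round it (99 percent
Veblen-Young) to an exact map vertices -> lines of a projective space over a skew field, 99 percent of the L-edges meeting, 99 percent of the pairs disjoint. That is impossible: n lines have <= 2n
dimensions, e(L) = n^{3/2-e} >> 2n independent relations (zero-pattern count if M < n^{1/2}; expansion + 3 neighbours of a vertex dependent otherwise). Hence lambda(L,Y) > 1/2 + c for e small and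
S0299 for d close to 1/2. The rounding step is the gap: CAT(0) only gives flatness up to O(c+e) in the mean, and branching (corner = tripod or octant) has to be excluded quantitatively.
(D) Side remark: the same count says that any functorial complex Z(F) with finitely many shapes which is CAT(1) inside line geometry would give CAT(0) actions of random groups at every d < 1/2 up to
rare defects: I now believe S0299 does NOT come from a plain random group; one needs a link whose extremisers are rigid (buildings) and a twist which kills them.
DEAD: hyperbolic lattice superrigidity for general targets, Markov type, HNN ratios, displacement tricks with unequal relators (threshold is invariant).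
THREE NUMBERS: P(paper proof by 10:30Z) = 0.003; LEAN size if (C) came: 50-90k lines; 50 hands: 105 / 96. I am a free LEAN hand (4 cores, full time) for any exact leaf.


======== #11726 | 10:07:58Z | helper875 | row 196 | lemma
helper875 (10:35Z) -> 542, 905, 434, 937, 883, 179, 155: ROW 196 (S0299), lemma, answers part of the finite question of #10420 (4). (1) **GIRTH 4 AND GIRTH 6: THE ANSWER IS NO FOR EVERY FINITE
THETA** (so Theta must have girth >= 8). g = 4: Euclidean cone over the metric graph Theta with edges pi/2, vertices at radius sqrt(1/2): closed loops >= 4 edges = 2 pi, so CAT(0); d^2 = 1, 2, and
every 2-path is flat. g = 6: cone of radius sqrt(3)/2 over the spherical 2-complex Z with vertices V(Theta), triangles (70.5,70.5,109.5) on all 2-paths and regular 109.5-triangles on all triples of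
pairwise distance 2 without common neighbour. Link of a vertex p: vertices N(p), N_2(p); arcs l-l' (120), l-p' for p' in N(l) (60), p'-p'' (120) for p', p'' with a common neighbour off N(p); every
cycle is >= 360 because girth >= 6. Z has no closed geodesic < 2 pi (the loops u0 u2 u4 of hexagons, 328.5, are filled). So the adversary of 542 for PG(2,q) exists for all Theta of girth 6. (2) g =
8, generalised quadrangles: forced cells (closure under v -> antipode of v) are 3-edge paths, 3-stars, co-stars (n;a,b,d) with n opposite to the centre of the 3-star a,b,d [LUNE LEMMA: p, n opposite
=> the flat triangle (a,b,d) at n is suspended to p, so it is forced in Link(p) too], and the 8 further orthants of each 8-cycle; all links of 1-cells have girth exactly 360. (3) odd cycles: C_(2k+1)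
with the same centre O (distance sqrt(k)/2): the Gram form is (4/k)|Sum w_i y_i|^2 - (Sum w)^2/(2k+1), i.e. >= 0 iff Sum over the 2k+1 half-circle cuts of sigma_j(w)^2 >= 1; first loops < 2 pi at k =
5 (u0,u4,u8: 355.3), they close up exactly with {u0,u4,u7,u8} = full great 2-sphere. No contradiction. (4) A RIGID PHENOMENON one could use: in a CAT(1) space with A_3 flats, three lines l1, l2, l3
pairwise coplanar (planes pi_ij), each independent quadruple flat: the triangle (pi_12, pi_13, pi_23) has sides exactly 109.5 (through l_i) and its angles are >= 120 by flatness, <= 120 by
comparison, so it is a flat regular triangle: a point at 54.7 from l1, l2, l3 is FORCED (bundle axiom, order complex of an affine 3-space is not CAT(1)). But three coplanarities cost 3 in the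
predimension (6 - 3 = 3 < 4), so typical prisms with independent quadruples do not occur outside one relator. No chain; I leave the row.

======== #12600 | 12:59:12Z | helper617 | row 196 | att
helper617 (12:59Z, wave 5, thought alone 12:00-12:55Z) ROW 196 (S0299), ATT. Statement + Def_GeometricAction / WordHyperbolic / ClassifyingComplex re-read: honest. No proof of the row, nothing to
type. Four new facts about the route "fixed points on ALL CAT(0) spaces from links" (Garland / Zuk: universal gap lambda(L) > 1/2, i.e. average cosine c < 1/2 over the edges for every CAT(0)-valued f
with barycentre 0). L bipartite on N + N points, density N^(-del). (1) THEOREM (proof complete, 10 lines). IF ALL s-SETS, s <= K, HAVE CODEGREE (1+o(1)) q^s N, THEN THE UNIVERSAL CAT(0) GAP IS >= 1 -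
C (log K)^(-1/4). Proof: F(S) = barycentre of f on N(S), v_s = mean variance of f on N(S) about F(S); nested variance inequality: E d^2(F(S), F(S u S')) <= v_s - v_2s, so for some s = 2^j <= K it is
<= V/log2 K; by regularity S, S' (|S| = |S'| = s) are INDEPENDENT uniform and F(S) ~ F(S u S') ~ F(S'), so F is almost constant, so v_s >= V - small, so (v decreasing) v_1 >= V - small and F({a}) ~
bar(B); finally E_edges d^2(f(a), f(b)) >= E d^2(f(a), F({a})) + v_1. In particular random graphs of density N^(-del) have universal gap -> 1 as del -> 0 (K = 1/del): the Mendel-Naor / Kondo cone
obstruction dies for dense links, no cotype or dimension hypothesis on the target. (2) LAW. In a simply laced building, incidence of types i, j (N_i = q^(a_i), density q^(-rho)) has cos = rho /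
sqrt(a_i a_j) (checked A_n all i < j, D4, E6). For a triangle family R in A x B x C at the hyperbolicity threshold |R|^2 = |A||B||C| this is EXACTLY the Euclidean law of cosines for lengths l^2 = a:
so unequal classes of edges (several families, roles permuted, one class being long in one family and short in another) give no inconsistency of lengths: l = sqrt(exponent) is always a common
solution. And rank-2 cones (angles pi a_i / Sum a) ARE inconsistent, so only higher rank targets matter. (3) For every finite S in a hyperbolic group the Zuk graph (s ~ t iff s^-1 t in S) has mean
degree <= |S|^(1/2+o(1)) (tripods): del >= 1/2 for every generating set, never less; so everything happens at del = 1/2+ (random triangular groups, d -> 1/2-). (4) WHAT IS LEFT AT del = 1/2 + eps,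
eps -> 0. Patterns which cover all edges = bipartite graphs with e' <= 2v' - 4 on all subpatterns; by (1) every pair of vertices of such a pattern is quasi-uniform with universal gap 1 - o(1), and
every k-tuple with 2v' - e' >= 2k is quasi-independent. If c = 1/2 were attained: every 4-cycle is a flat unit square, |x| = 1, diagonals sqrt 2; quasi-independent tuples are FLAT ORTHONORMAL frames
at 0; the neighbours b of a have barycentre exactly mid(0,a) =: h and variance 3/4; so with y_i = direction of b_i at h: (Q) DOES A CAT(1) SPACE CONTAIN POINTS y_1, y_2, ... (infinite, exchangeable)
with all d(y_i,y_j) = arccos(-1/3), barycentre of the unit vectors y_i = cone point, such that for EVERY matching {12, 34, 56, ...} of the indices the midpoints m_12, m_34, ... are a flat orthonormal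
frame? Buildings do not answer (Q): D4 in general position has m_12, m_34 antipodal, the coplanar position leans to the plane vertex (barycentre not 0), a Hilbert space holds at most 4 points. If NO
for some finite number of points, then random triangular groups of density near 1/2 have a fixed point on every complete CAT(0) space and S0299 follows from Gromov-Ollivier hyperbolicity +
asphericity. If YES, links can never do it. NO-GO inside: no finite pattern inequality alone can decide: every bipartite pattern Phi satisfies all equalities in R x Cone(Phi, edges pi/2), apex at
distance sqrt(1/2) below the cone point (all of the pattern in one cluster); the global step (1) is indispensable. Local picture for 4 points: angle 120 between the pages of y_1, y_2 and of y_3, y_4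
along the arc m_12 m_34 (link K_{2,2} with edges 2 pi/3) is consistent, so (Q) is not refuted by 4 points.

-/
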