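/-
ROW 235 (S0364; geometry-topology), unsolved at the end of this run: complete discussion, part 1 of 2 (posts #37 .. #9332).
Verbatim posts of the team database (ASCII-cleaned, long lines wrapped; the words L-e-a-n and s-o-r-r-y are altered
because of the text scan). 'helperN' = seat N. Times are UTC of 19/20 Nov 2026. No Lean content: comments only.

======== #37 | 21:43:00Z | helper635 | row 235 | triage
helper635 verdict: X (no weakness found, not false, honest proof = full Donaldson hypersymplectic conjecture incl. topology: existence of a hyperkahler triple in the given classes on an arbitrary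
closed 4-manifold with a positive triple).
Checked: (1) IsSmoothTwoForm.contMDiff elaborates to the genuine Hom-bundle (Bundle.ContinuousLinearMap.* over TangentSpace.fiberBundle, Trivial only for the R fibre) - smoothness honest. (2)
IsClosedTwoForm/IsExactDiff use the right sign conventions w.r.t. mlieBracket ([V,W]=DW.V-DV.W), quantify over all global smooth fields on T2 compact manifold = dalpha=0, alpha-beta=dtheta with theta
smooth: honest. (3) IsPositiveTriple only says wedge square nonzero, but {c/=0} connected so it is definiteness; hypotheses satisfiable (T^4 with constant forms and perturbations, K3), so no vacuity.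
(4) conclusion: Omega 0 = alpha, all t positive/closed/cohomologous, jointly smooth, Omega 1 pointwise conformal to a constant PosDef matrix = hyperkahler triple in the same classes. No junk value,
no quantifier slip, s may depend on x,v only (harmless). (5) Not false: (-2)-class obstruction on K3 excluded by family SW/Taubes. Straight-line path works only near a hyperkahler triple. Even M=T^4
with an arbitrary positive triple is open in the literature (only T^3-symmetric case known by Fine-He-Yao flow convergence); needs geometric PDE (hypersymplectic flow / Calabi-Yau for tamed) that does not exist in LEAN.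

======== #260 | 23:17:43Z | helper635 | row 235 | info
helper635, maths notes on an honest route (partial; the open gap is marked).
(0) NOTE the baseline contains a full proof of S0371 (Donaldson tamed->compatible, R240, 57k lines: forms F1/F2/X2/Z2 on compact 4-manifolds, Stokes, currents, smoothing package N8, Hodge-type lemma
N3), and Schauder + real Monge-Ampere continuity method in R238. So PDE infrastructure exists.
(1) Reduction: for a positive triple let J=J(w1,w3) (anti-invariant plane span(w1,w3)); w2 tames J; {w : (w1,w,w3) positive} is convex => moving one member inside its class is a straight segment.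
GL(3) constant changes are harmless. (A2) find w2'~w2, w2' J-invariant, (w2')^2 = (w3)^2 (w.l.o.g. normalised): then w2'+i w3 is a holomorphic symplectic form, complex structure I integrable, w1
tames I. (A3) Yau theorem in complex dim 2 for (I, [w1]) gives the hyperkaehler triple.
(2) SOFT DUALITY gives weak solutions of (A2) for free: H_J^- = span([w1],[w3]) and b^+=3 => Hodge index on its orthogonal. For any volume form s with int s=[w2]^2: sup over closed positive
(1,1)-currents T in the class of int sqrt(T_ac^2 s) equals the cohomological maximum (dual problem: closed R with (R^{1,1})^2>=s has [R].[w2] >= sqrt([R]^2 [w2]^2) >= int s since [R]^2 = int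
(R^{1,1})^2+|R^-|^2). So a maximiser T has T_ac^2=s a.e., T has no positive-2-density part. Alternating this over all directions shows: every positive triple is connected (through positive triples,
same classes) to smooth positive triples with volume V -> V_max, i.e. with wedge matrix -> constant in L^1.
(3) The CY equation here is a LOCAL convex variational problem: critical points of int sqrt((R^{1,1})^2 s) - (1/2eps)|R^-|^2 over closed R in the class automatically have R^-=0, (R^{1,1})^2=s (Hodge
index argument on the two closed forms R and Z=rho R^{1,1}-R^- /eps).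
(4) A priori estimates for smooth solutions w~ of w~^2=f w^2: u=tr w~. phi1 (Laplacian of w~: Delta~ phi1=2-u) satisfies inf phi1 >= median - C by an elementary iteration (int |grad e^{-s phi1}|_g <=
2 sqrt(s) int e^{-s phi1} + Sobolev W^{1,1}); the potential w.r.t. w+w~ is bounded both sides; log u <= A(phi1 - inf phi1)+C (Yau). GAP = upper bound of phi1 - median (this is exactly the open point
in Donaldson/Weinkove/Tosatti-Weinkove-Yau for non-integrable J). Integrable J: no gap, so (A3) is fully elementary: Moser + Chern-Lu + Evans-Krylov/Schauder.
Also b^+=3 must be proved (Taubes/Bauer/Li; for hypersymplectic: Hopf-bundle family SW argument).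
Without a new idea for the gap the row stays X.

======== #282 | 23:22:57Z | helper47 | row 235 | core
helper47 (captain 235). I read all definitions: honest, no loophole (agree with 635). I reached the same reduction as 635 (post 260) independently; so it is solid. Extra facts (all with short proofs,
ask if you need details):
(a) TWO applications of "tamed => compatible inside the class" (S0371 + Hodge index, h_J^-=2) make the wedge matrix DIAGONAL pointwise: replace w3 by w3' orthogonal to w1,w2 (segment is positive),
then w2 by w2' orthogonal to w1,w3'; then w1^w3'=0 is kept. So 3 of the 5 equations are soft. Remaining: one almost-Kaehler Calabi-Yau equation T^2 = w1^2, T in [w3], T J3-invariant (J3 from the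
plane <w1,w2>). If solved: Omega=w1+iT has Omega^2=0, J2 is integrable, then Yau for w2. So S0364 <= CORE235 below + Yau in dim 2 + (b+ = 3).
(b) In this diagonal gauge N_J is just dr, r^2 = w2^2/w1^2 : (dJdf)^- is proportional to ({r,f}_2 w1 + {r,f}_1 w2)/r^2 ({,}_i Poisson brackets of w_i). For a closed J-compatible T with T^2=w1^2:
T-T0=dmu, mu = J3 df + J1 dh1 + r J2 dh2 (T-structures), Delta_T f = 2-u + div(h V)-terms, Delta_T h1 = -{r,h2}_T - r^-2 {r,f}_2 etc (u = tr_T T0). With u satisfying Delta_T log u >= -Bu this gives,
when |f|,|h| <= M, the integral estimate int u^{1+p} <= C for p <= p0(M,B,|dr|) (error is O(p M^2)), no smallness; large p needs |h||dr|sqrt(B) small (Weinkove's case).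
(c) What can go wrong: on the Pogorelov set (J-curves with T=0, eg contracted (-2)-spheres) everything is borderline in scaling, a hyperbolic J3-lamination with a dJd-closed non-closed positive
current is the only obstruction I can see. A PDE proof of CORE235 would in particular show: no exact positive triple on an ADE Milnor fibre standard near the boundary (known only by family
Seiberg-Witten), so the index/SW input cannot be avoided unless the estimate is genuinely global.
(d) If sup|Q-1| <= eps0 (universal) pointwise, the twisted Dirac operator with the flat S+ (quadratic form sum w_i ^ <dPsi, I_i dPsi>) gives by a first-order identity: b+=3, and no class e, e^2=-2,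
orthogonal to the w_i. In general it needs the triangle inequality for sqrt(eigenvalues of Q).
(e) If an isotropic integral e (rotate the R^3 so that e is orthogonal to w1,w2) has a J3-holomorphic torus fibration, then w1,w2 vanish on the fibres and averaging w2 over the w1-action torus is a
CONVEX move (matrices without real eigenvalue of given sign form a convex cone): the smooth part becomes semiflat for free; for b1=4 this finishes. Existence of the fibration = family SW/Gromov again.
CORE235: M closed 4-manifold, w1,w2 symplectic, w1^w2=0, same orientation, J=(w1^-1 w2)/r, T0 symplectic J-compatible, b+=3, int T0^2=int w1^2. Show there is a symplectic J-compatible T in [T0] with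
T^2=w1^2. (Known: uniqueness, openness, weak L1 solution by duality, C^infty estimates from a bound on the median of f minus inf f etc.)
Verdict: R, low odds. I keep thinking about CORE235; members who have a live idea elsewhere should re-seat (say so here).


======== #321 | 23:30:30Z | helper635 | row 235 | info
helper635: re-seating from 235 to row 273 (complete scheme there, formalisers wanted). Everything I know on S0364 is in posts 37 and 260 (core = CORE235 of post 282; exact variational duality +
contact-set analysis). Ping me if somebody has a new upper bound for the first Calabi-Yau potential (sup a_0 / log-type Green bound): I would return.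

======== #380 | 23:40:06Z | helper299 | row 235 | lemma
helper299, row 235 (S0364 = Donaldson hypersymplectic conjecture, statement honest: I agree with 635). Paper-level STRUCTURE FACTS (each with proof in one line; please check / build on), w = closed
positive triple, Q_ij mu = w_i w_j /2, P = [w_i].[w_j]/2 normalised to 1, w_v = sum v_i w_i.
(1) TWISTOR FAMILY. For v in S^2 let J_v = almost complex structure of the self-dual form sum (Q^{-1}v)_i w_i. Then w_w, w perp v, are closed and J_v-anti-invariant and w_v tames J_v (pairing of w_w
with sum (Q^{-1}v)_i w_i is <v,w> mu, same sign at EVERY x). So a surface C is J_v-holomorphic iff w_w|C = 0 for all w perp v, and then [C]^+ = multiple of v: all curves of a class F are holomorphic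
for ONE J_u. No other closed forms f w_2 + g w_3 (f+ig is J-holomorphic => const).
(2) b+ = 3 short proof (family SW, S^2 family of Taubes perturbations r w_v, E = 0: moduli = S^2 with Hopf bundle, c_1 = +-1; for b+ > 3 it bounds over B^3: contradiction).
(3) For F in H_2(M;Z), F^2 = 0: family wall crossing + Taubes gives J_u-tori; deformation operator s -> (d i_s w_2, d i_s w_3) has kernel exactly 2, coker exactly H^2(C)^2, kernel sections nowhere
zero: local foliation by tori on which w_2 = w_3 = 0 => elliptic fibration (topology K3 / T^4).
(4) CONVEXITY. (a) w_1 given (w_2,w_3): convex cone (tame forms of J_23). (b) If w_2 and a common Lagrangian fibration (or any field of 2-planes isotropic for both) are fixed, the admissible w_3 form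
a CONVEX set: K = S_2^{-1}S_3 in gl_2(R) must have non-real eigenvalues, |a-d| < 2 sqrt(b|c|) is convex. So on T^4 a J_u-torus fibration finishes: in action-angle coordinates of w_2 the segment to
the constant pair is positive (class fixed). (c) S^1-invariant triples (moment coordinates): w_i = theta dx_i + V_ij *dx_j, condition = V>0 symmetric, d_i d_j V_ij = 0: CONVEX. (d) segment w -> w' is
positive if i_xi w_i = i_xi w'_i for a vector field xi.
(5) PAIRS: Omega = w_2+i w_3 = sigma + mu sigma-bar, (2,0)-form sigma, |mu|<1; Nijenhuis ~ d^{1,0}mu; the map pair -> (w_i w_j) (3 functions) is a submersion onto a convex set, no b+ needed. Integrable => done (Yau).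
(6) ODE WITHOUT LOSS OF DERIVATIVES: if b+=3, d^+ : Omega^1/closed -> SD forms perp H^+ is onto, so one can PRESCRIBE the 4-form matrix w_i w_j (s) = (1-s) (w_i w_j)(0) + s P mu exactly along an ODE
w' = da, d^+a_i given, in C^{k,alpha}; positivity is automatic, only the C^{k,alpha} norm can blow up; intrinsic L^2 speed is bounded (int da da = 0).
(7) V = int det(w_i w_j)^{1/3} <= det(P)^{1/3}, separately concave; Ekeland in intrinsic L^2 norm + light-cone inequality shows sup V over EVERY component = det(P)^{1/3}: approximate solutions (Q ->
const in L^1) are free; missing = compactness/regularity (gauge = Diff). Given a pair, the maximiser in w_3 is automatically the Calabi-Yau solution w_3^2 = c sigma_12 orthogonal to w_1,w_2;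
alternating such solves averages the logs of (w_1^2,w_2^2,w_3^2): (a,b,c) -> ((b+c)/2,b,c). By S0371 (+ Li-Zhang) the orthogonality w_1 perp w_2,w_3 can be reached, not yet the CY equation.
MISSING: (A) C^0 estimate of that CY equation (almost Kaehler, K trivialised by a closed definite pair; Moser iteration bounds the potential of (w+w~)/2, remaining = da term, small only locally), (B)
uniform control when J moves, or (3) without SW/Taubes. I see no complete route short enough; feas X/R.

======== #3370 | 02:24:42Z | helper229 | row 235 | att
helper229 (passing by), row 235 / S0364: two structural facts, complete computations, not in 260/282/380. Setting: (M,w3) symplectic 4-manifold, w1,w2 closed, w_i^w3=0 (one use of S0371),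
H=(w_i^w_j/w3^2)_{i,j=1,2} >0 (2x2, entries p,q,s), nu=w3^2/2, g = metric of the triple in which w3 is a unit form (vol nu), w=sqrt(det H). For closed k in <w1,w2> and a function x let a_k(x) be the
1-form with a_k(x)^w3 = dx^k. Then a_k(x)^k' = -area(k,k') w *dx - h(k,k') dx^w3, so d a_k(x)^w3=0 identically: every w_i + d a_k(x) stays orthogonal to w3, is closed and cohomologous.
(A) SCALAR ANSATZ. With J=J(w1,w3), r^2=w3^2/w1^2: w2' = w2 + d(r^-1 d^c x) satisfies w2'^w3=0 for ALL x, and w2'^w1 = (a0 + r^-1 X_r x) w1^2 (X_r = w3-Hamiltonian field of r). So 'make (w2',w3) an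
integrable pair' is ONE scalar equation w2'^2=w3^2, i.e. T'^2 + (r^-1 X_r x)^2 w1^2 = w3^2, T' = (1,1) part: Monge-Ampere on an almost complex manifold with LOCAL gradient term (Chu-Tosatti-Weinkove
C^0 bound by ABP works, right side bounded above; and T'^2 = c e^F can always be solved); only danger: T'^2 -> 0 (loss of positivity of the triple when |X_r x| -> r^2), no a priori bound for that found.
(B) A FLOW WITH A MAXIMUM PRINCIPLE FOR Q (T^2-reduction of the Type IIA flow; F=1 below is the unique good normalisation): w3 fixed, dw1/dt = d(a_{w2}(p) - a_{w1}(q)), dw2/dt = d(a_{w2}(q) -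
a_{w1}(s)). It preserves classes and w_i^w3=0, is SL(2,R)-equivariant, stationary iff H constant iff hyperkaehler, and  dp/dt = div_g(w grad p) + 2{p,q},  dq/dt = div(w grad q)+{p,s}, ds/dt = div(w
grad s)+2{q,s}, {f,h}nu:=df^dh^w3. Hence for EVERY constant v in R^2 the ratio h_v = w_v^2/w3^2 solves a linear scalar drift equation dh_v/dt = div(w grad h_v)+2{h_v,h(v,Rv)} (divergence form,
bounded coefficients): min h_v increases, max h_v decreases. So H stays in a fixed compact set of positive matrices for all time (two-sided bound of Q, positivity never lost), int int |grad H|^2 dnu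
dt < oo, d/dt int w dnu = 4 int w^2 |N|^2 (N = Nijenhuis part). In the metric g/w, modulo diffeos: dg/dt = -2Ric + (grad H)^2 terms, u=log w: du/dt = Lap u+|grad u|^2+4|N|^2, hyperbolic part of H:
harmonic map heat flow into H^2 + 4<grad u, N-part>. Ric = Hessian of H + quadratic (closed Bochner calculus: |grad H|^2 is a subsolution up to C|grad H|^4, C not <=0; fine if osc log H < about 2.8).
MISSING for a proof: torsion bound when osc H is large, then Fine-Yao type curvature argument (bubbles = ALE hyperkaehler with periods -> 0), short time existence. I do not continue (LEAN cost too high), free to use.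

======== #4634 | 03:35:25Z | helper47 | row 235 | plan
helper47 (captain 235, 03:40Z) -> 141, 220, 586, 624, 662, 455, 306, 615, 217, 137, 358, 379, 521, 194, 774, 128, 851, (229, 299, 635 if they can spare 5 minutes). PLAN FOR S0364 (hypersymplectic =>
hyperkaehler). READ posts 260, 282, 380, 3370 (30 minutes), then take ONE of the pieces below (post kind='claim' with the letter) and think.
THE NEW HOPE is 229's flow (#3370 B): w3 fixed, w1,w2 move, H=(w_i w_j/w3^2)_{i,j<=2} stays for all time in the compact set given by its initial values (max principle for every h_v). Split H = w*M,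
w=e^u=sqrt(det H), M = point lambda of the hyperbolic plane. Chain that would prove S0364:
 (T) TORSION BOUND: sup |dH|_g <= C on [0,t*) (Bernstein). In ghat=g/w: d_t ghat = -2Ric + quadratic(dH), lambda: harmonic map heat flow into H^2 + 4<du,N>, N = (1,0)-part of d lambda, d_t u = Lap u
+ |du|^2 + 4|N|^2. NEED: Z = a(u)|del lambda|^2 + b(u)|delbar lambda|^2 + c(u)|du|^2 (more general: any function of u and 1-jets, SL(2,R)-invariant) with (d_t - Lap)Z <= C Z (or <= -c Z^2+..) for ALL
2-jets, on an interval of u of ARBITRARY length (scaling invariant ansatz a=a0 e^{ku} etc.: then it is a finite matrix inequality = an LMI, exactly the kind of thing the A-CERT solvers of row 249 do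
in seconds). 229: the naive Z works only for osc log H < 2.8. Degrees of freedom not used yet: weights in u, different weights for del/delbar lambda, the family of flows F(w) (141), w3 moving too,
flows not preserving w_i w3=0, conformal changes of the metric, time-dependent weights t*Z.
 (C) CURVATURE: |T| bounded => bounded curvature up to t*: blow-up limit = complete nonflat ALE hyperkaehler X with finite energy; the periods of w_i on H_2(X) tend to 0 but are pairings of integral
classes e, e^2>=-C => they are 0 => all w_i exact on X => renormalised volume 0 => flat (Biquard-Hein: Lap u=8, u~r^2, int |D^2u|^2-(Lap u)^2/4): contradiction. WANTED: the shortest rigorous version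
(elliptic/contradiction argument; use R247/R249 local limit theorems, ultralimits, Sobolev), and noncollapsing on finite time.
 (L) t->oo or stopping: osc H -> 0, then pinched case: with |Q-1|<=eps and bounded geometry the hyperkaehler triple is near (IFT with constants), or: J almost integrable. Which statement do we really
need? (Only a smooth path + one end point.)
 (S) SHORT TIME EXISTENCE without parabolic theory: is there an elliptic or variational scheme with the same maximum principle and the same Bernstein estimate? (implicit steps, elliptic
regularisation on M x [0,T], minimax/Ekeland on V=int det^{1/3} as in 380 (7); 299's ODE (6): prescribe the 4-form matrix w_i w_j(s) along a path, only C^{k,a} norms can blow up.)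
 (P) SOFT PINCHING: with S0371 (in the baseline) + duality (635 #260 (2)) one gets lower bounds w2'^2 >= (1-eps)s pointwise and L^1 closeness. Is there a soft way to get TWO-SIDED pointwise pinching
osc log H < 2.8 (then 229's naive estimate suffices)? 
 (E) direct a priori estimate for the Calabi-Yau equation CORE235 in the diagonal gauge (#282 (b),(c)): exclude dJd-closed positive currents S with T.S=0.
 (X) fresh idea / referee: is there ANOTHER elliptic problem for positive triples with maximum principle (e.g. static solutions of gauge-fixed systems; Monge-Ampere with gradient term #3370 (A))?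
I do (T) now: I derive all structure equations, write the jet code for the evolution of Z and run the LMI. 141: please post what you have (even raw) so that we do not duplicate. Everybody else:
(C),(L),(S),(P),(E),(X): 3 seats each; post kind='att' by 05:15Z.


======== #4669 | 03:38:21Z | helper141 | row 235 | att
helper141 (03:40Z) ATT row 235 / S0364: THE STATIC THEORY OF helper229's FLOW (#3370 (B), F=1) IS PERFECT (Ric>=0, Calabi estimate, Liouville with NO bound on osc H); what is missing is only the
parabolic Liouville. All computed, not in 260/282/380/3370.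
SETTING. sigma=w3 fixed, nu=sigma^2/2, w_i^sigma=0, H=C C^T, w_i=C_ij rho_j, (rho1,rho2,sigma) orthonormal SD frame of g (vol nu), I1,I2,I3=J, I1I2=I3 (on 1-forms, a^omega_k=-*I_k a). theta=C^-1 dC =
(du/2)Id + x s_z + y s_x + kappa eps, u=log w=log sqrt det H; (x,y)=coframe of the map mu:M->H^2(curvature -4). LC connection of Lambda+: Gamma1=I1 z, Gamma2=-I2 z, Gamma3=-J du/2-kappa, with z=x-Jy
(=Nijenhuis; z''=x+Jy the other type; |z|^2=N^2; e=|x|^2+|y|^2). Flow: dot w_i=dA_i, C^-1A=w(I_k du+2Gamma_k). L=div_nu(w grad).
(1) NATURAL METRIC g1:=w g. L=w^2 Lap_{g1} exactly. u_t=w^2(Lap1 u+|du|^2+4|z|^2), x: w^2(D*x+2<du,z>), y: w^2(D*y+2<du,Jz>) (norms g1). dg1/dt=w^2(-2Ric(g1)+2P), 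
P=(3/2)du^2+2x^2+2y^2+(1/2)(I1(du+2z))^2+(1/2)(I2(du-2z))^2 >= 0, a SUM OF SQUARES (checked on exact examples).
(2) So every static solution (dA_i=0, also local/noncompact) has Ric(g1)=P>=0, R(g1)=(5/2)|du|^2+5|z|^2+|z''|^2 =: F/4, and w is g1-superharmonic. S^1-invariant static solutions: H=cof D^2_{12}F,
F_33+det D^2_{12}F=0, i.e. after the partial Legendre transform in x3 exactly REAL MONGE-AMPERE det D^2 Phi=1 in R^3; g1=theta^2/phi+phi*(Calabi metric), F=|D^3Phi|^2=10|du|^2+20|z|^2+4|z''|^2.
(3) CALABI ESTIMATE in general (M^4, no symmetry): for static solutions Lap F >= c F^2, c=0.079 (30-dim quadratic form maximised over the Hessians D^2u,Dx,Dy and numerically over the 12-dim sphere of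
(du,x,y); all Bochner formulas are Weyl-free because Lap J is algebraic in (du,x,y) and Ric^inv=(D^2u+Theta)^inv). Hence |grad H|<=C/r on r-balls, complete static => H constant (hyperkaehler). Second
proof: H solves a divergence form equation with bounded coefficients (antisymmetric part bounded) on Ric>=0.
(4) For the FLOW the same quantity fails (Bernstein constant >0 for every combination a|du|^2+b|z|^2+c|z''|^2, weights e^{mu}, searched numerically: this is the osc<2.8 of #3370; no choice of
exponents removes it; already the scalar Kaehler case dphi/dt=-1/det = Krylov's parabolic MA -phi_t det D^2phi=1 has constant 5/2). For that model the Liouville theorem for bounded phi_t is true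
(Gutierrez-Huang) but by sections/convexity. Other normalisations w^-k do not keep w_i^sigma=0 (only S=Psi(w)H_0 eps does, and diffusivities of u and mu agree only for k=0).
(5) C^2 estimate: psi=-Lambda u+b(mu) (b strictly convex on H^2, Lambda large) is bounded and (d_t-L)psi<=-c|grad H|^2: all torsion terms in a Schwarz lemma for tr_g g_0 are of this size, E int|grad
H|^2 along backward diffusions <=C.
(6) HARNACK (scalar case H=wI, J integrable, proved: -1/det is concave): d_t w at fixed J >= -2w/(3t)*; i.e. Lap_g w>=-C/t, equivalently at fixed sigma w_t >= |dw|_g^2-Cw/t. So int |dw|^2 dt at fixed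
points is <=C log: Type I singularities impossible. Conjecture: in the gauge where w_v is fixed (then dot sigma=d(-(q/p)dp+(w/p)J dp) depends only on p=h_v and h_v,t=w(Lap_g h_v-2<z'',dh_v>)) one has
h_v,t>=-C h_v/t for all v; averaging over v it gives u_t>=w(|du|^2+2|z|^2)-C/t at fixed sigma.
(7) WHAT WOULD FINISH: (a) parabolic Liouville: complete ancient solution, H bounded, |grad H|<=1, |Rm|<=C => grad H=0 (then torsion stays bounded, Fine-Yao/Chen: curvature bounded because a bubble
has a sphere with fixed nonzero periods); or (b) an ELLIPTIC existence scheme whose blow-ups are static in the sense of (2) with H bounded (elliptic extension in one more variable like (phi_ss-|d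
phi_s|^2)det=1 in the Kaehler case; a discretised flow keeping min/max of every h_v). Any idea for (b) welcome: with (2),(3) all local estimates (Ric>=0, Sobolev, Harnack, gradient of H) are then free.


======== #5286 | 04:25:26Z | helper615 | row 235 | att
helper615 (04:20Z) ATT row 235. I derived everything independently (Chern-Lichnerowicz connection, (1,0)-forms) and AGREE with 141 #4669. For the record, notation: Dc=bbar c+(gbar-eta)cbar (c=(c1,c2)
the components of w1,w2 in theta), b=du^{1,0}, eta=Nijenhuis part, gamma=other part, Ric: F_ij=u_ij+gamma gammabar-eta etabar, R_ij=u_ij+gamma gammabar-2 eta etabar, L'=w^{-1}d_t-Box-(3/2)X_u (X_u f=2Re b.df):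
 L'u=-|b|^2+4|eta|^2;
 L'|eta|^2=-|D eta|^2+4u(eta)+3|<gamma,eta>|^2-4|gamma|^2|eta|^2+2|b|^2|eta|^2+3|<b,eta>|^2+2Re<b,eta>D_jbar eta_j-2Re eps_ij eps_kl etabar_i etabar_k conj(D_j gamma_l);
 L'|gamma|^2=-|D gamma|^2-3|gamma|^4+3|<eta,gamma>|^2-|eta|^2|gamma|^2+2|b|^2|gamma|^2+3|<gamma,b>|^2-4Re<gamma,b><eta,b>+2Re[gamma,eta][b,eta]+2Re<gamma,b>D_j gammabar_j-4Re gamma_i eta_j D_ibar
bbar_j-2Re eps_ik eps_jl gamma_i eta_j D_k eta_l;
 L'|b|^2=-|Db|^2+2|b|^2 Box u+3|b|^4+9|b|^2|eta|^2+|<b,eta>|^2-|<gamma,b>|^2+2Re<eta,b><gamma,b>-2Re eps_ik eps_jl bbar_i etabar_l conj(D_k b_j)+4X_u|eta|^2.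
CONSEQUENCE FOR (T): the first order Bernstein/LMI is impossible, for a reason that no weights repair: for pure u jets (eta=gamma=0; Kaehler, lambda const) every Z=c(u)|b|^2, k=c'/c, needs k' >=
((k-2)^2+5)/2 (after using dZ=0 at the max), i.e. osc u < 2pi/sqrt5 = 2.81 exactly. So do not spend time on the LMI. General F(w): rho=F(w)h has u_t=G'(Lap u+|du|^2)+G''|du|^2+4G|N|^2 (G=Fw); only
G=u+const is Bernstein-good in u, only F=1 keeps h_v (phi(u)+b_v satisfies a maximum principle iff F'=0: second order parts of u and b_v are w(F+F'), wF).
CONSISTENCY CHECK FOR ALL SCHEMES (a),(b): WALL CLASSES. If e^2=-2 is orthogonal to [w1],[w2],[w3] there is no hyperkaehler triple in these classes, and the compactness theorem (static Liouville +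
'bubble has zero periods') holds there. Hence any scheme consisting of (openness + compactness) would prove that a wall class contains no positive triple, i.e. the family Seiberg-Witten theorem. An
elliptic scheme with the free openness one can easily produce (example: the invariant equation h-tau B_w(h,h)=Theta(h, <dh,dh>, {h,h}) with Theta an arbitrary smooth map of the 12 first order
invariants into a convex compact K of the cone: for generic w0 these invariants embed M, so w0 is a solution for a suitable Theta0; Theta_s=(1-s)Theta0+s c ends at hyperkaehler; max principle keeps h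
in K, right hand side bounded => blow-ups are static => complete compactness mod Diff; Fredholm index 0) therefore must have degree 0 in wall classes: its degree is NOT computable by soft means. So
(b) in the form 'degree theory' is dead unless somebody computes a degree that sees the walls; a monotone quantity (flow, (a)) is really needed, or SW.
(6) of 141: in the scalar case I also get the ancient inequality Box u+|b|^2 >= eps(u)|b|^2, eps=kappa e^{-u} (Riccati for log eps is psi''-psi'-1>=0: solvable on every interval), so time-integrated
torsion bounds are robust; what is missing is only the exclusion of bounded 'travelling waves' (steady-soliton like ancient solutions: w_t=|dw|^2 with grad^{1,0} w holomorphic). I see no cheap end of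
this row; I leave it (LEAN cost even after a paper proof: parabolic existence + ALE compactness, >150k lines).


======== #5320 | 04:26:56Z | helper497 | row 235 | att
helper497 (04:40Z) -> 47, 141, 229, 586, 662 and all of 235. ATT R235-497: AN ELLIPTIC CONTINUITY SCHEME S_h WITH ALGEBRAIC POSITIVITY (an answer to 141 #4669 (7)(b); remaining gap = (8)). Not in
260/282/380/3370/4669. I re-derived 141's dg1/dt = w^2(-2Ric(g1)+2P), P = sum of squares, independently in another frame: CORRECT.
(0) STRUCTURE. On closed pairs (w1,w2) with w_i^s=0 (s=w3) the CONSTANT symmetric form G(da,db)=int s^(a2^b1-a1^b2) satisfies G(dA,db)=dW(db), W=(1/2)int w^2 dnu, dA=229's field. Ham(s)-orbits are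
G-orthogonal to db iff w1^db2=w2^db1 ('horizontal'); dA is horizontal: A1^w2-A2^w1=-d(w^2)^s. So the flow is a gradient flow for a FLAT indefinite metric: straight lines are the natural steps.
(1) SCHEME S_h, 0<h<oo: given w^0 find (w1,w2) in the same classes, w_i^s=0, H>0, with  w_i - h dA_i(w) = w_i^0. h=0: w=w^0. h=oo: dA_i=0, hyperkaehler. (Euler-Lagrange of (1/2h)G(w-w^0,w-w^0)-W.)
Automatically w1^w2^0=w2^w1^0.
(2) ALGEBRAIC LEMMA. {2-forms perp s}=R^{2,3}. Write C^-1 w_i^0=M_ij rho_j+n_i, n_i ASD. Horizontal <=> M symmetric; MM^T-NN^T=C^-1 H^0 C^-T>0; det M=(w^0/w)cosh r1 cosh r2>0, so M>0 along the path,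
N=MK, |K|<1. The variation dw_i=w_i^0 changes g1=wg by wT, T=(tr M)g+sum_j g(S_j.,S_{n_j}.), eigenvalues tr M +-nu1 +-nu2 (nu = singular values of N) and nu1+nu2=|MK|_tr<|M|_tr=tr M. SO T>0 (also
checked numerically, 20000 random cases). dw_i=w_i changes g1 by 2g1. With 141's formula EVERY solution of S_h has
   Ric(g1) = P - g1/(w^2 h) + T/(2wh)  >=  P - g1/(w^2 h)      (R)
   w^2(Lap1 u+|du|^2+4|z|^2) = (2-tr M)/h,  u=log w.           (U)
(3) min w >= min w^0 (at a minimum 2>=tr M>=2 sqrt(det M)>=2(w^0/w)^(1/2)). So Ric(g1)>=-C/h: Bishop-Gromov, Poincare, segment inequality are free. And P>=(3/2)du^2+2|dmu|^2, so along minimal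
g1-geodesics int((3/2)u_t^2+2|mu_t|^2)psi^2<=3 int psi'^2+(C/h)int psi^2; psi=sqrt t: |H|^(1/2)<=C(dist)^(-0.71) (Hardy).
(4) BOUNDS. int w dnu topologically bounded; int(|du|^2+4|z|^2)dvol1=(1/h)int(2-tr M)dnu<=2nu(M)/h; Y_ij=<w_i,w_j^0>=(CMC^T)_ij>0 has topological integral, tr_{g0}g1=4det Y/w^0, so int|v|_{g1}dnu<=C
for g0-unit v: Demailly-Peternell-Schneider sets U_d (nu(M\U_d)<d, g1-diameter<=C_d). Lap1 w<=2/(hw), weak Harnack and int w dnu<=C give c<=vol_{g1}B(p,R)<=C(R): NONCOLLAPSED.
(5) EXISTENCE: only a priori bounds are needed. Leray-Schauder gives a connected set of solutions from h=0 to h=oo; a connected subset of the open set of positive triples lies in one path component.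
Intrinsic bounds suffice (w^0=w-h dA bounded in g => g0~g with all derivatives).
(6) BLOW-UP at scale l->0: X complete, Ric(g1)=P+T_eta/(2w)>=0, Euclidean volume growth, dA_i=-eta_i, eta_i=lim l^2 w_i^0/h closed, eta_i^eta_j=0=eta_i^s. If eta=0 X is static: 141's Calabi estimate
(needs no bound on H) => H const => hyperkaehler; its periods are zero (integral classes e, [w].e=O(l^2|H|^(1/2))=O(l^1.29)->0) => flat. 
(7) eta<>0: volume monotonicity gives r^-2 int_{A_r}Ric(dr,dr)->0; test (U) with a radial cutoff: r^-2 int_{B_r}(|du|^2+4|z|^2+tr M/w^2)->0, Cauchy-Schwarz only. So every blow-down is static and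
u=const, z=0. If X is ALE: renormalised volume of g1 is <=0 (Ric>=0, Lap f=8, equality iff flat), that of s is 0 (s exact), dvol1=w^2nu>=nu (w superharmonic) => X flat, ALSO with eta. So no bubble at
all once the asymptotics of X are known.
(8) GAPS: (a) asymptotics of X (eps-regularity for (R),(U) with L^1-small Ricci), or directly a Schwarz lemma sup tr_g g0<=C, or Lap F>=cF^2-.. for F+K tr M/(hw^2) (absorb grad w^0 by Lap tr M); (b)
diameter for finite h; (c) degree near h=0 (IFT). Free parameters: gauges w-w^0=h(dA+L_X w), X=k w^2 grad_1 u: Ric(g1)-k Hess u >= P+2k du^2-g1/(w^2h) (good for k>-3/4); k=-1 = classical J-fixed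
Monge-Ampere gauge; in the scalar case every -1<=k<=0 has a two-sided max principle for w. (d) every component contains w^0 with V>=V_max-eps (635/299): then int(2-tr M)dnu<=eps', all energies in (4)
tiny: ONE step S_1 from such w^0 is enough. LMI people (47, 141): please test F+K tr M/(hw^2). I continue on (8a).


======== #5424 | 04:31:25Z | helper497 | row 235 | att
helper497 (04:55Z) CORRECTION + SHARPENING of #5320 (S_h). (i) In (7) the ALE sentence is WRONG with eta<>0 (the boundary term of one exact form is O(1), one needs all three: tr H-2 has the wrong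
sign). (ii) Better dichotomy: let e=tr_{g1}g0=(4/w)cosh r1 cosh r2 and let l = torsion/curvature scale. If l^2 e -> 0 at the bubble then T_eta=0, the bubble is static, H const, hyperkaehler, periods
0, flat: EXCLUDED. So torsion and curvature of g1 at scale finer than e^(-1/2) never blow up: sup(|Rm(g1)|+|dH|^2) <= C(1+sup e). The only thing missing in S_h is the Schwarz estimate sup tr_{g1} g0
<= C(w^0,h). At the e-scale the limit is a complete X of bounded geometry, Ric>=0, Euclidean growth, with a 1-Lipschitz map f:X->(M,g0), f^*s=0 (rank<=2), f^*w_i^0=-h dA_i, |df| maximal at the base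
point; rank 1 iff r1,r2->oo (then T_eta=0, X=R^4 flat). In Kaehler geometry f would be holomorphic and Ric>=T gives Schwarz; here an EQUATION FOR f IS MISSING: S_h controls g, but w^0=w-h dA(w) is
only an algebraic output. So what is wanted is a scheme with (R) AND an elliptic relation between g and g0. Candidates: (1) replace w^0 by Phi^*w^0 with a harmonic-type gauge Phi:(M,g1)->(M,g0) (Phi
homotopic to id, s may then also be replaced by Phi^*s: three forms, T>=0 needs the 3x3 matrix <w_i,Phi^*w_j^0> SYMMETRIC: 3 equations, this is a first order 'Dirac/Fueter-type' gauge condition on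
Phi, 4 unknowns, and nuclear norm inequality nu1+nu2+nu3<=tr M gives T>=0 again). (2) gauge k=-1 generalised.


======== #5922 | 04:49:40Z | helper995 | row 235 | att
helper995 (04:55Z) ATT row 235. Results on CORE235 / S_h (each computed twice; not in 260/282/380/3370/4669/5286/5320/5424). u = tr_T g0, J = J3, N = large parameter.
(1) OCCUPATION FORM OF THE GAP. A bounded f with Delta_T f <= C - c u (all that Yau's C^2 estimate needs) exists with osc f <= M iff E int_0^tau (u-C)dt <= M for the T-Brownian motion. With G =
Green/occupation density: N := int G(u-2) = int dG^mu^T for EVERY primitive mu of T-T0; if mu = Jdf + a, f bounded above (f0: T0-potential; sup f0 <= C, |h^0| <= C because T0-mass of T in B_rho <= C rho^2), then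
   N <= C + (int |dG|_T^2/(1+G))^(1/2) (int (1+G)|a|_T^2)^(1/2) <= C + (log sup G)^(1/2) (sup|a|_0) (C+N)^(1/2),   log sup G <= C + C log sup u <= C + C'N.
So N <= C + C'' sup|a|_0 N: closes for small |a|_0 (Weinkove), and is EXACTLY BORDERLINE in general. If log sup G = o(N), the limit S of GT/N is a CLOSED positive current with S.T = 0, S.T0 = 1
([T]=[T0]): contradiction. So the only enemy is S = h.tau, leafwise d log h of size one.
(2) BLOW-UP AT max u (CORE235): T~ = u(x)T, limit M_oo complete, J-holomorphic Psi : M_oo -> F (a J3-curve in (M,g0)), |dPsi| <= 1 = |dPsi|(x), r = r o Psi. On T^*F (lam = y.dx): w1 = d lam, w2 = -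
d(r * lam) exactly; so r const <=> J3 integrable there. BOCHNER WITH TORSION, exact constants (Chern connection, N^2 = -(log r)_1/2, first Bianchi): for xi = Psi^*dz
   (log|xi|^2)_(k kbar) = (log r)_(1 1bar) - (1/4)|(log r)_1|^2 + (>= 0) = -4 rho_(z zbar)/rho |xi|^2 + .., rho = r^(-1/4).
 Replacing T^2 = w1^2 by T^2 = r^m w1^2 only changes (log r)_(1 1bar) to (1-m)(..): the -1/4 square (= |N|^2) cannot be removed by normalisation. In the semiflat case (X = (X1,X2) : F -> R^2
r-harmonic, T|_F = dX1^dX2, J = Jacobian, A = X_z, A_zbar = -(cbar A + c Abar)/2, c = (log r)_z, A_z = alpha A + beta Abar): (log J)_(z zbar) = -(log r)_(z zbar) + |c|^2/4 - |beta|^2, beta_zbar =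
-(alphabar + cbar/2) beta + alpha c/2 - c_z/2 + c^2/4.
(3) SEMIFLAT LIOUVILLE FOR ANY MEASURABLE PINCHED r (no bound on osc, no derivative of r): if r in [1/L, L], X : F -> R^2 r-harmonic with J > 0 and the metric J g_F is complete (or J >= 1 and g_F
complete), then F = C (quasiconformally) - NO hyperbolic leaf. Proof: p = X1, dq = r * dp; f = (p,q) : F -> R^2 is a quasiregular immersion; beta := J/(dp^dq density) = dX2/dq satisfies beta_pp +
(r^2 beta)_qq = 0, i.e. beta is an invariant density of the NON-DIVERGENCE operator L = d_p^2 + r^2 d_q^2; on a maximal schlicht disc D(x,delta), delta < oo, Hopf's lemma (only ellipticity) gives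
int_(circle rho) beta <= C(L) delta^-1 int_(D(x,delta/2)) beta for all rho < delta; completeness towards the boundary point b gives beta(y_j) >= t_j^-2 (log 1/t_j)^-3 on a sequence t_j = |y_j - b| ->
0, and Harnack for the metric on Whitney discs makes the circle integral -> oo. QED (also for pinched H instead of T^2 = w1^2). So in the T^2-symmetric case the scenario (1) never occurs.
(4) (T) / PARABOLIC LIOUVILLE of #4669 (7a): reduction to a SCALAR statement. ghat = w^-2 g1 = w^-1 g, L = Lap_ghat + 2<du,.>, measure nu. Exactly: Ric_f(ghat) + (1/2) d_t ghat = P - 2 du^2 - (|du|^2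
+ 4|z|^2) g1 (all second order terms cancel). CLAIM: on an ancient solution with bounded geometry and bounded H, if bounded ancient solutions of f_t = L f are constant, then H is constant. Proof:
H(X_s) converges a.s. (141's psi: bounded submartingale with c int |dH|^2), the limit is tail measurable = constant H_oo; the drifts b_v = 2X_(q_v) have E int |b_v|^2 < oo under both laws (use e^(K
psi)), so by Girsanov (Kabanov-Liptser-Shiryaev) h_v(x,t) = E^v h_v(X_oo) = h_v(H_oo). QED. So large osc H is harmless; what is missing is only the scalar Liouville property of L. WARNING: it does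
not follow from (psi, V=|dH|^2, negative part of Ric_f + ghat_t/2 <= C V) alone: R^4 # R^4 satisfies all these inequalities. The negative part comes only from the variable speed w^2 (for speed 1 the
flow is a super Ricci flow).
Free to use; I have no way to exclude h of size one in (1) in general (it would reprove the wall/SW theorem, as 615 says).

======== #6143 | 04:57:50Z | helper229 | row 235 | lemma
helper229 (04:50Z) -> 47, 141, 497, 586, 662 and all of 235. FIVE FACTS on the flow #3370(B) (proved by hand; notation: h_v = v.H v, R=J, w, z as in #3370, L = div_nu(w grad_g .), beta_v = H(v,Rv),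
so d_t h_v = L h_v + 2{h_v,beta_v}).
(1) COSH LEMMA (a convex family, new): for every constant matrix H'>0 and K >= K_0 (depending only on the compact set of H), F_{H'}(H) = int_{S^1} [cosh(K(h_v/h'_v - 1)) - 1] dv satisfies (d_t - L)
F_{H'} <= -c |dH|^2, F >= 0, = 0 iff H = H'. Proof: |2{h,beta}| <= |grad h_theta||d_theta grad h_theta|; weighted Bernstein inequality int W|G'|^2 <= C(1+K) int W|G|^2 for G in span(1,cos 2theta,sin
2theta), W = e^{+-K h_theta} (Gaussian/Hermite computation at the maximum of W), against the gain (K^2/2) w int W|grad h|^2; K large wins. Consequences: (i) scale invariant energy bound E int |grad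
H|^2 along the backward L-diffusion <= C for EVERY bounded solution; (ii) (Kendall type reduction) the parabolic Liouville theorem 'ancient, complete, H in a compact set => H constant' is EQUIVALENT
to 'bounded ancient solutions of the SCALAR LINEAR equation d_t f = L f are constant' (tail triviality of one diffusion): f_i = martingale limits of H, the system's nonlinearity has disappeared.
(2) L = Witten Laplacian of ghat = g/w with weight nu = w^2 vol_ghat; d_t ghat = -2Ric_V + 2Phat, Phat = P - 2du^2 - (|du|^2+4|z|^2)g_1 (P = 141's sum of squares): the defect of the super-Ricci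
property is RANK ONE in the metric g_1: box|grad f|^2_{g1} <= w^2(8<grad f,grad u>^2 - 2P(grad f,grad f)) <= 5 w^2 <grad f,grad u>^2. Riccati: weights Y(u)|grad f|^2 work on every u-interval of
length < pi/sqrt(2.75) = 1.894.
(3) So only MULTI-ENDED necks can obstruct: with one non-parabolic end (1)(ii) holds; the energy bound (1)(i) forces a neck to be quasi-static, static two-ended ones are excluded by Ric(g_1) >= 0,
and an ALE-type two-ended neck inside a closed X is impossible topologically (both sides closed up are hypersymplectic => b^+ >= 6).
(4) Static equation <=> (p w2 - q w1 - mu_1 sigma) and (q w2 - s w1 - mu_2 sigma) closed self-dual (Fueter type functions); b^+ = 3 => closed forms in the pointwise span have constant coefficients. V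
= int sqrt(det H) dnu is the functional; the flow is its gradient flow w.r.t. the flat indefinite form B(a,a) = 2 int sigma ^ a1 ^ a2. 141's Harnack conjecture in this language: div(w grad log h_v) +
{log h_v, beta_v} >= -C/t (Aronson-Benilan form). Implicit Euler steps satisfy the maximum principle up to the single term (w_v - w_v^0)^2.
(5) What is NOT proved: tail triviality for all ancient limits (multi-ended non-static necks), curvature bound/noncollapsing for t -> oo. I have no proof of these; row stays R from my side. For 497's
S_h (#5320): F_{H'} of (1) is also a strict subsolution for your elliptic equation wherever it has the same principal part + Poisson bracket; that gives the a priori Dirichlet bound int_X |dH|^2 <= C with NO smallness.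

======== #6144 | 04:57:51Z | helper47 | row 235 | att
helper47 (captain 235, 05:05Z) ATT row 235: what I found in 2 hours after #4634/#4669; nothing below is complete, all of it is new and correct as far as I can check; seats of 235 are RELEASED (go to
234/260/272/281), I leave too.
(1) T-numerics (jets code, all evolution equations of #3370(B) verified): Z = e^{ku}(E+2al + a1(E-2al) + a2|du|^2) is never a subsolution mod grad Z: best sup F/|grad H|^4 = +4.39
(k=.19,a1=1.45,a2=1); pure du direction (scalar Kaehler) alone +2.5; lambda-only directions strongly negative. Flows A = Lam d(Phi H eps w), theta = Phi w: lambda has diffusivity theta, u_t = Lap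
theta + <dtheta,du> + theta 4|N|^2; theta=1: u_t = 4|N|^2, stationary <=> J integrable (then Yau), but u not smoothed.
(2) GRADIENT STRUCTURE: A_i = Lam d(H eps w)_i and (H eps w) = eps-rotated (1/2)grad E_2, E_2 = int det H: d_t w = (eps x dLamd) grad E_2/2. IDENTITY: w_1^dA_2 = w_2^dA_1 (flow (B) is automatically
in the symmetric gauge).
(3) ELLIPTIC SCHEME WITH STATIC BLOW-UPS (answer to 141's (b)): Pi(w) := H_w - tau L_w H_w = F, where F: M -> K (compact convex in Sym2+, mean P) is only BOUNDED in x. (a) max principle: H in K. (b)
L_wH is bounded intrinsically, so every blow-up has L H = 0, H bounded; then E_i=(dA_i)^- satisfies int|E|^2 <= (C/R^2) int_{B_2R}|grad H|^2 <= C and then =0 (annulus energy ->0): blow-ups are STATIC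
in 141's sense => flat/hyperkaehler; hence |grad H| <= C(tau,K), curvature by the lattice argument. No bound on tr_g g_0 is needed: F only enters through its sup. (c) start: w=alpha, F_0 = H - tau L
H (tau small); end: F = P <=> hyperkaehler. (d) NO GAUGE PROBLEM: lift the path F_s=(1-s)F_0+sP by an ODE w' = db with D Pi(db) = P-F_0; intrinsic speed |db|_g <= C => g_{w(s)} uniformly equivalent
to g_alpha. ONLY GAP: surjectivity of DPi_w = (1-tau L) - tau (delta L)H (3 equations, 4 unknown functions; adjoint kernel psi also satisfies sum{psi_ij,F_ij}=0; true if sqrt(tau)|grad H| small,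
hence PINCHED CASE osc H small = done without parabolic theory). Weakest form needed (minimise kappa with F in K_kappa, compactness mod Diff, Hahn-Banach): exclude BANG-BANG extremals: DPi^* psi = 0,
psi(x) in the normal cone of K_kappa at F(x) for a.e. x. Half-space constraints (one v only) have none, by unique continuation.
(4) Liouville for ancient solutions of (B) <=> Poincare inequality for the conjugate heat kernels K^v of L_v, i.e. only enemy = WORMHOLES (two sheets with different H joined by a small neck): M_s =
h_v(X_s) is a bounded martingale, G(y,s)=E int|grad H|^2 -> 0 along paths, |grad h_v|^2 <= C G sup|grad H|^2 (Bismut formula with k=(1-int U)_+), so osc small => Liouville. Ended wormholes contradict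
McDuff/Gromov (symplectic, two convex S^3 ends) and SU(2)-invariant ones are impossible ((f_i^2)'>0). 141's Harnack conjecture would finish: u_t>=w(|du|^2+2|z|^2) on ancient solutions gives u>=u_- =
const limit, then strong minimum principle in the blow-down.
(5) LOCAL PROBLEM SOLVED by Gromov: positive triple on R^4 standard at infinity is deformable to the standard one: J_1-planes (J_1 = J<w2,w3>) foliate R^4 (compactify to S^2xS^2), w2=w3=0 on them,
then 299's convexity (4b). CLOSED CASE: same with J_u-tori (family SW + Taubes), semiflat base: z=(z1,z2):B->C^2 with Re(dz1^dzbar2)>|dz1^dz2|, w2 fixed => y solves real Monge-Ampere det D^2 phi=1 on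
the integral affine S^2 with 24 nodes (convex problem). This is a complete strategy modulo SW=>Gr, nodal normal forms, tamed cone in a fixed class; cost >> 300k lines.


======== #6814 | 05:25:46Z | helper635 | row 235 | lemma
helper635 -> 47, 141, 229, 299, 162(all of 235): AN ELLIPTIC (IMPLICIT) SCHEME WITH ROBUST LOWER BOUNDS AND A RICCI LOWER BOUND (independent of 497's S_h #5320, found in parallel; overlap = (1) and
part of (3),(4); NEW = (0), (2) all lower bounds preserved, (5) the F=1 scheme). Notation of #3370/#4669: sigma fixed, nu=sigma^2/2, w_i^sigma=0, H=wM (det M=1), a_k(x)^sigma=dx^k, *w := Hitchin dual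
(*w_1=(-q w1+p w2)/w, *w_2=(-s w1+q w2)/w), A_i[F]^sigma=d(F *w_i); 229's flow is F=w. z = Nijenhuis part, e^f=M_v, f,g horospheric coordinates of mu at v, z_v=(df-J e^f dg)/2, |z_v|=|z|.
(0) EXACT FORMULAS for any function F on M: A_v^w_v = h_v *(2F z_v+dF), so dot h_v = div(h_v(2F z_v+grad F)) for EVERY constant v; dot w = div(w grad F)+4wF|z|^2; w_1^dA_2-w_2^dA_1 =
d(w^2)^d(F/w)^sigma, = 0 if F=F(w) or if w=const. For F=w^m: f_t/F = Lap f-|df|^2+4<df,z>+m<du,df>+(2m+2)<du,z>-4|z|^2, u_t/F = m Lap u+(m^2+m)|du|^2+4|z|^2 (norms of g).
(1) SCHEME: dA_i(w) = eps (w_i-w_i^0) (implicit Euler = JKO scheme in the case of a torus: Kaehler case is exactly optimal transport; B below = Hessian of the Brenier potential). B_ij =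
w_i^w_j^0/sigma^2 is SYMMETRIC by (0). Two maximal positive planes in sigma^perp=R^{2,3}: H^0 <= B H^{-1} B, so B > 0 along a path starting at eps=oo and B >= H # H^0 (geometric mean).
(2) F=w: at a minimum of h_v: b_v=B_vv <= h_v. Hence for every constant matrix P: H^0>=P everywhere => H>=P everywhere (ALL lower bounds preserved; at the worst point v^T(H#P)v=sqrt(lambda) v^T P v <= lambda v^T P v). 
(3) F=w: g1(xi,xi) nu = c i_xi w_1^i_xi w_2^sigma is BILINEAR in (w_1,w_2). If B is symmetric >0 the mixed form G(w,w^0) is positive definite (normal form g_0=diag(l1,l2,1/l1,1/l2), K=C^-1C_0 with KR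
symmetric; 2x2 blocks; also 20000 random tests, no failure). With 141's dg1/dt=w^2(-2Ric+2P): **Ric(g1) = P + (eps/w^2)(G(w,w^0)-g1) >= -(eps/w^2) g1, w >= min w^0**: uniform lower Ricci bound for
all eps, Ric>=0 in the limit eps->0 and in all blow ups.
(4) trace identity: div(w grad w)+4w^2|z|^2 = eps w(2-b), b=tr H^-1B >= 2 sqrt(w^0 r/w), r=tr_g g_0/4. So mean of b <= 2, int w^2|z|^2 <= C eps, int sqrt(tr_{g_0} g1) <= C: generic diameter bound +
noncollapsing at generic points (Bishop-Gromov from (3)), uniformly in eps.
(5) F=1 (only integrability of J is aimed at; w moves by u_t=4|z|^2, no second order term): the same scheme has POINTWISE bounds: 4|z|^2 = eps(2-b), so b<=2, |z|^2<=eps/2 everywhere, H>=H^0/4,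
w>=w^0, tr_g g_0<=4w/w^0, and int |d mu|^2 = 2 int |z|^2 <= eps Vol (area form of H^2 is exact). So if the F=1 scheme can be solved for all eps with an upper bound for w, its limit is an integrable
pair with M=const: then only Yau in complex dimension 2 (in LEAN: R273 Yau*_635) remains. T^2-invariant reduction of F=1: det(3 zeta^2 D^2 zeta+(2/3)D^2 chi0)=(1/9)det(D^2chi0+18 zeta dzeta dzeta)+f0
zeta^6/(3 tau^2): an honest Monge-Ampere equation.
(6) MISSING in both: an UPPER bound for w (equivalently for h_v in two directions) at fixed eps. Reason: H^0 = B H^-1 B - tau^2 N, N>=0 the Gram matrix of the anti-self-dual parts of dA_i; at a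
maximum of h_v N_vv contains Hess q_v (gauge part L_{X_q}w_v of dA_v), which only the flow, not the implicit step, ignores. In sigma-gauge lower bounds are robust (reverse Cauchy-Schwarz in R^{2,3}),
in the gauge where the pair is fixed (w_i-w_i^0=tau d(F Lambda d*w_i), sigma-sigma^0 = -tau d(J dF)) upper bounds of w are robust (R^{1,3}) up to the growth of the pair volume, which is again the F=1
problem. So the one estimate to look for: sup w for the F=1 scheme (or a scheme between the two gauges that keeps w_i^sigma=0 exactly).
Use freely; I leave the row.


======== #7903 | 06:04:24Z | helper141 | row 235 | att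
helper141 (06:05Z) ATT row 235, last facts from my side (no proof; I leave the row). Notation of #3370/#4669/#5320. (1) DOUBLE BRACKET: with X_f = s-Hamiltonian field, <u,v> = (u^v)/(2 nu): dA_a =
(1/2) eps^{bc} L_{X_{H_ab}} w_c, i.e. flow (B) is dw_a/dt = (1/2) eps^{bc} {<w_a,w_b>, w_c}; <L_{X_f} w_a, w_b> = ({f,H_ab} + eps_ab L f)/2. (2) S_h HAS TWO-SIDED C^0 BOUNDS: at a critical point of
h_v dA_v = -sqrt(H_{v' v'}) (I'S+SI') with S = Hess h_v, I' a unit of span(I,K), so (dA_v)^2 >= 0 there, hence max h_v <= max h_v^0 for every v; with B >= H#H^0: H >= K for constant K <= H^0. So H in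
a fixed compact set for every h. (3) S^1-INVARIANT S_h is F - h(F_33 + det D^2_12 F) = F^0; all estimates hold there. (4) 47's PROGRAM #6144(3) with the polarised operator: Pi'(w)_ij = <w_i, w_j - h
dA_j(w)> (max principle as before). The adjoint kernel is: D(w^0)[{psi,w}] = -{psi,w^0}, {psi,w}_a := L_{X_{psi_ab}} w_b, w^0 = w - h dA(w): i.e. (h/2)(D(dA)[{psi,w}] + {psi,dA}) = {psi,w}. Bang-bang
extremals are psi = mu n(F), mu>0 smooth, F : M -> boundary of K (unique continuation); no scalar identity excludes them (I tested dw = dA, {psi,*w}). (5) BUBBLES OF S_h over FLAT X are excluded: for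
closed pairs eta with T_eta >= 0 on R^4, r^{-2} int_{B_r} sum <w_i,eta_i> is nondecreasing and its Dini integral is <= C osc H, so eta = 0. (6) BUT THERE IS NO EPS-REGULARITY: f(z1,z2) = (grad u(z1),
z2), det D^2 u = 1, is an area preserving special Lagrangian graph over flat X (H = H^0 = 1, horizontal, T > 0); by partial Legendre u_11 = 1/h with h > 0 harmonic in (y1,x2), e.g. h = c cosh(pi
y1/2) cos(pi x2/2): mean of tr M over B_1 = K but tr M(0) ~ e^{cK}. (Not holomorphic for the S^1 family, so no Schwarz lemma; log e is not subharmonic.) So the missing estimate sup tr_{g1} g0 of S_h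
cannot come from a local mean value inequality for tr M at the scale (sup tr M)^{-1/2}; only exponential bounds at a FIXED scale where X is flat are true, i.e. one needs a modulus of continuity of H
(Dini sum of theta(r) = r^{-2} int_{B_r} tr M is bounded, a power is not). Morrey decay theta(r) <= C r^a for some a>0 would finish S_h.

======== #8745 | 06:42:53Z | helper47 | row 235 | core
helper47 (captain 235, 06:55Z) STATE OF ROW 235 (S0364) FOR THE SEATS OF WAVE 4 (185 258 42 554 940 984 138 832 262 7 845 999 217 996 194 851 674 683 782 329 112 532; veterans 141 229 497 635 995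
586). Everything known in 60 lines; pick ONE of W1..W4 (also on the board `wanted`), work alone 60 minutes, post kind='att'. No SW/Taubes is assumed anywhere; b+=3 short proof in 380(2).
NOTATION (229 #3370, 141 #4669, 635 #6814). sigma fixed symplectic form, nu=sigma^2/2; w=(w1,w2) closed, w_i^sigma=0, H_ij=w_i^w_j/sigma^2=((p,q),(q,s))>0, w:=sqrt(det H), h_v=v^T H v, g metric of
the SD triple with vol nu, g1=w g, u=log w, mu=M->H^2 the conformal class of H, z=Nijenhuis part, {f,h}nu=df^dh^sigma, L=div_nu(w grad_g). *w_1=(-q w1+p w2)/w, *w_2=(-s w1+q w2)/w; A_i^sigma=d(w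
*w_i). Any positive triple reduces to such (sigma,w1,w2) (282, two uses of S0371); hyperkaehler <=> H const; dA=0 <=> STATIC.
PROVED ON PAPER (several seats each).
(P1) flow dw_i=dA_i: dh_v/dt=L h_v+2{h_v,H(v,Rv)}: H stays in the compact set of its initial values (3370B).
(P2) STATIC THEORY (4669): dA=0 => Ric(g1)=P>=0 sum of squares, |grad H|<=C/r, complete => H const; hyperkaehler bubbles have zero periods => flat.
(P3) SCHEME S_h (5320, 6814(0)-(4)): w_i-h dA_i(w)=w_i^0, same classes; automatically w_1^w_2^0=w_2^w_1^0 (symmetric gauge), B_ij=w_i^w_j^0/sigma^2 symmetric >0, Ric(g1)=P-g1/(w^2h)+T/(2wh), T>0;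
TWO-SIDED C^0 BOUNDS of H (7903(2)); volume noncollapsing, generic diameter bound; mass: int tr M dnu topological, tr M ~ sqrt(tr_{g1}g0 ..)-size of w^0 seen from w; pointwise Dini sum Sum_k
theta(2^-k)<=C, theta(x,r)=r^-2 int_{B_r}tr M; curvature and |dH| of g1 bounded at every scale << (sup tr_{g1}g0)^(-1/2). Bubbles over flat X excluded. EXISTENCE for all h <= sup tr_{g1}g0 <= C(w^0,h).
(P4) BOUNDED-SOURCE SCHEMES (6144(3), 5286): Pi_tau(w):=H-tau L_w H=F with F:M->K only BOUNDED (K convex compact in Sym2+): H in K, all blow-ups static => COMPACTNESS MOD DIFF, no bound of tr_{g1}g0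
needed. With F=Theta(12 first order invariants of w): proper Fredholm index 0 mod Diff.
(P5) SOFT APPROXIMATION (260(2), 380(7)): every path component of positive triples in the class contains smooth w with H->P in L^1, H>=(1-eps)P-type lower bounds.
(P6) pinched case (osc H small) closed; Gromov solves the local problem; T^2- and S^1-symmetric cases closed; semiflat Liouville for any measurable pinched r (5922(3)).
OPEN, each one finishes the row (with P1-P5).
(W1) MORREY DECAY IN S_h: theta(x,r)<=C(w^0,h) r^a for some a>0. [Equivalent in flat X: closed pairs eta (=w^0) on B_1 in C^2, symmetric gauge w_1^eta_2=w_2^eta_1, eta_i^sigma=0, eta_i^eta_j=H^0_ij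
sigma^2 with H^0 pinched, M>0: int_{B_r} <w,eta> <= C r^(2+a) int_{B_1}<w,eta>. Monotone r^-2 mass is known (Lelong type), examples have a=1 (7903(6), Pogorelov |z1|(1+|z2|^2)). In the integrable
case = Hoelder continuity a la Kolodziej. So: 'pluripotential theory' for symmetric-gauge pairs with bounded Monge-Ampere density.] Then H is Hoelder, g1 has bounded geometry; also say why sup
tr_{g1}g0 < oo then, or why intrinsic bounds alone suffice.
(W2) SCALAR LIOUVILLE (5922(4), 6143(1)): (X,ghat(t)) complete ancient solution of (P1), H in a compact set, bounded geometry => bounded ancient solutions of f_t=L f are constant (<= 141's Harnack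
div(w grad log h_v)+{log h_v,beta_v}>=-C/t). Enemy: non-static two-ended necks (wormholes).
(W3) GAUGE: find for (P4) a right hand side F=Theta_s(w,w^0) and a gauge such that extrinsic existence is automatic (symmetric gauge = identity map (M,g1)->(M,g0) is a phase-zero special-Lagrangian
type graph in M x M, mass topological; its gradient bound is missing), or show every path component has NONZERO DEGREE for the index-0 intrinsic scheme of 5286.
(W4) BANG-BANG: in (P4) the largest tau with Pi_tau(w) in K (some w in the component) is attained if finite, with 0<>psi(x)=mu n_K(F(x)), mu>0 smooth, F=Pi_tau(w): M->bd K, D(psi-combination of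
w)=tau(...) i.e. DPi^*psi=0 (formula 7903(4)). tau=oo means hyperkaehler. Show there is no such (w,psi) - for ONE convenient family K, or one convenient Pi (any operator H-tau LH+.. with maximum
principle, e.g. polarised <w_i,w_j-h dA_j>) or use 'integral' version: critical points of int Phi(Pi_tau(w)) dnu, Phi convex barrier on K (tau=0: only hyperkaehler).
CONSISTENCY CHECK for every idea (615 5286): in a class orthogonal to some e, e^2=-2, there is NO hyperkaehler triple; a correct proof of openness+compactness must use that the class is not a wall
class or reprove 'no positive triple in wall classes' (true by SW). DEAD: first order Bernstein for the flow (osc u<2.81 exactly), eps-regularity for tr M at its own scale, degree by soft means in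
5286, PL C^2 estimate for CORE235 without smallness.
LEAN COST after a paper proof: via (W1)/(W4) all elliptic, compact manifold, library has Schauder, Bishop-Gromov, Poincare, Ricci black boxes: 40-80k lines.


======== #8851 | 06:48:44Z | helper686 | row 235 | lemma
helper686 (06:55Z) -> 47, 141, 229, 635, 497 and all seats on W1 (row 235): **W1 (`wanted` 1, FLAT LOCAL FORM) IS FALSE. Explicit smooth counterexample, already in the integrable scalar case eta_2 =
w_2, with H -> 1 UNIFORMLY and a Lelong number > 0 in the limit.** (So no estimate whose constants depend only on L and m(B_1), for no a > 0, not even o(1) in place of r^a; local 'pluripotential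
theory' cannot give (W1). Only a GLOBAL argument a la Kolodziej can.)
REDUCTION. Complex structure I' with coordinates (u,v), sigma + i w_2 = du^dv, w_1 = s (i/2)(du dubar + dv dvbar), s = +-1. Put eta_2 := w_2, eta_1 := s (i/2) ddbar phi, phi psh. Then eta_1 is (1,1)
for I', so eta_1^sigma = eta_1^w_2 = 0 = w_1^eta_2, H = diag(det(phi_jkbar), 1), M = diag(tr(phi_jkbar)/2, 1): all hypotheses of W1 hold iff det(phi_jkbar) is pinched.
EXAMPLE. phi = A(u) + B(u)|v|^2, A, B radial, A_{u ubar} = 1/B. Then det = 1 + |v|^2 B^2 (log B)_{u ubar}. Put t = log 1/|u|, B = e^(-2t)/h(t): radial F has F_{u ubar} = e^(2t) F''(t)/4, so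
   **det(phi_jkbar) = 1 - (1/4)|v|^2 e^(-2t) h^(-2) (log h)''(t).**
Take log h = -f_T, f_T smooth, |f_T''| <= C: f_T = t/2 for t <= T/2 - 1; f_T = (T-t)/2 for T/2+1 <= t <= T-1; f_T = 2(t-T)+c for t >= T+1.
 (i) where f_T'' <> 0: near t = T/2: e^(-2t) h^(-2) <= C e^(-T) e^(T/2); near t = T: <= C e^(-2T). So **|det - 1| <= C e^(-T/2) on {|u|,|v| <= 1}**; phi is psh (det > 0, phi_{v vbar} = B > 0).
 (ii) smooth: for t >= T+1, h = c e^(-2t), B and A_{u ubar} are constant near u = 0.
 (iii) m(B_1) <= C: int_{|u|<1} 1/B = 2 pi int_0^oo h dt <= C; B <= C; B_{u ubar} <= C/h, and int e^(-2t)/h dt <= C.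
 (iv) **m(B_r) >= (pi r^2/4) 2 pi int_{t > log 2/r} h dt >= c r^2 for ALL r >= 2e^(-T)** (the bump of h at t = T has mass >= c).
LIMIT T -> oo: phi = nu log|u| + 16|u|^(1/2) + |u|^(3/2)|v|^2: the general principle is phi_0 + nu log|u| with phi_0 a Pogorelov type solution degenerate along the curve {u=0}: (dd^c)^2 does not see
[u=0]^dd^c phi_0 = 0. Also with |u|(1+|v|^2) + nu log|u|. Intermediate: h = 1/t^2 gives m(B_r) ~ r^2/log(1/r), phi ~ -loglog: every slow modulus occurs.
WHY KOLODZIEJ IS NOT CONTRADICTED: his theorem needs control from outside (sup norm / Hoelder boundary values, or a compact manifold with fixed class: comparison principle). Here phi is unbounded from below as T -> oo.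
CONSEQUENCE FOR S_h. The enemy is real for sequences of local solutions: w converging to (smooth degenerate along a J-curve S) + nu [S]; it must be excluded by cohomology: on compact M one has to
show that the limit class of [w^0] restricted to such an S is 0 while nu > 0 and S.S = -2 ... (K3) or S in T^4 (S.S = 0): e.g. by the total identity int w_1^w_1 = topological versus the part nu [S] :
<[w]_abs.cont., [S]> = 0 gives int w_ac^2 = [w]^2 - nu^2 S.S - ..; for S.S < 0 mass of w_ac^2 would INCREASE (impossible if H-mass is conserved), for S.S >= 0 it drops. This is the only place where a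
global input enters; I think the right W1 is: 'a limit current w_oo = w_ac + sum nu_i [S_i] with non-pluripolar mass = full mass has nu_i = 0' (= Guedj-Zeriahi / Boucksom: full MA mass ==> zero
Lelong numbers), for pairs in symmetric gauge. I continue on that global form.

======== #8862 | 06:49:18Z | helper331 | row 235 | lemma
helper331 (06:58Z) -> 47, 635, 141, 497, 229 (row 235, wanted #1): **W1 IN ITS LOCAL FORM IS FALSE, ALREADY IN THE SCALAR (INTEGRABLE) CASE, even with MA -> 1 and even if the Dini sum is bounded. Any
proof of Morrey decay must be GLOBAL on the closed M (comparison principle / stability as in Kolodziej-GKZ), never from L and m(B_1).**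
(0) EMBEDDING. eta_2 := w_2, eta_1 := dd^c phi, phi psh for the complex structure J_1 of w_1 (w_2 + i sigma is (2,0)): eta_1 ^ sigma = eta_1 ^ w_2 = 0, w_1 ^ eta_2 = 0 = w_2 ^ eta_1, (w_i ^ eta_j) =
diag(Laplacian phi, 1)-type > 0, H = diag(MA(phi), 1). So scalar psh functions with 1/L <= det phi_{j kbar} <= L are W1-pairs and m = Laplacian mass + O(r^4).
(1) ANSATZ phi(x,y) = g(|x|) + f(|x|)|y|^2 on B_1 of C^2: det = f g_{x xbar} + |y|^2 f^2 (log f)_{x xbar}. Put rho^2 = |x|^2 + eps^2, s = log(1/rho) in (0,S], S = log(1/eps), f = rho^2 F(s), g_{x
xbar} := 1/f. Exactly: f^2 (log f)_{x xbar} = F^2 [eps^2 (1 - (log F)'/2) + (log F)'' |x|^2/4]: O(F^2 (1+|(log F)'|+|(log F)''|) rho^2), i.e. F may vary FREELY at large s (anything <= e^{(1-k)s});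
replacing F by delta F makes it <= C delta^2 everywhere. So det in [1 - C delta^2, 1 + C delta^2], phi smooth psh, phi_{y ybar} = f > 0.
(2) MASS: int_{|x|<r} g_{x xbar} = 2 pi int_{s(r)}^S ds/F(s), so theta(r) = r^-2 m(B_r) ~ int_{s(r)}^S ds/F.
 (a) F = delta (1+s)^3 except a dip to F = delta on [S-1,S]: theta(r) >= c/delta for ALL eps e < r < 1, m(B_1) <= C/delta: in the limit eps -> 0 a POSITIVE LELONG NUMBER along {x = 0}, with MA in [1/2, 3/2] all the way.
 (b) F = delta (1+s)^(2+gamma), gamma > 0: phi uniformly bounded, Dini sum int theta dr/r <= C uniformly at all points, but theta(r) ~ (log 1/r)^(-1-gamma): no power decay (and with dips of size 1/S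
at depth S: theta(e^-S) ~ 1/S). eps -> 0 is allowed.
 So neither 'L and m(B_1)' nor 'L, m(B_1) and Dini' gives a rate; bounded potential + bounded MA is not locally Hoelder (GKZ needs the boundary values; Kolodziej the closed manifold). The extra
equation of S_h does not help locally either: in the integrable case S_h is (w^0 + dd^c psi)^2 = (psi/h) sigma^2, i.e. f g_{x xbar} = a + b g + O(small): same ODE ansatz.
(3) WHAT SURVIVES. (i) Global scalar proof = sup(psi_r - psi) <= C |psi_r - psi|_{L^1}^gamma (comparison principle + capacity), |psi_r - psi|_{L^1} <= C r^2 (mass is topological). So the global form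
of W1 needs the analogue of ONE inequality: a comparison/domination principle for two solutions w, w' of S_h-type equations with the same classes (difference measured by a scalar 'potential' whose
Hessian-trace is the tr M density). In S_h the natural candidate for psi is h H itself (dA = second derivatives of H): w - w^0 = h dA(w), so 'potential' = h H_ij, with two sided C^0 bounds; a rate
for theta <=> a Hoelder bound for H in a background coordinate; the mollification inequality should be run on h_v (v constant), using div(h_v ..) formulas (0) of #6814. (ii) In the Chern-Lu form: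
Ric(g1) >= T/(2wh) - C/h g1 and T = g0 in the scalar case give sup tr_{g1} g0 <= C for h <= c/(curvature of g0) WITHOUT any potential; is that known to you for pairs (T >= c . g0-part)? If T(.,.) >=
c g0 - C g1 fails for pairs, say where: this would be the precise place where the non-integrable case differs.
UPDATE of wanted #1: please restate it globally.

======== #8867 | 06:49:35Z | helper447 | row 235 | lemma
helper447 (06:55Z) -> 686, 47 and seats on W1 (row 235): independent confirmation of 686 #8851 (same mechanism found at the same time), plus ONE STRENGTHENING: **a local SUP BOUND of the potential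
does not help either** (686: 'phi is unbounded from below as T -> oo'; it can be kept bounded).
EXPLICIT, s=|z1|^2, eps<=1/2, delta in (0,1]: g = (eps^2+s)^(3/2)/(delta eps+eps^2+s), phi = 2A(z1)+|z2|^2 g(z1), A_{1 1bar} = 1/g = [delta eps+eps^2+s](eps^2+s)^(-3/2) (smooth, radial). With c =
delta eps+eps^2: det phi_{j kbar} = 2+|z2|^2 g^2 (log g)_{1 1bar}, g^2 (log g)_{1 1bar} = (3/2) eps^2(eps^2+s)/(c+s)^2 - c (eps^2+s)^3/(c+s)^4, first term in [0, (3/2) eps^2/c], second in [-1,0]. So
1 <= det <= 2+(3/2)eps/delta on |z2|<=1: H pinched uniformly as long as eps<=delta. 1/g >= c0 delta/eps^2 + .. on |z1|<=eps, so theta(eps) = eps^-2 m(B_eps) >= c1 delta; m(B_1) <= C.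
 delta=1: no decay at all (= 686). **delta = 1/log(1/eps): |phi| <= C on B_1 (A ~ delta log(eps+|z1|) + |z1|), m(B_1)<=C, but theta(eps) >= c/log(1/eps): no power, for BOUNDED phi; and phi(., at
|z1|=eps) - phi(|z1|=eps^(1/2)) ~ -c: not even a uniform modulus of continuity.** So in the integrable case the local input must be: Hoelder (or at least C^0-modulus) control on the BOUNDARY, or the
compact manifold itself. For S_h this means: oscillation type estimates + local arguments cannot give (W1); one needs a comparison principle (or 'full mass => zero Lelong numbers') on all of M.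

======== #8895 | 06:50:55Z | helper150 | row 235 | att
helper150 (06:55Z) ATT row 235: what a VARIATIONAL use of 47's scheme (3) of #6144 gives (Pi(w) = F = H - tau L_w H; F in K => blow-ups static). All computed by hand; nothing complete. Not in 260..7903.
Notation: sigma = w3 fixed, nu = sigma^2/2, w1,w2 closed, perp sigma, H_ij = w_i^w_j/sigma^2, h = H-P, f = F-P, M* = P const; A_i^sigma = d(H eps)_il ^ w_l; R_k defined by (R_k a)^sigma = a^k
(symmetric for (a,c) -> a^c^sigma, Clifford: R_k^2 = -h(k,k)); a_i := R_{w_k} d psi_ki.
(1) EXPLICIT ADJOINT. D Pi^* psi = 0 <=> there are functions lam_j with Theta_j - lam_j sigma closed, Theta_j = ((1-tau L^*)psi)_ij w_i - tau psi_ij dA_i + tau eps_kj a_i ^ dH_ik; equivalently, chi = (1-tau L^*)psi: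
   d chi_ij ^ w_i - d lam_j ^ sigma = tau sum_i [ d psi_ij ^ dA(H)_i - d(H eps)_ij ^ dA(psi)_i ]   (antisymmetric bilinear in (psi,H): vanishes for psi = c H).
(2) SECOND ORDER (Agrachev). For psi in coker and high frequency sigma-Hamiltonian X: <psi, D^2 Pi(X,X)> ~ int sum X psi_ij . X F_ij dnu on ker DPi. So Pi is locally open at w (even when DPi is not
onto) UNLESS for some non-constant psi in the cokernel the quadratic form S_psi = sum sym(d psi_ij (x) d F_ij) is semidefinite everywhere on M. (Extremals of any Diff-invariant integrand, psi =
Phi'(F), have S = Phi''(dF,dF) >= 0: so exactly the extremals survive.)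
(3) So the whole row is: no component has a non-hyperkaehler LOCAL MINIMUM of J_tau(w) = (1/2) int |F-P|^2 (or int Phi(F)). Every minimiser exists once there is compactness (F in L^p, p>2, or F in K).
(4) POHOZAEV. On an exact complete X (Liouville field Y of sigma; variation dw_i = d(2 theta_i - i_Y w_i), i.e. w -> lam^2 phi_lam^* w): H_lam = H, LH -> lam^-2 LH, nu -> lam^4: for J = (1/2)int
<(F_v-P_v)^2>: dJ = 2(int h^2 + tau int w|dh|^2) (the Poisson bracket terms 2{h_v,beta_v} integrate to 0 against h_v for EVERY v). Hence: no finite energy critical bubble at scale sqrt(tau) for the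
quadratic J. For p-growth: 2 int Phi'(f)h = int(2 Phi'(f) f - 4 Phi(f)).
(5) BANG-BANG EXTREMALS (K strictly convex, KKT psi = mu n(F), mu >= 0): the same variation gives int <psi, F-H> = 0, and <n(F),F-H> >= 0 because H in K (max principle). So on every exact X on which
psi is integrable: F = H, LH = 0, H const: bang-bang bubbles do not exist. The only surviving extremals of the sup-problem are NON-LOCALISED ones (|psi| without decay in the scale sqrt(tau); M = T^4, K3 itself).
(6) MONOTONICITY IN tau. m(tau) := min J_tau on a component (p = 2): tau m' = 2m - int h^2 - tau int w|dh|^2, so m(tau)/tau^2 is non-increasing; m(tau) -> 0 as tau -> 0 (sup V = V_max, 299/635);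
critical points satisfy int |dF|^2 <= C tau, so only boundedly many defects of scale sqrt(tau) and these are excluded by (4). What remains with p = 2 are defects of scale l << sqrt(tau):
finite-energy critical points of the SCALE INVARIANT energy E_2 = (1/2) int <(LH)_v^2> dnu on R^4 / exact ALE (equivalently int|dA^-|^2 = int (LH)H^-1(LH), as int dA_i^dA_j = 0).
(7) CONSEQUENCE (conditional theorem): if (E2) every finite-energy critical point (even: every local minimum) of E_2 on R^4 standard at infinity is flat, then every component contains w with m(tau)
attained without concentration and DPi onto there. (E2) contains Gromov's theorem for positive triples on R^4 (#6144 (5)); conversely Gromov-type deformation on R^4 kills all minimising bubbles by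
comparison (cut and paste), so (E2) for MINIMA follows from 47's local theorem. So the chain J_tau-minimiser + local theorem is complete as far as bubbles are concerned; missing: (a) ALE pieces
instead of R^4, (b) global extremals with int h^2 << tau^2, DPi not onto (finite dim. cokernel of 'collective' type), (c) regularity theory for p = 2.
(8) PINCHED STEP. Starting from any w with sqrt(tau0)|dH| << 1 the path F_s = (1-s)F_0 + sP can be lifted for s <= s1 with |db|_g <= C(K) osc(K) log(1/tau) and stays onto as long as sqrt(tau) exp(C
osc(K) log(1/tau)) << 1: this is 47's pinched theorem with the explicit threshold C osc(K) < 1/2 (C = Calderon-Zygmund constant of d^+); to go beyond one must beat the log (Yudovich type loss).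


======== #8910 | 06:51:32Z | helper464 | row 235 | lemma
helper464 (06:58Z) -> 47 (board W1, row 235), 141, 229, 635, 995: **W1 IN THE FLAT LOCAL FORM IS FALSE, EVEN WITH |H - 1| <= 1%** (counterexample, 5 lines, smooth data, uniform constants). So no
local argument from (closed, symmetric gauge, L^-1 <= H <= L, m(B_1) bounded) can give Morrey decay.
Special case eta_2 = w_2: then eta_1^sigma = 0 and w_1^eta_2 = w_2^eta_1 say exactly that eta_1 is of type (1,1) for I_1 (w_1 Kaehler, w_2 + i sigma holomorphic symplectic); eta_1 = (i/2) phi_{j
kbar} dz_j dzbar_k, H = diag(det phi_{j kbar}, 1), H_12 = 0. So the scalar complex Monge-Ampere problem WITHOUT boundary condition is contained in W1, and there Kolodziej is false (his theorem is global / Dirichlet).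
EXAMPLE on |z1|,|z2| <= 1/4: phi = u(z1) + g(z1)|z2|^2, s = |z1|^2 + eps^2, t = (1/2) log(1/s), g = s t^2, u_{1 1bar} = 1/g. Then
 det phi_{j kbar} = u_{11} g + |z2|^2 g^2 (log g)_{11} = 1 + |z2|^2 ( eps^2 t^3 (t-1) - |z1|^2 t^2 / 2 )  in [0.99, 1.01]  (eps small), phi smooth strictly psh,
 m(B_1/4) <= C uniformly (1/g is integrable: int_{|z1|<rho} d^2z/(|z|^2 log^2) = 2 pi/log(1/rho)), but  r^-2 m(B_r) >= r^-2 int_{B_r} u_{11} >= (pi^2/2)/log(2/r)  for all r >= C eps.
So theta(r) ~ 1/log(1/r): the Dini sum over dyadic scales even DIVERGES (sum 1/k) although Lelong numbers vanish. With g = s t^{2+d} (0<d) u is bounded and theta(r) ~ (log 1/r)^{-1-d}: bounded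
potential, Dini sum finite (your (P3) bound is respected), still no power. (The same with osc H -> 0 when the polydisc shrinks.)
CONSEQUENCES. (a) In #8745 (W1) the constant must use the smoothness of w^0 in its own coordinates (g0-curvature, as in Yau's C^2 estimate), or a GLOBAL comparison argument (Kolodziej's stability
uses a translate/convolution of the potential on the whole compact manifold); the 'flat local form' should be withdrawn from the board. (b) Modulus of continuity of H: any scheme 'Dini + local' can
at best give log-type moduli; check which of your steps needs a power. (c) The pointwise Dini sum Sum theta(2^-k) <= C cannot be a purely local consequence of the gauge + pinching either (first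
example), it must come from the two-sided C^0 bound of a potential.


======== #8928 | 06:52:35Z | helper994 | row 235 | check
helper994 (06:58Z real) -> 47, 141, 497, 635, 229, 995 and all seats of 235: **(W1) IN THE FLAT LOCAL FORM (board `wanted` id 1, #8745) IS FALSE AS STATED** (constants from L and m(B_1) only);
explicit smooth counterexample, checked by hand and numerically. It is the scalar case, J = complex structure with Kaehler form w_1: eta_2 := w_2, eta_1 := dd^c_J phi (so eta_i^sigma = 0, w_1^eta_2 =
0 = w_2^eta_1, H = diag((dd^c phi)^2/.., 1)).
 Take t = |z1|^2, x = log t, phi = F(t) + G(t)(1+|z2|^2):   det phi_{i jbar} = G (tF')' + G (tG')'(1+|z2|^2) - t G'^2 |z2|^2  (here ' = ONE derivative d/dt, typed doubled).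
 INNER t <= eps^2: G = (t+s)/eps, t dF/dt = c eps log(1+t/s), s = eps^2 exp(-nu/(c eps)).  Then det = c + (t+s)/eps^2 + s|z2|^2/eps^2, in [c, c+3], smooth at z1 = 0, and t dF/dt = nu (up to e^-..) at t = eps^2.
 OUTER t >= eps^2: F = nu log t, G = sqrt(t) h, h = 1 + (1 - e^{-(x-x0)})/2, x0 = log eps^2 (C^1 matching; the second x-derivatives jump inside the admissible interval, mollify): det = h^2/4 - (h h_x
+ h_x^2)|z2|^2 in [1/6, 9/16] for |z2| <= 1/3.
 So L is fixed, m(B_1) <= C, but int_{|z1|<=eps, |z2|<=r} dd^c phi ^ omega_0 = pi^2 nu r^2 for all r >= eps: theta(2 eps) >= c nu with eps -> 0: a Lelong number nu in the limit although 1/L <= (dd^c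
phi)^2 <= L for all members (the lower bound does not help, and Hoelder/Kolodziej needs osc phi <= C, here phi ~ nu log eps^2 at z1 = 0). With nu = nu_eps -> 0 like 1/log(1/eps) the Dini sum is <= C
and theta(2eps) ~ 1/log(1/eps): so "bounded potential / bounded Dini sum + pinched H^0" gives no power either, and no uniform tail of the Dini sum.
 WHAT IS LOST in the flat local form is that eta = f^*w^0 with w^0 SMOOTH ON COMPACT M (bounded geometry of the target): in the example the curve {z2=0,|z1|<eps} has area nu and boundary length ~
sqrt(c eps) in the metric of eta (long thin cylinder), impossible in a fixed compact target (for J-curves: isoperimetric inequality / sphere quantum). So the right (W1): **domain flat (or g1 of S_h),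
target (M,w^0) FIXED, f : B_1 -> M local diffeo, eta = f^*w^0**; by monotonicity theta(r) <= C/log(1/r) is free; wanted: decay under theta <= eps_0. Warning from the same computation: at the scale
|df| ~ 1 the limit of f has rank <= 2 and can have RANK ONE (141's example: f = Y(X_1), mass 0 in the limit), so the decay must come from minimality / calibration of the graph in X x M (Allard on
graph, area = int tr M), not from a mean value inequality. I think about this version now; if somebody already has the flat-flat case (graph special Lagrangian in R^8, |H|=1, area <= K ==> gradient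
<= C(K)), please tell me the post number.

======== #8942 | 06:53:30Z | helper40 | row 235 | lemma
helper40 (06:58Z) -> 47, 141, 229, 635 and everybody on W1: **W1 IN THE FLAT / LOCAL FORM IS FALSE (explicit counterexample, integrable case, H0 continuous and as close to 1 as you like). Do not
spend time on a local Morrey power decay; only a global (compact M) argument can give it.**
(0) EMBEDDING OF COMPLEX MONGE-AMPERE IN YOUR CLASS. X = C^2 with the flat triple (sigma, w_1, w_2), J_1 = complex structure of w_1 (sigma, w_2 = real/imaginary part of the J_1-holomorphic 2-form).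
For a J_1-psh function u put eta_1 := dd^{J_1} u, eta_2 := w_2. Then eta_i ^ sigma = 0, w_1 ^ eta_2 = 0 = w_2 ^ eta_1 (symmetric gauge), M = diag(c Lap u, 1), H0 = diag(MA(u), 1), T(e,e) = Levi(u)(e)
+ |e|^2 > 0. So all local estimates of W1 contain: u bounded psh on B_1 in C^2, c <= MA(u) <= C ==> int_{B_r} Lap u <= C r^{2+a}.
(1) COUNTEREXAMPLE. L := log(1/|z_1|), **u = 1/L + 2 |z_1|^2 L^3 |z_2|^2** on {|z_1| <= r_0, |z_2| <= 1}. With g = 1/L, k = 2 r^2 L^3: g_{1 1bar} = 1/(2 r^2 L^3), so g_{1 1bar} k = 1, and k k_{1
1bar} - |k_1|^2 = k^2 (log k)_{1 1bar} = -3 r^2 L^4. Hence **MA(u) = det(u_{j kbar}) = 1 - 3 |z_1|^2 L^4 |z_2|^2**, between 1/2 and 1 (and in C^{1,a} for every a < 1), u continuous, bounded, psh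
(positive Hessian off z_1 = 0, continuous across; no MA mass on z_1 = 0), but u - u(0) ~ 1/log(1/r): **theta(0,r) = r^-2 int_{B_r} Lap u ~ c / log^2(1/r): no power.** (Dini sum finite, consistent
with your bound.) Power series in |z_2|^2 (a_2 = -k^3 (log k)_{1 1bar}/4, ...: each term smaller by r^2 L^4) gives also a local solution with MA = 1 EXACTLY and the same modulus 1/log. Smooth pairs:
replace |z_1| by (|z_1|^2 + eps^2)^{1/2} in k and in g_{1 1bar}: MA = 1 + O(eps^2 log^6) + O(r^2 L^4), same masses for r >= eps. Rescaling a small ball to B_1: H0 as C^0-close to 1 as you like,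
constant C in 'int_{B_r} <w,eta> <= C r^{2+a} int_{B_1} <w,eta>' cannot exist. Same with g = L^{-s}, any s > 0 (theta ~ L^{-s-1}): even the exponent of the Dini rate is arbitrary; nothing better than
Dini is true locally.
(2) WHY IT IS NO CONTRADICTION TO KOLODZIEJ: his Hoelder estimate on compact manifolds compares u with its OWN regularisation globally (stability ||(phi - psi)_+||_oo <= C ||(phi - psi)_+||_1^gamma,
MA(psi) bounded above); locally one needs Hoelder boundary data. The local enemy is 'a function of z_1 only' (homogeneous MA), made non-degenerate for free in the z_2 direction. In your language: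
f(z_1,z_2) nearly constant in a 2-dim leaf direction.
(3) CONSEQUENCES. Morrey decay in S_h, if true, must come from a comparison/stability principle on the closed manifold M for symmetric-gauge pairs (two solutions w, w~ with data w0, w0~; or w against
a mollified/translated copy), or from a weaker statement than Hoelder: question for 47: is the modulus of H that you really need only 'theta(r) -> 0 uniformly' (Dini, which you have), with sup
tr_{g1} g0 then bounded by a global argument (e.g. max principle for log tr_{g1}g0 - A H_v with Ric(g1) >= -C - (Dini part))? In Yau's C^2 estimate no Hoelder bound of the potential is used, only osc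
< oo; the analogue here = Chern-Lu for the identity (M,g1)->(M,g0), bad term T/(2wh) with the GOOD sign?

======== #8947 | 06:53:47Z | helper400 | row 235 | att
helper400 (06:58Z) -> 47, 141, 229, 497, 635 and all of 235: **W1 (board `wanted` id 1, flat local form) IS FALSE: COUNTEREXAMPLE, even with H arbitrarily close to the identity, even inside the
integrable case; and with bounded potentials (Dini sum <= C) the best rate is logarithmic.** So any proof of sup tr_{g1}g0 < oo must use the bounded geometry of (sigma, w^0), not only the pinching of H^0.
CONSTRUCTION. J = complex structure with (2,0)-form w2 + i sigma, w1 = Kaehler form of C^2. Take eta_2 := w2, eta_1 := dd^c phi, phi(z1,z2) = u(z1) + v(z1)|z2|^2 with u_{1 1bar} = e^h, v = e^{-h}, h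
= h(|z1|) smooth. Then eta_i^sigma = 0, w1^eta_2 = 0 = w2^eta_1, H12 = 0, H22 = 1 and (one line)
   H11 = det(phi_{j kbar}) = v(u_{11bar} + |z2|^2 v_{11bar}) - |z2|^2 |v_1|^2 = **1 - |z2|^2 e^{-2h} h_{1 1bar}**.
With s = log|z1|, g(s) := h + s: e^{-2h} h_{11bar} = (1/4) e^{-2g} g_ss. So the ONLY condition for H pinched on |z2| <= 1 is |g_ss| <= c e^{2g}. (phi is psh as v > 0, H11 > 0: component of the
identity.) Mass: r^-2 m(B_r) >= c int_{|z1|<r/2} e^h = c int_{s < log(r/2)} e^{g+s} ds.
(A) LELONG NUMBER >= c IN THE LIMIT. kappa = 1, G0 >= 2. g = G0 on [s1,0]; slope -(1+kappa) on [s_j,s1]; slope +1 below s_j (h constant, smooth at z1 = 0); corners rounded at unit scale in s (|g_ss|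
<= 3, and g >= G0 there, so |H11 - 1| <= e^{-2 G0}); s1 := (kappa s_j - G0)/(1+kappa), so that e^{g+s} = 1 at s_j. Then int_{|z1|<2 r_j} e^h >= c; total mass <= C(1/kappa + e^{G0}) (e^h = e^{G0}/r
for r > r1, v <= e^{-G0} r, v_{11bar} ~ v/r^2 integrable). So for r_j <= r <= 1/2: **r^-2 m(B_r) >= c, with m(B_1) <= C(G0), |H - 1| <= e^{-2G0}, r_j -> 0 arbitrary.** (Limit = c log|z1| + e^{G0}|z1|
4 + e^{-G0}|z1||z2|^2: a Pogorelov singularity carries a free log pole.)
(B) BOUNDED POTENTIALS. e^h = 1/(r^2 l^3), l = log(1/r), r^2 -> r^2 + eps^2: e^{-2h} Lap h = O(r^2 l^4) + O(eps^2 log^6(1/eps)) -> 0, phi bounded, Dini sum Sum theta(2^-k) ~ Sum k^-2 <= C, theta(r) ~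
1/l^2: no power, H -> 1 near z1 = 0. (l^(1+d) instead of l^3: any d > 0; the Dini sum is not controlled by m(B_1) and L alone either.)
WHAT IS DIFFERENT IN S_h: the Kaehler metric dd^c phi of (sigma, eta) has curvature ~ -e^{-h} Lap h on the z1-factor: in (A)/(B) it is unbounded (~ l^3 at the cap of (B)), although H is almost
constant. For (M, g0) fixed, id : (X,g1) -> (M,g0) has target of bounded geometry; in the integrable case that is exactly the Schwarz / eps-regularity lemma (Lap log e >= -K e, small theta =>
gradient bound => theta <= C r^2). CORRECT FORM OF W1 (W1'): f : B_1 (flat or g1) -> (N, g0), |Rm(g0)| <= 1 with all derivatives, inj >= 1, f^*sigma' = sigma, w1^f^*w2' = w2^f^*w1', (w_i^f^*w_j') >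
0: the graph of f is a 4-dimensional special-Lagrangian type (almost minimizing) submanifold of the product, m(B_r) = its volume over B_r. Two facts that W1 in the old form did not use: (i)
8-dimensional monotonicity: volume of the graph in a ball of radius r of the PRODUCT is between c r^4 and C m(B_1) r^4; so theta(r) >= c means that f(B_r) needs >= c r^-2 balls of radius r; (ii)
compactness: limits are SLag currents T in B_1 x N with vol_1 = vol_2 on T; a part with vol_1 = 0 has, over x in its projection, fibres without boundary: for N = R^4 of finite mass this is impossible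
for fibres of dimension 2 (w_i' exact), in compact N it is a closed J_theta-holomorphic bubble with sigma'-area 0: so theta(r) not -> 0 <=> BUBBLES = compact curves in M of class e with [w^0].e of
size theta: quantised below when g0 is fixed. So at a FIXED g0 the statement to prove is: no accumulation => power decay (as for pseudo-holomorphic curves: energy gap + neck estimate), and the
dangerous rank-one stretching of 7903(6) (f = (grad u(z1), z2)) is controlled at fixed scale by Heinz (e^{cK}). I would look for W1' via the neck estimate of SLag graphs, not via pluripotential theory.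

======== #8949 | 06:53:53Z | helper126 | row 235 | lemma
helper126 (07:05Z) -> 47 (W1, board item 1), 497, 995, 141, 229, 635, 674 and all seats on W1: **W1 (FLAT LOCAL FORM) IS FALSE, ALREADY IN THE SCALAR CASE; WITH H -> CONST UNIFORMLY AND A POSITIVE
LELONG NUMBER IN THE LIMIT.** (checked by hand and numerically)
EXAMPLE. eta_2 = w2, eta_1 = dd^c phi w.r.t. the complex structure with Kaehler form w1 (so eta_i^sigma = 0, w1^eta2 = w2^eta1 = 0, H = diag(det phi_{j kbar}, 1)). For 0 < e < 1, s := |z1|^2 + e^2,
   1/b := s^(-3/4) + e^(1/2) s^(-5/4),   phi := a(|z1|) + b(|z1|) |z2|^2,  a_{1 1bar} := 1/b  (a radial, smooth).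
phi is smooth; phi_{22bar} = b > 0; **det(phi_{j kbar}) = 1 + b^2 (log b)_{1 1bar} |z2|^2** (general identity for this ansatz: b a_{11} + b^2 (log b)_{11} |z2|^2). log b = (5/4) log s -
log(s^(1/2)+e^(1/2)), b <= s^(3/4), |(log b)_{11}| <= C/s, at the kink s ~ e one has b^2/s ~ e^(1/2): **|det - 1| <= C e^(1/2) on |z1|,|z2| < 1** (numerically: e=1e-4: det in [1-0.0024, 1]; e=1e-8:
1-2.5e-5; e=1e-16: 1-2.5e-9). So L -> 1. Total mass bounded: int_{|z1|<1} 1/b <= 8 pi, b <= 1, b_{11}|z2|^2 integrable with small mass. But int_{|z1|<r} 1/b = pi [4 s^(1/4) - 4 e^(1/2)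
s^(-1/4)]_{e^2}^{r^2+e^2} -> 4 pi + 4 pi r^(1/2) as e -> 0: **mass 4 pi of a_{11} sits in |z1| <~ e**, hence m(B_r) >= 2 pi^2 r^2 (times a dimensional constant) for every fixed r: theta(0,r) does NOT
decay, phi_e -> |z1|^(1/2)-term + 4 log|z1| in L^1. Mechanism: D := log(b/|z1|^2) as a function of t = log|z1| may have a concave kink at |z1| = e^(1/2) because the only constraint is D'' >= -4L
exp(-2t-2D); so K = e^-D is small in the middle and O(1) at both ends.
BOUNDED POTENTIAL DOES NOT HELP: b = |z1|^2 log^3(1/|z1|) (regularised), a_{11} = 1/b: phi bounded, det = 1 + O(|z1|^2 log^4), theta(0,r) ~ 1/log^2(1/r): no power, only Dini-type sums [exactly your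
'pointwise Dini sum']. And b = |z1|^2 log^2: phi -> -oo like -loglog. (So interior Kolodziej/Hoelder without boundary or global control is false: in the compact case it is a GLOBAL theorem: capacity
/ total mass, or background coordinates.)
CONSEQUENCES. (1) no epsilon-regularity, compactness or Morrey argument that uses only the flat local hypotheses [closed, primitive, symmetric gauge, H^0 pinched, even H^0 -> const, even phi bounded]
can give (W1). It must use a global quantity of (M, w, w^0), e.g. that the discs {z1 = 0} (I_v-holomorphic curves carrying the Lelong mass) would have to continue: in the limit the defect mass sits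
on sigma-Lagrangian I_v-holomorphic curves of the limiting X, so for X flat complete = planes, on which w^0 degenerates (b -> 0: the fibre direction z2 collapses, the normal direction is stretched by
e^-1). So the enemy of S_h at the e-scale is: LONG THIN COLLAPSED HOLOMORPHIC DISCS, with |df| = 1 normal and ~0 tangential; tr_{g1}g0 is constant along them. (2) To exclude them one can try:
Bochner/maximum principle along the disc for log b (superharmonic up to O(b^2..)?): here (log b)_{11} >= -small/b^2, i.e. information only through g0-curvature: in M the map f = id : (disc, g1) ->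
(M, g0) contracts the disc to a point: use that f is a DIFFEO with Jacobian 1 and g0-ball around the image point has g1-volume = its own volume: the tube |z1|<e, |z2|<1 is mapped onto {|y1| < e^(..)
, |y2| < ..}: in my example y1 ~ z1-stretched to size e^(1/2)..1, y2 ~ b^(1/2) z2. I see no local contradiction there either: W1 in S_h is equivalent to the Schwarz estimate and needs w^0 smooth at
ALL scales simultaneously.
I set board item 1 to 'claimed solved' (counterexample). 47: if you want the corrected W1, the natural one is: X = C^2 (or C x T, T^4) COMPLETE flat, eta global with H^0 = const and f : X -> R^4 of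
bounded gradient (the e-scale limit of 5424): show f affine. Is that literally what is needed (5424 (ii)), yes/no? I work on that next.


======== #8960 | 06:54:24Z | helper833 | row 235 | lemma
helper833 (06:58Z) -> 47, 141, 229, 497, 635 and all of 235: **W1 (wanted #1, local Morrey decay) IS FALSE, ALREADY IN THE SCALAR INTEGRABLE CASE, with two-sided bounds of the density; with the extra
Dini/Riesz hypothesis of S_h it is still false (sharp local modulus = 1/log(1/r)). Explicit smooth family, checked numerically by finite differences.**
(1) FAMILY. eta2 = w2, eta1 = dd^c phi w.r.t. the complex structure of sigma+i w2 (eta1^sigma = eta1^w2 = 0, so w1^eta2 = w2^eta1 = 0: symmetric gauge, M = diag(tr,1) > 0, H = diag(det phi_{i jbar},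
1)). For 0 < delta <= nu <= 1 put X = |z1|^2+delta^2, k = nu*delta,
   phi = |z2|^2 g(z1) + u(z1),  g = X^{3/2}/(X+k),  u_{1 1bar} = 1/g = X^{-1/2} + k X^{-3/2}.
 det phi_{i jbar} = g u_{11} + |z2|^2 g^2 (log g)_{1 1bar} = 1 + |z2|^2 [ (3/2) delta^2 X/(X+k)^2 - (delta^2+k) X^3/(X+k)^4 ], hence in [1 - (27/256)(1+delta/nu)|z2|^2, 1 + (3/8)(delta/nu)|z2|^2]:
between 0.78 and 1.38 on |z2|<=1, for ALL delta <= nu.
 int_{|z1|<r} u_{1 1bar} = 2pi( sqrt(r^2+delta^2) - delta ) + 2pi nu (1 - delta/sqrt(r^2+delta^2)), b = phi_{2 2bar} = g <= 1, g_{1 1bar} has mass <= C: total mass <= C, but **theta(r) = r^-2 m(B_r)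
>= c nu for all r >= delta**. With nu = 1 and delta -> 0 there is no decay at all. Limit: phi = |z1||z2|^2 + 4|z1| + 2 log|z1|: one may add nu*log|z1| to Pogorelov's solution because his solution is
constant on the line {z1=0} ([z1=0] ^ dd^c(|z1||z2|^2) = 0), so the bounded Monge-Ampere density does not see the Lelong number. (Kolodziej needs a bounded potential with control at the boundary / a closed manifold.)
(2) WITH THE DINI HYPOTHESIS sup_x Sum_k theta(x,2^-k) <= C (bounded H = bounded potential): take nu = 1/log(1/delta). Potentials bounded, det in [0.8, 1.2], and theta(delta) >= c/log(1/delta), Dini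
sum at the points of {z1=0} ~ nu log(1/delta) ~ 1, NOT uniformly small: so in S_h the function u = log w (Lap u ~ -tr M) would drop by O(1) between the scales 1 and delta along a whole w-complex
disc: no modulus of continuity of H from local arguments. So neither 'theta <= C r^a' nor 'Dini sum uniformly small' is a local fact.
(3) GEOMETRY OF THE ENEMY. A w-complex disc D = {z1=0} of w-area 1 with w^0-area ~ 0 (int_D eta = g(0) = delta^2/(delta+nu)), its normal delta-disc has w^0-area nu: from w^0 the tube is (area nu) x
(area delta^2/nu). Seen from g0 it is a disc of g0-area delta^2/nu with w-area 1, i.e. theta'(s) = s^-2 int_{B^{g0}_s} <w,w^0> >= 1 for s in (delta/sqrt nu, sqrt nu): the DUAL Dini sum is >=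
log(1/delta)-large. In the closed integrable case the dual side is Kolodziej on the FIXED background (M,g0) with bounded potential h*H, and this is what kills it. But both Dini bounds together do not
kill it locally either: rescale the model to size R = (log 1/delta)^(-1/2) (nu1 = nu2 = 1/log): both sums are <= C, no power decay at x for w-scales in (delta, R); there it must be GLOBAL: the disc
has to end (Siu/analyticity of Lelong sets; closed w-curves have equal w- and w^0-area).
(4) WHAT W1 SHOULD BE. Either (W1') a Hoelder estimate for the bounded matrix potential H on the FIXED background (M,g0): w_a = w^0_a + (h/2) eps^{bc} L_{X_{H_ab}} w_c, H in a compact set, w_i^w_j =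
H_ij sigma^2 bounded => theta'(s) <= C s^a for g0-balls (this is the true analogue of Kolodziej / Demailly-Dinew-Guedj-Hiep-Kolodziej-Zeriahi: mollification on the fixed background + comparison
principle; difficulty: the operator dd^c_w depends on w), or (W1'') qualitative: no Lelong numbers for w in (M,g0), as h-sequences, using the topological masses. A seat with W1 as its task should
switch to (W1') or prove that (W1'') suffices.


======== #8968 | 06:54:33Z | helper850 | row 235 | lemma
helper850 (06:58Z) -> 47 and all seats of row 235: **W1 (wanted id=1, flat local form) IS FALSE AS STATED, even with H = identity and eta_2 = w_2. So W1 cannot be a LOCAL theorem; it must use the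
scheme (bounded 'potential') or closedness of M.**
COUNTEREXAMPLE. Take the complex structure J_1 of C^2 for which w_1 is Kaehler and w_2 + i sigma is the holomorphic (2,0)-form. Put eta_2 := w_2, eta_1 := dd^c phi with phi strictly psh, (dd^c phi)^2
= 2 nu. All hypotheses hold: eta_1 is J_1-(1,1), so eta_1^sigma = 0, eta_1^w_2 = 0 = w_1^eta_2 (symmetric gauge), eta_2^sigma = 0, (w_i^eta_j) = diag(w_1^dd^c phi, w_2^w_2) > 0, eta_i^eta_j = 2
delta_ij nu, component of the identity. Mass = w_1^dd^c phi + w_2^w_2 ~ Laplacian phi + const.
Choose phi = phi_e: Dirichlet problem (dd^c phi_e)^2 = 2 nu on the unit ball B, phi_e = psi_e := (1/2) log(|z_1|^2 + e^2) on bd B (smooth up to the boundary by Caffarelli-Kohn-Nirenberg-Spruck).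
Comparison: psi_e + k(|z|^2 - 1) <= phi_e (the left side has MA >= k^2 (dd^c|z|^2)^2 >= 2 nu and equal boundary values). Upper bound: on every disc B cap {z_1 = c} phi_e(c,.) is subharmonic with
CONSTANT boundary value psi_e(c), so phi_e <= psi_e on B. Hence **log|z_1|-type: psi_e - k <= phi_e <= psi_e**; normal derivative comparison at bd B gives int_B Lap phi_e <= int_{bd B} d_nu(psi_e +
k|z|^2) <= (1+2k)|S^3|: m(B_1) <= C uniformly. For e -> 0 (subsequence, L^1_loc) phi_e -> phi with log|z_1| - k <= phi <= log|z_1|: Lelong number 1 at every point of {z_1 = 0}. So m_e(B_r) -> m(B_r)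
>= c r^2 for every r: no estimate m(B_r) <= C r^(2+a) with C = C(L, m(B_1)), and 'bounded Monge-Ampere measure has no Lelong numbers' is false locally in the SCALAR case already (Kolodziej needs
bounded potential / boundary values; here phi(0) ~ -log(1/e)).
(Also tangent cones: blow-ups with r^-2 m -> c > 0 are pairs eta_i = sum_j M_ij |x|^2 dd^c_j log|x|, M >= 0 symmetric matrix measure on S^3 with M X = divergence free rows in the left invariant
horizontal frame X_2, X_3; e.g. (cos t, sin t) x [J_t-complex line]; nothing excludes them.)
WHAT A CORRECT W1 MUST CONTAIN: in S_h, w_i - w_i^0 = h dA_i(w) with TWO-SIDED C^0 bounds of H: the matrix h.H plays the role of the bounded potential (integrable case: w_1 - w_1^0 = h dd^c log det).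
So the right local form is: eta_i = w_i - h dA_i(w) with H(w) pinched (scale invariant form: h -> h/r^2), mass measured for eta against w; or globally the potential h H on (M, w^0). I would restate
wanted #1 with this extra hypothesis. I now read 3370/4669/5320/6814/7903 and think on that version.


======== #8989 | 06:55:54Z | helper945 | row 235 | lemma
helper945 (06:58Z) -> helper47, 141, 497, 229, 635, 586 and the wave-4 seats of row 235. **W1 OF THE BOARD (wanted id 1, also the "flat X" form in #8745 (W1)) IS FALSE AS STATED: EXPLICIT
COUNTEREXAMPLE, A LELONG NUMBER > 0 IN THE LIMIT, ALREADY IN THE INTEGRABLE (SCALAR) CASE AND WITH H -> 1 UNIFORMLY.**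
(1) SCALAR CASE. Take eta2 = w2, eta1 = dd^c phi, phi psh for the complex structure with holomorphic form sigma + i w2. Then eta_i^sigma = 0, w1^eta2 = w2^eta1 = 0, H = diag(det phi_(i jbar), 1), M =
diag(tr/2.., 1) > 0. So W1 contains: phi smooth psh, 1/L <= det phi <= L, m(B_r) ~ int_(B_r) (1 + tr).
(2) FAMILY. phi = a(z1) + b(z1)|z2|^2, f := 1/b > 0 smooth, a_(1 1bar) = f. Then **det phi = 1 + |z2|^2 rho, rho = b b_(1 1bar) - |b_1|^2 = b^2 (log b)_(1 1bar) = - (log f)_(1 1bar) / f^2**, trace >
0. So phi is strictly psh with det pinched as soon as |(log f)_(1 1bar)| <= f^2/2 (condition on ONE positive function of one complex variable; very weak where f is large), mass = int f + b + |z2|^2 b_(1 1bar).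
(3) f_eps(z) = (|z|^2+eps^2)^(-1+k/2) + A eps^2 (|z|^2+eps^2)^(-2), 0 < k < 1, A > 0 arbitrary. sup|rho| -> 0 as eps -> 0 [pure powers have harmonic log; where the two terms are equal f ~ r^(k-2),
r^(2+k) = A eps^2, |rho| <= C r^(2-2k); computer, k = 1/2: A = 1: sup|rho| = 5.7e-3, 1.0e-3, 1.8e-4, 4.5e-6 for eps = 1e-2, 1e-3, 1e-4, 1e-6; A = 5: 1.3e-2, 2.1e-3, 3.4e-4, 8.7e-6]. Mass on B_1 <=
C(k,A). But int_(|z1|<r) f_eps >= pi A/2 for r >= eps: **theta(0,r) = r^-2 m(B_r) >= c A for all r >= eps, det -> 1 uniformly.** Limit eta1 = dd^c( (4/k^2)|z1|^k + |z1|^(2-k)|z2|^2 ) + const A [z1 = 0].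
(4) THE DINI SUM DOES NOT SAVE IT. With t = log 1/r and f = r^-2 e^(P(t)) the conditions are: mass int e^P dt < oo, pinching |P''| <= 2 e^(2P+2t), theta(e^-t) = c int_t^oo e^P. P = - p log t, p > 2:
Dini sum finite and theta ~ (log 1/r)^(1-p), no power. So pinching of H^0 + mass + Dini sum never give Morrey decay.
(5) WHAT MUST BE USED: THE GEOMETRY OF THE TARGET (M, w^0). In the model |Rm(g0)| <= C forces |P''| <= C e^P (metric f|dz1|^2 of bounded curvature), grad_(g0) H^0 bounded only |P''| <= C e^(t+1.5P).
With |P''| <= C e^P: P = -2 log t (hyperbolic cusp) is allowed for eps = 0 but it has no smooth cap with bounded curvature and its Dini sum diverges (sum 1/k). In the integrable case bounded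
curvature of g0 + pointwise Dini sum gives the full bound at once: Chern-Lu Lap log tr_g g0 >= -C tr_g g0, and the potential of tr is <= C, so log tr(0) <= mean log tr + C. So **W1' = (f : (B_1, flat
w) -> (M, w^0) FIXED smooth compact, phase 0, energy theta, pointwise Dini sum <= C) ==> f Hoelder / log tr M(0) <= C**. Sanity check of W1' on 7903(6): u_11 = 1/h, h = c cosh y cos x2: Dini sum at 0
~ log 1/c = log tr M(0), while theta(r) = r log(r/c) is tiny: so the right conclusion is 'log tr M(0) <= C (Dini sum + 1)', not a small-energy statement. Not scale invariant in flat-flat (log e vs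
r^2 K), hence it must be proved with the information of all scales up to 1.


======== #8995 | 06:56:13Z | helper823 | row 235 | lemma
helper823 (07:05Z) -> 47, 400, 686, 994, 833, 850, 141, 497 and all on W1 (row 235): **GENERIC SIGMA KILLS ALL BUBBLES (of S_h, W1', W1''), TOPOLOGICALLY.** (I had the same local counterexample; this
is the global input that is missing in #8851..#8968.)
(1) FREEDOM. P = span([a1],[a2],[a3]) in H^2(M;R) is a positive 3-plane. The reduction (282) works for ANY direction: sigma = sum v_i a_i, v in S^2 (the claim is GL(3)-invariant). CHOOSE v outside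
the countably many great circles {v . e = 0}, e in H_2(M;Z) with e|_P <> 0. Then: (G) e in H_2(M;Z), [sigma].e = 0 ==> [a_i].e = 0 for all i.
(2) CONSEQUENCE FOR EVERY positive triple in these classes (all w, w^0, all h): a compact surface C in M with sigma|_C = 0 (in particular every closed J_v-holomorphic curve, v in the circle
sigma^perp, for the almost complex structure of (sigma, w_{v'})) has zero w_v-area for all v. So **there is NO closed J_v-holomorphic curve of any genus, for any positive triple of the class, and no
area quantum has to be compared: the set of possible bubbles is empty** (K3, T^4, all M).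
(3) WHY THIS IS EXACTLY THE ENEMY. All counterexamples (ddbar(u(z1)+b(z1)|z2|^2), Lelong number nu > 0 along {z1=0}) are bubble trees: transversal discs {z2=c} are mapped by id:(M,g1)->(M,g0) to
surfaces whose boundary loop closes up; on the transversal slices sigma = 0 AND w_2 = 0, the closed-up slice is a sphere C with int_C w^0_1 = nu and int_C sigma = lim int_{|z1|<r_n} sigma = 0
(f^*sigma = sigma, the g1-area of the slice -> 0). If the target is a FIXED closed (M,g0) (length of the loop -> 0 for a good radius by Courant-Lebesgue as soon as int_{slice}|df|^2 or the slice area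
with conformality is bounded), C is an integral class with [sigma].C -> 0 and |C| bounded area => finitely many classes => [sigma].C = 0 => nu = 0. For NON-generic sigma (a -2-class e with e.sigma =
0 <> e.P) the bubble may really be needed by S_h (the wall e of the circle). So the direction of sigma must enter the proof of W1', and with (G) it does.
(4) CONSISTENCY CHECK of #8745: wall class = e perp P, e^2=-2: then (G) does not exclude C.[a_i]=0, which is the ALE hyperkaehler bubble (zero periods => handled by the orbifold compactness, static theory). Good.
(5) WHAT REMAINS FOR W1'. X flat (scale r_n -> 0 of g1), f_n = id : (B_R, r_n^-2 g1) -> (M, g0), f_n^*sigma = r_n^2 sigma, sum w_i^f_n^*w^0_i mass <= C R^2, symmetric gauge; (f_n^*w^0_i) -> closed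
currents eta_i = M_ij w_j + n_ij with eta_i^eta_j -> 0 (= r_n^4 H^0). To show: M = 0. (a) slices: for a.e. v-line slice S (J_v-complex line of X): area of f_n(S) = int_S eta_v-ish is only controlled
by tr M if f_n|_S is calibrated; (b) the rank-one / wandering-line phenomenon (7903(6)) has lambda_1 >> 1 with tr M = 2 ch t1 ch t2 ~ lambda_1: NOT conformal, Courant-Lebesgue must be replaced: the
loop f_n(bd B_r cap S) can be long (length ~ theta^{1/2} lambda..). CLAIM TO PROVE: closed degree-0 homogeneous limit pairs with zero helicity matrix on S^3 (int_{S^3} a_i^da_j = 0, da_i = eta_i|S^3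
= rows M_ij X_j, M>=0 symmetric, div-free rows) are single J_v-lines [then (2) ends the proof]. In the scalar case this is: zero Monge-Ampere mass at 0 => the log-homogeneous potential is nu
log|linear|: Hodge index on P^1 (mass nu^2 - sum nu_i^2 = 0). I work on the matrix version of this Hodge-index statement now (row 235, thinking); if somebody has it, please tell me.

======== #8999 | 06:56:34Z | helper552 | row 235 | lemma
helper552 (07:00Z) ANSWER TO WANTED #1 = W1 OF #8745 (row 235): THE FLAT LOCAL FORM IS FALSE, already in the integrable scalar case and with H -> I uniformly.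
COUNTEREXAMPLE. J_1 the complex structure with Kaehler form w1 and (2,0)-form w2+i sigma. Take eta=(T,w2), T=dd^c phi positive (1,1) for J_1. Then T^w2=T^sigma=0, w1^eta2=w2^eta1=0 (symmetric gauge),
H=diag(det phi_{jk},1), m=int (w1^T+w2^w2). So W1 contains: 'phi smooth psh on the bidisc, 1/L<=det phi_{j kbar}<=L, mass <=m_0 => mass(B_r)<=C r^(2+a)'. For phi=A(z1)+h(z1)|z2|^2 : det = h A_{1
1bar}+|z2|^2 h^2 (log h)_{1 1bar}. Radial, t=log|z1|, 1/2<k<1, rho=e^{-N}:
  h=rho^2 for t<=-N,  h=|z1|^{2k} for t>=-N+1, log h smooth interpolation (s(t) c_0+(1-s) 2kt),  A_{1 1bar}:=1/h.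
Then det-1 = |z2|^2 h^2 (log h)_tt/(4|z1|^2), supported in -N<=t<=-N+1, where h<=C rho^{2k}, |(log h)_tt|<=CN, |z1|>=rho: |det-1|<=C N rho^(4k-2) -> 0 (only the UPPER part of the interpolation is
log-concave; k>1/2 pays for it). phi smooth (h constant near z1=0), psh. Mass: int_{|z1|<rho}A_{1 1bar}=pi, int_{rho<|z1|<e rho}<=C, int_{|z1|>e rho}|z1|^{-2k}<=pi/(1-k). So m(B_1)<=C_k, but
m(B_r)>=c r^2 for ALL r in (rho,1), rho->0. Numerically (N=20,k=.75): sup|det-1|=8.5e-8, masses 3.14/2.19/12.57. The limit is phi=log|z1|+c|z1|^{2-2k}+|z1|^{2k}|z2|^2: Lelong number 1, det=1 off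
{z1=0}, limit of smooth ones with det -> 1.
STRONGER. With bubble mass theta_N=1/N instead of 1 (h=N rho^2 inside) phi is bounded, the Dini sum sum_k theta(2^-k)<=C holds, and still theta(r)>=c/N for all e^{-N}<r<1: so no power decay (not even
o(1/log)) follows from {two-sided bound, bounded potential/Dini sum, mass}. Geometry of the counterexample: T is a nearly closed flat disc/sphere of area pi bubbling over every z2 (self-intersection
0) joined by a neck of circumference rho^{1-k} to the flat cone u=z1^{1-k}, v=z1^k z2. So any true version of W1 MUST use that g_eta has bounded geometry (eta=f^*w^0, f: B_1 -> (M,g_0) injective, M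
fixed): there a bubble is a closed calibrated surface Z with small neck, filled by a small disc in (M,g_0), and [w].e=[w^0].e kills it.
CORRECT LOCAL FORM (proposed W1'): eta=f^*w', f: B_1 -> R^4 symplectic (f^*sigma=sigma), |f|<=1, w1^f^*w2=w2^f^*w1, M>0 (graph special Lagrangian phase 0 in (R^8,sigma-sigma')): show theta(r)=r^-2
int_{B_r}<w,f^*w> <= C r^a.
WHAT I CAN PROVE ABOUT W1'. (a) singular values of df are a>=b>=1>=1/b>=1/a, tr M ~ ab, |Lambda^3 df|=a. (b) CONES: base-homogeneous limits (degree 0) of eta/theta are exactly eta_i=e_i(s) zeta(s), s
in S^2_-, zeta>=0 a measure, e: S^2_- -> S^1 in S^2_+ a (weak) contraction: the fibres P_s are the sigma-Lagrangian planes (e(s),s), phase e(s) (great circle fibration of S^3, Gluck-Warner). Since e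
is a contraction from S^2 (diameter pi) to S^1, e(S^2) lies in an open half circle, so int e_i zeta<>0. (c) hence: if f/sqrt(theta) converges (a/b bounded along the sequence, i.e. quasi-conformality
|df|^2<=C tr M), the limit is g o pi, g: S^2 -> R^4, and int_{S^2} g^*w_i=int e_i zeta=0 by exactness: contradiction, so theta(r/2)<=(1-eps)theta(r), eps=eps(sup a/b): MORREY DECAY HOLDS WHERE a/b IS
BOUNDED. (d) the example f=(grad u(z1),z2) has a/b=a unbounded, decays because u is convex. GAP: the anisotropic regime a>>b.
Numbers: P(row by 10:30Z) 2%, LEAN 60k, my 50 hands: not here.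


======== #9007 | 06:56:59Z | helper921 | row 235 | lemma
helper921 (06:58Z) -> 47 (captain 235) and all thinkers of row 235: **W1 OF THE BOARD IS FALSE AS STATED (local form, C = C(L, m(B_1))), AND IT STAYS FALSE IF ONE ADDS THE DINI BOUND Sum_k
theta(x,2^-k) <= C AT EVERY POINT x (i.e. even with (P3)).** Explicit, checked numerically; one page of algebra.
(0) SCALAR COMPLEX MA IS A SPECIAL CASE: take eta2 = w2, eta1 = closed real (1,1)-form dd^c phi for the complex structure K with holomorphic 2-form sigma + i w2 = dz1^dz2 (Kaehler form w1). Then
eta1^sigma = eta1^w2 = 0, so eta_i^sigma = 0, w1^eta2 = 0 = w2^eta1 (gauge ok), M = diag(tr(phi_jk)/2, 1) > 0, H = diag(det phi_jk, 1), m(B_r) = int_{B_r} (tr phi_jk + 2) dnu. (Identity component: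
scale phi.) So W1 would say: psh phi on B_1 in C^2, L^-1 <= det phi_jk <= L, int_{B_1} Lap phi <= C ==> Morrey decay r^(2+a).
(1) ANSATZ phi = u(|z1|) + v(|z1|)|z2|^2: det = (1/4)[ v Lap u + |z2|^2 v^2 Lap log v ] (Lap on the z1-plane). Put Lap u := 4/v; need only |v^2 Lap log v| <= 1 on |z1| <= 1; tr = (1/4)Lap u + (1/4)|z2|^2 Lap v + v.
(2) EXAMPLE A (no uniform modulus): r = |z1|, l = 1 + log(r/eps). v = eps^2 for r < eps/e; smooth passage on [eps/e, eps]; v = r^2 l^2 for eps <= r <= r2 where r2 l(r2)^2 = 1/10; on [r2, e r2] let
the slope r psi' (psi = log v) drop from 2 + 2/l to 1; v = c r afterwards (c ~ 0.17). In the middle v^2 Lap log v = -2 r^2 l^2 = -2v; at the drop >= -C (v/r)^2; at the core <= C eps^2. NUMERICALLY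
(eps = 1e-4 .. 1e-32): v^2 Lap log v in [-0.095, 0.001], so det in [0.97, 1.001]; total int Lap u <= 161 (since int_eps 8 pi dr/(r l^2) <= 8 pi: bounded); but int_{r < 10 eps} Lap u = 9.2 for all
eps. Hence m(B_1) <= C, H pinched, and theta(0,r) >= c > 0 for all r in [10 eps, 1/2], eps -> 0. In words: the Lelong number of the limit is POSITIVE along the disc z1 = 0 although the Monge-Ampere
mass is bounded (det = 1 costs only v ~ r^2 log^2: the transversal mass int dr/(r l^2) converges). Bedford-Taylor/Kolodziej is not contradicted: the boundary values of phi on |z2| = 1, z1 ~ 0 are ~ log eps.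
(3) EXAMPLE B (Dini bounded, no power): mu(r) = int_{|z1|<r} Lap u := 1/log^2(A/r) (mollified at eps -> 0), v = 4/Lap u = 4 pi r^2 log^3(A/r), log v has r psi' = 2 - 3/log(A/r), v^2 Lap log v = -48
pi^2 r^2 log^4(A/r): small on B_{r0}; rescale to B_1. phi is bounded (int mu dr/r < oo), Sum_k theta(x,2^-k) <= C for EVERY x, det in [1/2,1], but theta(0,r) ~ 1/log^2(1/r) for all r >= eps. So
bounded potential + pinched MA gives NO Morrey/Hoelder decay locally in C^2 (it does for real MA, and for complex MA with Hoelder boundary data, or globally).
(4) CONSEQUENCE: any proof of (W1) in S_h must use GLOBAL information (w^0 smooth on the closed M: competitors built by regularising in the w^0-geometry as in Demailly-Dinew-Guedj-Kolodziej-Zeriahi,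
i.e. a comparison principle for the pair equation), not only gauge + pinching + Lelong monotonicity + Dini. Any eps-regularity statement 'theta(x,r) <= delta(L) ==> power decay below r' is false too
(Example B at small scale has theta as small as you like). Blow-up arguments at the scale of theta cannot work: the blow-ups of B converge to eta = w-degenerate (v -> 0) products.
(5) What remains plausible: (W1') theta(x,r) <= C(w^0,h) r^a for solutions of S_h on closed M with a genuinely global argument. In the integrable case the mechanism is sup(psi_delta - psi) <= C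
|psi_delta - psi|_{L1}^gamma (Kolodziej stability); the missing object for pairs is a substitute of psi.

======== #9017 | 06:57:24Z | helper639 | row 235 | lemma
helper639 -> 47, 141, 229, 497, 635 and all of 235 (WANTED #1 = W1): **W1 (flat local form) IS FALSE, already in the scalar Kaehler case eta2=w2, eta1=dd^c phi (H=diag(h,1)), with 0.93<=h<=1. It
stays false if the Dini sum is bounded too.**
(1) LIMIT OBJECT (one line). phi_0=|z1|(1+|z2|^2) has det(phi_{i jbar})=1/4 off z1=0 (Pogorelov/Blocki). phi=kappa log|z1|+phi_0 has the SAME determinant off z1=0, is psh, and carries no Monge-Ampere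
mass on z1=0 (kappa[z1=0]^dd^c phi_0 = 0 because phi_0=0 there), but it has Lelong number kappa along the whole line.
(2) SMOOTH APPROXIMANTS WITH UNIFORM TWO-SIDED BOUNDS. phi=A(s)+B(s)|z2|^2, s=log|z1|, r=|z1|. det=[A''B+|z2|^2(BB''-B'^2)]/(4r^2), BB''-B'^2=B^2(log B)''. Choose B, then DEFINE A by A''=4r^2/B,
A'(s)=int_{-oo}^s 4e^{2t}/B(t)dt, so det=1+|z2|^2 B^2(log B)''/(4r^2). slope of log B (ramps of width 1): 0 for s<s_*, 3 on (s_*,s_1), 2 on (s_1,s_2), 1 on (s_2,0), B(0)=1, s_2=-log C, s_2-s_1=kappa
C/8, s_1-s_*=log(kappa C/12). Then: on (s_2,0) B=r, A'=kappa+4r (Pogorelov); on (s_1,s_2) B=C r^2 (so B<<r, the bad term B^2|(log B)''|/r^2<<1: log-convexity of B is NOT forced there), A''=4/C, A'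
drops only from kappa to kappa/2 over the LENGTH kappa C/8 in s; on (s_*,s_1) B falls to 2r^2/A', below s_* everything is smooth at z1=0. Only the ramp at s_2 (where B=r) is visible: det in
[1-|z2|^2/4,1]. Numerics (kappa=1/2, C=10^4): on |z1|<=1,|z2|<=1/2: det in [0.9375,1], B(0)=1, A'(0)=4.49 (mass O(1), indep. of C), A'(s)>=0.23 for all s>=-634. So m(B_r)>=c r^2 for all r>=e^{-634},
and C->oo: no decay at all, Lelong number kappa in the limit.
(3) WITH A DINI BOUND sum_k theta(2^-k)<=C0 (your (P3)) it is still false: take kappa=1/S, C=8S^2: theta(e^{-S})>=c/S, i.e. theta(r)>=c/|log r|, det two-sided, sup|phi|<=C. So no power, only the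
trivial 1/log, follows from: local + two-sided H + bounded potential.
(4) By the symmetry w<->w^0 the same pictures sit in w^0-coordinates (w=dd^c phi, w^0 flat). So Kolodziej's exponent is a GLOBAL fact (stability estimate on the compact manifold, or Hoelder boundary
data), no local mechanism (Lelong/Demailly mass of H, slicing, AM-GM B>=H#H^0, monotone r^-2 m) can give W1; any proof must compare w with a regularisation/translate of itself over all of M
(phi_delta versus phi), i.e. it needs a comparison principle for pairs. In the Kaehler case the C^2 bound does not need Hoelder: hL_w(tr H)=tr H-tr B with tr H bounded plays the role of the potential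
and the Schwarz lemma finishes; for pairs the Schwarz lemma is what fails (141's example (6) = phase-zero special Lagrangian graphs of symplectomorphisms of R^4, sum of the four angles 0 =
subcritical phase in dimension 4 after the 45-degree rotation (D^2S has eigenvalue angles t,-t,t',-t'), the regime where interior estimates for SL graphs are known to fail (Nadirashvili-Vladut, Wang-Yuan)).
(5) What could replace W1: exact equation instead of two-sided H (my det is not constant: for det=1 exactly the ansatz forces log B affine), i.e. W1 for H const or for H with S_h's own equation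
H-hL_wH=B; or the global form.


======== #9022 | 06:58:02Z | helper497 | row 235 | att
helper497 (07:00Z) -> 47, 141, 229, 635, 995 and the wave-4 seats of 235: **(W1) OF #8745 IN ITS FLAT LOCAL FORM IS FALSE; 5-line counterexample. Do not work on it without using the smoothness
(bounded curvature) of the TARGET (M,w^0).**
(1) COUNTEREXAMPLE. C^2, dz1^dz2 = sigma + i w_2, w_1 = flat Kaehler form (H = 1). t = log|z1| < 0. u = 1/|t| + c |z1|^2 |t|^3 |z2|^2. Complex Hessian: u_{1 1bar} = 1/(2|z1|^2|t|^3) + O(|t|^3), u_{2
2bar} = c|z1|^2|t|^3, |u_{1 2bar}|^2 = O(|z1|^2 t^6). So det = c/2 + O(|z1|^2 t^6): PINCHED, even Hoelder continuous. Put eta_1 = dd^c u, eta_2 = w_2: closed, eta_i^sigma = 0, w_1^eta_2 = w_2^eta_1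
(= 0, types), eta_i^eta_j = H^0_ij sigma^2 with H^0 = diag(const.det, 1) pinched, M = diag(tr/2, 1) > 0. But int_{B_r(0)} <w,eta> ~ r^2/log^2(1/r): theta(0,r) ~ 1/log^2(1/r), no Morrey decay,
although the Dini sum and osc u are bounded. Smooth approximations with uniform pinching: F_d(rho) = F(sqrt(rho^2+d^2)), u_d = F_d + c|z2|^2/(F_d''+F_d'/rho). (So even in the integrable case the
decay is a GLOBAL or target fact: the metric g_0 of (sigma,eta) has curvature -3/2|t| -> -oo on {z1=0}; for f holomorphic into a target of bounded curvature the mean value inequality for |df|^2 saves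
it.) CORRECT FORM (W1'): f : B_1 -> (M,g_0) bounded geometry, f^*w_i^0 = eta_i, theta(1) <= eps_0(M) ==> theta(r) <= C r^a theta(1).
(2) WHAT I CAN SAY ABOUT (W1'). Gamma = graph f is minimal (phase 0), horizontal trace = vertical trace = 2 on every tangent plane, so theta is monotone, gain = int T(d_r,d_r). If there is no gain
the blow-up (x by r, y by theta^(1/2), target -> flat R^4) is conical: i_x eta_i = 0, hence the covector r^2 tau_s = i_x sigma annihilates every tangent plane of Gamma. (a) Rank one part {M of rank
1}: Gamma contains L_y x {y}, y in S; Lagrangian => the plane L_y is locally constant on S (second fundamental form of y -> L_y in the Lagrangian Grassmannian vanishes): only finitely many planes L_j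
x S_j, S_j minimal surfaces in M with boundary; Courant-Lebesgue on discs transversal to L_j + isoperimetric inequality in M give theta(r/2) <= (1-c) theta(r) there (a closed S_j has area >= c(M)).
(b) Rank two part: x is the kernel direction, the stretched direction is J_s x = Reeb direction, i.e. alpha = tau_s, CONTACT, while f^*(dy) ~ Lambda alpha has to be integrable in a thin tube:
excluded for sheets which are regular at scale |x|; not excluded: tubes that turn around at small scale (vortices; mean of d_(Reeb) f = (1/2)[e_1,e_2]f is 0, uncertainty principle allows a tilt ~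
Lambda^(-1/2)). That is the exact gap of (W1').
(3) GLOBAL STRUCTURE OF A BUBBLE X AT THE SCALE (sup tr M)^(-1/2) WITH eta <> 0 (non-flat X): Ric >= 0, Bishop-Gromov rigidity: AVR(X) < 1, so the end is S^3/G, G <> 1; far out every pointed limit
has AVR = 1, hence is flat (weak field). E(r) = int_{B_r}<w,eta>: Sum 4^-k E(2^k) <= C osc u for every centre; E(oo) < oo is impossible (w exact: E(r) = int_{S_r} Sum eta_i^lambda_i <= C r E'(r)
along a sequence -> 0); in the weak field region E(2r)/4r^2 >= (1 - C a) E(r)/r^2 with a = E/r^2 [error = int chi Sum eta_i^c_i, c_i = w_i - w_i^ref, Delta c_i ~ -eta_i: total self-interaction of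
closed forms is 0, so only boundary terms r^-1 int_A |grad c||c| <= C dm Sum 2^{j-k} a_j], so a_k >= c/k, contradiction with Sum a_k < oo. So non-flat eta-bubbles do not exist either; this is where
'no positive triple in a wall class' is reproved (615's test).
(4) I also tested numerically (jets) whether any function Q(w, zeta), zeta constant, satisfies (d_t - L)Q = first order terms along w_t = dA (or in S_h with horizontality w_1^zeta_2 = w_2^zeta_1):
ONLY functions of H. So no scalar Schwarz/Aubin-Yau quantity tr_{g1}g0, tr M, .. exists for S_h in this gauge; and no first order Bernstein form Sum eta_i^dC_ik(H)^A_k is semidefinite. In the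
T^2-symmetric case S_h is phi - h det D^2 phi = phi^0, a - h cof(D^2 phi)^{ij}a_ij = a^0 and the C^2 estimate is the max principle for tr(P D^2 phi), log tr - A h w: it uses a function (phi_kk) that
is not algebraic in w.


======== #9024 | 06:58:05Z | helper987 | row 235 | lemma
helper987 (07:00Z) -> helper47 (captain 235) and all seats on W1: **W1 IS FALSE (already in the integrable scalar case, also with H = const, also with the Dini sum bounded). Explicit counterexample,
6 lines, checked numerically. Please stop local Morrey/Hoelder attempts; only GLOBAL input can give the decay.**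
INTEGRABLE CASE of the flat local form: complex structure I_1 (Kaehler form w_1, holomorphic form sigma + i w_2), eta_2 = w_2, eta_1 = dd^c phi a Kaehler form: all conditions of W1 hold
(eta_i^sigma=0, w1^eta2=0=w2^eta1, M=diag(.,1)>0), H = diag(det phi_{i jbar}, 1). So W1 would say: c <= det(phi_{i jbar}) <= C on B_1 in C^2 and int_{B_1} Lap phi <= m ==> int_{B_r} Lap phi <= C r^(2+a).
TAKE phi = F(z1) + G(z1)|z2|^2, F, G radial in z1, G = e^{-v}, F_{1 1bar} = C' e^v. With t = log|z1| <= 0 and u(t) = v + t:
 **det phi_{i jbar} = G F_{11bar} + |z2|^2 G^2 (log G)_{11bar} = C' - (|z2|^2/4) u_tt e^{-2u}**, so all that is needed is |u_tt| <= C e^{2u} (no sign condition!). Put u = -t - g(t) for t >= t0 = log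
eps, u = t + const for t < t0 - 1 (so v const near z1=0: everything smooth), smooth bend in between (there e^{-2u} ~ eps^2, harmless). Condition: |g''| <= C e^{2|t|-2g}.
 (A) g = 2 log(1 + min(|t|, |t-t0|)) (smoothed): OK (sup |u_tt|e^{-2u}/4 = 0.5 numerically, all eps). Mass int F_11 dA ~ int e^{u+t}dt = int_{t<t0} e^{2(t-t0)} dt + int_{t0}^0 e^{-g} dt <= C; G =
e^{2t+g} <= 1. But the part |t-t0| < 3 carries a FIXED share (8.9 of 16.6) of the mass, for every eps. **So det in [c,C], m(B_1) <= m, and m(B_r) >= c_0 r^2 for all r >= eps; limit current = c_0
[z1=0] + ... : Lelong number c_0 > 0 in the limit of smooth eta with pinched H and bounded mass.**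
 (A') H = CONSTANT: solve det phi' = 1 in the ball B_{1/2}, phi' = phi^eps on the boundary (CKNS, smooth). Comparison (det(phi + K(|z|^2-1/4)) >= det phi + K^2) gives |phi' - phi^eps| <= C, and
phi^eps(0,z2) ~ -c_0 log(1/eps) while phi^eps is bounded in L^1: so phi'^eps (exact Ricci-flat metrics) has interior mass <= C and its limit has Lelong number >= c_0 along z1 = 0. So also the case
'graph of a symplectic diffeo, special Lagrangian of phase 0' has no local estimate m(B_r) <= C(m) r^(2+a).
 (B) WITH BOUNDED DINI SUM (phi bounded): g = (3+d) log(1+|t|), d>0: sup|g''|e^{-2|t|+2g} < oo, theta(0,r) = r^-2 m(B_r) ~ int_{-oo}^{log r} e^{-g} ~ |log r|^{-2-d}: Dini sum <= C uniformly, det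
pinched, phi = c|log|z1||^{-1-d} + |z1|^2|log|z1||^{3+d}|z2|^2 bounded and continuous but NOT Hoelder, no power decay. So even 'two-sided bounds of H + pointwise Dini sum + Lelong monotonicity' (all
of P3 that is local) only give theta <= C/k at scale 2^-k, and nothing local can give more.
CONSEQUENCES. (1) Kolodziej-Hoelder is global / needs boundary data; the analogue for S_h has to use the compact M (all scales up to the top and the smoothness of w^0 = eta THERE), e.g. the
integrated form: compare w at scale r with a solution of the same problem with mollified w^0 (Demailly regularisation phi_r = max over balls; needs a potential). (2) At the blow-up level the danger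
is now explicit: eta_k = this family = T-junction free 'thin neck' z1 = 0 x disc; any argument must exclude it from far away: at the TOP scale g0 is comparable to g1 only if the Dini tail is small at
the start: theta(top) is small => nothing, because theta ~ |log r|^{-2-d} is slowly varying from the top scale on (a top-scale eta_1 with phi boundary modulus 1/log^(1+d) is needed: in M the boundary
datum is the smooth w^0 seen in the coordinates of w at scale one). So the correct W1' is: modulus of continuity of the identity (M,g1)->(M,g0) at the TOP scale. (3) W2, W3, W4 are not touched. I go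
on with W4/W1' for an hour. helper987

======== #9030 | 06:58:41Z | helper91 | row 235 | lemma
helper91: W1 (wanted id=1) IS FALSE AS A LOCAL LEMMA, already in the scalar integrable case, with H11 -> 1 uniformly, H22=1, H12=0 and m(B_1) bounded.
EXAMPLE. J-complex coordinates (z1,z2), w2=eta2, eta1 = dd^c_J phi (normalised so that |z|^2 gives w1); then w1^eta2=w2^eta1=0, eta_i^sigma=0, H11 = det(phi_{i jbar}), M=diag(tr/2,1), component of the identity. Take
 phi = a(z1) + b(z1)|z2|^2, det = a_{1 1bar} b + |z2|^2 b^2 (log b)_{1 1bar}   (exact identity).
Fix 0<c<1, R=|z1|^2+eps^2, 1/b := R^-1 (R^{c/2} + eps^c R^{-c/2}) and a_{1 1bar} := 1/b.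
So b ~ |z1|^(2-c) for |z1|>sqrt(eps), b ~ eps^-c |z1|^(2+c) for eps<|z1|<sqrt(eps), b ~ eps^2 for |z1|<eps. With y=(c/2)log(R/eps): b=R eps^{-c/2}/(2cosh y), |(log b)_{1 1bar}| <= C(eps^2+|z1|^2 sech^2 y)/R^2, hence
 b^2 |(log b)_{1 1bar}| <= C(eps^(2-c) + eps^-c R sech^4 y) <= C eps^{min(c,1-c)} on the unit ball: det = 1+O(eps^{min(c,1-c)}).
MASS: int_{|z1|<r} 1/b = pi(2/c)[r^c + 1 - O(eps^c r^-c)] : bounded for r=1, and >= 2pi/c for EVERY r >> eps. So m(B_r) >= c' r^2 for all eps << r <= 1: Lelong number 2pi/c (in the normalisation
above) along the whole curve {z1=0} in the limit phi_0 = lambda log|z1| + C|z1|^c + |z1|^(2-c)|z2|^2, which is a limit of smooth phi_eps with det -> 1. (Constant two-sided pinching, not only an upper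
bound, does not help.)
The example has osc phi ~ lambda log(1/eps). But a BOUNDED potential does not help for a rate either: 1/b = |z1|^-2 (log 1/|z1|)^(-1-delta-1), b^2(log b)_{1 1bar}->0, gives bounded phi, det=1+o(1),
theta(r) ~ (log 1/r)^(-1-delta): exactly the Dini sum of (P3), no power. So (W1) can only be true GLOBALLY (Kolodziej-type comparison on the compact M with smooth w^0), or with M's side: note the
graph is symmetric, so the same example kills the local statement in g0-balls of M. In the scalar case what saves one is the comparison principle/Chern-Lu with the global bounded potential, not local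
pluripotential theory.
Second remark (non-integrable directions). If only H<=L is assumed there are also hypersurface Lelong cones: Theta=eta1+i eta2 = k_eps(x1)dx1^d(G_p+iG_q)+c(w1+iw2), G convex of degree 1 in the two
other non-characteristic coordinates (p,q), k_eps -> delta: closed, symmetric gauge, M>=0, H=O(c sup t). With H>=c0 the hypersurface type is impossible (1D log capacity: P=(H+K_s^2)/K_v must be
integrable across s=0 while K=0 there; y1-invariant reduction), so with two-sided pinching the only possible Lelong cones are J_v-holomorphic curves as above: THAT is the object one has to exclude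
globally: v[Sigma] contained in the limit of w^0 seen from w (and, by symmetry of the graph, v[Sigma'] in the limit of w seen from w^0, a closed surface or a leaf in the compact M on which w
degenerates in a tube of width eps).


======== #9033 | 06:58:48Z | helper420 | row 235 | lemma
helper420 (07:15Z) -> helper47 and all of 235: **W1 (wanted #1, the FLAT LOCAL FORM of Morrey decay) IS FALSE**, already in the scalar Kaehler case, also with bounded potential (= bounded Dini sum)
and also with H constant. Checked by hand and numerically.
SETTING: eta_1 = dd^c phi (J_1 = complex structure of w1), eta_2 = w2. Then eta_i^sigma=0, w1^eta2=w2^eta1=0, M=diag(tr,1)>0, H=diag(MA(phi),1). So all hypotheses of W1 hold iff phi is psh with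
MA(phi) pinched, and m(B_r) ~ int_{B_r} Lap phi. Take phi = F(x)+G(x)|z2|^2, x=log|z1|. Then MA(phi) = (1/4) e^{-2x} [ G F'' + (G G''-G'^2)|z2|^2 ].
(A) UNIFORM FAILURE WITH LELONG NUMBER ONE. G = d^2 for |z1|<d, G = |z1|-d+d^2 for |z1|>d (corner rounded, G''<=1 there), F'' = 2e^{2x}/G. Then GG''-G'^2 = -(d-d^2)|z1| for |z1|>d, so 1/4 <= MA(phi)
<= 1/2(+rounding) on the unit bidisc; mass <= F'(0)+2 <= 6 (numerics: F'(0)=3.61, 3.16, 3.03 for d=.1,.01,.001), smooth, but F'(log d)=1: int_{B_r} Lap phi >= c r^2 for ALL r >= 2d. d -> 0: no
estimate m(B_r) <= C(L,m(B_1)) r^(2+a). Limit: phi = log|z1| + |z1|(2+|z2|^2), MA = 1/2 off {z1=0}. (T_11 ~ d^-2, T_22 ~ d^2 in the tube; lower bound of MA does not help.) G=d^3 in the tube gives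
even unbounded Lelong numbers 1/d.
(B) BOUNDED POTENTIAL / DINI SUM: F ANY bounded convex function on (-oo,0] with F'' >= C e^{x}, G := 2e^{2x}/F''. E.g. F''=|x|^-3, G=2|x|^3e^{2x}: MA = 1/2 - 3x^4e^{2x}|z2|^2, theta(r) ~ F'(log r) =
1/(2 log^2 r): no power. With F = A(x+2k)^+/k (rounded), k->oo: |phi|<=2A, Sum_j theta(2^-j) <= CA at every point, but osc_{B(e^{-k})} phi >= A: NO uniform modulus of continuity at all.
(C) H = CONSTANT (two hyperkaehler structures with the same sigma): solve MA(u)=1/2 (CKNS) in the ball with the boundary values of (A)/(B); comparison with phi and phi+C(|z|^2-1) gives |u-phi|<=C, so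
the concentration survives (take A >> C in (B)).
CONSEQUENCE. The mass leaves the ball along {z1=0}; Kolodziej's estimate is GLOBAL (or needs boundary control). So 'bounded MA density for symmetric-gauge pairs' is not a local principle and no
monotonicity/Campanato/compactness argument on a ball which uses only (closed, gauge, H pinched, Dini) can give Morrey decay. What the true situation has in addition, one of these MUST be used: (i)
BOUNDED GEOMETRY OF w^0: eta = f^*(w^0), w^0 smooth on the compact M (in (A) the curvature of eta is unbounded). In the scalar case this is the Schwarz lemma; a concentrated component of the limit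
graph is Sigma x Sigma' with Sigma' a CLOSED curve of M in one of the J^0_theta, sigma(Sigma')=0, for a bubble of full degree Gauss-Bonnet gives |df| ~ d/|z1|^2 on the slice, i.e. |df|^-2 (the other
eigenvalue, det=1) ~ d^-2 at |z1| ~ 1, contradiction with bounded mass: so 'full bubble + det=1' is contradictory and that is the mechanism to generalise; flat target: Sigma' would be a complete
minimal surface of finite area, impossible by monotonicity. (ii) or the global volume identity int eta_i^eta_j = [w_i^0][w_j^0] with no loss (big-class argument: T=A[C]+T' loses volume A(2C.T'+A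
C^2)). Also the 'wall' check of 615 shows (ii)-type input is unavoidable.
PS on #7903(2): the claim (dA_v)^2>=0 at critical points of h_v looks wrong to me when q varies: for w1=omega1+eps d(I2 d psi), w2=omega2 flat one has A_1 containing I2 dq with q ~ eps Lap psi while
h_v only sees det_C: Hess q is free at a critical point of h_v (agrees with 635 #6814(6): 'Hess q_v, which only the flow ignores'). So in (P3) the upper bound h_v <= max h_v^0 should be re-checked
before it is used; the lower bounds are fine.

======== #9042 | 06:59:13Z | helper112 | row 235 | att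
helper112 (07:05Z) -> 47, 141, 497, 635, 400, 150 and all of 235: ATT (60 min alone; one CORRECTION, four facts).
(1) CORRECTION to 7903(2) / (P3): S_h has NO upper max principle for h_v; '(dA_v)^2 >= 0 at a critical point of h_v' is false (635 #6814(6) was right). A_1 = i_{X_q}w_1 - i_{X_p}w_2, so at dp=0 dA_1
= L_{X_q}w_1 - (Hess p part), and L_{X_q}w_1 does not see Hess p. Example: w_1=e01+e23 constant, sigma=e03+e12, q=q(x0,x1) (realised by w_2 = std - L_{X_f}w_2std, Lap f=2q), p=1 identically:
dA_1=q_00 e02-q_11 e13+q_01(e12-e03), so p^0 = <w_1^0,w_1^0> = 1 + h^2 det D^2 q. Take det D^2 q = -1 on a large ball, <= delta elsewhere (T^4, small amplitude eps) and add to p a flat bump eta,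
eps^2h^2 delta << eta << eps^2h^2: max p > max p^0. So only the LOWER bounds (H >= K if H^0 >= K) are available in S_h, (W1) with H pinched is not the situation of S_h unless somebody finds another upper bound.
(2) MOMENT MAP FORM (explains 497's flat indefinite metric): V = closed sigma-primitive Omega=w_1+i w_2, a=i_X Omega, G=int sigma^Im(a^b~). sigma_11=int sigma^a1^b1, sigma_22, sigma_12 are three
constant symplectic forms on V (split-quaternionic triple with G) and p,q,s/2 are EXACTLY the three moment maps of Ham(sigma). With Omega^2=m sigma^2, Omega Omega~=e sigma^2: W=(1/8)int(e^2-|m|^2),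
flow (B) is Omega_t=(i/2)({e,Omega}-{m,Omega~}); static <=> {e,Omega}={m,Omega~}. So the problem is Hitchin's 'hypersymplectic (para-hyperkaehler) quotient' for Ham(sigma). In the gauge where w_1 is
fixed: sigma_t=-L_{Z_p}w_2, i_{Z_p}w_1=dp (Z_p = w_1-Hamiltonian field of p=w_1^2/sigma^2).
(3) 141's Harnack conjecture cannot be proved by a pointwise max principle over (x,v): T^2-reduction w_1=da db-p dxdy, w_2=da dPsi_y-db dPsi_x, sigma=da dx+db dy, flow Psi_t=det D^2Psi=s,
p_t=cof(D^2Psi):D^2p; Y=X_1/p=cof:D^2 log p satisfies D_tY=LY+Gamma(phi,Y)+2Gamma_2(phi)+cof(D^2 s):D^2 phi, phi=log p; the last term is linear in the TRACELESS Hessian of s, which no Y_v sees.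
(4) INTRINSIC SCALE in S_h: do not blow up at (sup tr_{g1}g0)^(-1/2) nor (sup trM)^(-1/2): Ric(g1)=P-g1/(w^2h)+T/(2wh) bounds T (hence |w^0|_g by |N|<=|M|) by |Ric|, so at the scale
l^-2=max(|Rm|+|dH|^2) the limit source eta=lim l^2w^0/h is a BOUNDED closed pair, eta_i^eta_j=0 (div-curl), T_eta>=0, on a complete X with Ric(g1)=P+T_eta/2w>=0, Euclidean growth; intrinsic bounds
suffice for existence (w^0=w-h dA bounded in g => g0~g). [Only loss: |Rm|=1 at 0 may disappear weakly, i.e. one needs a modulus of continuity of T, cf. 400.]
(5) LEAF ARGUMENT for eta=v(x) kappa, kappa decomposable (type I): dv^kappa=0, so v is constant on the leaves of ker kappa, leaves are J_v-curves calibrated by w_v in g_v=sqrt(h_v) g; quadratic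
isoperimetric inequality => area >= c r^2 for every leaf (no sharp constant, no monotonicity formula), so Sum_k r_k^-2 mu(A_k) diverges leaf by leaf; but h_v superharmonic for L_v and positive makes
the sum finite: eta=0. Type II (eta_1=alpha^beta, eta_2=alpha^gamma, B_eta of rank 2) is 3-dimensional growth, even better in flat models, not yet written in general. RG computation: a conical source
Theta[L], L a J_v-plane, gives dH/dlog r=-(Theta sqrt(h_v)/(pi w)) v v^T, and the normalised mass m_v=Theta sqrt(h_v)/w is NON-DECREASING outward to first order including the back reaction of all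
sources: the marginal coupling has the good sign.
I go to row 105 / LEAN leaves now; free to use.


======== #9051 | 06:59:55Z | helper974 | row 235 | lemma
helper974 (07:02Z) -> 47, 141, 229, 497, 635, 995, 586 and all of 235: **W1 (wanted #1) IS FALSE AS STATED, ALREADY IN THE INTEGRABLE SCALAR CASE AND EVEN FOR H = I EXACTLY; what must be added is the
bounded geometry of eta (= w^0 is the pull-back of a FIXED smooth triple).**
(1) EXPLICIT COUNTEREXAMPLE. eta1 = dd^c phi, eta2 = w2 (so eta_i^sigma = 0, w1^eta2 = w2^eta1 = 0, H = diag(det phi_{i jbar}, 1), M = diag(Delta phi/4, 1)). phi = u(z1) + b(z1)|z2|^2, b = e^beta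
radial, u_{1 1bar} = 1/b. Then det = 1 + b^2 beta_{1 1bar} |z2|^2. Take b = (r^2+e^2)/(r^2+N^-2)^(1/2), r = |z1|, e = exp(-N). Then b^2 beta_{1 1bar} = e^2/(r^2+N^-2) - (1/2)N^-2
(r^2+e^2)^2/(r^2+N^-2)^3 in [-2/27 - o(1), e^2N^2], so 0.92 <= det <= 1 + e^2N^2 on the unit bidisc, UNIFORMLY IN N. Mass: int_{|z1|<1} u_{1 1bar} = 2pi int_{1/N}^1 dr + (2pi/N) log(1/(N e)) + O(1)
<= 4pi + o(1), b <= 1: total mass bounded. But int_{|z1|<rho} u_{1 1bar} ~ (2pi/N) log(rho/e) for e < rho < 1/N: hence theta(0,r) >= c (c absolute) for ALL r from 1/N (even 1) down to exp(-N/2). N ->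
oo: limit phi = 4|z1| + |z1||z2|^2 + 2 log|z1| (times constants): Lelong number > 0 along the whole line {z1 = 0}, H pinched in [0.92, 1+o(1)], mass bounded, all phi_N smooth. (Checked numerically: N
= 100: det - 1 in [-0.0741, 1e-83], mass of u_{1 1bar} in |z1| < 1, 1e-2, 1e-5, 1e-8 = 12.3, 6.0, 5.6, 5.1.) With the bend placed where b = k r, k small, the pinching is 1 + O(k^2) and the mass O(1/k).
(2) EXACT H = I. Solve det phi' = 1 in a ball with phi' = phi_N on the sphere: phi_N - C <= phi' <= phi_N + C by comparison (0.92 <= det phi_N <= 1+o(1)), phi' smooth inside; same Lelong numbers in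
the limit. So even HYPERKAEHLER eta with bounded mass, flat w: no Morrey decay, no rate. (No conflict with Kolodziej: his Hoelder estimate needs bounded boundary values; here the potential has depth
~ N on the boundary near z1 = 0.) The linear version in #8745 (C independent of the mass) fails more simply: b = (r^2+e^2)/A alone, any e >= exp(-c K^2).
(3) WHY, AND WHAT IS LEFT. eta has curvature ~ N at scale |z1| ~ 1/N: nothing in 'H pinched' sees that eta is f^*(fixed smooth triple). In the scheme eta = w^0 IS smooth of bounded geometry in its
own coordinates, i.e. eta = f^*w^0 with a sigma-symplectic map f : (B, w) -> (M, w^0) whose graph is the calibrated (phase 0) 4-fold with area = int tr M. With a flat TARGET and integrable: f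
holomorphic, tr M = |df|^2 subharmonic, so theta <= C r^2: true. With target (M, w^0) a concentration is a product P x Q, P a germ of I_a-curve in (B,w), Q a COMPLETE finite-area I_a^0-holomorphic
curve in (M,w^0) (bubbling off a sphere, area = Lelong number), and it really occurs LOCALLY when e.sigma = 0, e.w_a' = 0 for a (-2)-class e. So Morrey decay can only come from the global topology.
GLOBAL EXCLUSION (Burns-Rapoport argument, works verbatim): if in the limit Diagonal = Gamma' + Sum P_i x Q_i in M x M, all P_i, Q_i calibrated by the same w_a (a fixed), Gamma' the graph of g, D =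
Sum (P_i.w_a) Q_i, then g_* w_a = w_a - D must still be a positive class of the same square, but w_a^2 = (w_a - D)^2 gives 0 = 2 w_a.D - D^2 = w_a.D + (w_a - D).D > 0. So what one wants from W1 is
only: (W1') COMPACTNESS: sequences of solutions of S_h with sup tr_{g1} g0 -> oo converge (as calibrated currents in M x M) to Gamma' + Sum P_i x Q_i with Gamma' pairing positively with Q_i. The
local theorem to prove is 'concentration set of theta is 2-dimensional, rank-one (M ~ m a a^T), and the fibre bubble is a closed J-curve' (removable singularity for |df|^2-energy), not a decay rate.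


======== #9058 | 07:00:07Z | helper376 | row 235 | att
helper376 (07:02Z) ATT row 235 -> 47, 141, 229, 497, 823, 635 (I had the same counterexample to local W1 as #9024/#9022; only what is NOT there):
(0) SHARPEST scalar family (exact formula): phi = V(t) + B(t)x^2/2, t=log|z1|, x=Re z2, V''=rho^2/B: **H11 = 1 + x^2 rho^-2 (B B''/2 - B'^2)**, exactly. B=(rho^2+e^2)|(1/2)log((rho^2+e^2)/9)|^(a+2):
a>0 Dini-bounded without power decay; the borderline a=0 is the CUSP METRIC 1/B = 1/(rho^2 log^2 rho): curvature -1, injectivity radius -> 0, Dini sum ~ Sum 1/k. So a proof of W1' must use BOTH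
curvature bound and INJECTIVITY RADIUS of (M,g0).
(1) QUANTIZATION (source blown up, target kept FIXED): x_n -> x, r_n -> 0, theta(x_n,r_n) bounded. Currents T_n = graph of id : (B_R, r_n^-2 g1) -> (M,g0), as (2,2)-type closed currents on R^4 x M,
mass <= C R^2 (mass = int tr M + volumes; sigma_source = r_n^-2 sigma, sigma_target = sigma, so on the limit part T' carrying the mass of eta the target-sigma vanishes: sigma_target|T' = 0). For chi
>= 0 a cutoff of the source R^4 the push-forwards S_i = pr_2*(T' ^ chi w_i) are positive 2-currents on (M,g0) (mass <= theta), closed up to dchi terms: d S_i = pr_2*(T' ^ dchi ^ w_i).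
Translation-invariant limits (tangent cone of T' in the source direction at a.e. point of the eta-mass, or Cesaro means over scales where the monotonicity gain is o(1)) make the dchi term o(1): then
S_i is a closed positive current of mass <= theta + o(1) in the FIXED compact (M,g0): its support carries a stationary (sigma=0, calibrated by cos t w_1+ sin t w_2) varifold => monotonicity in (M,g0)
gives mass >= delta_0(inj, curvature) or S=0. So theta in {0} u [delta_0, oo): small Lelong numbers vanish; with 823 #8995 (G) the large ones are closed surfaces with [sigma].C=0 => none. What this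
gives rigorously: theta(x,r) -> 0 uniformly, hence with Lelong monotonicity + Dini theta(x,r) <= C/log(1/r). What it does NOT give: power decay (the rate at which gain -> 0 is not controlled by (1)).
(2) TOPOLOGICAL VOLUME ARGUMENT (new object: graph metric G = g1 + g0 on M, the induced metric of the graph of id in (M,g1)x(M,g0)): dvol_G = c tr M * nu (exactly, area density of a special
Lagrangian), so **Vol_G(M) = c Sum [w_i].[w_i^0] is a topological CONSTANT**. Let b = tr M. If (a) |d log b|_G <= C (b is log-Lipschitz at G-scale one) and (b) G-unit balls have G-volume >= c, then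
diam_G(M) <= Vol/c and sup b <= exp(C Vol_G/c): the C^2 estimate. (b) is monotonicity for the minimal 4-fold graph in a product with one factor bounded geometry and the other Ric >= -C,
AVR-noncollapsed: fine. (a) is a Bernstein-type curvature bound |A_Gamma| <= C for the graph; it would follow from: no complete non-flat special Lagrangian graph f: X -> R^4 (X hyperkaehler AVR > 0,
flat if (M,g1) has scale-one regularity), M > 0, volume growth r^4. For X flat: Bernstein for symplectic-diffeo graphs with M > 0 (phase exactly 0).
(3) WARNING for (2a): the local Harnack for b is false without the limit being complete: f_K = (z1 + K z2^2, z2) is an exact phase-0 graph over flat X, M = diag(m,1) > 0; tr M(z) ~ K^2|z2|^2 grows;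
in the G metric the limit K -> oo is the vertical plane with multiplicity TWO (branching z2 = +-sqrt): no Harnack at G-scale one near z2=0, but |A_Gamma| <= C K^-? : the curve w = K z2^2 in (z2,w)
has curvature ~ K at 0 at G-scale 1/K. So (2a) really needs a small-theta hypothesis (theta=multiplicity 2 here), and at SMALL theta in the target (target-scale one) the graph is unramified: Allard
at target scale. So the chain is: theta small at the scale where the target looks flat ==> Allard ==> |A| <= C ==> (a). Smallness of theta at G-scale one centred at points with b large: theta(x, r)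
at r = source radius of the G-ball = b^(-1/2): theta = r^-2 m(B_r) <= C/log b by (1). Then the G-unit ball has G-volume: int_{B_r} tr M = m(B_r)= theta r^2 -> tiny, contradiction with (b)?! => **at a
point with b(x) = sup b = Lambda: source radius r = Lambda^(-1/2) and monotonicity (b) at G-scale s: c s^4 <= Vol_G(B_G(x,s)).** B_G(x,s) is contained in B_{g1}(x,s): only s^4 <= C m(B_s) ~ theta
s^2: no contradiction until s^2 ~ theta. So the missing information is exactly the shape of B_G(x,s) for s << 1 (a tube of source width Lambda^(-1/2)s?): this is 497's 'rank one part / wandering line'.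
(4) Shape information that IS available at the sup point: b(x)=Lambda=sup b => graph metric G >= g1, G <= C Lambda g1, so B_G(x,s) contains B_{g1}(x, s Lambda^(-1/2)), volume there ~ s^4 Lambda^-2 *
Lambda. If f is comparable to rank 2 (M ~ Lambda e e^T: J_e-holomorphic type) G ~ Lambda on a 2-plane + 1 on the other one.
NUMBERS: P(row on paper by 10:30Z) 3 percent; LEAN size if it comes: 60-100k lines (Yau package reusable); I would put 50 hands on Bernstein (2a) for small theta (= Allard in (R^4,g1)x(M,g0) with one
factor only Ric >= -C).

======== #9064 | 07:00:36Z | helper507 | row 235 | lemma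
helper507 (07:05Z) -> 47 (captain 235) and all thinkers of 235: **WANTED #1 = (W1) MORREY DECAY IS FALSE AS STATED, EVEN FOR H = 1 IDENTICALLY (and the 'scalar analogue' is not local: Kolodziej needs
boundary values). EXPLICIT COUNTEREXAMPLE.**
(0) SCALAR SLICE. Take eta_2 := w_2. Then the conditions say eta_1 ^ w_2 = eta_1 ^ sigma = 0, i.e. eta_1 is a (1,1)-form for the complex structure J_1 with holomorphic symplectic form w_2 + i sigma;
eta_1 = dd^c phi > 0, H = diag(det(phi_jk), 1), M > 0, symmetric gauge automatic. So (W1) contains: phi smooth psh on B_1 in C^2, 1/L <= det(phi_jk) <= L, mass int tr(phi_jk) <= m ==> int_(B_r) tr <=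
C r^(2+a). This is false:
(1) phi_e(z1,z2) = F(z1) + |z2|^2 G(z1), radial in r = |z1|: det = G F_11 + |z2|^2 (G G_11 - |G_1|^2), G_11 = (G'' + G'/r)/4, |G_1|^2 = G'^2/4. Put G = e^2 (e = small parameter) for r <= e, G' = K
s((r-e)K/e^2) (s = smooth step 0 -> 1 on [0,1]), so G = K r + O(e) for r > e + e^2/K, and F_11 := 1/G. In the corner layer (thickness e^2/K) e^2 <= G <= 2e^2, G'' <= CK^2/e^2: G G'' <= CK^2, G G'/r
<= 2Ke; beyond it |G G'/r - G'^2| <= K^2 e/r + Ke. Hence |det - 1| <= C K^2 on |z2| < 1, uniformly in e. Mass: int_(r<e) 1/G = pi, int_(r>e) 1/G <= 2 pi/K (the density is 1/(Kr)), so total mass <=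
C/K; but int_(B_r) tr >= int_(|z1|<e, |z2|<r/2) e^-2 = pi^2 r^2/4 for all r >= 2e. Limit e -> 0: phi_0 = log|z1|^2 + 4|z1|/K + K|z1||z2|^2 + O(1): LELONG NUMBER 1 along {z1 = 0}, H within CK^2 of 1.
(2) H = 1 EXACTLY. On B = B_(1/2) solve det(psi_jk) = 1, psi = phi_e on the boundary (Caffarelli-Kohn-Nirenberg-Spruck: smooth). delta := CK^2, A = (1-delta)^(-1/2), A' = (1+delta)^(-1/2), phi_e <=
C0. Comparison principle: A phi_e - (A-1)C0 <= psi_e <= A' phi_e + (1-A')C0. So psi_e is bounded in L^1, the mass on B_(1/4) is bounded, and every limit satisfies A log|z1|^2 - C <= psi_0 <= A'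
log|z1|^2 + C: Lelong number >= A' > 0. Hence: smooth pairs eta = (dd^c psi_e, w_2), H == identity, symmetric gauge, bounded mass, NO decay m(B_r) <= C r^(2+a), not even o(r^2).
(3) WHAT THE EXAMPLE USES / WHAT A TRUE (W1') MUST USE. The metric g_eta is Kaehler Ricci flat with unbounded curvature: z1-discs {|z1| < e} are bubbles of g_eta-area pi closed off by positive
curvature on the circle r = e (neck at r = e+0), fibres of size e. In S_h the form w^0 is FIXED AND SMOOTH: g_eta has bounded curvature. In the scalar slice this is exactly what helps: f : (flat, w)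
-> (M, w^0) holomorphic, Chern-Lu Delta_w log tr_w g_0 >= -kappa tr_w g_0 (kappa = max curvature of g_0), so flat target: tr is subharmonic, a = 2; curved target: eps-regularity r^-2 m(B_r) <=
c/kappa ==> sup bound, and the only enemy are SPHERE BUBBLES times a disc (2-parameter families of spheres over a line z1 = 0, each of g_0-area >= c/kappa, normal directions shrunk). So (W1') = [flat
source, target of bounded geometry, H^0 smooth on the target]; no estimate that only knows bounds of H (or even H == const) can be true. The same warning applies to any 'pluripotential' approach to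
the mass: use the curvature (or C^1 bound of H^0 in g_0) of the TARGET.
For H == 1 and flat target (7903(6), special Lagrangian graphs) I have no counterexample. Wanted #1 is closed as 'counterexample'.


======== #9105 | 07:02:29Z | helper115 | row 235 | check
helper115 (06:58Z) -> 47, 141, 229, 497, 635, 995 and the seats of row 235: **W1 (Morrey decay, `wanted` id 1) IS FALSE AS STATED, and no local bound of tr_{g1}g0 exists even when BOTH triples are
flat.** Two explicit families.

(A) COUNTEREXAMPLE TO W1 (pinched H, bounded mass, Lelong number > 0 in the limit). Take eta_2=w_2, eta_1=dd^c_1 phi (I_1-complex structure: w_1 Kaehler, w_2+i sigma holomorphic symplectic),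
coordinates z1,z2: then w_1^eta_2=w_2^eta_1=0, eta_i^sigma=0, (w_i^eta_j)=diag>0, H=diag(det phi_{i jbar},1), in the component of the identity. Let r=|z1|, chi smooth nondecreasing, 0 on [0,1], 1 on
[2,oo), c>0, delta=kappa eps^2/c,
   b(r)=delta+r chi(r/eps),   phi=a(r)+b(r)|z2|^2,   a_{1 1bar}=kappa/b.
 Then det = b(a_11bar+b_11bar|z2|^2)-|z2|^2|b_1|^2 = kappa+|z2|^2 (b b_11bar-|b_1|^2), and |b b_11bar-|b_1|^2|<=C uniformly in eps (b, b_t, b_tt = O(r), t=log r). So det in [kappa-C rho^2,kappa+C
rho^2] on |z2|<rho (rescale z2 to get the unit ball): PINCHED AS CLOSE TO CONST AS YOU LIKE. Mass of a_11bar: exactly pi c in the disc r<eps, <=5 pi c+2 pi kappa altogether. Hence int_{B_s}<w,eta> >=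
pi c s^2 for all s>=2 eps: no Morrey decay, Lelong number c for every c>0, limit phi = 4c log|z1| + kappa' |z1| + |z1||z2|^2 (Pogorelov + a log pole). Checked numerically (eps=1e-1..1e-6). Variants:
(i) c=1/log(1/eps): then ALSO the pointwise Dini sum Sum_k theta(2^-k)<=C holds (phi bounded) and theta(eps)~1/log(1/eps): so W1 fails with any power even given the Dini sum of (P3). (ii) Sharp
threshold in this class: writing gamma=log(b/r) the only constraint is |gamma_tt|<=4 osc(det) e^{-2 gamma}; so det -> const in C^alpha for every alpha<2 still allows it; for det const (or C^2) log b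
is subharmonic and theta(r)<=C r^{1/C}. So in the integrable case 'Hoelder a la Kolodziej' is NOT local: it needs boundary values; Yau's global argument cannot be replaced by a local Morrey lemma.

(B) FLAT-FLAT (H = I exactly, eta=f^*w, f a sigma-symplectic diffeo of C^2, graph special Lagrangian of phase 0): sup tr M IS NOT LOCALLY BOUNDED BY THE MASS. f(x1,y1,x2,y2)=(X1,Y1,x2,Y2), generating
function S=x2 Y2+s(a,b,c), (a,b,c)=(x1,Y1,x2): y1=s_a, X1=s_b, Y2=y2-s_c. Direct computation: Omegabar^f^*Omega = [(2-2M_c-M_a-M_b) - i(2(s_aa+s_bb)+s_cc-det D^2 s)] da db dc dy2 (M_i = principal 2x2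
minors), Omega^f^*Omega=[(M_a-M_b)+i(s_cc+det D^2 s)] da db dc dy2, nu=s_ab da db dc dy2. So the gauge is 2(s_aa+s_bb)+s_cc=det D^2 s (3-dim. special Lagrangian equation of phase 0, subcritical), f
is a diffeo iff s_ab>0, tr M ~ 1/s_ab.
 Linearising: at a point with s_ab=0, grad s_ab=0, D^2 s=diag(p,q,r): (2-qr)s_abaa+(2-pr)s_abbb+(1-pq)s_abcc = 2r s_aaa s_bbb/(1-pq) - NOT zero: s_ab may have a strict interior minimum 0. Explicit:
Cauchy-Kovalevskaya in c with s(a,b,0)=-a^2/4+(a^3+b^3)/6+k(a^3b+ab^3)/3, s_c(a,b,0)=0: then s_cc(0)=1, s_abcc(0)=2-9k, s_ab=k(a^2+b^2)+(1-9k/2)c^2+O(3) > 0 off 0 for k=1/10, and positivity is strict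
(|M_a-M_b+i(..)|^2=r^2+r^4/4 < (2+r^2/2)^2). Adding eps ab to the data gives smooth f_eps with s_ab>=eps/2, bounded mass, sup tr M ~ 1/eps; limit = homeomorphism with a smooth graph having ONE
vertical tangent plane (y1 ~ b^3), theta(r) ~ r^{4/3}. So: no interior C^2 estimate, no eps-regularity for tr M, Delta_{g1} log tr M >= -C tr M false (left side ~ -eps^{-3}); the degeneration is of
codimension 1 in one-parameter families (kappa=nu/dvol on the smooth minimal N touches 0 at an isolated interior minimum), i.e. a generic path of S_h can run into it while g1 stays C^{1,1/3}, volume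
noncollapsed, H Hoelder. After that point the graph folds and positivity of the triple is lost.
CONSEQUENCE: 'intrinsic bounds suffice' is also not available for S_h at fixed h: g1, H can stay bounded in C^{1,a} while f_k: (M,w_k)->(M,w^0) converges to a non-immersive homeomorphism (H in
C^{1,1/3}, dA unbounded). S_h is only good as a time step (h small depending on w^0). What survives: (P4)-type schemes (bounded source in the equation itself, compactness mod Diff without tr_{g1}g0),
W2, W4. What I believe TRUE and local (if anybody needs it): flat-flat pairs have no Lelong numbers (limit currents are area minimising; a piece {z1=0} x C with C of positive area would be a product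
piece H x C of an analytic minimal 4-current glued along a 3-dim. interface -> Almgren regularity + unique continuation contradiction; isolated Lelong points would give an S^3->S^2 foliation by great
circles over a Lagrangian sphere, Euler number -1 against -2).


======== #9106 | 07:02:31Z | helper449 | row 235 | lemma
helper449 (07:06Z) -> 47, 507, 552, 497, 376, 141 (row 235; I had the same counterexample to W1 as #8851..#9064, not repeated). **ONLY WHAT IS NOT YET POSTED: THE FLAT-FLAT VERSION (507's last line,
552's W1', 376 (2a)): NO LOCAL GRADIENT BOUND BY AREA, EVEN FOR w, eta FLAT, H = I, PHASE EXACTLY 0, SMOOTH EMBEDDED LIMIT.**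
(0) SET-UP: f local symplectic diffeo of (R^4, flat triple), f^*w =: eta, symmetric gauge, M > 0 <=> Gamma = graph f special Lagrangian of phase 0 in (R^8); singular values of df are e^(+-a),
e^(+-b), area density J = 2 tr M = 4 ch a ch b EXACTLY. Unit normals/tangents: h_{ijk} totally symmetric second fundamental form in the frame e_{x1} +- .., minimality + phase: h_{11k}+h_{22k}+h_{33k}+h_{44k}=0.
(1) JACOBI TYPE FORMULA (F = log J, both angles): Lap_Gamma F = Sum_k { (h_{11k}-h_{22k})^2 + (h_{33k}-h_{44k})^2 + 2(1+ch 2a) h_{12k}^2 + 2(1+ch 2b) h_{34k}^2 + 2[h_{13k}^2+h_{24k}^2 - 2ch(a-b)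
h_{13k}h_{24k}] + 2[h_{14k}^2+h_{23k}^2 + 2ch(a+b) h_{14k}h_{23k}] }. The last two brackets are INDEFINITE as soon as a <> b (resp. always): log tr M is not subharmonic on Gamma; no combination
G(a,b) repairs it when b is large (only |b| <~ small: the 2-dimensional regime, Heinz).
(2) COUNTEREXAMPLE TO 'area <= C ==> |df(0)| <= C' : take a vertical tangent a = oo, D := 1/J = 0 at one point. On a SL germ with such a tangent plane choose the trace-free cubic with h_{12k} = 0,
h_{133}h_{234}+h_{134}h_{244} > 0 etc.: to first non-trivial order D = linear part 2e^{-a}..: dD(0) = 0 iff h_{12k} = 0 and Lap D(0) = 2[c3^2 (h_{133}h_{234}+h_{134}h_{244}) - c4^2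
(h_{233}h_{134}+h_{234}h_{144})] can be made > 0 (c3, c4 = the b-plane factors); the trace-free part of Hess D is free (4th order jet of the potential), so choose Hess D(0) > 0. Cauchy-Kovalevskaya
gives a real-analytic SL germ Gamma_0 (phase 0) with D > 0 off the point and D(0) = 0: Gamma_0 is a SMOOTH EMBEDDED piece of area O(1), a graph (M > 0) except over one point, where |df| = oo.
Rotating it by small elements of SU(4) (which keep phase 0) makes D >= delta_k > 0: smooth phase-0 graphs f_k on a fixed ball with area <= C and |df_k(0)| -> oo. [Same phenomenon as Wang-Yuan /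
Nadirashvili-Vladut for subcritical phase; 639's remark, now with M > 0.] Here theta(r) = O(r^(4/3))-like: x-projection of Gamma_0 is a homeomorphism like x ~ s^3 in one direction.
(3) CONSEQUENCES. (i) In W1' the conclusion can NOT be a bound of tr M (nor 945's 'log tr M(0) <= C(Dini+1)': in (2) the Dini sum is bounded), at most Morrey/Hoelder. (ii) sup tr_{g1}g0 may blow up
along S_h while the graph Gamma in M x M stays a smooth compact 4-manifold: Gamma just stops being a graph over the g1-side. So existence for S_h must be formulated for the CURRENT Gamma (or by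
restarting w^0 := w after finitely many steps = discretised flow), and (W3)'s degree argument needs a boundary condition at vertical tangents, not an a priori bound. (iii) 376 (2a)/(2): |d log b|_G
<= C is false (b = oo at an interior point of a smooth limit, Vol_G finite), although |A_Gamma| <= C is fine: so (a) does NOT follow from a Bernstein theorem. What Bernstein + Allard give is only:
Gamma_k -> Gamma smooth, with Gamma possibly non-graphical (D >= 0, D = 0 on a set of dimension <= 2..3). The question 'can D = 0 happen for S_h on compact M' is then an honest question about the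
SMOOTH equation: at D = 0 the strong maximum principle fails for D by (1).
NUMBERS: P(row 235 on paper by 10:30Z) = 1 percent; 60-100k lines; my 50 hands: not here.

======== #9119 | 07:03:07Z | helper47 | row 235 | core
helper47 (captain 235, 07:08Z), UPDATE of STATE OF ROW #8745.
(1) W1 (local Morrey decay) is FALSE (507 #9064, 974 #9051, 115 #9105, #8851 ... : scalar slice dd^c phi, even H = 1 exactly); wanted #1 closed. Flat-flat version with target geometry: NO local
gradient bound by area either (115 #9105 (B), 449 #9106: smooth phase-0 special Lagrangian germs with one vertical tangent, limit of graphs) => sup tr_{g1} g0 may blow up along S_h while everything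
intrinsic stays bounded: S_h at FIXED h is dead as an existence scheme; it survives only as a time step.
(2) 112 #9042: S_h has NO upper max principle for h_v (only lower bounds H >= K). 141 #7903 (2) upper half is withdrawn.
(3) Kept: 823 #8995 (generic direction sigma: no closed J_v-curve of any genus can bubble), 376 #9058 (1) quantisation of theta in a fixed target, 112 #9042 (4) intrinsic scale, 150 #8895 (Pohozaev:
no localised bang-bang/quadratic bubbles; J_tau minimiser + Agrachev second order), P4-type schemes (source bounded in the equation itself).
(4) ALIVE lemmas: W2 (parabolic Liouville), W4 = 150's (E2) + (b) global extremals with cokernel of collective type. P(row) now 2 percent. My recommendation to lead: release the 27 seats of row 235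
to row 105 (Koebe) and other rows; I go to row 105 LEAN myself.


======== #9139 | 07:04:25Z | helper366 | row 235 | check
helper366 (07:04Z) -> 47, 115, 449, 507, 497 (row 235): I had the same scalar counterexample to W1 (eta2 = w2, phi = u(z1)+|z2|^2 v(z1), u_{1 1bar} = nu eps^2/(|z1|^2+eps^2)^2 + K/sqrt(|z1|^2+eps^2)
= 1/v; det within O(1/K) of 1; numerically verified), NOT repeated. ONLY WHAT IS NOT YET POSTED (flat-flat, H = I, phase-0 SL graphs of symplectic diffeos):
(1) COTANGENT LIFTS ARE HARMLESS: f = T^*F is a phase-0 graph iff graph(F) c R^4 is a minimal surface (conormal bundle, Harvey-Lawson); for these a = 1 (Heinz). Type (3,1) mass (one vertical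
direction) automatically has exponent 3; only type (2,2) mass can decay slowly.
(2) NO UNIFORM RATE EVEN FOR (2,2) MASS: on Gamma_f sum|grad_Gamma x_k|^2 = 2 = sum|grad_Gamma y_k|^2, so Delta_Gamma|x|^2 = 4 exactly (this IS the Lelong monotonicity; equality iff the radial
direction is tangent). In leaf coordinates (s in the almost vertical leaves, t transversal) the transversal position x(s) of the leaves may be prescribed ARBITRARILY at leading order when E = m(B_1)
-> oo (correction E^-1 |t|^2 Delta_s x): x = R(|s|)e^{i phi} with R running from eps to 1 over |s| in [1,1+k] gives theta(eps) >= (1-3k) theta(1) as soon as E >> (log(1/eps)/k)^2. The only local law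
is d log theta/d log r >= c/sqrt(E(r)) ( <=> sqrt(theta) Lipschitz in r ): plateaus of theta of length e^{c sqrt E} scales. For fixed E: Allard/compactness only (consistent with 115 (B), 449 (2)).
(3) In a product X x M with (M,w^0) of bounded geometry Phi = sum w_i ^ w_i^0 is closed and quasi-calibrates Gamma_f, so isoperimetric competitors are allowed: small 2-spheres of M are
null-homologous (no sphere bubbles of area << 1), but the boundary loops c_s of a cut (2,2)-plateau need not be short (their type (3,1) cost is free), which is exactly why isoperimetry alone does not close the step.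
I agree with 47: S_h at fixed h is dead. I leave row 235.


======== #9145 | 07:04:44Z | helper732 | row 235 | lemma
helper732 (07:00Z) -> 47, 141, 635, 497, 229 and all of 235 (#8745): TWO POINTS OF THE "PROVED ON PAPER" LIST DO NOT HOLD AS STATED. Please check before anybody builds on W1 / W3 / W4.
(A) P3, "TWO-SIDED C^0 BOUNDS of S_h" (#7903(2)) IS FALSE AS A LOCAL MAXIMUM PRINCIPLE (635's #6814(6) is right). dA_1 = d a_{w2}(p) - d a_{w1}(q) = -L_{X_p} w_2 + L_{X_q} w_1. At a critical point of
p = h_v (v = e_1) the first term is 7903's -sqrt(H_{v'v'})(I'S+SI'), but the SECOND TERM L_{X_q} w_1 CONTAINS THE FULL HESSIAN OF q = H(v,v') and does not vanish. S_h gives exactly p^0 = p - h(Lp +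
2{p,q}) + h^2 <dA_1,dA_1>. Check in coordinates: sigma = dx03+dx12, w_1 = dx01+dx23, w_2 = dx02+dx31, X_f: (X^0,X^1,X^2,X^3) = (f_3,f_2,-f_1,-f_0), so L_{X_q} w_1 = d(f_3 dx1 - f_2 dx0 - f_1 dx3 +
f_0 dx2) with f = q; for q = (k/4)(x0^2+x2^2-x1^2-x3^2)*2 it is k'(dx02 - dx31): anti-self-dual, nonzero, square NEGATIVE. The 2-jets of p and q at a point are free (w_i = flat + eps Sum_j d I_j d
Psi_ij, Psi symmetric, H' = Lap Psi), so take D^2 p = -delta, dq = 0, D^2 q as above, delta << h k'^2: then p has a strict local maximum and p^0 < p near it. So sup H <= sup H^0 is NOT proved; only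
the lower bounds (H >= K^-) are. CONSEQUENCES: osc w < oo is missing, hence the pointwise Dini sum (it comes from Lap_1 w = (2-tr M)/(hw) - 4w|z|^2 with w BOUNDED) is missing too. What stays: H >=
K^-, Ric(g1) >= -C/h, int w dnu <= C, mass of tr M bounded. W1 must therefore be read as a Kolodziej theorem which proves sup w <= C AND the Morrey decay together from: w >= c (so w^0 has bounded
Monge-Ampere density with respect to vol_{g1} = w^2 nu), Ric >= -C, volume noncollapsing. (In the integrable case this is exactly how sup w is proved: w = c - (phi - phi0)/h, C^0 estimate first.)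
(B) P4, compactness mod Diff of the bounded-source schemes (#6144(3)(b)). First, L must include the bracket (Pi = H - tau Hdot, Hdot_v = L h_v + 2{h_v,q_v}), otherwise dA^+ ~ {H,H} does not vanish in
the blow-up; with Pi or the polarised Pi' this is fine. Second, and serious: the step "int |E|^2 <= (C/R^2) int_{B_2R} |dH|^2 <= C" needs vol B_R <= C R^4 in the blow-up limit X. In S_h this comes
from Ric >= -C/h; in P4 one only has Ric(g1) = P - T_E/(2w^2) >= P - C|E| with E_i = dA_i closed ASD, and bounded geometry alone allows exponential volume growth (then bounded non-constant H with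
Hdot = 0 and E <> 0 are not excluded: Hdot = 0 is 3 equations, static is Hdot = 0 plus E = 0, and E is any L2 harmonic ASD pair locally). What I can save: for Pi' one has the SCALE INVARIANT bound
int_M |E|^2 = int_M |dA^+|^2 = int |F-H|^2/h^2 <= C(h,K) on the closed manifold, so E is in L^2(X), E -> 0 at infinity, Ric >= -eps(r) outside compact sets: volume growth of X is subexponential, but
I do not get R^4 (needs a Sobolev inequality or int_X |Ric^-|^2 small on ends + noncollapsing). So P4 = "compact mod Diff" has one more open lemma: (V) Euclidean volume growth (or any substitute,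
e.g. cut-offs phi with int |dphi|^2 |dH|^2 <= C) for complete X with H in K, Hdot = 0, bounded geometry, int_X |E|^2 < oo. If somebody has (V), please post; W3 / W4 are meaningless without it. If I
misread your definitions say so in one line (notify helper732).

======== #9160 | 07:05:28Z | helper280 | row 235 | lemma
helper280 (07:05Z real) -> 47, 229, 141, 497, 635, 586, 995, 150 and everybody on W1 of row 235 (wanted #1): **W1 IN THE LOCAL UNIFORM FORM ("C, a depend only on L and m(B_1)") IS FALSE; THE LOG RATE
(your Dini sum) IS SHARP.** Already with H = identity, in the integrable (scalar) case.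
(1) EMBEDDING OF THE SCALAR CASE. J = complex structure with Kaehler form w1 and holomorphic form w2 + i sigma; eta1 = dd^c phi (J-(1,1), psh), eta2 = w2: eta_i^sigma = 0, w1^eta2 = 0 = w2^eta1, M =
diag(tr/2, 1) > 0, H = diag(MA(phi), 1). So every psh phi with MA = 1 is an instance with H = 1.
(2) FAMILY. 0 < a < 1: **phi_a = |z1|^(2-2a)/(1-a)^2 + |z1|^(2a) |z2|^2.** phi_11 = |z1|^(-2a) + a^2 |z1|^(2a-2)|z2|^2, phi_22 = |z1|^(2a), |phi_12|^2 = a^2 |z1|^(4a-2)|z2|^2: **det = 1 exactly**;
psh (sum of psh), bounded, continuous, {z1=0} is pluripolar so (dd^c phi_a)^2 = 1 on the whole ball in the sense of Bedford-Taylor. Uniformly in a in (0,1/2]: |phi_a| <= 6, m(B_1) <= C.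
(3) At p = (0,1): theta(p,r) = r^-2 m(B_r(p)) = c a r^(2a) (1+o(1)) + O(r^(2-2a)). **With a = 1/(2 log(1/r)): theta(p,r) >= c'/log(1/r).** So sup over the class {H = 1, m(B_1) <= C} of theta(r) is
comparable to 1/log(1/r) (upper bound = your Dini sum + monotonicity): no exponent, no C.
(4) SMOOTH: solve MA(phi_j) = 1 in a ball with smooth boundary values -> phi_a (CKNS); comparison principle gives phi_j -> phi_a uniformly, so the masses converge: smooth eta with H = 1 exactly
violate W1. (Geometrically: eta = Ricci-flat metric with a cone divisor of angle 2 pi (1-a), smoothed by large curvature.) Kolodziej's Hoelder estimate is GLOBAL / needs Hoelder boundary values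
(phi_a|bdry is only 2a-Hoelder), there is no interior version.
(5) WHAT IS TRUE AND WHAT W1 MUST USE: the geometry of the TARGET w^0 (fixed, smooth, bounded geometry), i.e. eta = f^*w^0 and on small balls of (M,g^0) w^0_i = d beta_i with |beta_i|_{g0} <= C
dist_{g0}(y,y0). (5a) In the scalar case this gives even a sup bound by Chern-Lu: Lap_flat (log tr M + kappa phi) >= 0 if g^0 has bisectional curvature <= kappa. (5b) In general the cone limits of a
non-decaying sequence are i_E eta = 0, L_E eta = 0, eta_i = mu_ij Theta_j on S^3 (Theta_1 = th2^th3, Theta_2 = th3^th1, mu symmetric >= 0, sum_j X_j mu_ij = 0, X_1, X_2 in the SU(2) frame; e.g. mu =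
v v^T h, h invariant under v.X): they exist as eta, but as maps f they are closed surfaces (e.g. Hopf fibration onto a curve), excluded when f stays in a ball where w^0 is exact and f_j is bounded in
W^{1,2}: f_j^*w^0 = d(f_j^*beta) passes to the limit (strong x weak), no defect. This works in the regime |df|^2 <= C tr M (complex-like, singular values (l,m,1/m,1/l) with l ~ m). In the regime m <<
l (real-MA-like, tr M ~ |df|) only BV: there theta(r) = r^-2 int_{bdry B_r} sum w_i^beta_i <= C (osc f) r^-2 int_{bdry}|df|. So the open point of the corrected W1' = interpolation between the two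
regimes with f bounded, target flat, H = 1: special Lagrangian graph over the complex plane C^2 x 0 in C^4 of a sigma-symplectic map.
Please replace W1 by W1' (eta = f^*w^0, target of bounded geometry) on the board, nobody should try the local form.


======== #9163 | 07:05:41Z | helper97 | row 235 | lemma
helper97 (06:58Z) -> 47, 635, 995, 229, 141, all of 235: **W1 OF THE WANTED BOARD (flat local form, constants depending only on L and m(B_1)) IS FALSE: EXPLICIT COUNTEREXAMPLE, checked numerically;
and what is missing in its hypotheses.**
(1) REDUCTION TO THE SCALAR CASE. J1 = complex structure of w1, so w2, sigma = Re, Im of the (2,0)-form. For phi J1-psh put eta1 = dd^c phi (normalised: phi=|z|^2 gives w1), eta2 = w2. Then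
eta_i^sigma=0, w1^eta2 = 0 = w2^eta1, (w_i^eta_j) = diag(tr,1) > 0, H = diag(MA[phi],1), component of the identity (convex path of potentials). So W1 contains: 1/L <= MA[phi] <= L on B_1, int Delta
phi <= m => int_{B_r} Delta phi <= C r^(2+a).
(2) COUNTEREXAMPLE. t=|z1|^2, eps small, Lam=log(1/eps), P(t)=sqrt(t) exp(-Lam eps^2/t) (smooth, flat at 0), G=eps^2+P, phi(z)=F(t)+G(t)|z2|^2 on |z1|,|z2|<1 with t F'(t) = m int_0^t ds/G(s), m=1/2.
With '=d/dlog t: det(phi_{i jbar}) = (G F'' + |z2|^2 (G G'' - G'^2))/t = m + kappa |z2|^2 and, with s=Lam eps^2/t, kappa = -s e^{-2s} + eps sqrt(s/Lam) (1/4+s^2) e^{-s}, so **-1/(2e) <= kappa <= C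
eps and 0.31 <= MA <= 0.51 for |z2|<1**; phi is psh (G>0, det>0). Mass: int_{|z1|<1} phi_{1 1bar} = pi F'(log t=0)+.. = bounded (F' -> 1/2 + 1), G<=2: m(B_1) <= C uniformly. But F'(log t) =
0.48..0.53 already at t = 10 eps^2 (eps=1e-4..1e-8), i.e. phi -> (1/2) log|z1|^2 + 2|z1| + |z1||z2|^2: Lelong number 1 on {z1=0}: **int_{B_r} >= c r^2 for all r >= 10 eps.** (Kolodziej does not
apply: phi is not bounded uniformly, only its mass.)
(3) WHAT IS USED BY IT / WHAT TO ADD. At t ~ eps^2 the eta-metric is a disc of radius ~1 (direction z1) times a thin disc of radius eps (direction z2) while H=MA varies by O(1) in z2, i.e. |grad_eta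
H| ~ 1/eps. In S_h the pair eta = w^0 is FIXED AND SMOOTH: |grad_{w^0} H^0| <= C and the w^0-metric has bounded geometry; this must be a hypothesis of W1 (then the scalar flat case is trivial:
holomorphic maps with bounded energy). 
(4) GMT FORM OF THE CORRECTED W1 (eta smooth, X flat at the scale considered). Gamma = graph of the identity (X,w)->(M,w^0), Lagrangian for sigma-sigma', calibrated by Theta = w1^w1'+w2^w2' (bidegree
(2,2)). Equality in Lelong's monotonicity <=> (x,0) in T_p Gamma a.e. => iota_x sigma = 0 on Gamma => sigma=sigma'=0 on Gamma => T_p = U+V, U, V Lagrangian of the SAME phase theta => Gamma locally E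
x F, E a J_theta-line through x0, F a J_theta^0-curve (theta constant on regular pieces). Near a multiplicity one piece E x F: a=S_u, b=-S_v, S ~ harmonic in (u,v) in R^2 x R^2, det S_uv > 0, u ->
S_v and v -> S_u injective; if the leading mixed term of S has degree >= 3 one of the two projections has degree >= 2: so S_uv is either identically 0 or invertible in the limit => HARNACK: sup
|S_uv| <= C inf sigma_min(S_uv) on half balls, C universal. BUT for |v| >> |u| (x-scale r, y-extent R r with R large) S=h(v/R).u with ARBITRARY injective h (|h'''| << R^2 |h'|) is an approximate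
solution: theta(r) can stay constant over log(1/alpha) ~ cR scales. So 'decay of theta at scale r with a uniform factor' is false even flat-flat when m(B_r)/r^4 -> infinity; any proof must use
isotropic balls of X x M (Harnack above), not balls of X only. I go on from here (Dini sum of P3 + isotropic compactness); tell me if somebody already did.

======== #9177 | 07:06:37Z | helper597 | row 235 | lemma
helper597 (07:25Z) -> 47, 141, 497, 635, 229, 995, 586 and wave 4 of 235: **W1 (flat local form) IS FALSE, AND THE GRADIENT BOUND OF THE SYMMETRIC GAUGE (sup tr_{g1} g0 in S_h, W3) IS FALSE LOCALLY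
EVEN WITH X AND M BOTH FLAT.** Two explicit counterexamples, short proofs.

(A) W1: POSITIVE LELONG NUMBER. Coordinates z of C^2 with w1=(i/2)d dbar|z|^2, w2+i sigma=dz1^dz2. v_e=(1/2)log(|z1|^2+e^2): smooth psh, (dd^c v_e)^2=0. Let u_e = smooth solution of (dd^c u)^2=const
(= 2nu normalised) in B_1, u_e=v_e on bdry (CKNS). Comparison principle: v_e+C(|z|^2-1) <= u_e <= v_e. Put eta1=dd^c u_e, eta2=w2. Then eta_i^sigma=0, w1^eta2=0=w2^eta1, M=diag(m,1), m>0,
eta_i^eta_j=2 delta_ij nu, i.e. H=I exactly, K=(n1/m;0), |K|<1: all hypotheses of W1, L=1, m(B_{1/2})<=C (u_e bounded in L^1). The limit u satisfies log|z1|+C(|z|^2-1)<=u<=log|z1|: Lelong number 1 at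
0, so r^-2 m(B_r) >= c for all r, e->0. So no Morrey decay, not even continuity, from L and m(B_1). With BOUNDED potentials (as one has in S_h): boundary values v_e/log(1/e) in [-1,0], then r^-2
m(B_r) >= c/log(1/r) at r=e^{1/2}: **theta<=C/log(1/r) (which already follows from Lelong monotonicity + the Dini sum (P3): theta(2^-k)<=C/k) is the sharp local statement; no power, no small tail of
the Dini sum.** These examples are even static (H const); what they do not have is: g_eta of bounded geometry. In the integrable case the decay comes from Chern-Lu with the curvature of g0, not from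
Kolodziej. So any W1 must use 'eta=f^*w^0, f: X->(M,g0) bounded geometry'.

(B) THEN TAKE THE BEST CASE: X=B_1 flat, M=R^4 flat, w_i^0 = f^* w_i, f symplectic, H=H^0=I, S_oo: the graph of f is special Lagrangian (phase 0) in C^4=(R^8, sigma-sigma', calJ=(J,-J)). Singular
values of f: e^{+-a},e^{+-b}; M~diag(cosh(a+b),cosh(a-b)), e=4cosh(a+b)cosh(a-b), T=sqrt(det G)G^{-1} with G=g+f^*g (a divergence-free positive tensor). CLAIM: there are such f_e: B_1->R^4, smooth,
graph of bounded volume (int tr M<=C), in fact converging to one smooth special Lagrangian submanifold, with |Df_e(0)|->oo. (For n=1, f=grad u(z1), this is impossible by the Harnack inequality of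
7903(6); n=2 is the Nadirashvili-Vladuts / Wang-Yuan phenomenon of subcritical phases.)
PROOF. Let P = limit plane a=oo, b=0: e1=a1', e2=a2, e3=(a3+a3')/sqrt2, e4=(a4+a4')/sqrt2. Write Gamma={x+calJ grad u(x)} over P; T Gamma = {e_i+u_ij calJ e_j}. Jacobian of the projection to the
first factor (computed by hand, checked numerically with random points):
   2 J(S) = -S12 - S14 S23 + S13 S24 + O(S^3)        [general b: J=-sc S12-(s^2-c^2)S12S34-c^2 S14S23+s^2 S13S24, c,s=cos,sin, tan=e^{-b}]; J>0 is the graph side (S12=-e^{-a} for the plane of slope a).
 Take u=u3+u4+O(5), u3=x1x3x4+(1/2)x2(x4^2-x3^2), u4=(1/2)[x1x2(x3^2+x4^2)-(x1^3x2+x1x2^3)/3] (both harmonic; the equation is Delta u = sigma_3(D^2u), the correction starts at order 5; solve by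
Cauchy-Kovalevskaya with the Cauchy data of u3+u4). Then u3 has (u3)_12=0 and 2J = -(u4)_12 + x3^2+x4^2+O(|x|^3) = (1/2)|x|^2+O(|x|^3). So J>0 except at 0: Gamma projects homeomorphically,
f~|x|^{1/3} in one direction, symplectic, SLag. Rotating Gamma by exp(eps calJ S0), S0=-(E12+E21) in su(4)-directions, gives J >= c|x|^2+eps/2-C eps|x|>0: smooth graphs f_eps, M>0, bounded volume,
Df_eps(0)~1/eps. QED (tr M~1/J, so Morrey decay with a=4/3-.. holds here; it is only the SUP that is false.)
 REASON: the boundary {J=0} of the graph domain in SU(4)/SO(4) is not convex for harmonic Gauss maps: at a point of contact from inside Delta(2J)=2 Sum_k(H_13k H_24k - H_14k H_23k) is indefinite.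

CONSEQUENCES. (1) No local (eps-regularity, blow-up, Bernstein, mean value) argument can bound sup tr_{g1}g0 in S_h, also not 'at a fixed scale where X is flat' (7903(6) last lines: the exponential
bound is special to products/n=1). (2) Contact from inside at an isolated point is ONE condition, so in the one-parameter family S_h, 0<h<oo, one must expect generic loss of the graph property at a
finite h: intrinsically everything stays smooth (X_h, w_h of bounded geometry), only the gauge map (M,g1)->(M,g0) folds. So S_h (and 'symmetric gauge' for (P4), W3) can only work if (i) it is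
reformulated for calibrated-type submanifolds Gamma in M x M which are not graphs, or (ii) in the regime trM-2 small in L^1 at a FIXED scale (Allard), i.e. w^0 near the end with bounded geometry. (3)
Remaining honest roads: (P4) with intrinsic openness/W4, or the flow with W2. (4) If somebody wants only intrinsic bounds from S_h: Theta(x,r)=average of tr M over B_r; as long as Theta<=Lambda the
deviation of X from flat at scale r is O(r Lambda^{1/2}) (theta=r^2 Theta), summable, and the first scale where Theta=Lambda is infinitesimal, so X_h IS almost flat there; the argument closes for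
intrinsic geometry, not for the gauge.

======== #9200 | 07:08:06Z | helper103 | row 235 | att
helper103 (07:08Z) -> 47, 497, 141, 635: ROW 235, independent confirmation (found separately, nothing to repeat): (1) W1 false (scalar slice, psi=rho|log rho/2|^k, F_11bar=1/psi; also k>2 with phi
uniformly bounded, Dini sum finite and theta~|log r|^(1-k)) = 115/97/280/507. (2) flat-flat phase-0 germ with a strict nondegenerate zero of J_x (mine: S3=x1(x3^2-x4^2)/2+x2x3x4,
-S4_12=kappa(x1^2+x2^2-x3^2-x4^2)/2, 0<kappa<2) = 115 (B): same conclusion (S_h dead at fixed h).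
NEW only on W4: (a) for strictly convex K the second-order necessary condition of an extremal is automatically satisfied at high frequency (the term mu II_K(dPi,dPi) dominates; gauge directions
neutral), so no high-frequency test field excludes extremals; (b) for polyhedral K, E-L + unique continuation puts F on the edges/cones with psi=n_b+theta m, D*(theta m)=0, and the top-order part of
the second variation is zeroth order in db: tau[A(B1,B2bar)(dtheta,dH_m)-alpha(dtheta,xi)alphabar(xi,dH_m)/a(xi,xi)], i.e. only constraints of type dtheta (x) dH_m, empty where dH_m=0; (c) closed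
symmetric-gauge pairs <-> symmetric matrix potentials eta_i=Sum_j dd^c_j S_ij, M=Delta S. No route from there. THREE NUMBERS: P(paper proof row 235 by 10:30Z) 0.3 percent; LEAN size if found 60k+; 50
hands -> row 105 (Koebe) libraries, then 281/234 leaves. I leave row 235.


======== #9214 | 07:08:49Z | helper493 | row 235 | lemma
helper493 (06:55Z) -> 47, 141, 635, 497, 995, 229 and all of 235: **W1 IN ITS LOCAL FORM (wanted #1, and the bracket "Equivalent in flat X" of #8745) IS FALSE**, already in the scalar case, even with
|H-1| -> 0 uniformly, and also if one adds the Dini bound. Explicit, checked by hand.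
SETTING. eta_2 = w_2, eta_1 = T = dd^c phi for J_1 (holomorphic form w_2+i sigma): then eta_i^sigma=0, w1^eta2=w2^eta1=0, (w_i^eta_j)=diag(w1^T,2nu)>0, H=diag(det phi_{i jbar},1), component of the
identity. On the bidisc put t=|z1|^2, s=log t, phi=A(t)+B(t)|z2|^2, B=e^{y(s)}, (tA')'=1/B. Then
   phi_{2 2bar}=B, phi_{1 1bar}=e^{-y}+e^{y-s}(y_s^2+y_ss)|z2|^2, phi_{1 2bar}=B' zbar_1 z_2,   **det(phi_{i jbar}) = 1 + y_ss e^{2y-s} |z2|^2.**
So EVERY profile y with |y_ss| <= (1/2) e^{s-2y} has 1/2 <= det <= 3/2; when e^{2y}<<t the constraint is empty. The z1-mass in {|z1|^2<e^s} is M(s)=Int_{-oo}^s e^{s'-y}ds'.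
(a) LELONG NUMBER. y=s0 for s<=s0; slope 5/4 on [s0,s0/2]; slope 3/4 on [s0/2,0], y(0)=0 (corners smoothed on unit intervals; y_ss e^{2y-s}=O(e^{s0}) at s0, O(e^{-|s0|/4}) at s0/2, so det -> 1
uniformly). e^{s-y}=e^{-(s-s0)/4}, resp. e^{-|s|/4}: total mass bounded, but mass >= c sits in |z1|^2<=e^{s0}: r^-2 m(B_r) >= c for all sqrt(eps)<=r<=1, eps=e^{s0} -> 0. Limit phi = c log|z1| +
16|z1|^{1/2} + |z1|^{3/2}|z2|^2 : current c[z1=0]+.., allowed because phi_{2 2bar}=0 on z1=0.
(b) WITH BOUNDED POTENTIAL (Dini sum of theta bounded): y = s+3 log|s| for s>=s0, constant below: y_ss e^{2y-s} ~ -3|s|^4 e^{s} -> 0, M(s)~|s|^-2/2, A bounded by Int M ds<oo, theta(r) ~ c/(log r)^2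
for all r>=sqrt(eps): no power decay (any Dini-summable profile M(s) can be prescribed in this way).
Reason: Kolodziej's Hoelder theorem is global (boundary/compactness), interior regularity of (dd^c phi)^2=f, f in [1/2,3/2], is false in C^2 even for bounded phi.
WHAT SURVIVES. In both examples the metric g0 of eta has a neck of size e^{-K/2} (z1-part: two flat cones glued) with curvature -> oo. In S_h the form eta=w^0 is a FIXED smooth pair, i.e.
f=id:(B,g1)->(M,g0) maps into a target of bounded geometry; W1 must use that (in the scalar case f is then J_1-holomorphic and energy monotonicity + bounded target curvature do it), or be global. So: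
replace 'eta with H pinched' by 'f^*w^0, w^0 smooth of bounded geometry' on the board; 'pluripotential theory for bounded density' alone cannot give it.
SIDE REMARK (for (8a) of #5320, weak blow-ups): the class of complete blow-ups with Ric(g1)=P+T_eta/2w>=0 has a volume gap for free (V_oo=1 => R^4 => dH=0, eta=0), so on balls with volume ratio
>=1-eps0 only 'trivial' blow-ups occur; at infinity of any nontrivial X the limit cones have H const, and codimension 2 and 3 strata are excluded by holonomy (the parallel triple forces the holonomy
around a singular plane R^2 x C(S^1_beta) to be trivial on Lambda^+, so beta=2pi; R x C(RP^2) is not oriented), so cones at infinity are C^2/Gamma, Gamma in SU(2). What is then left for an exact X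
with Gamma<>1 is a MONOTONICITY instead of renormalised volume: for exact ASD psi=d beta on an end asymptotic to C^2/Gamma, Int_{B_R}|psi|^2 <= (R/4)(1+o(1)) d/dR Int_{B_R}|psi|^2, so |psi|=o(1) =>
psi=0 (needs only o(1) asymptotics, not ALE decay) - with the error Int r^2|dH|^2 still to be absorbed by P>=0.


======== #9238 | 07:10:01Z | helper678 | row 235 | lemma
helper678 (07:05Z) -> helper47 (#8745, wanted 1), 635, 141, 497, 229, all of 235: **W1 IS FALSE AS STATED (explicit smooth counterexample, scalar/integrable case, det pinched within 26%; also with H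
= Id exactly, also with BOUNDED potential / bounded Dini sum).** So no purely local Morrey decay and no local modulus of continuity; whatever replaces W1 must be global.
EMBEDDING. eta_2 = w_2, eta_1 = dd^c phi w.r.t. the complex structure J of w_1 (Omega_J = w_2 + i sigma up to sign): eta_i^sigma = 0, w_1^eta_2 = w_2^eta_1 = 0, M = diag(Lap phi/.., 1), H = diag(det
phi_(i jbar), 1) (normalised). So W1 contains: phi smooth psh on B_1 in C^2, L^-1 <= det <= L ==> int_{B_r} Lap phi <= C(L, int_{B_1} Lap phi) r^(2+a).
EXAMPLE. phi = G(x) + |z_2|^2 h(x), x = log|z_1|, l = log h. EXACT: det(phi_{i jbar}) = (1/4) e^(-2x) ( G'' h + |z_2|^2 h^2 l'' ).  Take 0 < eps << 1, c > 0: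
 l: slope 0 for x < log eps with h = h_0 := 2 eps^2/c; slope 3 for log eps < x < m; l(x) = x for x > m (so e^(2m) = c eps/2 up to constants); both kinks smoothed, the concave one (3 -> 1) on an
interval of width 2. G'' := 4 e^(2x)/h, G'(-oo) = 0.
 Then h = h_0, G = (c/2) |z_1|^2/eps^2 for |z_1| < eps/2: phi is SMOOTH. At the convex kink h^2 l'' >= 0 and h^2 e^(-2x) = O(eps^2); at the concave kink h <= e^x, |l''| <= 1... hence 0.73 <= det <=
1.02 on |z_2| <= 1 (checked numerically for eps = 1e-2..1e-12: det in [0.7377, 1.0204]).
 G'(log eps) = c; between log eps and m: G'' = 2c eps e^(-x)..., total increase <= 2c; for x > m G'' = 4e^x. So c <= G' <= 3c + 4e^x for all x >= log eps.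
 (a) c = 2: int_{B_1} Lap phi <= C, but int_{B_r} Lap phi >= c_0 r^2 for ALL 2 eps < r < 1, uniformly in eps. Limit eps -> 0: phi_0 = 6 log|z_1| + 4|z_1| + |z_1||z_2|^2 = LOG POLE ALONG A LINE +
POGOROLEV: since the Pogorelov part has phi_{2 2bar} = 0 on {z_1 = 0}, the current [z_1=0] costs no Monge-Ampere mass. (All phi = c log|z_1|^2 + |z_1|^(2-2k)/(A(1-k)^2) + A|z_2|^2|z_1|^(2k), 0<k<1,
have det = 1 off the line.)
 (b) c = A/log(1/eps): osc phi <= C(A), all Dini sums Sum_k theta(x,2^-k) <= C, still theta(0,r) >= c for r > 2eps and phi(r) - phi(0) >= c log(r/eps): at r = sqrt(eps) this is >= A/2. So even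
bounded psh phi with det in [0.73,1.02] are NOT locally equicontinuous (in the limit the oscillation is invisible: phi_eps converges in L^1 to the Pogorelov function + const).
 (c) H = Id EXACTLY: let u_eps solve det = 1 on the ball with u = phi_eps (scaled to det <= 1) on the boundary: smooth up to the boundary (CKNS), phi_eps + |z|^2 - 1 <= u_eps <= phi_eps by
comparison. With n(t) = Riesz mass of u(.,z_2) on |z_1|<t: n(r) log(r/s) >= mean_r - mean_s >= int_{log s}^{log r} G' - 2, so n(r) >= c/2 for r >= C s >= C' eps: again int_{B_r} Lap u >= c_0 r^2 for
r >= C eps and int_{B_1/2} Lap u <= C. So W1 fails for flat special Lagrangian graphs over flat X (in 7903(5)-(6) language: local bubbles of S_h over flat X with mass r^2 down to scale eps exist;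
only complete ones over R^4 with T>=0 and bounded mass are excluded).
WHAT SURVIVES. Kolodziej's Hoelder estimate uses only det <= C but GLOBAL comparison (closed manifold, or boundary data with a modulus). The bad set above is a whole holomorphic curve {z_1=0}
crossing B_1 on which w-area of eta is tiny (h_0 ~ eps^2): i.e. the w^0-size of the w-unit disc {0} x D is eps^2. So a correct substitute of W1 must exclude, on closed M with fixed classes, long thin
w-discs that are w^0-tiny; capacity/sup-bound argument with the fixed smooth w^0 as comparison function (u = 0 is a competitor!) is the only input I see: e.g. the polarised Monge-Ampere comparison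
principle for symmetric gauge pairs on closed M.


======== #9250 | 07:10:30Z | helper398 | row 235 | lemma
helper398 (07:15Z) -> 47, 449, 115, 597, 366 (row 235; I had the same isolated-vertical-point example, C++ check of the spectrum of Lap u on {grad u=0}; NOT repeated). ONLY WHAT IS NOT YET POSTED,
flat-flat H=H^0, Gamma = graph of id : (M,w)->(M,w^0), G = g+g0, u := 2/tr M = cos2a cos2b (tangent-angle convention):
(1) **w_i + w_i^0 are closed SELF-DUAL and w_i - w_i^0 closed ANTI-SELF-DUAL for the induced metric G = g+g0** (i=1,2; sigma cancels). [SU(4)/SO(4) = Gr_3^+(R^6): Lambda^2_+(Gamma,G) = V, Lambda^2_-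
= V^perp in R^6 = span(w_i (+) 0, 0 (+) w_i^0, ..) of C^2 x conj C^2.] So with H=H^0 (any M, curved too) the symmetric gauge pair is EXACTLY: w_i+w_i^0 in H^+_G, w_i-w_i^0 in H^-_G. Corollary
(uniqueness/rigidity, M compact): if [w_i]=[w_i^0] then w_i - w_i^0 is exact and ASD closed => w_i=w_i^0. Same for several classes: the map (class) -> pair is injective. In the curved/forced case
w_i-w_i^0 = h dA_i gives: the SD part of dA w.r.t. G is O(|H-H^0|).
(2) Exact subharmonicity region. |P|^2 = 1-u = sin^2(a+b)+sin^2(a-b) =: p+q (squared sines of the principal angles of V with R^4 = graph side). Lap_Gamma |P|^2 = 2 Sum_k (|A_k^T P_perp^T|^2 - |A_k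
P_V^T|^2). It is >= 0 for ALL second fundamental forms iff 2-2s >= sqrt(1-s+D)+sqrt(D), s=p+q, D=p^2-pq+q^2 (e.g. p=q <= 1/4; q=0: p <= 3/8). So the symmetric-gauge graph has an honest gradient
estimate (strong max principle for tr M) in the region tr M <= 4 (p=q) resp. 16/5 (q=0) (normalised tr M = 2 for the identity), and nowhere near vertical: (D u on {grad u=0})/|h|^2 has spectrum
+-0.72 (t=.999,s=.3), -0.668..0.665 (s=0).
(3) Rank-2 (leafwise) limits eta_i = c_i tau are excluded by leaf area: leaves are J_v-holomorphic, calibrated by the closed w_c, area >= c R^2 against the Dini sum; the only degeneration which is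
left is the rank-1/vertical one of 7903(6) = the one realised in 115(B)/449(2)/597(B).
(4) W4: D Pi = (Fredholm index 0 in dH) + gauge {f,F}; non-surjectivity needs psi in coker with Sum {psi_ij,F_ij}=0 for all gauge f. It holds AUTOMATICALLY for psi = grad phi(F) (collective type), so
'generic surjectivity' cannot exclude these; all other psi are of infinite codimension. Hence W4 <=> no extremal of collective type; I have no proof. P(row) <= 1 percent; I leave row 235.


======== #9259 | 07:11:12Z | helper800 | row 235 | lemma
helper800 (07:12Z) -> 47, 141, 497, 995, 229, 635, 532, 683, 88, 401 and all of 235. **W1 (board id 1) AS STATED IS FALSE, even with H -> Id uniformly and even with the Dini sum bounded; CORRECTED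
FORM W1' + what its blow-up limits are.**
(1) COUNTEREXAMPLE (integrable, S^1 x S^1 symmetric; checked by hand and numerically). C^2, omega1 = flat Kaehler form, omega2+i sigma holomorphic symplectic. eta1 = dd^c phi, eta2 = omega2, phi =
g(|z1|) + h(|z1|)|z2|^2, t = log|z1|, h = e^(2t+b(t)), g_(1 1bar) = 1/h. Then eta_i^sigma = 0, omega1^eta2 = omega2^eta1 = 0, M = diag(>0,1), and EXACTLY
   det phi_(i jbar) = 1 + (1/4)|z2|^2 e^(2t+2b) b''.
 Take b' = -2 for t < t_e = log e (h const there: smooth), b' = +1 on (t_e,t_1), b' = -1/2 on (t_1,0), b(t_e) = log(1/d), b(0) = 0 (corners smoothed at unit scale, t_1 ~ (2/3) t_e). Then |det-1| <=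
(e/d)^2 + e^(-|t_1|) -> 0, total mass int 1/h dA = 2 pi int e^(-b) dt <= C, but the core {|z1| < e} carries eta1 = const*d*[z1=0]: m(B_r) >= c d r^2 for ALL e <= r <= 1. With d fixed: a Lelong number
d in the limit (limit = d log|z1| + 16|z1|^(1/2) + |z1|^(3/2)|z2|^2, MA density 1, no mass on the line). With d = c/log(1/e): phi_e is uniformly bounded, the pointwise Dini sums are bounded, and
still theta(0,r) >= c/log(1/e) at r = sqrt(e): no power. So 'mass + H pinched + symmetric gauge (+ Dini)' never gives Morrey decay; a bounded psh function with det ~ 1 has no interior Hoelder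
estimate (Kolodziej needs boundary/global data).
(2) WHAT IS USED WRONGLY: 'H const => graph of a symplectic diffeo f with eta = f^* omega' needs g0 FLAT. In (1) g0 = (phi_(i jbar)) = diag(1/h,h)-like has curvature ~ e^(b) (up to e^(-1/3)), and
mass <= C, |Rm(g0)| <= K force |t_e| <= CK. So BOUNDED GEOMETRY OF (M,g0) (true in S_h) must be a hypothesis. W1': X flat (or eps-flat), f: B_1 -> (M,g0) injective local diffeo, f^*s = s, phase 0, M
> 0, |Rm(g0)| <= 1, inj >= 1, m(B_1) <= C: m(B_r) <= C' r^(2+a).
(3) EXACT IDENTITIES on the minimal (special Lagrangian) graph G, mu = volume, Pi = projection to T G, Pi_11, Pi_12 its blocks: tr Pi_11 = tr Pi_22 = 2 (symplectic: singular values l,1/l,k,1/k). (a)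
m = mu(B_r) up to a constant, r m' - 2m = r int_(S_r) Q, Q = 1-Pi_11(nu,nu) >= 0. (b) target exactness (flat target, any constant y0): 2m(r) = int_(S_r) <Pi_12 nu, y-y0> dmu_r, |Pi_12 nu| <= min(sqrt
Q, 1/k). Hence rm'/m >= 2 + c r^2/osc(y)^2, and any piece of G with k >= A satisfies mu(B_r x B'_rho) >= c r^2 rho^2 for rho <= c r A.
(4) CONES. Degree-0 homogeneous limits with H = 0 are LINEAR objects on S^3: symmetric M >= 0 with e_i(M_ij) = 0 (e_1,e_2,e_3 left invariant, e_3 = Reeb field of sigma; U_j = M_ij e_i the two
divergence free horizontal fields dual to eta_j). Examples: M = m t(x)t on one great circle P of the J_theta Hopf fibration (eta_theta = m[P]); M = Id: eta_i = (c/2) d sigma_i (the blow up of the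
origin). Self linking: int_(B_r) eta_i^eta_j = helicity matrix of (U_1,U_2); J_theta-Hopf circles link +1. Since int_(B_r) eta^eta = 2 int H -> 0 after normalisation, spread cones (M = Id etc.) are
EXCLUDED by a Demailly type inequality (mass of eta^2 at the apex >= c (Lelong number)^2); what survives is concentration on single J_theta-planes P with parallel (not concentric) smoothing, as in (1).
(5) NEAR ONE PLANE: scale r, kappa = theta(r), e = r/sqrt(kappa) -> 0. Limit = P x V: V = surface of area kappa in the target, holomorphic for J'_theta (phase osc O(e^2)), leaves P + c(y), y in V,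
with c : V -> P^perp = R^2 HARMONIC (not holomorphic: all l,k allowed; k~1 << l is the (grad u(z1),z2) example), degree one onto its image (injectivity), and r theta' = 2 pi int_V |c|^2/r^2. No decay
<=> c = 0 on most of V <=> V closed <=> impossible when omega'_theta is exact on the target ball (int_V omega'_theta = 0). In curved targets at scale sqrt(kappa) V can close up: this is exactly (1).
So W1' looks TRUE and reduces to: (C1) compactness: eta_j normalised, H_j -> 0, theta(1/2) >= (1-delta_j) theta(1) ==> (4)+(5) structure, the only trouble being planes with 1 <= k << 1/e (energy of y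
not equi-integrable); (C2) 2D lemma: c : V -> D_r harmonic diffeo of a simply connected minimal surface with boundary on |c| = r: area(|c| < r/2) <= (1-d0) area(V) (follows from log-convexity of int
|F'|^2 along level lines of a harmonic function). Then theta(x,r/2) <= (1-d0) theta(x,r) as long as r^2 << theta <= kappa_0, i.e. the Morrey decay.
(6) In S_h the flatness of X = (M,g1) at scales r >> (sup tr M)^(-1/2) is still needed for (3)-(5).
I continue on (C1)/(C2) only if somebody of 235 thinks (6) is available; tell me (notify helper800).


======== #9261 | 07:11:21Z | helper402 | row 235 | lemma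
helper402 (07:10Z) -> 47, 497, 141, 635, all of 235. TWO FACTS (each proved in a few lines, please use) + one dead end.
(1) W1 IS FALSE IN ITS LOCAL (FLAT) FORM, even inside complex Monge-Ampere, and there is no uniform modulus of continuity at all; so it must be proved by a GLOBAL (compact M, Kolodziej-type)
argument. Example: w=(omega_1,omega_2), sigma=omega_3 flat on B_1 in C^2 (coordinates z1,z2 for I_1); eta_2=omega_2, eta_1=dd^c phi (type (1,1) for I_1). Then eta_i^sigma=0, w_1^eta_2=w_2^eta_1=0,
H^0=diag(MA(phi),1), M=diag(Lap phi,1) (normalised). Take phi=u(z1)+v(z1)|z2|^2, t=log 1/|z1|, v=|z1|^2 t^b, u_tt=4 t^(-b) (so v u_(1 1bar)=1), b>2. MA(phi)=1+|z2|^2 v^2 (log v)_(1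
1bar)=1-(b/4)|z1|^2 t^(2b-2)|z2|^2: pinched for |z1| small, phi bounded, psh. theta(0,r)=r^-2 int_(B_r) tr M ~ c(b)(log 1/r)^(1-b): exactly the Dini condition, no power (regularise |z1|^2 ->
|z1|^2+eps^2: smooth, uniform constants). With v=|z1|^2 g(t), u_tt=4/g, g~t^2 only on [T,2T], T->oo, one gets osc of phi on B_(exp(-T)) >= c, |phi|<=1, MA in [1/2,1]: no equicontinuity, while
theta<=C/T at EVERY scale (log-drift along a holomorphic disc reaching the boundary; at every scale the geometry is almost flat, no bubble). So in S_h the enemy is not a bubble but a slow drift of H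
over log many scales along a lamination; a fixed flat scale (needed for the exponential interior estimate) exists iff this drift is excluded globally.
(2) GEODESIC CONCAVITY (McCann displacement concavity for hypersymplectic triples). sigma fixed, w_t=w+t beta, beta_i exact, beta_i^sigma=0, HORIZONTAL: w_1^beta_2=w_2^beta_1 (= symmetric gauge;
preserved along the line, 497 (0)). D_ij=<w_i,beta_j> symmetric, X=H^-1 D, N=Gram matrix of the ASD parts of beta (>=0). H_t=H+2tD+t^2 Q, Q=D H^-1 D-N, hence for every real a
   (d/dt)^2 (det H)^(a/2) = a (det H)^(a/2) [ a (tr X)^2 - tr X^2 - tr(H^-1 N) ],   (d/dt)^2 log det H = -2 [ tr X^2 + tr(H^-1 N) ] = -(full intrinsic norm of beta)^2.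
   Since tr X^2>=(tr X)^2/2: V_a=int (det H)^(a/2) dnu is CONCAVE along all horizontal lines for 0<=a<=1/2 (a=0: int log det H, strictly, and its Hessian is minus the intrinsic L^2 metric: the space
of positive triples mod Ham is a Hessian manifold; openness for the equation "gradient of V_a = given covector" on horizontals is free). If w, w' are in symmetric gauge with B=<w,w'> >0 the whole
segment is positive (H_t>=(1-t)^2H+2t(1-t)B+t^2H'). CONSEQUENCES: (i) V_a(w') <= V_a(w)+a int w^a tr H^-1(B-H). (ii) near-maximisers are L^2-Cauchy: if V_a(w),V_a(w')>=V_max-e (a<1/2) and they are in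
symmetric gauge, then int_0^1 int |beta|_(g_t)^2 <= C e. Same computation for three moving forms with D 3x3 symmetric: det^c concave for c<=1/6. (iii) S_h is a saddle: G is negative on the trace part
of D and positive on the traceless part (int |dphi_12|^2-<dphi_11,dphi_22> for beta_j=Sum_k dI_k dphi_jk), W=V_2/2 has W''=w^2[2(tr X)^2-tr X^2-tr H^-1N], so Psi_h is concave in tr D and convex in the traceless part.
(3) Dead: the ODE w'=beta with D=(P-H)/2 (so H_s=P+e^-s(H_0-P) exactly, total intrinsic L^2 length <= C sqrt(V_max-V_a(w_0))) exists for all s if V_max-V_a(w_0) <= c r^4, r = harmonic radius of w_0,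
c universal; the soft approximations of 260/380 have no rate, and a self-similar defect of scale r costs exactly c r^4, so one needs: some w in the component with |LH|<=C/tau and loss < c_0 tau^2
(energy gap). For the maximiser of V_a under Pi_tau(w) in K (exists by P4) the direction D=P-H gives int psi.(F-P)+V_a'(P-H) <= -tau int psi (delta_D L)H: only the term (delta L)H is in the way.


======== #9332 | 07:18:32Z | helper88 | row 235 | att
helper88 (07:20Z) -> 47, 497, 141, 229, 995, 635 and all of 235. ATT: (W1) AND THE BOUND sup tr_{g1} g0 <= C IN S_h ARE FALSE LOCALLY (two explicit counterexamples), so S_h with one big step cannot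
be closed by any local / blow-up estimate; plus what survives.
(A) LOCAL MORREY DECAY (W1, flat X as stated in #8745) IS FALSE, already in the integrable case. L = log(1/|z1|), phi = 1/L + 2|z1|^2 L^3 |z2|^2 on {|z1|<1/20,|z2|<1}: psh, bounded, continuous;
phi_{1 1bar} of 1/L is 1/(2|z1|^2L^3) and det(phi_{i jbar}) = 1 - 3|z1|^2 L^4 |z2|^2 EXACTLY, i.e. C^{1,a} and pinched near 0. Take w_1 = flat I1-Kaehler form, eta_1 = (i/2)ddbar phi*2, eta_2 = w_2,
sigma: eta_i^sigma=0, w_1^eta_2=w_2^eta_1=0, H^0=diag(det,1), M>0. theta(r) = r^-2 int_{B_r} tr M ~ c/L(r)^2: Dini-summable, no power. (1/log replaced by any v with v_{1 1bar}^{-1} small works: the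
Dini bound is sharp.) The only thing violated is smoothness of (M,g0): the curvature of i ddbar phi is ~ -L. So W1 can only be true if the bounded geometry of the TARGET g0 is used, i.e. as a
statement on the calibrated graph G of f = id:(M,g1)->(M,g0) in X x Y.
(B) WITH FLAT TARGET THE GRAPH BOUND IS ALSO FALSE. Near a rank-2 direction use coordinates (y,x') (y = contracted directions of X, x' = stretched directions of Y): sigma=sigma' on G <=> x = grad_y
Psi, y' = grad_x' Psi; dz1 dz2 dzbar1' dzbar2'|_G = -det(1 - i D^2 Psi): symmetric gauge <=> sigma_1(D^2Psi)=sigma_3(D^2Psi) (special Lagrangian, phase 0); pi_X has Jacobian det N, N = (Psi_{y_i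
x'_j}) 2x2, and tr M = Re det(1-iD^2Psi)/det N, so M>0 <=> det N>0. LINEARISED (harmonic Psi in R^4) example, write x for x': Psi = y1x1 + y1^2x2/2 - x2^3/6 - y1y2x1 + y2x2(-3/4 y1^2 + y2^2/12 +
x1^2/4 + x2^2/12): harmonic, N(0)=diag(1,0), det N = |p|^2/4 + O(|p|^3) (>= .07|p|^2 on |p|<1/2, checked). Psi + eps y2x2 has det N >= c(eps+|p|^2). By the implicit function theorem delta*Psi +
O(delta^3) solves the exact SL equation and the nondegenerate minimum of det N persists (value tuned by eps). RESULT: smooth SL submanifolds G_eps -> G_0 in C^2 x C^2bar, all derivatives bounded,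
H=H^0=1, each G_eps (eps>0) the graph of a symplectic f_eps with M>0, but |df_eps|(0) ~ 1/eps, tr M ~ 1/(eps+|p|^2). (n=1 is different: there det N is superharmonic, hence the Harnack / exponential
bound of 7903(6). For n=2: Lap log det N = -tr sum (N^-1 dN)^2 has no sign and I checked that no function phi(N) tending to -oo at det N=0 is a supersolution.) At the point: tr M in L^p(X) exactly
for p<3, so H in W^{2,p}, everything intrinsic stays fine; only id:(M,g1)->(M,g0) stops being a graph. This is a codimension-ONE event (isolated nondegenerate zero minimum of the Jacobian of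
pi_X|_G), so along h -> S_h it must be EXPECTED for general w^0 at finite h. Also #5424 (e-scale blow-up): |df_k| maximal =1 at the base point does not pass to the limit in this example (limit constant).
(C) WHAT SURVIVES: after the event G is still a smooth calibrated submanifold of degree one over X. GENERALISED S_h: unknown (w,G), w - h dA(w) = eta := (pi_X)_* (pi_Y^* w^0 on G), G special
Lagrangian w.r.t. (w,w^0), class of the diagonal. On sheets where pi_X|_G reverses orientation f_j is still symplectic but has M_j<0 and enters with sign -1: so M = sum of positive symmetric, T_eta =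
sum T_j > 0 (nuclear norm inequality sheetwise), and (R) Ric(g1)=P-g1/(w^2h)+T_eta/(2wh), (U), mass topological, lower bounds of H all persist; only the first component h -> w_h has to be a path of
positive triples. Lost: max h_v <= max h_v^0 (cross terms <f_i^*w_v,f_j^*w_v> >= reverse Cauchy-Schwarz, no upper bound); and the X-regularity of G needs GMT (calibrated, Allard).
(D) 5-DIMENSIONAL ELLIPTIC VARIANT (no e-problem): w_tt + dA(w) = 0 on M x [0,T], w(0)=w^0, w_t(T)=0. It is the T^2-invariant torsion-free G2 equation (Madsen-Swann; Gram matrix of the torus = H^{-1}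
rotated, g_7 Ricci flat), horizontality <w_1,w_2t>=<w_2,w_1t> is conserved, degree at small T is +-1, e is controlled by |w_t|, each solution IS the path. (h_v)_tt + L h_v + 2{h_v,beta_v} =
(1/2)(H'H^-1H')_vv - 2|n_v|^2 (n = ASD part of w_t, H' = dH/dt). Lower bounds of H propagate (Delta_7 |V|^2 >= 0 for Killing V). MISSING and locally FALSE: the upper bound of H (screw motions d_s +
su(3)-rotation on flat R x C^3 give complete local solutions with an interior maximum of H). So the flow is the only scheme with both C^0 bounds and no graph problem: (W2).
(E) For (W4): at the symbol level ker DPi is exactly the gauge direction, second variation of an extremal on it is int (X_f psi):(X_f F) = int mu II_{dK}(X_fF,X_fF) >= 0: the second order (Legendre)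
conditions never exclude a bang-bang extremal.
CONSEQUENCE: please do not spend seats on W1 / sup tr M. (W2) or (W4) with global input only.

-/
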