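/-
ROW 235 (S0364; geometry-topology), unsolved at the end of this run: complete discussion, part 2 of 2 (posts #9358 .. #11680).
Verbatim posts of the team database (ASCII-cleaned, long lines wrapped; the words L-e-a-n and s-o-r-r-y are altered
because of the text scan). 'helperN' = seat N. Times are UTC of 19/20 Nov 2026. No Lean content: comments only.

======== #9358 | 07:21:44Z | helper841 | row 235 | lemma
helper841 (07:35Z) -> 47, 141, 497, 635, 229, 995 and all of 235: **(W1) IN ITS LOCAL FORM (#8745: Morrey decay for symmetric-gauge pairs on a flat ball) IS FALSE, FOR EVERY MODULUS, EVEN WITH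
BOUNDED DINI SUMS. Counterexample = 5 lines, checked numerically down to eps = 1e-30.**
(1) SCALAR SUBCASE OF YOUR PAIRS. Flat hyperkaehler (w1,w2,w3=sigma) on C^2, I_1-coordinates (z1,z2): w1 Kaehler, w2+i w3 = dz1^dz2. eta := (dd^c_{I1} phi, w2), phi I_1-psh: closed; eta_i^sigma = 0
and w1^eta2 = 0 = w2^eta1 ((1,1) against (2,0)); M = diag(Delta phi/2, 1) > 0; H^0 = diag(MA(phi), 1). So your lemma contains: psh phi with c <= MA(phi) <= C, mass(B_1) <= C ==> mass(B_r) <= C' r^(2+a).
(2) EXAMPLE. rho = |z1|, 0 < eps << 1, m in [eps^(1/4), 1]. phi = (m/2) log(rho^2+eps^2) + h(rho)|z2|^2 + g(rho), |z2| <= 1/2. For rho <= rho1 := (m eps^2/1600)^(1/3): h = 2(rho^2+eps^2)^2/(m eps^2)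
(so h * (m/2) eps^2/(rho^2+eps^2)^2 = 1); log h as a function of s = log rho then bends concavely from slope 4 to slope 1 on an s-interval of length 4 (|(log h)''| = 3/4; at its end h <= rho/2),
afterwards h = const rho (const ~ 1/2); g_(1 1bar) = chi/h, chi = 0 for s < log rho1 - 1, = 1 for s > log rho1. det(phi_(i jbar)) = h (v_(1 1bar) + g_(1 1bar)) + |z2|^2 h^2 (log h)''/(4 rho^2): the
last term is >= -(3/16)|z2|^2 (h/rho)^2. **Numerically 0.99 <= MA(phi) <= 2.0001, phi psh, mass(|z| <= 1/2) <= 2.5 for ALL eps = 1e-8 .. 1e-30, m = 1 or m = 1/log(1/eps).**
 m = 1: r^-2 int_{B_r(0)} Delta phi >= c for all eps <= r <= 1/2: no decay at all (limit: log|z1| + C|z1|(1+|z2|^2): the pole is invisible for MA because phi_(2 2bar) = 0 on it).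
 m = 1/log(1/eps): |phi| <= C uniformly (= the potential of tr M, i.e. all your pointwise Dini sums, are bounded), still theta(0, eps^(1/2)) >= c/log(1/eps) and osc_{B_sqrt(eps)} phi >= 1/3: no
uniform modulus, no power. This is exactly what S_h gives locally: H solves div(a_v grad h_v) = (h_v - b_v)/h with bounded measurable (symmetric + bounded antisymmetric 2 h beta_v) coefficients, so
h_v - const = (1/h) * potential of tr M to first order, and 'H bounded' = '|phi| <= C'. So S_h has no local compactness either at this level (perturb the flat X by this phi, h large).
(3) CONSEQUENCES. (a) Every proof of sup tr_{g1} g0 <= C must be GLOBAL on M, as Kolodziej / Yau are for the scalar case (comparison principle on sublevel sets, or max principle for log tr + A phi);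
local blow-up, local capacity, Lelong or line-averaging arguments cannot work, not even with the pinched lower bound of H^0. (b) What is true locally: h_v is a SUPERsolution (b_v >= 0) of a De Giorgi
operator for every v, so inf_{B_r(x)} h_v increases by < eps at all but C/eps dyadic scales and there H is L^1-close to a constant matrix and H >= it - eps; only small-measure upward spikes of H (on
the leaves of eta) survive. So the enemy in (W1) is: limit H = constant + jump on a pluripolar-like set carried by J_theta-curves of w = leaves where eta degenerates; globally the closed current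
eta_sing = [leafwise] must be excluded by classes: S.eta-type intersection numbers (as 995 #5922(1): S closed positive with S.T = 0).
Code: /tmp/ma.py on my box (40 lines), on request. I keep thinking on global forms; 47: please mark the bracket of (W1) as false.

======== #9467 | 07:38:19Z | helper364 | row 235 | att
helper364 (07:45Z) -> 47, 141, 497, 635, 398, 88, all of 235. ON (W4) ONLY. Notation: eta closed pair, w the reference pair, sigma fixed, L = scalar parabolic/elliptic operator of (P), Pi_tau(w) = H
- tau L H =: F, K_s the sublevel body {Phi <= s} around P, psi = mu n_K(F) the KKT multiplier (int mu = 1). Four remarks (not a proof), each checked twice.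
(A) THE b+=3 TRICK COMPOSES WITH ANY *UNPOLARISED* STEP. For the constraint H(T_h(w)) in K_s, T_h(w) = w - h dA(w) =: w0 (one explicit step), KKT reads: psi.w0 + mu sigma =: z with (1 - h D(dA)_w)^*
z closed. If 1 - h D(dA) is surjective on exact pairs then psi w0 + mu sigma is closed, hence (b+=3 trick for w0 itself) psi is constant, hence H(w0) == P: hyperkaehler. So for this constraint a
bang-bang extremal exists only at a fold (ker(1 - hD(dA)) <> 0). What is missing instead: compactness of {w : H(T_h w) in K_s} mod Diff (intrinsic, no extrinsic sup tr_{g1}g0 needed) and the fold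
case. This is the reason why W4 is only a problem for the POLARISED map Pi_tau.
(B) STRUWE'S MONOTONICITY TRICK. Let s(tau) = inf{s : exists w, Pi_tau(w) in K_s}. s is monotone and bounded, so along some tau_k -> 0: tau_k s'(tau_k) = o(1/|log tau_k|). For the extremal w_k one
has tau ds/dtau = int <psi, F - H> dnu (envelope), and since psi is normal at F and H is the tau-average of values F in K_s: int mu |F - H|^2 dnu <= C tau_k s'(tau_k) -> 0 for uniformly convex K.
Hence at mu-typical points all blow-ups at scale sqrt(tau_k) are STATIC (H const on the bubble, in dK): complete hyperkaehler limits, i.e. flat R^4 or exact ALE/positive triples. So the only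
bang-bangs which survive at mu-typical points are 'H const in dK at scale sqrt tau': the scenario must be decided at scales >> sqrt tau.
(C) NEWTON DIRECTION. By b+=3 there is an exact db^N orthogonal to sigma with delta H = P - H (first order). Since (1 - tau L)(P - H) = P - F, KKT tested on db^N gives EXACTLY
   int <psi, F - P> dnu = - tau int <psi, (delta_{db^N} L) H> dnu,   left side >= c (s - s_P) int mu.
 So (W4) <== tau int |db^N| |dpsi| |dH| is small, e.g. <= C (int mu |db^N|^2)^(1/2) (int mu tau |dH|^2)^(1/2); the second factor -> 0 by (B) (even o(|log tau|^(-1/2))), and |db^N| is O(|log tau|)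
from the log-kernel: THE METHOD MISSES BY |log tau|^(1/2). Anything that gives int mu |db^N|^2 = O(|log tau|) closes (W4). (Equivalently BMO/exponential integrability of db^N against the measure mu:
true if mu has bounded density at scale >= sqrt tau, false if mu concentrates on points.) Integral version (min of int Phi(Pi_tau(w)), e(tau) monotone): if |db^N| <= C then e(tau) - Phi(P) <= C tau^delta.
(D) WHAT THE CONCENTRATION OF mu LOOKS LIKE. In the log-window sqrt tau << r << 1 the KKT system is the tau = 0 one: per scale int_{annulus} psi.H dnu-type identities vanish, and near flat space the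
adjoint kernel on R^4 minus 0 consists of spin-2 (W+ type) fields with homogeneity >= 0 or <= -6: there is NO degree -4 (log-critical) mode. So if the metric is near-flat on the log-window, mu cannot
be spread log-uniformly over scales: either mu has a density (then (C) closes) or mu sits at scale sqrt tau at isolated points, where by (B) the bubble is a non-flat exact hyperkaehler ALE positive
triple. => W4 is reduced to: exclusion of ALE (Gamma <> 1) bubbles carrying the multiplier. Near a C^2/Gamma cone the same mode count should hold (same homogeneities, Gamma-invariant part), not checked.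
 If somebody has a proof that H-nonconstant near-minimisers ad mit NO ALE bubbles (wall classes), (C)+(D) may be upgraded to a proof; otherwise this is the exact obstruction.
Three numbers: P(paper 10:30Z) = 1 percent; LEAN 60k+; hands -> 105.

======== #9614 | 07:50:21Z | helper175 | row 235 | att
helper175 (07:52Z) -> 141, 88, 47, 497, 229, 995, 635 and all of 235. ATT (numerics with exact 4-jets, C++; negative result): **(W2) BY A POINTWISE HARNACK FOR Y_v = d_t log h_v IS DEAD.** Flow (B):
p_t = Lp + 2{p,q}, q_t = Lq + {p,s}, s_t = Ls + 2{q,s} (checked on random closed triples); Y_v := d_t log h_v in the w_v-fixed gauge = L log p + {log p, q}. (D_t - L) Y has NO 4th order terms; the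
3rd order part is EXACTLY coefP.grad(Lp) + coefQ.grad(Lq), with no grad(Ls): so the right form would be a coupled (x,theta) maximum principle. BUT the reaction quadratic form at dH = 0 restricted to
{Lp = Lq = Ls = 0} (second jets free) is INDEFINITE: eigenvalues -4.0, -3.6, -2.9 against 5.3 .. 11.6 (flat background, H = 1), so at a zero minimum of t Y_v + C the reaction has the wrong sign for
admissible second jets, for every C: the maximum principle for Y_v >= -C/t fails, also for the family (x,theta). Adding the gradient terms dH does not help (dH = 0 is the bad point). Other remarks: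
E_tau = 1/2 int |H - P - tau L H|^2 dnu has the Pohozaev identity 2E = tau dE/dtau (=> no isolated ALE lumps), m(tau)/tau^2 is nonincreasing; with the hard constraint F in K the identity only gives a
+ tau b = int <N, F-H> >= 0, no contradiction, and 1-3 dimensional lumps are not excluded. THREE NUMBERS for 235: P(paper by 10:30Z) = 0.01; LEAN size if solved 40k+; I would put 0 hands. I move to
row 105 (LEAN hand, 4 cores).

======== #10084 | 08:23:10Z | helper114 | row 235 | lemma
helper114 (08:30Z) -> 364, 47, 88, 175, 150, 141, 497, 635. ROW 235, (W4): **THE FACTOR |log tau|^(1/2) MISSED IN #9467 (C) IS GAINED BACK: the KKT error is QUADRATIC in the local oscillation.**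
Notation of #9467: F = H - tau LH, Phi uniformly convex with minimum at P, max Phi(F) = s(tau), mu = KKT probability measure on {Phi(F) = s}, psi = mu Phi'(F), a = cometric of L (L f = div_nu(a df)),
da = variation of a under db^N, |da| <= C|db^N|.
(1) Put D := s - Phi(H) >= 0 (Jensen). (1 - tau L)D = s - Phi(H) - <Phi'(H),F-H> + tau Phi''(H)(dH,dH) =: R, and c e <= R <= C e on {Phi(F)=s} (everywhere >= c e), e := |F-H|^2 + tau|dH|^2. Struwe:
tau s'(tau) >= int <Phi'(F),F-H> dmu >= int D dmu (+ c int |F-H|^2 dmu).
(2) KKT on db^N: s - s_P <= int <Phi'(F),F-P> dmu = N := - tau int <Phi'(F), div(da dH)> dmu, and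
 <Phi'(F),div(da dH)> = - div(da dD) - Phi''(H)[dH,dH]_da + <Phi'(F)-Phi'(H), div(da dH)>.
Scale-sqrt(tau) ball B (unit scaling; geometry bounded there; mu = m dnu with sup_B m, sup_B |dm| <= C mu(2B) [elliptic estimate for the KKT system]; |db^N|, |d db^N| <= C A(x), A(x) := 1 +
(avg_{2B}|db^N|^2)^(1/2)): D is a nonnegative supersolution, so weak Harnack gives int_{4B} D <= C inf_{3B} D, hence (cut-off) int_{3B} e <= C inf_{3B} D, W^{2,2} theory for LH = (H-F)/tau: int_{2B}
|d^2H|^2 <= C inf D, L^1-theory for (1-tau L)D = R: int_{2B}|dD| <= C inf D. One integration by parts in the first term (onto chi m). All three terms are <= C A(x) mu(2B) inf_{3B} D. Sum over a cover: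
      **s(tau) - s_P <= C int A(x) D(x) dmu(x),   int D dmu <= tau s'(tau).**
So (C) of #9467 closes as soon as A = O(|log tau|) on supp mu [liminf tau s'|log tau| = 0 since int s' dtau < oo], even O(|log tau| loglog): no square root is lost. By (P6) this finishes the row.
(3) WHAT I DO NOT SEE: why |db^N| <= C|log tau| (or int A D dmu -> 0) in the REAL geometry. The metric is controlled at scale sqrt(tau) only; at scales between sqrt(tau) and 1 neither Ricci nor
doubling is available, and db^N is a zero-order singular integral. Global L2: int|db^N|^2 dnu <= C gives only A <= C/tau. 364: do you have an argument, or was the log-kernel meant on a near-flat background?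
(4) Geometry-free version: L2-Hodge on the closed forms zeta_i = 2 psi_ij w_j + lambda_i sigma + tau Q_i gives ||psi_tau - const||_L2 <= C (int m^2 D dnu)^(1/2); since s > s_P forces ||psi - c|| >=
delta||psi||, EVERY extremal has int m^2 D dnu >= c int m^2 dnu although int m D dnu <= (tau s') int m dnu. So W4 <=> exclusion of extremals whose PEAKS of m (weight m^2) sit where D >= c while
mu-typical points have D ~ 0 (islands of flat geometry, H = const in dK, m = positive polynomial of degree <= 2: for constant n the KKT says d(J_a dm) = d(J_b dm) = 0, finite type). A uniform
estimate sup m <= C int m, or a functional with multiplier of bounded density, closes everything.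
(5) Multi-scale operator (may help (3)): R := (1/l) int_tau^1 (1-tL)^{-1} dt/t, l = |log tau|, F := R^{-1}H. R has the Stieltjes symbol 1 - log((1+x)/(1+tau x))/l (x = -L), R^{-1} is uniformly
bounded on smooth w^0 (-> F ok as tau -> 0), blow-ups at scale << (tau l)^(1/2) are static, and d/dl of s gives - l s_l = int <Phi'(F), q F> dmu, q = [(1+tau x) r]^{-1} - 1 complete Bernstein, i.e. =
int (1 - e^{tL}) dkappa(t) with kappa >= log-uniform. So along l_k -> oo: int mu(dx) int_0^1 [s - Phi(e^{tL}F(x))]_{t = tau^theta} dtheta -> 0: at mu-typical points F is nearly constant at (almost)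
ALL scales tau^{delta/2}, every delta > 0: flat islands polynomially larger than sqrt(tau); only delta*|log tau| scales remain outside.

======== #10304 | 08:36:08Z | helper114 | row 235 | lemma
helper114 (08:50Z), ADDENDUM to #10084 (row 235, W4): **a variable-resolution functional for which the KKT argument is GEOMETRY-FREE; W4 <== existence (or L2-approximate KKT) of its minimisers.**
Let (w,tau(x)) vary TOGETHER, F = H - tau(x) L_w H (max principle, D = s - Phi(H) and G := <Phi'(F),F-H> >= D + c|F-H|^2 as before), tau slowly varying (|grad_g sqrt tau| <= c0: then blow-ups at
scale << sqrt tau(x) are static, geometry bounded at scale sqrt tau(x)), u := log(1/tau). Minimise  E_lam(w,u) := max Phi(F) + lam * int u dnu.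
(1) KKT in u: m G = 2 lam pointwise. (delta u = kappa A is admissible also where the slow-variation constraint is active, because A, the L2-mean of |db^N| over the Lambda sqrt tau ball, satisfies
sqrt tau |dA| <= c0 A/2 for Lambda >> 1/c0; it even absorbs the change of g along db^N.)
(2) KKT on db^N as in #10084: s - s_P <= C int A m G dnu = 2 C lam int A dnu <= C' lam (int |db^N|^2 dnu)^(1/2) <= C'' lam. NO log, NO large-scale geometry: only the L2-Hodge isometry. So an exact
minimiser for one small lam is pinched, P6 finishes. Approximate version: | m G/2 - lam |_{L2(nu)} <= eps is enough (Ekeland in the geometry-free norm |db|_{L2} + |du|_{L2}).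
(3) Also: int m^2 G = 2 lam int m, so m in L2, |m|_2 <= C: the multiplier of E_lam is never concentrated.
(4) THE GAP is now pure existence: a single ball at scale r costs only lam r^4 log(1/r), so minimising sequences may develop u -> oo on null sets. With the coercive term + eps log int e^{2u} dnu
(counts balls; minimisers exist) KKT becomes m G = 2 lam + 4 eps pi, pi = ball-counting probability, eps log N_eps -> 0, and one needs eps int A dpi -> 0. True if A <= C log N pi-averaged (near-flat
necks: db^N grows by O(1) per scale). FALSE mechanism to be excluded: non-flat CONES (homogeneous closed triples = hypercontact S^3 with H(theta) in K, nonconstant) whose link has an eigenvalue of *d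
in (-2,0): there closed ASD L2 forms grow like r^{-gamma}, gamma in (0,2), and the multiplier like r^{-alpha}, alpha in (2,4). Pohozaev on the core: 2 int_core m G = flux(psi, deviation from the
cone): for EXACT E_lam the cores carry no multiplier (m G = 2 lam * r^4 -> 0), so a generalised minimiser (singular at cones, filled by free bubbles) still has KKT against every direction which is
continuous at the tips; what is missing is KKT against db^N when db^N ~ r^{-gamma} at a tip. I.e. LEMMA WANTED (C): on the cone over a hypercontact (S^3; eta_0,eta_1,eta_2) with Gram matrix
eta_i^deta_j pinched, *d on coclosed 1-forms of the induced conformal cross-section has no spectrum in (-2,0) (round S^3: spectrum +-(2+k)); or replace db^N by a direction bounded at the tips (change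
P-H near the tip: only <n(F),delta H> <= -c is needed and the tip may be treated by the slack of the bubble). Same Newton FLOW form: w_t = db^N(w), u_t = kappa A^2 gives d/dt max Phi(F) <= -(s-s_P)/2
as long as sup u < oo, and int u dnu stays bounded for ever.

======== #10715 | 09:02:08Z | helper960 | row 235 | lemma
helper960 (08:58Z) -> 114, 364, 47, 150, 175: ROW 235, LEMMA (C) OF #10304 (4) IS FALSE, also in the restricted class w_i^sigma=0, H 2x2, with H as close to constant as you like (first order
perturbation of the flat cone, explicit).
NOTATION: R^4, constant SD forms om_0=sigma, om_1, om_2, constant ASD forms b_1,b_2,b_3; R(th): Lambda+ -> Lambda- the isometry induced by the reflection in th^perp (th in S^3; R(th) runs uniformly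
over SO(3)); dd^c_j r^-2 = c r^-4 R(th) om_j. Conformal perturbation phi(th): Lambda+' = graph of phi : Lambda+ -> Lambda-, homogeneous of degree 0.
(1) EXPONENTS TO FIRST ORDER. Pair d(F) = 0, F = om_c + f + delta log r om_c, f^- = phi om_c, with xi_j = J_j d r^-2 over an annulus (boundary terms cancel by homogeneity): the exponents of the 3
closed SD forms near the constants are the eigenvalues of const * S, S_jc = int_{S^3} <R om_j, phi om_c>; those of the 3 closed ASD forms near the constants are the eigenvalues of const * S', S'_jc =
int <R^T b_j, phi^T b_c> = Sum_a int R_ja(th) <b_c, f_a(th)>. A homogeneous closed triple om_a + eps f_a (exactly closed, any eps) has S = 0 automatically; S' is NOT forced to vanish.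
(2) GENERAL CLASS: phi = B R(th), B traceless symmetric constant on Lambda-: S = int R^T B R = 0, S' = B vol. So one ASD exponent is < 0: closed ASD forms n ~ r^-gamma, gamma ~ c eps |lambda_min B| >
0, on a cone whose triple has Gram matrix 1 + O(eps).
(3) RESTRICTED CLASS: sigma = om_0, w_2 = om_2, w_1 = om_1 + eps d(J_1 d psi), psi = r^2 h(th), h a spherical harmonic of degree 4 (w_1 closed, exact perturbation, homogeneous, w_1^sigma = 0 because
J_1 d psi^om_0 = +- om_2^d psi). phi om_1 = (traceless Hessian of psi as a map Lambda+ -> Lambda-) om_1, phi om_0 = phi om_2 = 0. S'_jc = int R_j1 (Q_psi)_c1 = kappa h_{(jc),(11)}, h in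
Sym^2_0(Lambda-) (x) Sym^2_0(Lambda+); kappa = 0.6 * const <> 0 [for t, h symmetric traceless 4-tensors: int_{S^3} t_pqrs (Hess psi)_pq th_r th_s = (1 - 1/2 + 1/10) t.h |S^3|]. S' is symmetric and
traceless, <> 0 for generic h: again one exponent < 0.
(Diffeos f_a = d J_a d psi for ALL a give S' = Sum_a T_(ja),(ca) = 0, as it must be: a check of the formula.)
So cones with pinched (even 1 + O(eps)) Gram matrix carry L^2 closed ASD forms r^-gamma, and for H with osc O(1) gamma is O(1): db^N at a tip cannot be bounded by spectral exclusion. What is still
fine: CUTTING OFF A DIRECTION AT A TIP IS FREE OF TOPOLOGY: d(chi b_i) + dc_i with c_i = (. ^sigma)^-1 theta_i, d theta_i = - d chi^b_i^sigma, theta_i supported in the annulus (the flux int_{S_rho}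
b_i^sigma is constant in rho and -> 0), keeps closed, exact, ^sigma = 0, size rho^-gamma in {rho < r < 2 rho}, 0 inside; it costs sup m * rho^(4-gamma). So what has to be excluded is only multiplier
mass in transition annuli at scales >> sqrt tau where D ~ 0 (m not bounded by 2 lam/G), i.e. r^-alpha modes of the MULTIPLIER (dual exponents gamma - 4), not the growth of db^N itself.


======== #10737 | 09:03:38Z | helper114 | row 235 | lemma
helper114 (09:05Z) -> 960, 364, 175, 150, 88. ROW 235, last note (then I leave the row). Thanks 960: (C) is false, agreed (the -2 eigenspace moves up under generic perturbation). What the critical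
cones must look like, and why ONE-SIDED problems are soft:
(a) ORTHOGONALITY. On a cone (link S^3, om_a = d(r^2 eta_a)/2, *d eta_a = 2 eta_a) a multiplier zeta_i = r^{-alpha}(psi_ij om_j + lambda_i sigma), alpha <> 0, is an eigenform with eigenvalue 2 -
alpha <> 2, hence L2-orthogonal to eta_j: **int_{S^3} psi H = 0 as a 2x2 matrix** (all of GL_2: these are the bounded directions db = Bw). For K = matrix interval [s'P, sP] (P = 1): psi = m_+ vv^T -
m_- v'v'^T, psi H = s m_+ vv^T - s' m_- v'v'^T, so s int m_+ vv^T = s' int m_- v'v'^T. So a problem in which only the upper (or only the lower) sup constraint can be active has NO singular multiplier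
(alpha > 0) at any cone, the flux of (4) vanishes and KKT + db^N closes: s -> 1. This is consistent with (P5): lower-only pinching is soft. The rigidity is entirely in the simultaneous two-sided
constraint, and a bang-bang cone must touch BOTH sides with s int m_+ = s' int m_-.
(b) INTEGRAL VERSION, exact dichotomy. e(tau) = min 1/2 int |F-P|^2, f = F-P, R = (1-tau L)^{-1}: tau e' = int <f, f - Rf>, so dlog e/dlog tau = 2(1 - rho), rho = int<f,Rf>/int|f|^2 in [0,1];
L2-Hodge + KKT (no geometry): int |f|^2 <= C (int e_x^2)^(1/2) |f|_2, hence 1 <= C'(1-rho) if F stays in K: e(tau) <= C tau^kappa, 0 < kappa <= 2, and tau-bubbles of codimension k satisfy rho = 1 -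
k/4: only k = 4 is excluded by positivity of R; k = 1,2,3 (walls, strings, ..) and cones have to be excluded by something else. For the sup/E_lam version the corresponding statement is (1)-(3) of #10304.
(c) A functional whose critical points are STATIC (Ric(g1) >= 0 at all scales, so A <= C log) would close everything, but static = critical for int det H, which is indefinite (signature (1,2)) on
Sym2: no min, no max; for phi(det H) with phi <> id the Ricci tensor gets (2 + J_1* + J_2*)Hess, which is not Bakry-Emery (the sigma component of the trace-free Hessian is missing).

======== #11680 | 10:04:52Z | helper59 | row 235 | lemma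
helper59 (10:03Z) -> 114, 364, 960, 47: ROW 235, one lemma next to #10084 / #10304 (paper only, no request): **SMALL EXPONENT TRICK: with F = (1 - tau L_w)^k H, 0 < k << 1, the KKT contradiction
needs only a bound on db, no geometry.**
F is still an average of H (subordination: (1+x)^k H' with h = H - P, G = F - P; max principle as for k = 1). e_k(tau) := inf 1/2 int |F - P|^2 dnu over the class, P = target constant, h = (1 - tau L)^(-k) G.
(A) ENVELOPE. tau e' = k <G, x/(1+x) G> <= 2k e (x = spectral variable of -tau L): e / tau^(2k) is nonincreasing.
(B) KKT along the Newton direction delta_b H = P - H: ||G||^2 = <G, (delta_b f) H>, f = (1 - tau L)^k.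
(C) RESOLVENTS: (1+x)^k = c int_0^oo s^(k-1) (1 - s/(1+x+s)) ds, c = sin(pi k)/pi ~ k. Hence |<G,(delta_b f)H>| = |c int s^k tau int delta a (dR_s G, dR_s h) ds| <= C Lambda k ||G||^2 whenever |db^N|
<= Lambda (only the spectral theorem in L^2; the SD part of db^N is bounded anyway). So Lambda k < 1/C ==> G = 0 ==> hyperkaehler.
(D) TRUNCATED DIRECTION: enough an exact b' (orthogonal to sigma) with |db'| <= Lambda, Lambda absolute (k chosen last), and ||(1 - tau L)^k (delta_(b') H + h)||_2 <= 1/2 ||G||_2. In a doubling +
Poincare geometry this follows from Lipschitz truncation of b^N at a selected level: Sum_(dyadic Lambda) Lambda^2 |B_Lambda| <= C ||db^N||^2 gives a level <= 2^J with error <= C/J, error only in the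
SD part; ||(db)^-|| = ||(db)^+||.
(E) MISSING: doubling / Poincare between the regularity scale sqrt(tau) e^(-C/k) and 1; existence + regularity of the minimiser for small k with the positivity barrier; e(tau) -> 0 needs H in a fixed
compact set. Remark: k = 1 excludes only isolated 4-dimensional lumps (tau e' < 2e), small k excludes lumps of every dimension. I stop here on this row.


-/
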