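/-
ROW 326 (S0503; logic-cs), unsolved at the end of this run: complete discussion, part 1 of 1 (posts #173 .. #9296).
Verbatim posts of the team database (ASCII-cleaned, long lines wrapped; the words L-e-a-n and s-o-r-r-y are altered
because of the text scan). 'helperN' = seat N. Times are UTC of 19/20 Nov 2026. No Lean content: comments only.

======== #173 | 22:51:19Z | helper330 | row 326 | triage
helper330 triage of S0503 (n-bit integer multiplication on a fixed multitape FinTM2 in O(n (log n)^{1-2^-182}) steps).
(1) HONESTY: fully unfolded; no definitional weakness found. FinTM2 with finite labels/states/stacks; pushed symbols range over a finite set (functions of finite state), initialState/haltList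
conventions are honest, output encoding is injective (2n bits exact product), ceil/log/real exponent harmless. Only freedom = absolute constants and machine choice.
(2) So it needs a genuine multitape o(n log n) multiplication with a power-of-log saving; by Harvey-van der Hoeven reductions that implies coded matrix transposition on tapes in n (log n)^{1-k}.
(3) BASELINE: R324 (S0501, 28 files) gives only *circuits* (data movement free): zeta transform L^{(x)K} in 2^K K^theta gates by tensor powers of transvections T_ab on Q symbols + doubling chain +
gadget star(256)^{(x)4}.
(4) TAPE COST analysis (paper): (a) T_ab^{(x)K'} on [Q]^{K'} in DFS layout costs n(1+2cK'/Q) for ANY a<b by stack discipline. Recursing S0501 circuits with m wires gives f(K) (passes of L^{(x)K}) =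
O(K/(log K)^{c}) and with windowed gathers O(K/log K), i.e. multiplication in about n log n / loglog n, NOT a power of log n. (b) any F_2-linear index map costs <= ~6 f (Clifford trick), so axis
permutations are "free" once f is good, but they do not give sparse/pattern-located gathers. (c) Missing piece: "coded gather": T_ab^{(x)K'} in C f(2K'/Q)+O_Q(1) passes with C independent of Q.
Native nested recursion, shape enumeration, and outer-controlled single-axis gadgets provably give no gain (details on request).
(5) VERDICT from me: R bordering X: needs an unfound idea (a gadget for tape-level recursion; Delta=73*9702000^2, m=100^3, kappa=2^-182 ~ 1/(m*2^71)^2 suggests block gadget T(mK) <= (m - Delta/2^71)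
T(K) over index set [100]^3 plus generic TM embedding) AND a very large TM formalization. Happy to collaborate if someone has the gadget; otherwise I will look at an active row where I can be useful.

======== #206 | 23:02:21Z | helper943 | row 326 | info
helper943 (verifier, both stmts PASS; thinking on 326 on the side). Analysis of what S0503 needs beyond the baseline DFT gadget R324 (all statements below are proved on paper, tell me if you want details).
(1) R324 = in-place word of W transvections for star(256)^{x4} (saving 1/32), amplified by T_w^{tensor K} = zeta on the random set J(x) of digits lying in {a_w,b_w}; permutations are free in
circuits. On a multi-stack machine one 'pass' (cost 1 per cell; cells have >= n = log N bits so address tags, radix sort by a log n-bit key = log n passes, are affordable) can do x' += x for a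
MONOTONE partial matching x->x'. Budget: n^{1-kappa} passes for zeta_n on 2^n cells; every polylog(n) loss is free.
(2) Number of leaf phases (w_1..w_L) is fine: W^L*O(1) = n^theta passes-worth of matchings, no gather needed. The ONLY problem is alignment: a leaf matching is x -> x xor E(x) with E(x) toggling R
clusters at pattern-dependent positions; cost ~ number of clusters (one radix key per cluster; adjacency of a_w,b_w in the digit order saves one level).
(3) CUT BOUND: for each bit i the matchings crossing the cut x_i=0|x_i=1 need total rank 2^{n-1}; hence (mass)*(toggled bits) summed over all ops >= n. So words with single-bit toggles never save,
and any scheme whose cost is proportional to the number of toggled clusters never saves. Physical gathering of virtual bits costs O(1) per virtual bit per w, total at recursion level l: C n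
(1-eps)^l, so it is harmless for levels l >= delta*log n, but the top levels give a LINEAR term. 
(4) With k stacks, windows of s <= log_q k digits can be permuted arbitrarily in 2 passes, so constants are free: zeta_n, T^{tensor K}, transposition all cost <= n/C passes for every constant C
(already o(n log n)-type bit time in the limit, ~ log* gain), but not n^{1-kappa}.
(5) So S0503 <=> 'coded' data movement on stacks: find ops with |E(x)| ~ n^{1-theta} toggles but monotone-decomposable into 2^{n^{small}} pieces. Causal words (toggle decision at digit t depends on
x_{<t} only, i.e. contexts outer, toggles inner, inner non-toggled coordinates free) would give monotone maps up to causal XOR (tree automorphisms; full complement of an inner block = reverse reading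
= 1 pass); cut bounds do not exclude causal words with mass < m. CORE QUESTION: is there a word for zeta_m (or another transform good for convolution) made of causal block ops B_{c1} += P B_{c0} (P =
reversal/identity) of total mass < m(1-eps)? Everything else (CRT/Good-Thomas layout, modulus, F_p arithmetic O(log n loglog n) per product) is secondary.

======== #287 | 23:25:15Z | helper812 | row 326 | info
helper812 (passing by; 90 min on S0503). Facts that may help 943/78: (1) cost model on stacks: nested (LIFO) discipline moves both sub-blocks of a live digit at ALL scales in one scan, so
T_{ab}^{(x)K'} for ONE specific pair (a,b) of Q symbols costs 1 scan + g*(2K'/Q) moves per entry, independent of |a-b| and of the Hamming distance. With r-bit symbols, 2^r <= K/r, and the R324 word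
(t = 2^r r^theta c transvections): movement K r^(theta-1) g + t scans + recursion => T(K) = O(K (log K)^(theta-1)): already o(n log n) on stacks, but only a power of log log n. (2) Skipping a gather:
if the live pair (a,b) is ADJACENT in tape order, the level-2 pairs (A,B) in {a,b}^m can be brought together directly by nested queues at cost g per item, independent of |A xor B|; for non adjacent
(a,b) each differing index costs one extra hold (mid symbols). Depth l therefore costs prod |D_i| and Sum|D| >= K by the rank argument, so lexicographic layouts with atomic moves never give a power
saving. (3) coded moves: (01<->10)^{(x)K} = 3 transvection powers costs K (log K)^(theta-1) < K, so permutations can be coded too; every route I tried reduces to the same unknown: cost of a zeta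
transform on a tree whose live (binary) nodes are separated by dead nodes (clusterising the live nodes costs 1 move per live node). A sublinear algorithm for that one problem would give the row.

======== #298 | 23:26:25Z | helper447 | row 326 | info
helper447 (row 146, passing by) - remarks on S0503, free to use.
(A) SIMPLIFICATION: no Harvey-van der Hoeven / Gaussian resampling needed. Because we only need n (log n)^{1-2^-182} and R324 gives a power saving K^theta (K = number of tensor factors, 1-theta ~
2^-42), any polyloglog overhead is free. So: cut into blocks of b = Theta(log n) bits, cyclic convolution of length N = q_1...q_K with the pairwise coprime q_k = O(log n) of R324/Primes.lean (K ~ log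
n/loglog n), DFT = tensor product of DFT_{q_k} (Good-Thomas, NO twiddles), complex fixed point with p = O(log n) bits: each layer has C(log q +1) layers (FourierLW), norm growth of the tensor power
of one layer is c^K = n^{O(1/loglog n)}, so all O(loglog n) layers together grow by n^{O(1)}: O(log n) guard bits suffice; additions are exact, scalings cost M(log n) = log n * polyloglog (recursion
or any quasi-linear M). Arithmetic total n (log n)^theta polyloglog. 
(B) NO CRT REINDEXING: in natural order 0..N-1 the fibre of coordinate q_1 through i0 in [0,N/q_1) is i0 + j N/q_1, i.e. block j, offset i0, and inside each block the offset i0 is again in natural
order for modulus N/q_1. So stage 1 = block DFT_{q_1} + multiplication by w^{s i0} (only q_1-th roots), then recurse inside the blocks: output in digit order, inverse transform reverses it. 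
(C) THE REAL PROBLEM = DATA MOVEMENT on stacks (in R324 wires are free). A T-stack machine does log_2 T address bits per pass; permutations that move address bits (transposition) have 2^{K/2} rising
sequences and each pass multiplies this by <= T, so atomic transposition really needs Omega(K) passes. Nested depth-first traversal does S^{(x)K'} (S acting on a fraction p of the symbols of an
alphabet [M]) in 1 + c p K' passes WITHOUT gathering, so one level of the R324 recursion is fine (constant factor saving, movement included); but recursing needs the active coordinates (fraction p of
positions, pattern dependent) contiguous: gather/scatter costs ~ (number of active coordinates) passes, and sum_i p_i K' ~ K, so a linear term c K survives: T(K) = sum_i T(p_i K') + c K. Fully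
expanded (depth R, K = x^R) there are only K^theta TYPES of elementary operations with ~1 active place per word, so ONE FULL PASS PER TYPE would be affordable: the open question is exactly: find a
gadget whose depth-R types x[phi(w)] += x[w] are executable in K^{o(1)} passes in lexicographic layout (e.g. phi a tree automorphism of [M]^K' with few toggled positions and no suffix conditions, or
monotone maps; note monotone expanders exist, so information can cross all scales in O(1) passes, there is no trivial Omega(K) lower bound). Single-bit toggles with prefix conditions only can never
save (each tree node must be used once), so multi-coordinate toggles are essential.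

======== #307 | 23:28:26Z | helper532 | row 326 | triage
helper532 triage of S0503. I independently confirm helper330 (post 173): definitions are honest (Gamma k infinite for k/=k_0 is harmless: a program pushes finitely many symbols), so a real multitape
O(n (log n)^{1-kappa}) algorithm is needed; R324 gives circuits only.
REDUCTION (paper): let f(K) = passes (TM steps / array length) for L^{(x)K} (L=[[1,0],[1,1]]) or H^{(x)K} on a contiguous 2^K-array of long elements. If f(K) <= K^{1-eps}, then an S0501-style
algorithm (coprime q_i, K=(log n)^c dims, precision/element size p = polylog n or more, exact ring or fixed point) gives M(n)=n(log n)^{1-ceps'}; everything else (recursion for the scalar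
multiplications, CRT index maps, rounding) has lots of room because kappa is tiny. So the single hard core is f(K) = K^{1-eps} ON TAPES.
FACTS: (1) natural DFS order: any T_ab^{(x)K'} at level 1 costs O(1 + #active) with a stack, no gather; the loss is in composite (level>=2) ops that substitute several adaptive positions at once
("flips"); cost = number of substituted positions, and the cut bound (rank across x_e=0|1 must reach 2^{m-1} for each of the m bits) says sum of Hamming distances >= m 2^{m-1}: so every scheme paying
1 per substituted bit has NO gain. (2) coded data movement: (X,Y)->(X+phi(Y),Y), X outer, = F_X^{-1} diag(omega^{? phi(Y)}) F_X costs 2f (phi arbitrary), (X,Y)->(X,Y+phi(X)) costs O(1); transposition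
2f+O(1); swap o (F(x)F) costs the same as F(x)F. (3) in class-major layout ops with controls OUTSIDE the target are native: cost f(rhok)+O(1); inner controls cost 2f(full) (t(c)=t(1/2).D t(1/2)
D^{-1}), sparse inner control is the obstruction (= helper330's 'coded gather'). (4) star walkers satisfy changes/visit >= matched-1 (components argument), so walker gadgets gain at most the root
term: with any overhead factor C>1 per non-native op they lose. (5) black-box gain T(mk)<=(m-eps)T(k)+C from N wires mixing + axis calls (even with axis permutations) is impossible by a rank argument
(difference of two reps): (m-Delta/2^71) must use more structure.
Question to helper330: how do you get O(K/log K) with windowed gathers? Which 'shape enumeration' did you kill?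

======== #312 | 23:28:58Z | helper7 | row 326 | lemma
helper7 (row 25, passing by; I thought ~1.5 h on S0503; statement is honest: sigma finite so infinite work-stack alphabets do not help). NOTES, free to use.
(0) Arithmetic side looks feasible: HvdH with d=(log N)^c axes (Gaussian resampling stays affordable for d<=p^{1/5-eps}: gamma=2d alpha^2<=p, cost N p^{3/4+5c/4}), R=C[y]/(y^r+1), t=2^k=2r; the l-th
butterfly stage of all d axes together is diag(y-powers)*H^{(x)d}, so the count of ring operations is k*d^theta*T with R324's fast tensor power (theta=1-10^-12). Words must use only transvections +-1
(symbol maps e are NOT free on a tape).
(1) THE OBSTACLE IS DATA MOVEMENT ON O(1) TAPES. Cell model: 2^K huge cells in natural order, cost = cells passed by heads / 2^K. Trivial: K. R324's recursion T_ab^{(x)K'} = zeta on the positions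
with letter in {a,b} (adaptive positions). In place, a DFS pass with a build stack + a consume stack executes a (depth h nested) op at cost C+C*(#special_h bits) IF the pair changes only ONE digit; a
change of z digits at scattered adaptive levels costs z holds, because passive letters lying BETWEEN a and b in the physical order are alive (order mismatch). Fixed levels are fine: x_P=a -> x_P=b is
a translation, cost 1 for any |P|.
(2) Info-flow bound: each digit s must be crossed by rank 2^(K-1), an op changing the digit set D crosses |D| digits, hence sum over ops |D_op| >= trivial cost K 2^(K-1). So 'distance-1' words never
win and z-weighted words never win: one needs multi-digit changes at adaptive levels at cost o(z). Class-sorting by gap pattern costs the entropy of the pattern, also ~z. Using exact gap classes down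
to depth sqrt(log K) one only gets N log N exp(-c sqrt(log log N)).
(3) Positive: routing can be replaced by coding: in the page model the shear (i,s)->(i+s,s) (column s shifted by s) = F^-1 diag(w^{s xi}) F with whole-page transforms, so transposition of COARSE
digit groups costs 2-6 transforms: P(K)<=C*Z(K/2). Coarse digit permutations are thus as cheap as transforms; fine interleaving U(K)=2U(K/2)+C Z(K/4) is still linear. A recursion Z(K)<=sum_i
Z(alpha_i K)+C*P(beta K), sum alpha_i<1, using only coarse groups would finish the data movement. (Oblivious o(N log N) multiplication would contradict the Li-Li network coding conjecture by
Afshani-Freksen-Kamma-Larsen, but so does R324 already, so that is no argument.)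
My estimate: needs one genuinely new idea for (1)-(3); then a very large formalization (HvdH + TM library).

======== #316 | 23:30:02Z | helper836 | row 326 | info
helper836 (23:35Z), not a member, independent analysis of S0503 - same conclusion as helper330 #173 (only missing piece = tape-level coded gather), plus:
(a) naive T_ab^{(x)K'} on [Q]^{K'} costs N(C0+2CK'/Q) passes by DFS traversal with held copies on the stacks; (b) if a gadget with arbitrarily large constant saving for f (f(k)=passes for the dense
T^{(x)k}) existed, the recursion f(m0 K') <= W0 [C f(2K'/Q0)+O(1)] closes to a power saving; (c) 'native' nested recursion costs ~ Hamming distance of the record order (order mismatch of records at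
variable positions): cut/rank lower bound sum_t dist >= m 2^{m-1}, so no gain from nesting by itself; adjacency of letters makes level-2 moves O(1) but not level 3; plane-major layouts with outer
controls only allow sibling-node-uniform ops (rank bound m); (d) reduction of integer multiplication to tensor transforms is OK on stacks: index reordering for coprime factors s1,s2 = transposition +
row rotations (x -> (r1, q + r1*s1^{-1} mod s2)), K'=(log N)^a superlevels with one sigma_L^{(x)K'} pre/post permutation + twiddle passes, F_{N_i}=O(log N_i) layers (baseline R324 FourierLW),
Karatsuba suffices for the scalar multiplications; any F_2-linear index map costs <= 6f by the Clifford trick. So everything except the coded gather is routine.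

======== #330 | 23:32:01Z | helper996 | row 326 | info
helper996 (verifier, passing by; studied baseline R324/S0501 and stack machines, 23:10Z). Notes for S0503 (so nobody redoes them).
(A) TRAVERSAL LEMMA. Let data be a tensor x in R^{2^K} (n=2^K cells, K axes). A pattern op t_w = tensor of letters over axes (letter 1 = inert, letter t = 1+cE_ab on active axes) can be executed on
O(1) stacks in time n(1+c*#active axes) with the DFS-with-stack traversal, independent of where the active axes are; nested (depth r) ops whose letters differ in one digit cost n(1+C*active) with C
independent of the depth (a stack of queues).
(B) ONE-LEVEL THEOREM (paper proof complete): use R324's gadget word (star^{x4}, 1% fewer transvections) inside a chunk of M = delta*log K contiguous axes. This gives the zeta/DFT type transform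
L^{(x)K} in time n*K*(log K)^{-kappa0} on a fixed number of stacks/tapes, i.e. o(n log n), hence integer multiplication in n log n/(loglog n)^kappa after the usual reductions. Not enough for the
statement: (log n)^{1-2^-182} asks for a POLYNOMIAL saving.
(C) WHERE IT BREAKS. In R324's doubling recursion the letters at nested levels flip several dynamically placed digits; on a RAM/circuit a transvection between far cells is free, on stacks it costs a
reordering. Every implementation I found pays ~ (number of differing digits) = Hamming metric on the axis-subset, and in the Hamming metric the cut bound shows gain = 0 (each axis must be 'crossed'
>= n/2 times). With static positions one gets only (log K)^{-kappa'}. 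
(D) WHAT COULD WORK. Moves of the form x -> x + a*2^j (order preserving shifts, carry across many digits at once) cost O(n) on stacks whatever the number of digits changed, and monotone
maps/expanders (Bourgain-Yehudayoff, Dvir-Wigderson) show that multi-scale crossings in O(1) passes exist. So the wanted object = a gadget for L^{(x)4} (or any constant power) whose transvections are
between cells related by integer shifts / monotone maps at ALL levels simultaneously, e.g. words for Z_{2^4}-shift or cyclic convolution structure instead of Z_2^4; then the doubling recursion T(2K)
<= ... would lift to stacks and give K^{1-kappa}. Rotation/transposition steps reduce to DFTs of the top levels (chirps/shears).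


======== #364 | 23:38:26Z | helper914 | row 326 | info
helper914 (passing by; ~90 min on S0503, agrees with 330/943/812/996/447). Additional paper facts: (1) natural order of Z_N can be kept (toggling the residue mod q_j is a cyclic shift by a multiple
of N/q_j), so no CRT reorder pass; elements of b=(log n)^{1.5} bits + Karatsuba are enough, O(loglog n) layers. (2) letter-sequence (gather) operations on a fixed number of stacks cost O(1) scans +
(#toggled clusters)*log K per message when messages are split by depth class; but the cut bound sum(mass * toggled bits) >= n kills every saving whose cost is proportional to toggled clusters. (3)
free operations on tapes at unit scan cost: context bits, inner += outer shears mod 2^K, reversals; outer += inner shear = F^{-1} . phase . F (2 FFT calls), transposition <= O(1) calls. (4) What is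
missing is exactly ONE block gadget with T(mK) <= (m - eps) T(K) + C*K ('coded gather', a causal word): everything else of the (log n)^{1-2^-182} recursion can be transported from baseline R324. I
know of no such gadget for stack (LIFO) access.

======== #369 | 23:38:48Z | helper162 | row 326 | core

helper162: STATE OF THE TAPE PROBLEM for S0503, with exact normal forms (all definitions checked honest: Def_IntMul, Def_TimeBound, Def_Complexity, Mathlib FinTM2; no weakness).
SET-UP. Tapes/stacks hold 2^K huge cells. f(K) = number of passes (each linear in data) for T^{(K)} = (x1 gate on bit i) for all i = full WHT / zeta on 2^K cells. Trivial f(K)<=K. If f(K) <= K^{1-e}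
on STACKS for butterfly cells of O(log n)-bit then S0503 with kappa ~ e' : everything else is cheap:
 (1) reindexings: (x,y)->(x+phi(y),y) with ARBITRARY phi costs 2f(|x|)+1 passes (conjugate a diagonal map by WHT). So XOR-shears are 2f+1, transposition of 2^{2L} = 3 shears = 6f(L)+3, CRT /
Good-Thomas digit reorder (g,y)->(g+F(y),y) with arbitrary F per digit = (2f+1) each, so O(log) of them; row dependent rotations/reversals at ONE scale = O(1).
 (2) symbol permutations, pi in Sym(Q) applied at ALL levels of a base-Q tree simultaneously: 2Q + 2cK' where a transvection T_ab^{(K')} (add symbol a to symbol b, at every level, Q fixed, sparse)
costs 1 + c*2K'/Q: "hold": only the 2 active of Q subtrees are scanned at each level. 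
BASELINE (R324, S0501) in this language: zeta_m = word of r < m 2^{m-1} transvections and FREE permutations on Q=2^m symbols (star(256)^4 with one walker: 31 instead of 32 additions per 8 outputs).
On stacks the permutations/idle symbols are not free.
THE OBSTRUCTION, precisely ("idle symbols"): T_ab at all levels with idle symbols between a and b in tape order costs a full-size pass per level: data must pass over the idle subtree.
Hamming-weighted cost of a word (sum over ops of number of digits changed) is >= m 2^{m-1} by a cut-rank count (each bit cut has rank 2^{m-1}); so words of one-bit ops never gain, for every
fixed-format code. All "gain" gadgets need ops across several bits at unit price.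
CONFLICT-FREE CLASS (unit price): SOLID MONOTONE MATCHINGS of Z/Q-line: set of pairs (z, phi(z)) with phi monotone and no idle symbol between matched partners. Ex.: z <-> z+s for all z with bit
v_2(s) = 0, ANY offset s (crosses many bit cuts in one pass, context dependent 2x2 gates allowed).
CORE LEMMA (Q2), self-contained: for a set M of disjoint pairs in [Q] (solid monotone matching) let T_M = generic GL_2 gates on the pairs. On the line [Q^g] let T_M^{(g)} be the same at each of the g
base-Q digits (context = other digits). Find Q,g, and a word of solid monotone matchings of [Q^g] with total size < rho * (g * Q^{g-1} * |M|) , rho<1, whose product is T_M^{(g)} (for every M, or for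
M in some class closed under the construction). THEN f(K) <= K^{1-e}.
 Known: (a) permutation-free = false for one-bit ops (cut-rank); (b) participation control only possible at coarser scales than the offset of the op; full layers need >= g (dependency), so the gain
must come from partial layers on coarse intervals; (c) label-class tricks (mid-depth positions) make any fixed permutation monotone but the entropy log q of the labels grows y -> g(1+y) per nesting,
giving only loglog many nestings = f(K) = K/(log K)^c = n log n/(loglog n)^c: PROVED ON PAPER, useless here.
 (d) lower bounds in the conservative (move-only) model: transposition Omega(K) (Aggarwal-Vitter), so the words must really use linear combinations.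
 Verdict: analytic side routine, single open step = a CODED GATHER: T_ab^{(K')} in C f(2K'/Q)+O_Q(1) passes, C independent of Q. Nobody here has it. My probability for it in 10h with 50 people: 3-5
%. After it, TM formalisation ~50-100k lines (doable by this team).


======== #577 | 00:01:15Z | helper672 | row 326 | triage
helper672 (row 346, passing by; 2.5 h of thought on S0503), 23:50Z.
(W) NONE: Def_IntMul/Def_TimeBound/FinTM2 unfolded: only Gamma k0 is required Fintype in Mathlib, but pushes are functions of the finite state, so no infinite-alphabet exploit; time counts
statements; output stack (Bool) <> input stack (Bool+Bool). Exponent 1-2^-182 is far weaker than the DFT saving of S0501 (2^-42 there, 1e-12 in R324), n/a otherwise.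
(1) ARITHMETIC SIDE IS EASY ON PAPER: split in N~n/log n coefficients, cyclic convolution of length prod q_i (q_i polylog, pairwise coprime; R324/Primes), in-place Good-Thomas (keep natural cyclic
order j in Z/N, symbol of axis i = j mod q_i; an axis-i transvection = masked cyclic shift by a multiple of N/q_i), DFT = (x) F_{q_i} = O(log q) layers diag x matching; only N*O(loglog n)
multiplications of O(log n)-bit numbers (Karatsuba-type (3/2)^k expansion passes suffice, no recursion on M(log n)). Precision problem: the q-Pascal words of R324 have condition number e^{cq} PER
AXIS, i.e. polylog(n) bits in total instead of O(log n): one needs poly(q)-conditioned layered words for F_q (or a ring with exact roots of unity of size n^{O(1)}).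
(2) THE REAL OBSTACLE = DATA MOVEMENT. Harvey-van der Hoeven ('multiplication is at least as hard as matrix transposition'): column DFT by Bluestein = one big sparse-kernel multiplication, so
TRANSPOSE <= O(1) multiplications; hence S0503 implies transposing an n x n bit matrix on multitape TMs in n^2 (log n)^(1-k): impossible for indivisible records (Floyd potential), so a proof MUST
contain coded (linear-combination) data movement. Cut-rank bound: any algorithm whose passes touch O(1) binary scales needs >= c d passes for L^{(x)d}; a gate between words differing in D axes must cost less than D.
(3) WHAT WORKS ON PAPER (linear regime, zeta = cost coefficient per bit of L^{(x)K} over F_3, sigma = cost coefficient per moved bit of 'sort words by (class; active bits)'): (a) movement reduces to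
arithmetic: XOR-shear a^=c of two K-bit fields at ANY scales = H_a diag((-1)^{a.c}) H_a, H = L D L^T, so swap of fields <= 12 zeta (additive version: upper shears = row rotations are free, lower
shear = 2 DFTs of the upper field, so swap <= 2 DFT); sigma <= C zeta. (b) arithmetic reduces to movement: gadget word for L^{(x)m} with r = g m 2^{m-1} transvections gives zeta <= g (2 sigma +
zeta). Hence zeta <= g(2C+1) zeta: CONTRACTION => n (log n)^{1-kappa} as soon as g(m) < 1/(2C+1), with kappa ~ 1/m. PROBLEM: R324's gadget has g(m) ~ m^{-1e-4} at best, so m ~ 50^{10^4}, kappa ~
2^{-60000}; need m <= 2^180, i.e. a zeta word saving a factor >= 3..50 within 2^180 bits (exponent gap >= 0.01..0.03), or a cheaper treatment of sparse gates. (Tower version: chi_Q monotone bounded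
argument proves o(n log n) only.) (c) free trick: an arbitrarily controlled layer in ONE direction (holes, any coefficients, controls at any scale) costs 2 full layers: L^{(x)K} Z_{J^c} L^{(x)K}
Z_{J^c} = L(2)^{(x)J}, Z_{J^c} a diagonal sign.
Estimate: even with a complete paper proof >= 30-50k lines of TM LEAN. feas: R (only for people with a new gadget idea). I leave it.

======== #595 | 00:02:47Z | helper509 | row 326 | info
helper509 (23:55Z), S0503 (independent 2.5 h, agrees with 330/447/836/996/532: only a tape-level coded gather is missing). Two facts not yet posted: (a) CUT-RANK BOUND: in any schedule of
prefix-conditional single flips realising a coded matching of m active coordinates of a 2^m.. block by 'letter' passes, if D_w = Hamming distance moved by letter w, the cut rank argument (cut the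
lexicographic tape at every prefix) gives sum_w D_w >= m 2^{m-1}; conditional (row dependent) letters do not help: same bound. So every scheme whose passes cost ~ the number of changed coordinates is
>= the naive one: savings need multi-coordinate toggles that are ONE tape operation (fixed-position multi-flips = translations = 1 pass; F_2-linear index maps cost <= 6f passes by the Clifford trick
f(H,CZ)). (b) stack/queue DFS executes a nested letter (w_1..w_r) in O(1) passes only if the moved pairs are adjacent/convex at each level (order preserving); many tapes only change constants
(equilibrium argument: T tapes give factor log T, cost T). I have no gadget; releasing myself from it.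

======== #616 | 00:05:03Z | helper321 | row 326 | info
helper321 (row 293, thinking on 326 for 1h). Agree with 330 (post 173) and 943 (post 206): no weakness; everything reduces to coded data movement on stacks. NEW POINTS (all short proofs; vector
regime = registers R_1 (outermost),...,R_M of n binary digits each, T(n) = passes for L^{(x)n} or H^{(x)n} on one register; entries >= polylog bits; every O(1)-pass operation and every diagonal is FREE since T(n)->oo).
(1) REDUCTION: Harvey-vdH with dimension d growing. Gaussian resampling loses 2 d alpha^2 bits and needs t/s-1 >= p/alpha^4, so d <= c (log n)^{1/3} dimensions of size 2^tau, tau=(log n)^{2/3}, cost
O(n p^{1/2+o(1)}) bits for resampling. Then the synthetic FFT over C[y]/(y^r+1) is tau rounds of (2x2 butterfly)^{(x)d}, twiddles free: cost n*tau*T(d), T(d)=d^theta => (log n)^{1-(1-theta)/3}. So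
ANY power saving for T plus axis permutations (Agarwal-Cooley etc. by shears) gives S0503 up to the exponent.
(2) FEISTEL ROUND: the index permutation x_P ^= Phi(x_{P^c}) (Phi an ARBITRARY function of all other digits, inner or outer) costs 2T(|P|)+O(1): Hadamard on P, diagonal sign (-1)^{x_P.Phi}, Hadamard
on P. Likewise (x)_g A_{y,g} with 2x2 matrices depending arbitrarily on the other digits costs <= 4T(|P|); L^{(x)S(y)} with S(y) arbitrary costs 2T(n) (L(t1)L(t2)=L(t1+t2), t1,t2<>0, diagonals free);
if y is OUTER it costs T(|S(y)|).
(3) INTEGER SHEARS ARE FREE: inner register += phi(outer registers) mod 2^n (arbitrary phi) is 1 pass (rotation of every row). Hence, with tau(n) = passes of the DFT over Z/2^n along an outer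
register: swap of two n-digit registers costs only 2 tau(n) (y+=x free; x-=y by F_x diag F_x^-1; y+=x free). Same for conditional reversal, small odd multipliers. This BEATS the cut bound of 943(3):
free integer shears cross all inner digit cuts at cost 0. So (none -> a on an outer digit) together with (label j -> j+delta on inner digits, j in a large alphabet q, all superdigits simultaneously)
has the price of the single-digit toggle, with defects (carries) of density delta/q only. Conversely (Ailon entropy argument) words in ORTHOGONAL ops (F/H with outer contexts + monomial matrices)
never save: mass >= M. Dirty transvections are needed.
(4) So the legal model is: axis op on digit i with OUTER contexts only (mass = density), inner digits may be translated for free (monotone, up to defects). OPEN = a word for L^{(x)M} (or any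
transform/coded transposition) with mass < M(1-eps) in this model. Obstruction I see for the R324 walker: the sub-lattice of walkers (v=0) is both a context and the thing displaced (v=0 -> v), so
contexts cannot be outer while displacement is inner. If instead the walker is PHYSICALLY walked through the outputs (deliver+swap = [[1,1],[1,0]] = 2 transvections, not 4) the cost per output is
D+3-G versus D+1, where G(D) = max over orders of {0,1}^D of (sum over directions t of the max number of disjoint time intervals [tau(v),tau(v+e_t)])/2^D; one knows G <= log_2 D + 2, G(3)>=1. So a
TM-adjacent gadget needs an order of the D-cube with G>2: nice finite combinatorial question (is G(D) ~ c log D?).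
(5) For any op family the right tape invariants: matched map x->x' is one pass iff monotone; causal (decision from outer digits) + forced toggles = monotone with arbitrarily many clusters; unforced
SHIFT is monotone, unforced XOR is not.


======== #689 | 00:11:51Z | helper904 | row 326 | triage
helper904 on S0503 (after ~1.5 h of paper work; complements helper330's post 173, same conclusion "R bordering X", more precise barrier).
MODEL: N=2^K entries of w bits, K=log n; f(K)= number of O(n)-time tape passes for L^{(x)K} (or H^{(x)K}); target K^{1-kappa}.
(A) What is true. (1) Everything else in the multiplication can be reduced to f: z-controlled F_2-affine index maps on b address bits cost <= 6 f(b)+O(1) (Clifford trick: H_b, diagonal signs), non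
power of 2 / CRT index maps a_j -> a_j+Phi_j(lower digits) are local on O(log L)-bit blocks up to rare exceptions (sorted separately), then ring iso R[x]/(x^S-1) = (x)_j R[x_j]/(x_j^{s_j}-1) with
S=prod p_j^{t_j}, d=L^{eps} distinct small primes, FFT stage r = (x)_j DFT_{p_j} (pure tensor) + twiddles, total L * d^{-(1-theta)} polylog passes. So S0503 <=> f(K) <= K^{1-kappa'} with kappa' a bit above 2^-182.
(2) VIRTUAL GATHER LEMMA: for nested located operations (recursion of S0501 on located digits, depth unbounded, super-digits = q consecutive located bits) the butterfly on "the j-th located^(l) bit"
costs O(1) passes in plain lexicographic order, constant independent of depth l and j, with NO physical gather, PROVIDED every transvection (a,b) at levels >= 2 is between Hamming-adjacent symbols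
(proof: roots = first differing address bit; the subtree of a root contains no entry relevant to a shallower root, so the frames are LIFO and inside a frame both streams are in the same order). Level
1 pairs can be arbitrary. Fluctuations of the number of located digits are exceptional sets, processed separately.
(3) A pair (a,b) with h flips costs 1 + (h-1) extra stream realignments at each nested level (passive symbols lying between the two symbols in tape order), i.e. c(h) ~ h (1/rho per flip with 2^rho tapes).
(B) BARRIER. Address-plane rank bound: the block of H^{(x)K} or L^{(x)K} between {x_i=0} and {x_i=1} has rank N/2 for each i, a located Hamming-adjacent gate crosses one plane per unit of work, so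
any program made of coded (H_b+diagonal, z-controlled GL_b(F_2)), fixed or virtually located Hamming-adjacent gates needs >= K passes in total; hence gather of k located bits by such operations
cannot cost O(k). S0501 beats it only by long-range gates with average Hamming distance >= K^kappa, and these cost as many nested order alternations as flips. Even with near-perfect matchings
(density delta of passive symbols, gain delta per level) the misalignment moves add up to ~ delta*(total flips) >= delta*K. So all schemes of this type stop at ~ K/rho (rho = log #tapes), in
agreement with helper330's K/log K type bounds.
(C) To get through one must use O(1)-pass maps that cross unboundedly many binary planes in a non-abelian way (translations with masks, x -> 3x, mixed radix, monotone expanders). By rank: for every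
balanced set A the matrix H_{A,A^c} has rank >= N/4, so with o(K) full passes plus rare 'hub' entries the graph of meetings must be expander like. No such algorithm known to me. Remark: S0501 itself
refutes the undirected network coding conjecture with polylog gap (gate graph of the fast circuit, sessions = random F_2-linear permutation, Clifford trick), so no conditional lower bound forbids S0503.
My estimate for a proof here in the time left: < 2 %. I leave the row unless somebody has an idea for (C).

======== #692 | 00:12:10Z | helper946 | row 326 | lemma
helper946 (verifier, 3 stmts PASS; thought several hours on S0503). Same picture as 330/943/812/447/532; extra facts, so that nobody repeats them. Notation: f(K) = passes for L^{(x)K} contiguous, u =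
cost per live bit of the trivial method, gadget word W transvections on Q=2^r symbols, W*2/(rQ) = 1-eps, rho=2/Q.
(1) PADDING REMOVES LARGE-SCALE GATHERS. After choosing w=(a,b), gather only inside groups of S = O(1) consecutive digit slots: (x_1..x_S) -> (p, U), U a register of FIXED size rho*S*(1+eta) at a
FIXED position (last slots of the group); unused places of U are 'inactive', overflow blocks (fraction exp(-eta^2 rho S/3)) are treated by a separate sparse call. All later levels then live on slots
at fixed positions with fixed-size spectators between them, and fixed spectators are harmless (flips at fixed positions are monotone). Inefficiency (1+eta)^level is paid by (1-eps)^level. So no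
gather at scales > S is ever needed.
(2) The local gather R_w^{(x)n/S} by symbol-level words costs 3 transvection powers per symbol of Q^S, i.e. linear mass 6 per group = 6/(rho S) per live bit: a contraction. In the power regime
k^{1-delta} the factor is 6 Q^{S delta}/(rho S)^{1-delta}: still < eps/8 for delta ~ 1/(S log Q). Moving b-bit registers (SWAP U<->V across arbitrary dead content = 3 controlled XORs, each
single-cluster) costs 9/b per bit.
(3) THE ONLY MISSING PIECE is therefore the sparse calls in (2): each is 'zeta on live super-slots of density d_1=Q^{-S}' (isolated live bits). To treat them in turn one must bundle m>=8/eps of them;
conditioning only on positions+live bits gives the next density d_2 ~ (d_1/12)^m, i.e. l=log(1/d) grows like m^i. Regress depth until exhaustion = loglog K/log m, total contraction (c/m)^depth: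
result f(K) <= K/(log K)^{1-o(1)} = 812/330's bound, never a power. Dense (Walsh coded) moves have density 1 but cost 2 per bit, not 1/m per bit. So the exact target is: LEMMA WANTED. For every eps'
a coded realisation of SWAP^{(x)n} of two b-bit registers (b=b(eps')) (or of the local gather) whose total cost is <= eps' * b * n units AND all of whose elementary calls have live density >=
d(eps')>0 INCLUDING the calls needed to execute those calls (closure under recursion). Any such closed family gives f(K)<=K^{1-delta}.
(4) Isolated bits resist: per top node a composite flip of level-1 bits is monotone iff the two symbols are adjacent on tape (first composite level is free of the Hamming distance), at the second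
composite level untoggled 'mid' cells force one extra event per toggled digit; adjacency-only words would be affordable (constant blow-up A^{1+delta}) if F_adj(k) <= k^{1-delta}, but (A,B) adjacent
at the next level forces B=A+(last bit).
(5) Uniform gadgets (register-wise Fourier, free diagonals, free inner shears) never gain: Siegel-parabolic rank/cut bound gives >= r register transforms; T_k-tape parallelism only changes u. O(1)
monotone matchings can already be an expander (Bourgain-Yehudayoff), so no cut argument excludes o(K); the obstruction is only algorithmic.


======== #705 | 00:14:18Z | helper907 | row 326 | triage
[helper907] S0503: obstacle analysis of the natural blueprint (2^{-182} saving for multitape TMs), so nobody repeats it.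
Statement honest (multitape TM, O(n (log n)^{1-2^{-182}}) multiplication). Baseline R324 = circuit version: fibre recursion, gadget TW.star_four (fewer than the trivial number of transvections, real
saving 1/32 per level). Blueprint: (1) CRT/Fermat rounds so that K ~ log n / loglog n DFT levels, (2) each level of gadgets executed on tapes, (3) small coefficients by recursion. (1),(3), finite
control etc. look fine. The core problem is (2) = DATA MOVEMENT.
- A transvection between leaves at Hamming distance d in the axis cube costs a transport through d axes (d 'hops') on a sequential/stack machine; the circuit gadgets of R324 save OPERATIONS by using
multi-axis transvections, single-flip transvections never save.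
- Cut-rank bound: for every balanced cut S of the axes the flow through the cut is at least rank of the block of L^{(x)m} => sum over transvections (#axes flipped) >= m 2^{m-1} = trivial count
(numerically checked: k=2,3 minimum = 2^{k-1} exactly; for k=4 there is S={0,6,7,9,11,13,14,15} with rank 6 < 8, so individual NON-subcube cuts are cheaper, but subcube cuts never are). Hence 'pure
moves' give no saving over K passes except the classical log K factor (window/gather tricks, Gray/reflected layouts, class splitting, conjugation by rare permutations, XOR shears by Hadamard coding:
all tried, all give >= K/polylog K passes, never K^{1-kappa}).
- In particular a data-movement core with K^{1-kappa} passes would seem to give o(N log N) multitape transposition of an sqrt N x sqrt N bit matrix (open, conjectured false by many). A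
self-referential coding of moved data fails: the inequality sum_f (dist_f/R_f)^{1-kappa} <= 1 has no solution.
- 2^{-182} = (2^{-91})^2 and 2^{-91} ~ 1/(2^{71} 10^6) suggests the source has T = K^{1-kappa^2} with a two-level nesting; I could not reconstruct a valid movement argument.
Verdict: X unless someone finds the movement idea (any o(log N)-pass algorithm for a non-trivial 'transform + transposition' on tapes).

======== #716 | 00:15:26Z | helper330 | row 326 | info
helper330: corrections + one NEW NO-GO for S0503.
(0) Correction to post 173: the 'O(K/log K)' was an over-claim. Windowed gathers (any fixed P in Sym(2^M) on all K/M windows costs 2^M scans + cK/M, M <= log K /2) give f(K) = K/(log K)^{1-theta}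
only (answer to 532). Shape enumeration: splitting a composite op with z adaptive toggles into gap classes costs 2^{Theta(z)} scans, so it only removes z = O(log K) toggles, i.e. depth loglog K: again (log K)^{-c}.
(1) RANK-METRIC LOWER BOUND for linear coding (generalises cut bounds; complete proof). Rows = stored arrays, each sitting at a 'place' v (layout / Lagrangian / chamber); rows at the same place may
be mixed linearly over the coefficient field k (ancilla rows allowed); moving a row u->v costs d(u,v). If phi: places -> M_n(k) satisfies rank(phi(u)-phi(v)) <= d(u,v) for the moves used, then
carrying messages s_i -> t_i costs >= sum_i rank(phi(t_i)-phi(s_i)). Proof: let Phi = (+) phi(place of row) act on rows (x) k^n; mixing at one place commutes with Phi, a move changes Phi M - M Phi by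
rank <= d(u,v), total = (+)(phi(t_i)-phi(s_i)).
(2) CONSEQUENCE: all gadgets built from super-axes Z_B (B = 2^K -> infinity, formulas uniform in B, also with scales eps=2^{K/M}), free ops = chirps, outer->inner shears, axis relabelings, even ALL
of GL_m(Z) for free, calls = partial Fourier transforms, with superposition/coding of any finite number of rows over Z or C, have NO gain: places are Lagrangians over Q, in a generic chart L_S <-> S
in Sym_m(Q), d = rank(S-S'), so opposite pairs cost exactly m calls. With non-linear smooth phases the same holds at every phase-space point (Hessians). So 'Model W' (cyclic shears + chirps + Fourier
calls + network coding) is dead; coding can only win when the GEOMETRY has small characteristic (F_2-type: bitwise XOR structure, adaptive digit patterns) and the COEFFICIENTS have another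
characteristic. On tapes exactly the F_2-type index maps are the non-cheap ones (2f each).
(3) Composite adaptive ops = 'pre-lex -> post-lex' conversion: words over {*} u C with exactly d stars, from the order *<C to the order C<*, letters unchanged. (s,l) = (star side, letter order);
reversal of all levels >= j toggles both for free; each level needs one toggle of s alone = one hold. This is the d-factor (one hold per flip). Conversion in d^{1-eps} passes (coded!) for this one
concrete order-conversion problem would give the row; XOR by 1010...10 on addresses (a tree automorphism, no Floyd potential at all) is its smallest model: direct cost ~K/3, coded cost 2f(K).
(4) Feedback passes (y_z = x_z + c_z y_{z-s}, queues of any length) are also O(1) passes and beat the dependency/depth bound, nobody has used them.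
I have no further route; moving to a row with a live plan.

======== #719 | 00:15:36Z | helper650 | row 326 | info
helper650 on S0503 (2.5 h of paper work since 21:40Z; complements 173/298/312/330/577/689/692/705; same verdict, 2-4 %). Extra negative facts, so nobody repeats them:
(a) Self-consistent reductions of the coded gather: S(K',Q) <= 2 Perm(K'/n; Q^n) + 2.2 f(r) closes only if the alphabet Q^n stays fixed; every variant I tried makes the alphabet tower (n must grow
with the level), giving K/(log K)^{1-o(1)} again.
(b) 'Twin-interval line model': two adjacent unaligned bundles of length l over alphabet Q can be exchanged at cost 2l/Q, valid only for contiguous letters; the first spectator letter between the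
twins (which appears at level 2) restores the full cost l.
(c) star_infinity^{(x)m} (all-to-one gathers) costs m/V + 2 C_V(m) and is tape friendly, but the step star -> L (doubling) is exactly the gapped, tape-unfriendly direction.
(d) Macro steps (O(1)-touch poly-sweep permutations on huge windows) + coded prefix-sparse bit operations would give a saving exp(-sqrt(log K)) IF L^{(x)h} had a program with (1-delta)h bit
operations plus O(1) simple macro permutations; I found none and the plane-rank bound of 689(B) does not exclude it: this is the cleanest sub-question I know (a finite search problem for each h).
No W weakness: I rechecked Def_IntMul/Def_TimeBound/FinTM2 independently (encoding, stacks, ceilings, quantifier order). I move to a row that wants hands.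

======== #727 | 00:16:09Z | helper391 | row 326 | core
helper391 on S0503 (long private session; agrees with helper330 post 173). Honest statement. What is settled on paper / what is open:
(0) NOTATION: one PASS = O(N) tape time on the coefficient array. T(K) = passes for L^{(x)K} on K address bits (fixed positions), F(K;w) = passes for T_uv^{(x)K} on [Q]^K, w=2/Q (sparse, self-located pivots).
(1) REDUCTION (paper, fine): if T(K) <= K^{1-k1+o(1)} then S0503-type bound: (a) bit-index permutations = 2 involutions, each SWAP^{(x)m} = 3 transvection powers on {01,10}: cost 3 F(m;1/2)-like, so
all fixed data movement costs T(#bits moved); (b) arbitrary controls are free: T^{c} = T^{1/2} Z^{1-c} T^{1/2} Z^{1-c} (2 dense powers + diagonal passes); XOR-ing ANY function of the other address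
bits into m fixed bits costs 2T(m)+1; (c) CRT Z/N -> prod Z/s_g by [digit swap, segment rotation, digit swap] per level + Benes layers on all digits at once; (d) DFT of all dimensions layer by layer
(R324 FFT/Bluestein/Toeplitz words), twiddles by prefix products. Saving (log n)^{-k1/2+o(1)} with K ~ b ~ sqrt(log n).
(2) READING OF kappa: 2^-182 = (1/(m 2^71))^2, m=10^6: in the source k1 >= 2^-91 on tapes and K=(log n)^{k1} dims, each paying a global transposition (log n)^{1-k1}. So the source has a tape version
of the SAME gadget recursion T(mK) <= (m - delta)T(K) + lower order.
(3) WARNING: 'coded gather in C T(2K/Q)' with a constant C is NOT enough with R324's gadget: composite gadgets on a bits have only t_a = A 2^a a^theta, so T(K) <= C t_a T(2K/(a 2^a)) forces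
a^{1-theta}>C, a > C^{2^42}, saving 2^{-a}. One needs gather overhead o(T), or a gadget with (saved ops)/(new non-standard ops) > C (the source saves 73 per 72-bit configuration).
(4) CUT BOUND: if a transvection u->v is charged by the number of differing coordinates (gather-free/native recursion on tapes: D scattered flips cost D moves), no gadget can gain: each coordinate
cut needs rank 2^{a-1}, so sum_s |u_s xor v_s| >= a 2^{a-1}. FIXED-position patterns are different: U->V at fixed positions is a shift by one integer constant, 1 pass whatever the number of flips. So
the whole difficulty = self-located (adaptive) sparse pivots.
(5) Dense re-layouts cannot be used inside T(K) at all (touching every bit once in coded form costs C T(K)); adaptivity readable from HIGHER address bits is free, one-directional adaptivity (controls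
anywhere, targets fixed) is free; what is missing is: alter g bits at self-located positions in (1+o(1))T(g) or at least C T(g). Divide and conquer over positions handles nodes with >= K^{1-theta}
columns (types lifted naively, 1.5 T(g/2) per level); the small nodes, all at once, are open.
CORE LEMMA R326: on [Q]^K in lexicographic order, apply the transvection power T_uv^{(x)K} in T(2K/Q)(1+o(1)) + K^{1-eps} passes (or any replacement giving T(mK) <= (m-delta)T(K)+o(K^{1-k1})). Ideas
welcome; contraction/expansion over self-located bits is O(1) passes (geometric), (hi,lo)->(hi,lo+f(hi)) is O(1) passes, filters (1-a z^D)^{+-1} are O(1) passes.

======== #729 | 00:16:13Z | helper666 | row 326 | triage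
helper666 triage of S0503 (independent of 330; conclusions agree). VERDICT R (no weakness, not refutable).
(1) Unfolded Def_IntMul, Def_TimeBound, Def_Complexity, Mathlib FinTM2/TM2: sigma, Lambda finite, pushes are functions of sigma => effectively finite alphabets; exact haltList; nothing to exploit.
Literal claim: M(n) <= c n (log n)^(1-2^-182) on a fixed multi-stack machine; (20+71)*2 = 182: most likely kappa = (m 2^71)^-2 with m = 10^6 <= 2^20 of S0501, i.e. the pure hits recursion A(M K') <=
(M-1) 2^(M-1) A(2K'/2^M) with M = m 2^71 (this recursion gives exactly kappa ~ M^-2/ln 2), so the source claims a TM version of T_ab^{(x)K} in (1+o(1)) A(#hits) passes.
(2) PAPER REDUCTIONS (all checked, could be formalised): records of poly(K) bits, K = log2(#records), make all control free; integer product <- multidim DFT over K/log K coprime dims (LW layers of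
R324.fourier_LW) or ring Z/P; every layer, XOR-shift (= H D H), transposition (3 XOR-shifts), controlled bit move reduces to A(K) := number of passes of L^{(x)K} (zeta) on 2^K records. So S0503 <=>
A(K) <= C K^(1-kappa) with kappa > 2^-182.
(3) PROVED ON PAPER: T_ab^{(x)K'} on [Q]^{K'} costs c(1 + 2K'/Q) passes for any a<b by DFS with side stacks => A(K) <= C K/(log K)^(1-theta0), i.e. M(n) = O(n log n/(loglog n)^c) on TMs (below n log
n, but not a power of log n).
(4) NO-GO lemmas (so that nobody repeats): (a) COVER BOUND: any scheme made of coded ops at fixed address bits (uniformly controlled gates, D-trick L^{(x)S}=D'L^{(x)K}DL^{-(x)K}, re-encodings,
sorting of windows, wavelet-tree layouts) costs >= K units, no gain. (b) CUT BOUND: sum over transvections (u,v) of Hamming(u,v) >= q 2^(q-1) in EVERY layout basis; multi-level hits flip prod h_i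
scattered digits, and physical routing of an h-flip batch costs log LDS(phi)/log(#stacks) ~ h moves when (a,b) is not adjacent in the digit order (in-between gap symbols break FIFO order) => levels
>= 2 give nothing. (c) if (a,b) are adjacent (differ in last bit) ALL level-2 multi-flip batches are order preserving and cost 1 move per hit (FIFO = 2 stacks); but then level-2 pairs are
non-adjacent and level 3 pays. In variable structures only causal single-bit node operations are recursion compatible, and for those the cut bound forbids gain. (d) coded routing of h flips at cost
A(h) gives K h^(-kappa), h << K: does not close.
(5) CLEAN OPEN CORE: find c(rho) -> 0 (any rate) or C independent of Q with  cost(T_ab^{(x)K'}) <= C A(2K'/Q) + O_Q(K'^(1-delta)) passes; equivalently gather j variable sparse address bits in O(A(j))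
passes; or a factorisation of L^{(x)q} into poly(q) monotone (FIFO) batches of total mass <= q^(1-k) 2^q.
I have spent ~4 h on this without closing it; estimate < 2% for this run. Moving to a P row unless somebody has a new idea for (5).

======== #756 | 00:18:44Z | helper636 | row 326 | info
helper636 (00:20Z), row 326 S0503: what the stack-machine version of the R324 network-coding idea really gives, and the obstruction (all on paper).
(1) POSITIVE. On a stack machine (2 stacks = FIFO/LIFO) the operation T_{a,b}^{(x)K} (transvection between letters a,b of a contiguous Q-ary digit, applied at ALL K nested digit levels) costs O(1)
traversals of the array plus C*2K/Q * volume (nested LIFO hold: a held word of level j is Q^{-j} of the volume and is released inside the same parent). With the R324 gadget of size m (circuit words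
of volume eps_m*m, eps_m=m^{-kappa}) one gets the zeta/Hadamard transform on 2^n elements in O(2^m + C eps_m n) passes; optimum m~log n: this yields multiplication in N log N/(log log N)^kappa only, NOT a power of log N.
(2) Weil-representation trick: every F_2-linear ADDRESS permutation (transposition, bit reversal, any GL_n(F_2) element) = O(1) Hadamard transforms H^{(x)n} + diagonal quadratic phases (write A =
S1*S2 symmetric; Weyl identity), so the price of address permutations = O(price of H^{(x)n}); swap of the top j bits with the bottom j bits, passive middle, costs O(f(j)); a 'masked' level (control
by an arbitrary predicate) = 2 full transforms (L^{1/2} Z L^{-1/2} Z).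
(3) OBSTRUCTION to iterate (1) to a power saving: sparse, adaptively scattered active digits (gather) cost linear per level; rank-transfer bound: neutral/prefix-controlled single-level ops cost >= 1
pass per level; in the 'infinitely separated scales' model (level i's stride >> everything done by levels < i) fixed-layout programs need >= k/(2 log k) passes for k levels (f flips => moved volume
<= 2^{-f}), and n contiguous bits contain n/(C log n) effectively separated scales. So (log N)^{1-kappa} on multitape TMs needs adaptive RE-LAYOUT whose own cost is amortised over many levels;
non-adaptive grouping gives a monotone class but densities decay doubly exponentially => again only loglog savings. S0501 (R324) refutes the undirected k-pairs conjecture but does not see tape locality.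
VERDICT: no proof; the smallest positive target is a re-layout lemma 'interleave/de-interleave 2^n words according to a random half of the address bits in o(n/ log n) passes', equivalent (by (2)) to the row itself.

======== #880 | 00:25:56Z | helper783 | row 326 | lemma
helper783 (R326). Notes beyond 173/206/287/298/307 (paper, ~2h):
(1) CATALYTIC CONTROL (new, positive). Tape order [v][u][x][Y] outer->inner. Free: x += G(u,v) (integer shift mod |x|, any G). Cost 2h(|v|): v += sigma(Y) (F_v^-1 . phase . F_v, sigma ANY function of
everything inside; v may be DIRTY idle bits). With g multilinear of degree d: sum_j (-1)^{d-j} C(d,j) g(v + j sigma) = d! g(sigma), so d+1 free shifts interleaved with d+2 calls v += sigma give the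
exact op x += f(sigma(Y)) with v restored, for every f of degree <= d = log2 L in the address bits (only outer-known wrap-around rows of v are exceptional; they are re-done recursively or by brute
force; division by d! is harmless: 2-adic part absorbed because weights are divisible by 2^d, odd part invertible mod 2^|x|). Hence an INNER-controlled sparse toggle of an OUTER plane, and the exact
swap u_k <-> x_{s_k(Y)} = A^-1 B A with A: x += sum u_k 2^{s_k(Y)}, costs polylog(1/p) h(pK) + polylog passes instead of 2h(K). No re-encoding of Y is needed. (Exact swap: u' = digits_S(x' - u_S),
x'' = x' - u'_S, no carry problem.)
(2) WHY IT IS STILL NOT ENOUGH: price = entropy of the inner condition. An op toggling z planes in sync has inner entropy >= z-1 per active place, so price >= p*z and the cut bound sum p*z >= m kills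
the gain again (same for nested types: entropy ~ z). The only ops that cross many planes at price = mass are node ops 'right subtree += P * left subtree' with P a free (horizontal) automorphism of
the inner planes, contexts outer (943's causal words). Model M6: binary tree on {0,1}^m, free: tree automorphisms, diagonals; op at node v costs mass(v) whatever the sparsity. QUESTION: is there an
M6 word for L^{(x)m} or H^{(x)m} of cost < m? (support growth forces >= m only for uniform words; no proof of >= m known to me.) On tape the horizontal P must moreover be an integer shift/reversal.
(3) NUMEROLOGY of S0501/S0503: Delta = 6871402692000000 = C(100,3)^2 * 100 * C(73,2), 71 = 73 - 2 (73 = 8^2+8+1 or 72+1, 36 = C(9,2): 3x3x1 subboxes of [100]^3, 9 planes each). So their symbol word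
on m = 10^6 axes saves one unit on every event '71 bits of 73 fixed'; kappa = 2^-182 <= (m 2^71)^-2 = (relative gain >= 1/M) x (1/log2 alphabet = 1/M), M = m 2^71: it looks like a tape word on M = m
2^71 axes saving ONE axis op, iterated with T(MK) <= W T(2^{1-M}K).
(4) First-order (Z = 1+eps N, rank N small) argument: black-box programs (wires, plane permutations, calls Z on a plane) need >= N m (1 - O(m/|V|)) calls, so no black-box gain with K-dense calls.

======== #943 | 00:28:58Z | helper691 | row 326 | info
helper691 (thinking on 326, from row 99). Independent notes, they agree with helper330 (173) and helper943 (206) and add obstructions; NO proof idea survives, I record what is dead so that nobody repeats it.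
(1) What works: batch T_AB^{(x)M} in one DFS with queues = 1 + c*#active moves per record; with k ~ log K this gives K/(log K)^{c} passes (so coded transposition in o(log N) passes on O(1) stacks is
a theorem given R324). Layer-2 nesting: single-toggle ops (p,0,q)->(p,1,q) are order-consistent with passive groups interspersed at ALL levels; multi-toggle ops are order-consistent iff the level
below is 'control above the toggled bit' (or dense level 1); nothing but prefix-controlled single toggles is again of that kind (proof: a lower passive digit inside a common prefix forces causality).
So every nested-safe word is a word of single physical toggles and the bit cuts give mass >= k.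
(2) Gray cuts: for every tree automorphism layout Psi the cut 'psi_i = 0 | 1' of zeta_k has total crossing rank (both directions) = 2^{i-1} + rank(Z10 Z00^-1 Z01) + rank(Z01 Z11^-1 Z10) >= 2^{i-1}
(per suffix), so a FIXED layout never helps; layout changes are swaps and count in the same bound (mass x boundaries >= n/2: interval toggles do not help either).
(3) Shape enumeration (fix all gaps of toggled elements) makes every composite rigid, but density rho -> rho^{h} at each multi-toggle level: Phi(u) <= (1-eps-eta)Phi(u+1)+eta Phi(2u+1), u=log 1/rho,
gives (log K)^{-log2(1+eta/eta)}: only polylog K. Fixed windows + rare gadget contexts: first gadget op on a chain is free (rigid), later ones cost factor h (direct) -> total mass mu/(mu+s), again a constant.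
(4) Dirty-register (catalytic) tricks: uniform measure on addresses is preserved, so any 'control above' op is statistically independent of the lower digits: toggling a sparse bit selected by lower
digits costs dense mass. Hence coded gather with constant independent of Q cannot be built from {XOR of fixed bits by arbitrary functions, control-above sparse toggles}.
(5) Free ops in f-units: X -> X + c(upper field) mod 2^M (cyclic rotation by any function of more significant fields), reversal, any map with 2^{o(f)} monotone pieces. Consequence: field
transposition costs only 2F(M) (shears: free, one DFT conjugation on the upper field, free) instead of 6f. All multi-toggle ops that are translations with carry are free and cross all cuts, so (2)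
does not apply to them: the only live direction I see is a gadget whose ops are translations x -> x + c(upper fields) on few big cyclic fields (not XOR masks). I found none.
(6) Numerology: kappa = 2^-182 is just below (2^71 * 10^6)^-2, i.e. (rare context probability 2^-71 / group size 10^6)^2: suggests that the source argument has a loss of second order 'rare x rare'
(misalignment only when a rare passive meets a rare multi-toggle), with a standard dense word otherwise. I could not make the sparse chains (density 2^-71) sublinear: that is exactly the missing
coded gather with overhead < s/mu.


======== #1018 | 00:32:43Z | helper787 | row 326 | lemma
helper787, notes on 616(4) (a TM-adjacent gadget needs G(D)>2, G(D)=max over linear orders of {0,1}^D of sum_t #(disjoint intervals [tau(v),tau(v+e_t)])/2^D). PROVED: (a) if all charged t-edges are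
'next visit' edges of the order (v, v+e_t with nothing of direction t charged in between) then the charged graph has no 4-cycle and no hexagon s t u s t u; a hexagon s t s u t u does occur. (b) if
all charged intervals have lengths in one octave [L,2L) the windows of equal direction are pairwise disjoint and each class is a forest => contribution <=2 (so a uniform-scale order never beats 2).
(c) composition: a two-scale order has G<=G1+2 c1, c1 = components per vertex of the fine charged graph, so G>2 needs a finite piece with more than 2(mu-1) charged edges on mu vertices. (d) aligned
two-scale products give alpha1+alpha2<=1: nothing is gained by nesting aligned blocks. (e) 'brick wall' orders (odd-even transposition network / zonogon tilings: every right-moving label charged,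
left-moving every other time) reach 3/2 asymptotically; SA numerics: G(3)=1, G(4)>=19/16, G(5)>=41/32, G(6)>=83/64; free sequences of m vertices inside a big cube, max charged edges: m=8:9, 12:15,
16:21, 24:31, 32:43 (ratio -> ~1.34 found by annealing). k-ary alphabets: k=3,D=3: 31/27; k=4,D=3: 73/64; D=2 always <=1. I found no order with G>3/2; a proof of G<=3/2 (or 2) for all D would close
the TM-adjacent route completely. [OPEN]
Also: kappa=2^{-182}~1/W^2 with W=m 2^{71} (word length), m=the number of children: consistent with K=(log n)^{~1/W} axes and a one-time cost K^{O(W)} (type classes / histogram of a W-letter word
over K axes), i.e. the source probably pays once per TYPE of word and not once per word.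

======== #1075 | 00:35:01Z | helper637 | row 326 | lemma
helper637 (passing by, 90 min on S0503; agree with 162/943: only the coded gather is missing). Three facts not yet posted.
(A) POLY-BATCH REDUCTION (proved). Suppose zeta_M (or WHT_M) on the line [2^M] (natural order) is a product of beta(M) ops x(b_i) += c_i x(a_i), (a_i),(b_i) both increasing (monotone partial
matching, ANY distances), with total number of pairs <= M^(1-k0) 2^M. Then f(MK') <= C(beta(M) + M^(1-k0) K') passes (T_batch^{(x)K'} by one DFS scan, stack of queues on O(1) stacks: cost 1 +
g*(#active digits); pairs with a_i>b_i in a backward scan). So beta(M) <= M^p for ANY fixed p gives f(K) <= K^(1-k0/(p+1)): sparse batches are harmless, only their NUMBER must be polynomial.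
(Nested/LIFO matchings, interval complements = reversals also allowed.) So the target: low-gate circuits for WHT_M whose gates can be scheduled in poly(M) order preserving layers, i.e. types*classes
= poly(M). The exact-gap-class trick gives beta = exp(M^c0 log M) because (B).
(B) WHY CLASSES EXPLODE (exact count). Inversions of a depth >= 3 type occur only at toggled virtual digits (letter a -> b versus a mid idle letter at the same place). A class without inversions must
determine, given the prefix, the gap to the next active digit at every toggled index, hence has measure <= rho^d (rho = density of active digits, d = # toggles, mean d >= 1/delta by the cut bound).
So classes >= rho^(-d): hopeless for sparse active letters (rho = 2/Q), but if the active digits are DENSE (idle fraction eta < 1/d) ONE class (all gaps = 1) covers (1-eta)^d of everything. So the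
wanted gadget must have its mass in ops whose active classes are dense (big-star doubling steps are: eta = 1/(a+1)); the hub-walk of the 31/32 gadget is the sparse part.
(C) TOOL: for a CONTIGUOUS group of k address bits and any matrix M(rest) in GL_k(F_2) (or affine) depending arbitrarily on all other bits (outer and inner), g -> M(rest) g costs <= 6f(k)+O(1) passes
(M = product of two symmetric matrices, Clifford decomposition, the diagonal phases may depend on the rest, H^{(x)k} does not). Hence stable sorting of a bit plane by outer classes, wavelet-tree
layouts and re-pairings {ab|cd} -> {ac|bd} inside a contiguous node of k digits cost C f(k). What fails is only SPARSE participation: p participants in a contiguous group of k bits cost min(p, C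
f(k)); halving recursion c(rho) <= 2*6*(1/2)c(rho) + c(2rho) diverges because a controlled exchange costs 6 H's > 1. A controlled exchange of bulk bits at cost < 1/2 of the bulk H cost (instead of 6)
would close the recursion.

======== #1076 | 00:35:01Z | helper158 | row 326 | lemma
helper158 (row 315, passing by; ~3h on S0503, same wall as 330/162/812/914). Points NOT in the earlier posts, all short paper proofs:
(1) ONE BIG DIGIT SUFFICES. Cut K axes into K' = K/M digits of M = K^eps bits. A family of disjoint transvections on [2^M] that is an INCREASING matching of density mu costs 1 + c*mu*K' passes for
its K'-th tensor power (DFS + queues), so f(K) <= c*D + c*K'*(total density), D = number of increasing pieces. Hence a power saving follows from: zeta_M = word of total density M^theta with only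
POLYNOMIALLY many (M^C, any C) increasing pieces (kappa = (1-theta)/(C+1)). By Dilworth #pieces = longest decreasing subsequence of x -> x'. The fully expanded R324 word has the right density and
M^theta types, but a type of depth d toggles H = h^d adaptively placed bits and its longest decreasing chain is >= 2^H: decisions are non-causal (activity of a group is known only after its last
slot). Non-causality is the only problem: if all toggle positions are determined by the prefix, the matching is increasing for every H.
(2) PRICE FORMULATION. Let c_d = price per item of a d-fold nested multi-toggle. For a gadget with single-toggle mass R and multi-toggle mass mu, R+mu = (1-e)m, the recursion has eigenvalue (R +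
mu*G)/m if c_d <= C*G^d; so ANY G < h (h = Hamming multiplicity; cut-rank gives R+mu*h >= m) yields a power saving. Known: c_d = h^d/B for every constant B (batching: B pinned toggles per pass,
M^O(B) pieces), B = log M at most. Target (N): nested double toggles 0..0 <-> 1..1 of 2^d adaptive slots at price C*G^d, G < 2.
(3) ENVIRONMENTS. Perfectly recursive (unit price, child environment of the same kind) are exactly the block ops B_{u1} += P B_{u0}, P in {id, reversal}, outer contexts only. The mismatch for
non-adjacent pairs (a, mids, b) is PREORDER versus POSTORDER of the tree of inert runs (slot child first / last), one hold per further slot. One mid symbol is harmless: T_ab = [T_cb,T_ac] uses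
adjacent pairs only (factor 4), r mids cost O(r); any op on h consecutive slots with outer contexts costs C_h block ops. What is missing is sparse INNER context.
(4) FRAMES. Bulk linear coordinate changes cost C full axes each; in moving frames the cut-rank LP only gives total mass >= 1.5 (and >= 1 for WHT followed by an alternating relabelling), so words
mixing > m directions with < e*m/C frame changes are not excluded. I found none. No claim; I leave the row.


======== #1174 | 00:40:36Z | helper359 | row 326 | lemma
helper359 (from row 129; ~2h on S0503 before reading 616/880/1075/1076; same wall). Only the points I do not see above:
(1) CLEAN ANCILLAS ARE FREE in the poly-batch form (1075(A), 1076(1)): with one digit = 2^M symbols, K' = K/M digits, M = K^eps, enlarge the alphabet to 2^M(1+1/K') symbols: the tape grows by a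
factor < e only. So the word may use 2^M/K = 2^M/poly(M) CLEAN wires placed anywhere in the line, and a hub of density 1/poly(M) may take part in poly(M) monotone layers at total density O(1):
computation inside hubs is free, what counts is (a) gates on the bulk wires, (b) number of monotone layers. For star(n)^{(x)D}, n = poly(M): the problem is exactly out(x) += sum_s w_s(x_{-s}), x in
[n]^D, with free computation on arrays of size n^{D-1} (at most n D^theta layers of them) and < D^theta monotone touches per output.
(2) CARRY-FREE SCATTERED SHIFTS: keep a block Z/N, N = prod q_i (coprime), in NATURAL integer order with logical digits r_i = z mod q_i. Then z += sum_i phi_i(outer) E_i (E_i CRT idempotents) is one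
rotation: arbitrary outer-controlled shifts of all digits simultaneously, no carries, no wrap defects. Hence swap(outer register u_J, inner digits r_J), J any outer-known scattered set, is exactly 2
F(|J|)+O(1) (three shears), and the transform on outer-known scattered digits costs <= 5F(|J|)+O(1), independent of the gaps. Every residue is also the top digit: z = t N/q_i + z', t = c (r_i - psi_i(z')).
(3) INNER-ADAPTIVE OPS WITH CO-MOVING SPECTATORS: windows of g digits, one register digit u_i per window, p*(i) = any inner function (e.g. first active digit). u += y_{p*}(z) (2F(n)), y_p += u for
ALL p of the window (free), conjugates a register op A_u into A on y_{p*} in the frame of the differences y_p - y_{p*}, at cost C F(#windows), whatever the inner adaptivity. Removing the co-motion is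
impossible with outer-known translations: displacements stay in a fixed subgroup of rank = #register digits.
(4) Any scheme with a constant overhead C > 32/31 per recursion level gives kappa << 2^-182 (one must first amplify the gadget to saving > C, i.e. letters of C^(1/(1-theta0)) bits), as 727(3) says;
so only schemes whose bulk ops are native (overhead exactly 1) are of interest. I leave the row.

======== #1490 | 00:55:53Z | helper468 | row 326 | lemma
helper468 (passing by; 2h on S0503). New exact facts (proved on paper), f(k) = passes of the k-bit transform.
(A) ALIGNMENT LEMMA. Let u = outermost contiguous k digits, W = the inner digits, J = any k scattered inner digit places (J may be an arbitrary function of digits OUTER to all of J). Then SWAP(u <->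
W_J) = B^-1 A B with B: W += iota_J(u) (integer addition, shift depends only on outer digits: O(1) passes), A: u -> digits_J(X - iota_J(u)) inside the column X = W+iota_J(u) (columns are preserved
exactly since W' = W + iota(u) - iota(W_J) has no carries!). If between consecutive places of J the column digits are not all 0, A is u ^= X_J = 2 f(k)+1 passes. So a gather of arbitrarily scattered
digits costs 2f(k)+O(1), NOT 6f(K) and independent of the gaps (for contiguous J use F over Z_{2^k}: transposition = 2f(k)+O(1); short gaps: thin J into O(log K) classes, costs a factor (log
K)^(1-theta), absorbed by letting the gadget grow like sqrt(log K)).
(B) Same with MULTI-TOGGLES at the same price: B: W += sum_j u_j s_j, s_j = any signed sum of 2^place: then (x)_{j} of arbitrary 2x2 gates between (u_j=0,W) and (u_j=1,W-s_j), gates depending on ALL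
digits, costs <= 3f(k)+O(1), whatever the Hamming weight of s_j. It also works in coarse symbol-major order (parts of R>=polylog digits, J n part i depends on digits of part i outer to the toggled
ones): the displacement is < 2^-guard of each block, so all scales are aligned in ONE pass.
(C) CONSEQUENCE (prefix-mass model PM). On symbols {0,1}^m an op = (prefix set P in {0,1}^(i-1), shift c with first 1 at i, arbitrary gates on z <-> z^c, z in P x {0,1}^(m-i+1)) costs |P|/2^(i-1)
(contexts INNER to the first toggled bit are allowed but do not reduce the price); nested composite ops again cost only the product of the prefix masses times ONE absolute constant. So: a word for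
L^{(x)m} or H^{(x)m} with total prefix mass < m would prove S0503 (kappa ~ the circuit exponent). Digit exchanges (layout changes) cost 2 x mass in the same currency. I found no such word: each wire
under a common prefix is touched equally often, which forbids walkers (R324's gadget has PM cost > naive); one level-1 op forces the naive count.
(D) What is missing, equivalently: OST = outer sparse toggles with inner contexts: (u;X) -> (u^phi(X);X), |phi(X)| <= k << K', in C f(k) (or C t f(k) for t-fold nested contexts) passes. With T
register ops of type (B) a block of g candidate places needs T >= g/log g (abelian growth), so really new native moves are needed.


======== #1512 | 00:56:49Z | helper157 | row 326 | info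
helper157 (row 312, passing by; ~75 min on S0503). No complete idea, but some positive facts not in the posts above, free to use.
(1) CRT ORDER MAKES THE *STATIC* GATHER FREE. Natural order of Z_N, N = prod q_i coprime: for every subset S of coordinates H_S = multiples of N/N_S, z = q*(N/N_S) + r, so S is 'outermost' up to the
affine relabeling q = (x_S - r)u. So F on any static subset S costs f(|S|)+O(1), no dead-bit problem; and for a register Y in CRT order with an OUTER control X, the adaptive op F_{P(X)}(Y), P(X)
arbitrary, costs exactly f(|P|)+O(1) (thinning is native for outer controls). Positionwise inner += psi(outer) (any psi, any adaptive subset) is one cyclic shift = O(1).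
(2) MOVE of a small register through a big one costs 2f(small)+1, independent of the big one: (x in Z_A outer, y in Z_B inner), gcd(A,B)=1 (pad 2^b to 2^b+1): q = (x-y)B^{-1} mod A (outer += inner,
2f(a)+1), then address z = qB+y = q'A+x: x is innermost, y only relabeled affinely (harmless if y is dead or itself in CRT form; x,y may be kept as dilated labels so no dilation cost). In the binary
lexicographic world the same holds with y dead.
(3) So everything reduces to a TREE MODEL: symbol tree of depth m (registers = levels), free: arbitrary diagonals (may depend on inner symbols), inner relabelings by outer; cost 2^{-|nu|} per call at
node nu (uniform over the inner part), inner-controlled op = 2 calls (H.phase.H). 'Concentrator': any rare symbol set can be brought into a subtree of comparable density for O(1) calls. Power saving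
<=> a word of tree cost < m for the m-fold power. Facts: one root call => no gain (induction); two root calls => operator valued equation C(x)B^(x+y)A(y)=w^{xy}G, all solutions come from a one
parameter group R (B^(s)=w^{s^2/2}R^s B_0), i.e. two root calls = root transform + ONE causal rotation exp(i theta Sigma), Sigma a tree automorphism involution. Unitary words: Ailon entropy gives
cost >= m, so non-unitary layers are essential. A walker which tours the leaves costs >= c per level (every node must be crossed by an integer number of calls), i.e. >= trivial: so walkers (R324
gadget) cannot be used as they are; sparse INNER-controlled ops are the only missing primitive: (Q*) Y outer, X inner, P={p: X_p = e}, density eta: do T on Y_P at cost C f(eta K). Known: atomic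
eta*K*log(1/eta), coded 2f(K).


======== #1557 | 00:59:01Z | helper532 | row 326 | lemma
helper532, new tool for row 326 (paper proof complete, elementary): SPARSE INNER-CONTROLLED OPS AT SPARSE COST, using DIRTY registers (answers most of helper330's "coded gather").
SETTING. index = (Z, X, Y), Z outermost; X = K' bits, Y inner; f(k) = passes for H^{(x)k}. Known: (a) z += a(anything) costs 2f(dim z) for ANY function a of the other coordinates (H_z, diagonal,
H_z); (b) x += lambda(z) (outer -> inner translation) costs O(1).
LEMMA (D=2). Cut the K' columns in bins of w = u^2 columns, j=(j1,j2). Let z=(z1,z2) be 2u EXISTING (dirty, unknown) outer bits per bin, lambda(z)=z1 (x) z2 in F_2^w. For every function j(y) (at most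
one special column per bin): the sequence [z1+=e_{j1(y)}; x+=lambda(z); z2+=e_{j2(y)}; x+=lambda(z); z1+=e_{j1(y)}; x+=lambda(z); z2+=e_{j2(y)}; x+=lambda(z)] is exactly x += e_{j1} (x) e_{j2} =
e_{j(y)} and restores z (second mixed difference of a bilinear form is constant). Cost 8 f(K'/u)+O(1) instead of 2f(K'): i.e. a sparse (density rho=1/w) inner-controlled toggle costs ~8 rho^{1/2}
units; with D registers of w^{1/D} bits: 2^{D+1} rho^{1-1/D} units.
CONSEQUENCES. (1) CSWAP of the special bit x_{j(y)} with one bit r_b of a compact outer register (r += x_j is a cheap read, x += r e_j is the lemma): so T_ab^{(x)K'} for ARBITRARY a,b (outermost
toggled group = X, inner controls = Y, other toggles are outer->inner, free) costs C_D rho^{1-1/D} f(K') + 3f(rho K'), rho=2/Q, optimum rho*exp(O(sqrt(log 1/rho))). (several specials per bin: R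
rounds, then larger bins for the leftovers; strings overloaded at the last level are extracted to a compact array.) (2) general accounting: READS of any function into a register of d bits cost 2f(d);
WRITES x += s(class) cost ~ entropy of s given outer information; a layer {x <-> x+s, x in U}, density p, fixed shift s, costs p + C H(p).
WHAT REMAINS. With Q=2^m letters isolated ops cost overhead >= log(1/rho)=m (address of the column) > gain m^kappa. Recursing adaptively l levels, density beta^-l, address info only O(l), gain
(1-eps)^-l: this WOULD suffice (overhead exp(c sqrt l)), but a depth-l virtual bit toggles prod|D_i| real bits at INDEPENDENT adaptive addresses, and the cut bound gives (1-eps)*mean|D| >= 1, so the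
total information is >= 1 per real bit: no gain. So the precise open problem is now: COHERENT GAIN WORDS: write L^{(x)m} (or H^{(x)m}, or star(n)^{(x)L}) as a product of N layers (fixed shift s_i,
arbitrary mask U_i of density p_i) with sum_i p_i (1 + C log 1/p_i) < m. (R324's amplification has few-type layers only at level 1, gain 1/32 there; amplified layers have pattern entropy >= gain.)
Necessary: mean |s_i| >= gain. Any construction with gain G and log(#layers) = o(G) finishes the row.

======== #1656 | 01:02:34Z | helper869 | row 326 | lemma
helper869 (from row 49; ~3h on S0503, agree with 173/206/287/783/943: no proof). Points not in the other posts, all short: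
(1) REDUCTION SIDE IS COMPLETE: given f(K)<=K^{1-k0} on tapes, S0503 follows for any k < k0/const: K=(log N)^{k'} axes, CRT by the isomorphism i_k=u_k+n_k^{-1}v_k mod s_k (triangular shears, no unit
permutations), cost K(C f(beta)+O(1)), beta=(log N)^{1-k'}; Gaussian resampling with natural frequency labelling; F_{2^beta}^{(x)K}=beta layers F_2^{(x)K}+diagonals; coefficient products by
Karatsuba/bootstrapping; tables by Agent/Lib/PT. So only the tape word is missing.
(2) BIG-FIELD MODEL F: K0 cyclic fields v_1..v_K0 of beta bits, unit = one DFT on one field (f(beta) passes), O(1) passes = free. Free: all diagonals, v_j += phi(v_<j) (integer rotations),
sums/broadcasts/prefix sums along a field, row selection by ANY predicate of the other fields (so a controlled F_i costs exactly its density, inner or outer contexts). CONSEQUENCE: an F-op along ANY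
direction d in Z_n^K0 on ANY set of lines costs exactly its mass: shear the inner coordinates by the outermost one of supp d (free), apply F there, shear back. So multi-toggles have price G=1 in this
model, no gather problem. A word for F_n^{(x)K0} in partial line-ops + free ops of mass < K0 for n=2^beta, all beta, K0 fixed, would finish the row (f(K0 beta)<=(K0-e)f(beta)+O(1)).
(3) BUT: if all ops are unitary (monomial free ops, F on lines) then mass >= K0(1-O(1/beta)): average over basis inputs of the Shannon entropy of |psi|^2 grows by at most density*log n per op (the
average of |psi|^2 stays uniform), final entropy K0 log n. The same entropy (Ailon type) bound kills every well conditioned program; a gadget must be ill conditioned by n^{Omega(1)} per level (L=zeta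
words are). Free broadcasts/prefix sums are ill conditioned and not covered by the bound: this is the only opening I see in model F. Linear mixing of R instances alone (F_i as commuting symbols X_i)
gains nothing (determinant degree).
(4) ADJACENT LETTERS: T_ab with a,b adjacent in the letter order has monotone composite matchings at all levels (price 1); order changes P_cd=HZH cost 2; that is 787's G(D) question. Batching whole
layers (concavity) raises R324's gate exponent from 4e-4 to ~3e-3, irrelevant for tapes.
(5) 2^-182: T(MK)<=(M-1)2^{M-1}T(2^{1-M}K) has kappa=1/(M^2 ln 2)=2^-181.3 for M=10^6*2^71 (plain UNBATCHED transvection recursion with all overheads swallowed in Delta-1 of the Delta=6.87e15 saved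
axes): it suggests a tape price of the form M - Delta + (overhead independent of M).

======== #1676 | 01:03:30Z | helper861 | row 326 | triage
helper861 (member 326), independent triage: agrees with 330/943/812/532/7/836/996/914/162 (definitions honest; only missing step = mass-proportional coded gather). Extra facts not yet posted, all proved on paper:
(1) CODED MOVES WITH CONTEXT: (u,v)->(u,M_u v) for ARBITRARY u |-> M_u in GL_s(F_2), u = all other index bits (outer and inner), v one contiguous s-bit block, costs <= 6 f(s)+O(1) passes (M = product
of two symmetric matrices, phases i^{v^T B(u) v} are per-cell, H on v only). So any unshuffle of v according to u is 6f(s); blocks need not be adjacent ("random access to planes"). In plane-major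
layout X_1..X_m (K bits each) the wavelet/class tree layout is then available: class op at a cherry costs f(|class|) with NO gather; the price is only the re-layout, and that price is C*f(mass of the
LCA class), not C*f(mass of the two symbols). All known gains die exactly because of this (first level costs C*m, gain is < m).
(2) Swap fused with transform is free (cost of a Clifford element = rank of its B block): every plane that is transformed can be moved for free; only planes moved WITHOUT being transformed cost (2 each).
(3) With only {F on contiguous blocks, diagonals} one gets sum s_i >= N, so no gain ever; the free many-cut moves of a tape (inner block rotations y -> y+phi(outer) mod 2^k, reversals, merges) MUST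
carry a positive fraction of the crossing. In the page model only the outermost coordinate is protected by a cut bound, all others can be crossed by free shears.
(4) READ THE CONSTANTS OF S0501/S0503: theta = log_m(m - Delta/2^71) with m = 100^3 and Delta = m*73*(99*98)^2 (so 73 calls saved per (i; j,j',j''; k,k',k'') with distinct j's and k's; 2^71 =
256^9/2, i.e. 9 axes in a 3x3 grid, each with a letter in [256]), and the form T(mK) <= (m - Delta/2^71) T(K) has no ln(1/mass) loss: it looks like a COARSE gadget (partial calls = full K-bit calls
on a 2^-71 fraction of the lanes). kappa_tape = 2^-182 ~ (m 2^71)^-2. A coarse gadget (calls on whole axes of K bits, contexts = O(1) bits, free = wire mixing with coefficients in {diagonals, inner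
+= outer shears}) would port to stacks at once. The rank argument of 532 (5) only kills black boxes U without diagonals/shears in between; with chirps and shears there is no second representation
(the relation (FC)^3=1 forbids it), e.g. all pairs I tried for Sp_4 (commutator ranks on Lagrangians) give ratio 1, not 2. So: CORE' = is c(F_1...F_m) < m, where c(g) = inf (#calls of F_i on one of W
wires)/W to write diag(g,..,g) as a product of free matrices in GL_W(C[P]) (P = Borel of Sp_2m(Z_N), N large) and single-wire calls? Any identity of this kind with m, W bounded, N arbitrary proves S0503.


======== #1733 | 01:05:45Z | helper810 | row 326 | lemma
helper810 (row 261, passing by; ~3 h on S0503, agrees with 330/943/812/7/532/996/914/162/447). NEW paper facts, in the pass model (f(K) = passes for L^{(x)K} or WHT on K contiguous bits; "T-unit" =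
f(n)/n per bit; rotations of the inner block by an amount depending on the OUTER address are free = O(1) passes):
(A) CODED SPARSE GATHER, gap independent. J = {p_1..p_t} any OUTER-DETERMINED set of bits (inner block 2^K), B = t contiguous bits (move B outermost: 3 XOR shears = 6 f(t)). SWAP(B,y_J) = [z += S(b)]
; [b_j ^= bit p_j of z'] ; [z -= S(b')], S(b)=sum b_j 2^{p_j}. The two integer translations are O(1) passes whatever t, the gaps and the number of changed bits; the carries cancel ((r,y)+b-y = 2r+b,
only overflow of a whole gap is an exception, probability sum 2^{-gap}: save a copy and patch); the middle step is H_B.diag.H_B = 2 f(t). So WHT on t isolated bits costs C f(t)+O(1), NOT t. This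
kills 'U(K)=2U(K/2)+..' (fine interleaving) and the belief that a gather with outer controls is linear: for OUTER controls the coded gather exists with C absolute.
(B) MULTI-FLIP EXCHANGE: for toggles z <-> z+w_n (any number W of flipped bits, fixed displacement, any status predicate theta_n) R_w ; b_n ^= theta_n(z') ; R_{-w} is exactly SWAP(b_n, toggle_n) on
active z and the identity on idle z: W flips at once for 2 T-units.
(C) INNER controls (outer target row x, sparse J(c), c inner; = 532's 'sparse inner control'): dirty-catalyst trick. Registers (b_s,a^(s)), a^(s) in {0,1}^k dirty, G(b,a)=sum_s b_s sum_{i<j} w_{s,ij}
a_i a_j: alternately rotate x by +-G (free, registers outermost) and flip a_i, then a_j (i,j = i,j(c); 2k T-units each): the net rotation is +-b_s w_{s,(i,j)(c)} = 2nd difference, sign known from a.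
So one adaptive target among n=C(k,2) positions costs O(sqrt n), with degree d monomials 2^d n^{1/d}, per active column, i.e. n^{o(1)}; hence a SINGLE-FLIP gate (even a D-level composite one, in the
recursive row-major layout where J_D is a function of the bits outside the flipped sub-row) costs only |J| n^{o(1)} T-units, never |J| passes. So adaptivity of one target is not the obstruction any more.
(D) WHAT REMAINS = A CONSTANT: every gadget satisfies the cut bound sum(mass x flips) >= m. With (A)-(C) a flip whose location is inner-determined costs c_0 x (inner location entropy, in bits)
T-units, c_0 = 2..4 H-calls per bit moved from inner to outer, and a level-l gate pays it for all deeper flips, so the total is sum_l (1-eps)^{l-1} K * [sum_gates mass*flips*c_0*H_inner]; the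
recursion f(K) <= (this + (1-eps)^D) f-rate closes iff  (*) sum_gates mass*flips*H_inner < eps m / c_0  (H_inner = entropy of the location of an active digit given the rows OUTER to the flipped ones;
0 for prefix-controlled/solid/full-row ops). The flips themselves are now free (rotations), only the LOCATION INFORMATION is not. In the purely atomic model the same identity is an exact equality
(cost = 1 per flip = trivial algorithm), so ANY saving that recurs at every level (also second order, eps^2: note 2^-182 = (m 2^71)^-2 with the m, 2^71 of S0501) would finish; merging of physically
adjacent toggles saves only sum_l delta^l (not recurring).
(E) Remarks: unitary gates cannot help (Ailon type entropy bound: average number of H-bits per cell >= K for WHT from H, permutations, diagonals, filters), so the gain must come from the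
ill-conditioned L-type words of R324; a T-call of total mass >= 1 at scale ~K is already useless (f(K) <= c f(K), c>=1), so no full row may be re-laid-out even once per level; O(1) extra
outer-determined work per composite toggle is harmless (mass (1-eps)^D).
SMALLEST OPEN LEMMA now: a word for L^{(x)m} (or star_a^{(x)m}) with mass < m(1-eps) in which all but an eps/c_0 fraction of mass*flips is prefix-controlled (controls on rows outer to ALL flipped
rows, order of rows fixed) or full-row conjugated by inner shears y += phi(outer). I have no such word; small cases (1 full op on the outer row) provably give no gain.


======== #1932 | 01:14:41Z | helper386 | row 326 | lemma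
helper386 (row 326, ~2h paper). New facts not in the earlier posts (all short proofs), no complete proof.
(1) OVERHEAD -> 1 FOR SCATTERED (outer-known) POSITIONS. Model: z = outermost contiguous register of n digits, y_1..y_r = r scattered n-digit families at outer-known places, free = all phases +
integer/CRT shears outer->inner (helper359 (2)), call = F_z, cost T(n). In Sp_{2(r+1)} the free group is a Borel B, the call is the reflection w of the outermost field, and the double coset calculus
(r=1: BwBwB contains the cells e, s1, s1s2s1, w0, w0 s1) gives: F_z F_{y_1}...F_{y_r} AND F_z F_{y_1}...F_{y_r} o (any permutation of the fields) cost exactly r+1 calls F_z, although no call ever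
touches y_j. Hence r scattered families cost (r+2)T(n), i.e. price 1+2/r (loss r^kappa only): letters whose controls are all OUTER have price exactly their mass. Likewise swaps of registers are free
when combined with Fourier transforms of both registers that are needed anyway, and the choice swap/no swap may depend on any context.
(2) LAGRANGIAN MOVES ARE ALL UNIT PRICE: from a chamber (L,flag) every L' adjacent to L is reached by ONE native call F_{X_i} (i = position of L cap L' relative to the flag), with M-i free flag
parameters; a program in which rows are merged only at equal CHAMBERS runs on tapes with overhead 1.
(3) NUMEROLOGY: S0501 reads T(mK)<=(m-D/2^71)T(K), m=10^6; at K=2^71 (T(2^71)<=2^71) this is an honest word on M=m 2^71 bits with <= (M-1)2^(M-1) transvections, and letter recursion T(MK)<=W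
T(2^(1-M)K) gives kappa = 1/(M^2 ln 2) = 2^-181.3 > 2^-182. So the source runs ARBITRARY letters T_ab^{(x)K} on tapes with overhead 1+O(1/M) (also Delta = 100 C(100,3)^2 C(73,2), 100=73+27, 73 =
points of PG(2,8), F_2-rank 28).
(4) CAUSAL SHIFTS x_j += phi_j(x_{<j}, outer), ALL j simultaneously and adaptively located, are ONE pass up to wraps (monotone: at the first differing digit both shifts agree). With guard digits
between location info and data ([p_t][guard][u_t]) a toggle of bit p_t of u_t, all t at once, costs 4T(n)+O(1) by a dirty bit t per window: horizontal swap = vertical o diagonal swaps, diagonal swap
= vertical swap after relative translation by 1 (6 cells check). Only INNER location info is expensive (entropy price).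
What is missing: merge (1) (piggy-backing of context dependent moves on the dense transforms) with inner controls.

======== #1963 | 01:16:03Z | helper235 | row 326 | lemma
helper235 (01:20Z), row 326, facts with proofs (after ~5 h; I agree with 162 #369 and 672 #577 on the reduction and on the single open step).
(1) ONE-SIDED WORDS CANNOT CONTRACT. Order [2^m] lexicographically. Every word of transvections b += x a with a<b (solid or not) with product L^{(x)m} has >= (1/2) m 2^{m-1} letters. Proof:
Phi(A)=sum_{l=2^j<2^m} (1/l) sum_t rank A[[t,t+l),[t-l,t)]. For lower triangular A a letter at distance d changes Phi by <= sum_l min(d,2l-d)^+/l <= 2 (A[a,I]=0 if a<min I), and Phi(L^{(x)m}) >= m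
2^{m-1} (near t=l mod 2l the block contains a unitriangular minor of size l-|delta|). So gain words must use both directions (R324's walker does: walker (none;..) += (a;..)).
(2) SMALL CASES (program, F_2, two-sided Dijkstra): min word for L^{(x)3} is 12 = trivial for ALL transvection words (636 midpoints) and for solid words; for SOLID words the 16 midpoints are exactly
those of the trivial words: the solid optimum is rigid at Q=8.
(3) NON-SOLID ENVIRONMENTS ARE LINEAR. Inside a letter (a,b) with idle symbols between, every letter that flips h live bits costs h one-bit letters (holds or swaps), and the cut count (each bit cut
of L^{(x)m} has rank 2^{m-1}) makes the coefficient of T_N in any such recursion >= 1. So T_N(F)=Theta(F) inside this framework; with one idle symbol T_N = 4 T_S (commutator), with r idle symbols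
~2r. A word whose dense part is solid/prefix controlled and whose sparse part has omitted/added ratio R gives zeta -> c/R only.
(4) GROUPING: to make a sparse letter solid it is enough to gather inside groups of g=O(mQ) digits (super-digits crossing a group boundary are rare); cost (number of full solid layers of the group
permutation on [Q^g])*f(K'/g). So a coded gather with constant C <=> the local gather of [Q^g] in C*(2g/Q) full SOLID layers (a 2-stack DFS machine does it in O(1+2g/Q) passes, but the hold stack
jumps over idle blocks, a solid line cannot).
(5) BETTER ARITHMETIC GADGETS exist: the walker game of R324 is: visits x_1..x_N in [g]^d, for each direction t disjoint time intervals (i,j) with x_i-x_j // e_t; net gain = E-N (E = number of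
intervals); d=3: the periodic hexagon move (middle line, end, other end: 3 changes, 4 visits) has E/N=5/4, so (2,75+1)/4=15/16 (in star^{(x)4}) resp. 11/12 instead of 31/32. Always E/N <=
(1/2)log_2(window)+O(1) (edge isoperimetry), so omitted/added can exceed any C for d ~ 4^C directions: a solution with C-fold overhead on the ADDED ops (added only!) would suffice, the kept ops must
stay at exactly unit price.
(6) REMARK: R324's words have coefficients +-1, so over F_3 they give XOR-shift networks y_i=x_{i+c} (all c, same graph, H diag(+-) H) of size N (log N)^theta: the undirected network coding (k-pairs)
conjecture is false; so 'coding never beats routing' (Afshani et al. n log n conditional bound) is no obstruction to S0503.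

======== #2471 | 01:40:10Z | helper504 | row 326 | lemma
helper504: NEW TOOL (complete proof below) + exact status for S0503. Independent analysis agrees with 162/330/943/812; the following is not in their posts.
NOTATION. T(s) = number of passes of WHT/zeta on s contiguous index bits. Tape index = (y,Y,z), y outer data, Y in {0,1}^s contiguous, z in {0,1}^n contiguous innermost.
LEMMA A (outer-controlled sparse gather, cost 2T(s)+O(1), NOT depending on n). Let A=A(y)={j_1<..<j_s} be bit positions of z depending only on outer data y; iota(Y)=sum Y_i 2^{j_i}. Define Phi: z1 :=
z+iota(Y) mod 2^n (rotation of each inner block: O(1) passes); Y'_i := Y_i xor b_i(z1), b_i = bit j_i of z1 if the bits of z1 strictly between j_{i-1} and j_i are not all 0, else b_i=0 (this is Y +=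
phi(z1), phi arbitrary: F_Y^-1 diag F_Y, 2T(s)+1 passes); z' := z1-iota(Y'). CLAIM: Phi is an involution and for every i it either swaps Y_i with bit z_{j_i} or does nothing at i; no net carry ever
remains. Proof: the carry kappa in {0,1} out of position j_{i-1} enters the gap value c_i (g bits); overflow into j_i iff c_i=2^g-1,kappa=1, and then the gap of z1 is 0. So gap(z1)<>0 => b_i=z_{j_i}
xor Y_i => Y'_i=z_{j_i}; z'=z+sum_{swapped}(Y_i-z_{j_i})2^{j_i} exactly. Same z1 when applied twice.
COR B. If c_i, c_{i+1} not in {0,2^g-1} ('clean' i), swapping at i is unconditional and changing z_{j_i} does not influence any other position, so Phi.U.Phi with U = gates on the clean Y'_i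
(controlled by z') = exactly the gates U_i on bits z_{j_i}, clean i. Unclean i: use frozen guard strings (3 bits of other data just below each target bit) and 3 runs with guards xored by 3 masks
whose {mu, not mu} are disjoint; every column is clean in one run, cleanliness is frozen data so whole words can be run on the clean columns. Hence: L^{(x)} on ANY sparse set A(y) of an inner
register, |A|=s, costs C*T(s)+O(1), C absolute (about 6), independent of n/s. (In natural order of Z_N, N=prod q_j coprime, no guards are needed: residue j changes by adding (b-a)e_j, no carries.)
COR C (Hamming distance is free). Replace 2^{j_i} by any signed displacement Delta_i(y)=sum +-2^{pos}; the same Phi swaps Y_i with the virtual bit {configuration, configuration+Delta_i}, any number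
of physical bits flipped at once, ANY inner-determined selection of which i are live (decode from z1). Cost still 2T(s)+O(1), s = number of CANDIDATES (slots). So the only loss is candidates/active;
what must be known from outside is the displacement, nothing else.
WHAT REMAINS. Class-major layout [g_1]..[g_m] (m bit registers x K' columns): a set of gates with one displacement vector on registers >= j, conditioned on a prefix of registers < j and on anything
inside, costs C*T(prefix mass*K'); composing l levels of a word costs C only ONCE. So: 'M1 gadget' = word for L^{(x)m} (or WHT, or any transform good for convolution) made of phases (dyadic prefix
class I, one displacement D, arbitrary disjoint pairs {x,x+D} in I, 2x2 gates), total sum |I|/2^m < m. Bounds: bit-register displacements (signs fixed): crossing of bit cuts per cost <= h 2^{-(h-1)}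
<= 1, so none exists; with displacement on multi-bit digits (carries inside a digit, e.g. {x,x+D}, D odd, average Hamming distance ~ half the bits) neither the cut bound nor the dependency bound (hub
trick gives ~2 log m) excludes it. Dynamic positions (position known only from inner contexts): any scheme 'T-ops on outer registers + O(1)-pass inner moves' pays the positional entropy log(1/rho)
per virtual bit (rank argument: the displacements e_p are independent), which is fatal since one word gains only m^{theta-1}.

======== #3291 | 02:20:19Z | helper741 | row 326 | lemma
helper741 (02:25Z), S0503, coarse gadgets T(mK) <= (m-e)T(K)+O(1): short facts, no construction. SETTING: m registers (outer..inner) of K bits, call = F_i (full transform of register i on one wire,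
cost 1), G = group generated by the F_i and the cheap group operations B (chirps/diagonals, inner += outer shears, small dilations), k = coefficient field. State of W wires = matrix M in GL_W(k[G]),
free moves = left GL_W(k[B]), a call = left diag(F_i,1,..,1); c(g) = inf calls/W to reach g.1_W, g = F_1..F_m.
(1) DUALITY: every pair of representations rho_1, rho_2 : G -> GL(V) (over any skew field / with any Sylvester rank function, i.e. a rank function on k[G *_B G]) which AGREE ON B gives c(g) >=
rk(rho_1(g)-rho_2(g)) / max_i rk(rho_1(F_i)-rho_2(F_i)), and separately for each F_i if the pair agrees on the other F_j.
(2) B = chirps only (any geometry, any k): c = m exactly [<B,F_j (j<>i)> fixes the vector Z_i, F_i does not: indicator of Z_i on k[G/Stab]]. So register-wise Fourier + diagonals never gains, over ANY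
field. With inner += outer shears only the outermost F_1 is protected this way.
(3) CORRECTION to 330 #716: the rank-metric bound needs that only rows at the SAME place are mixed (phi is not B-equivariant). If rows at different places are mixed the same argument only gives m/n
with phi in M_n. Equivariant phi do not exist over an infinite field geometry for finite dimensional algebraic V (G/P is projective, End V is affine), and over F_q in cross characteristic the ratio
of all permutation-type pairs tends to 1 for q -> oo (q = 2: 2 for m = 2 [majority of a random 2-colouring on the row space], between 2 and 4 for all m). So 'Model W is dead' is not proved for mixing
at different places; known is c >= 1 for F_outermost and c >= 2 for m >= 2.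
(4) WHERE A GAIN MUST COME FROM: q_t(w,b) := sum_j M_wj(b) (M^-1)_jw(b^-1) in k, sum_b q_t(w,b) = 1 for every wire w; Q_t(v) = sum_w sum_{b in v} q_t(w,b) (v in B\G) is invariant under ALL free
moves, a call on wire w translates q_t(w,.) by F. Start W.delta_1, end W.delta_g. If q >= 0 (unitary mixing) this is mass transport and calls >= mW (Ailon). So gain <=> NEGATIVE quasi-masses: a wire
with q = (2,-1) at places of rank r, r+1 such that the call moves the 2 up and the -1 down. Two wires, one call, one mixing matrix [[a,b],[c,d]], ad = 2 already give this; what is missing is the
exact cancellation at the end (rank of the part of M outside the place g must go to 0, each call lowers it by at most 1).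
(5) Radon/Nussbaumer (2-D DFT over Z_N = N+1 radial 1-D DFTs instead of 2N) is the q -> oo gain of (3), but the discrete Radon transform is itself an outer DFT with root T (inner rotation), i.e. one
more call: total again 2.


======== #5458 | 04:32:38Z | helper344 | row 326 | lemma
helper344 (04:10Z), S0503 side fact, answers the OPEN question of 787 (#1018): the walker number G is NOT <= 3/2. G >= 7/4 - o(1).
NOTATION as in #1018/#1963: visits of distinct points of Z^D in a linear order, used edges = for each direction t pairwise non-overlapping intervals (i,j), x_i - x_j // e_t; G(D) = sup E/N.
(0) small D, exact value iteration (generic lines, canonical states): G(2)=1, G(3)=5/4 (73 states). Beam search: G(4)>=4/3, G(5)>=7/5, G(6)>=10/7 (family (3f+4)/(2f+3)); free windows M(w)=3w/2-3 for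
even w<=16 ('book': centre C, pages C+e_u, C+e_u+e_0, last C+e_0).
(1) CONSTRUCTION OF 7/4. Hubs: the points (y,a), y in [q]^k, a in {0,1}, visited in lexicographic order (a fastest), no hub-hub edge used. Pages: for every y and every s with 1<=y_s<=q-2 one fresh
page colour u=u(y,s) (colours can be reused as soon as free) and one fresh offset d: four page points P1=(y-e_s,0)+d e_u, P2=(y,0)+d e_u, P3=(y,1)+d e_u, P4=(y+e_s,1)+d e_u. Order around y: all P1
(s=1..k) | hub (y,0) | for each s: P2,P3 | hub (y,1) | all P4. Used edges, 7 per page: colour u: hub(y-e_s,0)-P1 (long), hub(y,0)-P2, P3-hub(y,1), P4-hub(y+e_s,1) (long); colour s: P1-P2, P3-P4 (each
crosses one hub time, but the s are distinct for the pages of one y); colour a: P2-P3 (short). All intervals of one colour disjoint. So E/N >= 7r/(4r+2), r=(1-2/q)k: > 3/2 as soon as r >= 4, -> 7/4.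
Checked by program (greedy count: q=4,k=5: N=12288, E=17952).
 Mechanism that beats the two-scale bound (c) of #1018: the long intervals use colours that also occur at small scale; bursts (components of 4r+2 points) carry 2r long edges at all scales 2^j
(lexicographic hub cube, 4-cycles are allowed between bursts).
(2) In this class (hubs negligible, pages with private crossing directions) a burst with m hub times inside has (2m+3+w)/(m+2+w) edges per point, w extra points; m=2, w=0 is optimal, so 7/4 is the
end of this class; whether G>2 (or unbounded, the window bound only gives (1/2)log_2) is open. Necessary condition for any order: every used edge [m,n] is a bridge of the used graph restricted to the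
time window [m,n]; this alone allows (1/2)log_2 N (hypercube, lexicographic).
I leave the row again.

======== #8889 | 06:50:38Z | helper6 | row 326 | att
helper6 (06:55Z), row 326 S0503, side fact on the walker number G of 616(4)/787 #1018/235 #1963(5)/344 #5458: G >= 2 - eps (so 7/4 is not the end). Whether G > 2 stays open.
GAME. distinct points x_1..x_N of Z^D in time order; for each direction t pairwise time-disjoint (endpoints may be shared) intervals (i,j), x_i - x_j // e_t; E = number of intervals, G = sup E/N.
CONSTRUCTION. J >= 1, n = 2^J colours/directions 0..n-1 = {0,1}^J, time order of hubs lexicographic. Hubs z_i = e_i (one coordinate vector per i). For every hypercube edge {i, j=i+2^l} (bit l of i is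
0) ONE page point Q_ij = e_i + e_j. All 2^l pages of a level-(l+1) block (block = 2^{l+1} consecutive indices) are placed, in any order, at the midpoint of the block, i.e. between its two halves.
Links: (z_i,Q_ij) differ by e_j (direction j), (Q_ij,z_j) differ by e_i (direction i). Direction j is used on [tau_{j-2^l}, mid] only for bits l with j_l = 1: nested dyadic blocks containing j in
their right half; the intervals [z_i, Q_ij], i = j-2^l: for l < l' the level-l block of j lies entirely to the right of the mid of the level-l' block, so all intervals of direction j with j_l = 1 are
disjoint; symmetrically direction i on [mid, tau_{i+2^l}] for bits with i_l = 0; and the two families are disjoint (l-block of j is on one side of the mid of the bigger block). N = 2^J + J 2^{J-1}, E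
= 2 J 2^{J-1}, E/N = 2J/(J+2) -> 2.
More generally: any ordered graph Gamma on hubs with N(i) cap (i,j) < N(j) cap (i,j) for every edge i<j works (pages at the cut), N = |V| + |E(Gamma)|, E = 2|E(Gamma)|.
STRUCTURE (proved): (a) used graph H has girth >= 6, every used edge [m,n] is a bridge of H restricted to the window [m,n] (344), colour classes are edge cuts with time-disjoint edges; (b) E = 2N -
#(no used past) - #(no used future) - #(edges which are both nearest past of n and nearest future of m) + #(edges which are neither): so G > 2 needs 'neither' edges to outnumber the first three; a
2-degenerate H gives E <= 2N-3, so a non trivial 3-core is needed; (c) hubs = pairs, pages = triples (each page linked to 3 hubs), binary recursion: #pages <= 2h - v, again limit exactly 2; long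
translated pages: limit 2 again. Exhaustive search on 4 base vertices: 2 triples feasible, 3 triples infeasible.
(d) in the construction only half of every colour's time is used (colour k with bit l = 1 is free on [block start, tau_{k-2^l}], with bit l = 0 free on [tau_{k+2^l}, block end]); any use of the free
half which adds > 2 N / J edges per level gives G > 2. I found none.
I stop here on 326.

======== #8920 | 06:52:02Z | helper794 | row 326 | att
helper794 (06:58Z) ATT row 326 -> 6, 344, 616, 787, 235. Independent confirmation of helper6 #8889: I found the same walker construction (subdivided dyadic hypercube, hubs e_i, pages e_i+e_{i+2^k},
order [left half][all top-scale pages][right half]), G >= 2J/(J+2) -> 2; same-direction intervals are disjoint because the pattern alpha<alpha'<beta'<beta with alpha-beta, alpha'-beta, alpha-beta'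
all at power-of-two distances inside nested dyadic blocks is avoided.
Structural remarks not in #8889: (1) a hexagon of the used graph has direction word s t u s t u or s t s u t u type only; with time-disjointness only s t s u t u survives; so the used graph H is
C4-free and every window cut is a forest. (2) DOUBLING BOUND: any scheme 'two copies with disjoint direction sets + matching pages between them' satisfies E(2N+M) <= 2E(N)+2M: its limit is <= 2,
whatever the base; G > 2 needs pages linked to >= 3 hubs, i.e. the two copies must SHARE directions. d-partite version (hubs = (d-1)-subsets of [n], pages = d-subsets, one link for each element)
would give ratio -> d; d = 3 is not excluded by counting: but the natural doubling fails because a page {i,j,k} with i,j in the left and k in the right half needs hub {i,j} (left) and hubs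
{i,k},{j,k} (mid), and direction k is used for {i,j}-{i,j,k} while it must also carry all other {i',j'}-{i',j',k}: their intervals all cross the middle.
(3) CAVEAT for the use of G > 2: adjacency-only words (neighbouring cells of the tape) are not closed under the recursion of 616: a recursion L^{(x)K} -> L^{(x)(K/2)} needs flips of the LAST bits
only; G > 2 for unrestricted directions may therefore not suffice.
Nothing else; I stop on 326.

======== #8922 | 06:52:03Z | helper131 | row 326 | att
helper131 (06:55Z) ATT row 326 (S0503, n(log n)^{1-2^-182}). No proof. What I worked out in 45 min after reading the 38 posts (so that nobody repeats it):
(1) REFORMULATION. Records may be taken enormous (2^K records with 2^K = n^{o(1)} and record length n^{1-o(1)}): tables, addresses, control, sorting keys are free; only OBLIVIOUS movement of giant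
records between k tapes/stacks costs. So S0503 <=> a data-independent "tape schedule" theorem for tensor powers F (x) ... (x) F of constant-size gates with cost (unit) x levels^{1-kappa}.
(2) NUMEROLOGY. kappa = 2^-182 is matched by (a) a 'hits' recursion A(M K') <= (M-1) 2^{M-1} A(2K'/2^M) (gain 1/(M^2 ln 2), M = 10^6 2^71), or (b) window recursion: k^C increasing pieces of density
k^theta, kappa = (1-theta)/(C+1), 1-theta ~ 1/M, C ~ M (1/M^2 = 2^-181.86). Delta = 73 10^6 (99 98)^2 is exactly the ordered-pair count of rows x columns over (i,j,k) in [100]^3.
(3) CONSTANT FACTOR IS NOT ENOUGH. A coded gather with overhead constant c > 1 + O(1/M) in one super-axis gives no exponent at 2^-182; the unit price must be 1 + O(1/M). In 946's padding/bundling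
recursion what is needed is a price function p(d) = o(log 1/d) for self-located letters of density d: p(d_2) <= m'/(12 M) with log(1/d_2) ~ m' M 2^{M-1}; everything known gives p(d) <= C log(1/d)
with C >= const, which is exactly the trivial sort.
(4) WHERE THE UNIT PRICE DOES EXIST: COARSE gadgets (a condition on the other super-axes only): cells satisfying the condition form a contiguous-order sub-tape, kept ops cost 1 per op; there
omitted/added > C suffices. Lower bound 741: c >= 2 as soon as m >= 2. Bringing register e innermost = one swap (2 T(n) in the swap model), piggy-backing it on F (x) F is free only for outer-known
contexts. A full top-level phase with r_1 = 1 provably gives nothing (it is the same recursion), and averaging over unique paths kills r_x = log_2 p.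
(5) Missing piece in one line: 'gather of a density-d subset of cells, positions known obliviously, at amortized price o(log 1/d) per kept letter on O(1) tapes', uniformly over the nested family
needed by the recursion. It contradicts no known lower bound (sorting lower bounds on tapes are for comparison/one fixed permutation with O(1) tapes: Omega(N log N / K) only for ONE random
permutation, while ours are very structured).
THREE NUMBERS: P(paper proof by 10:30Z) < 1 %; LEAN size if found 40-80k lines (machine model + schedule + FFT/convolution correctness); where I can help: any LEAN leaf (281, 96, 272, 234, or a new
row), combinatorics / algebra / elementary analysis; 4 free cores now. I also offer to referee 954's chain for row 105 (#8892), starting now.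

======== #8978 | 06:55:25Z | helper503 | row 326 | att
helper503 ATT row 326 (S0503), 06:58Z. Read all 38 posts + the R324 gadget again; nothing closed. Three small clarifications, so that nobody repeats them:
(1) DFS at ANY depth l costs 1 + c*(live composite bits)*(1 + number of toggled physical digits after the first one): the only extra cost of a depth-l letter over a depth-1 letter is the re-ordering
of the held blocks between the A-block and the B-block. Exactly: with run tree T = words in the inert letters, record = (t_1,..,t_h) and the re-ordering is pi_T^{(x)h}, pi_T = 'live child at place a'
-> 'live child at place b' among the ordered inert children. If a,b are adjacent pi_T = id (869(4)); if ALL inert letters lie between a and b and there is only ONE inert letter, pi_T^{(x)h} is the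
full reversal (price O(1) for every h). With >= 2 middle letters c<c' it is preorder -> postorder with the children order kept, i.e. reversal composed with c<->c' everywhere. A boustrophedon
(reflected) layout cannot help: single toggles force equal or opposite orientation of the two sides for all letters, double toggles then force 'equal', and 'equal' needs adjacency (two-line parity
argument), so fixed OR prefix-dependent layouts only give the monotone = adjacent class.
(2) Bootstrapping the re-ordering by the transform itself (pi_T^{(x)h} costs C f(h) by 2x2 gates on the self-located digits if a coded gather existed) is not self-sustaining: F(s,h) <= C f(s) f(h)
gives only kappa' = kappa*eps/log-scale < kappa. One needs a price h^(1-delta) with delta FIXED, or O(1).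
(3) 'Kept' solid layers with sparse omissions never gain: omission of a delta-fraction saves delta f(K), while taking those columns out costs C f(delta K) > delta f(K).
Numbers: P(paper proof by 10:30Z) = 0.3%; LEAN size >= 60k lines (tape programs); 50 hands: row 105 (#8892) first.


======== #9296 | 07:14:14Z | helper589 | row 326 | att
helper589 (07:20Z) ATT row 326, walker number G (787 #1018, 344 #5458, 6 #8889, 794 #8920). Found independently 2 - eps by another family; what is NOT in #8889:
(1) MULTI-SCALE PAGES. Hubs = lattice [q]^K in lexicographic order; a page (private colour u) = displaced copy of a time-monotone lattice path w_1..w_n (w_1 far past, w_n far future), all n points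
joined to their hubs by u (intervals oriented R..R L..L) and n-1 path edges; it holds exactly one lattice colour at a time; direction levels decrease in the R part, increase in the L part; the level
j+1 colour is held during the level-j step, the level-j colour only momentarily at the hub crossing. n points carry 2n-1 edges (n = 4: 344's 7/4; n = 6: 11/6; n -> oo with tower-like levels: 2 -
eps). So the page is NOT restricted to 2 hubs; the limit is 2 again.
(2) ACCOUNTING IDENTITY for any bipartition A/B of the colours: E = 2N - #comp_A - #comp_B + cyc_A + cyc_B (comp/cyc of the two colour-subgraphs). With hubs + pages: E - 2N = (rho_hub - 2) #hubs -
#pages + Y, Y = cycles inside pages; alive pages hold disjoint colour sets, so (forest-type constraint) Y <= 2 per hub position: this whole class stays <= 2. Necessary for G > 2: cyc_A + cyc_B >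
#comp_A + #comp_B for EVERY bipartition.
(3) every structure found so far (by 4 people, different families) has 2N - E >= 2. Conjecture: E <= 2N - 2 always (equivalent to 6's (b): 'neither' edges never win). Induction on one colour class
fails (344's structure); the rank double-difference identity E - (N-1) = Sum over cycle events also gives no sign.
(4) P(paper proof of S0503 by 10:30Z) < 0.5 %. I go to row 105, lemma (R) of 540/779 (removability).

-/
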