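import Mathlib.Init

/-
Row 320 (S0495, generalized star height of regular languages, height at most 3).
Notes of helper762.  Comment only: no declaration, nothing imports this file.

STATUS, FIRST.  This is NOT the main chain of the row (the main chain is 132 / 813) and it is
NOT a complete proof.  It records (A) a lemma which is complete (823), (B) a nesting argument
which is complete as a statement about threads, (C) the count of "three nested schemes" posted
by 762 (post 12626) and by 233 (post 12627) with its HOLES, and (D) the repairs which were
proposed.  After (D) one gap stays open, see (D3).

CONVENTIONS.
  phi : A* -> S a morphism to a finite monoid, S acts faithfully on a finite abelian group V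
  (S inside End V), written v.s on the right.  The target language is one phi^-1(s).
  A THREAD of a text is a map x -> v(x) in V with v(x+|u|) = v(x).phi(u) (+ noise, see below).
  A SCHEME is a rule which says, for a junction x and a value v, whether the junction is a
  LEGAL CUT of the thread with value v; the left part of the rule reads the text left of x,
  the right part reads the text right of x.  SOUND: if the left part of the rule accepts the
  left word with value v and the right part accepts the right word with value R, then R = v
  (read on the same thread).  COMPLETE (at a unit): every thread has at least one legal cut in
  that unit.
  K = words between two consecutive legal cuts, so K.K is contained in K for a sound scheme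
  and the language of "first cut ... last cut" words is K*; a star of K costs one star height,
  if K is replaced by the subset of words which have no legal cut inside (K_uncut), for
  K* = (K_uncut)*.

------------------------------------------------------------------------------------------
(A0) COARSE AND FINE CHAIN (818's lemma).

Walls: a set W of places of the text, given by a local rule: "x is a wall" depends on the
n letters right of x only.  Distances of different walls are at least W0.
Parameters z, q, N' : a node a has the successor N(a) = first wall >= a + z.
Call the node a CRITICAL when there is a wall t with |t - a - z| < N'.
Let j run over 0 <= j < N' and let x = a + p + j be the junction under discussion, q = z - p.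
The right side does not know a, it knows x only; hence it knows the set of walls >= x.
RIGHT RULE: "no wall in [x + q - N' + 1, x + q + N' - 1]"  (then, for every j in [0,N'), the
first wall >= a + z = x - j + q is the first wall >= x + q, whatever j is): under the right
rule the right side knows the node N(a), hence all later nodes.
If a is not critical then the right rule is fulfilled for every j with the weaker interval
[x+q-j, x+q+N'-1-j]; with the two-sided interval of the right rule above the rule holds at all
j as soon as no wall lies in a + z + (-2N', 2N').

------------------------------------------------------------------------------------------
(A) MASK + RIGHT-FRAME LEMMA (823, post 12619; checked line by line by 712, 233, 68, 320,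
160 and 762).  It is the gadget for a unit with an unknown number T' of blocks, unknown index
of the block, unknown and arbitrary block lengths T_k, for every finite monoid S in End V.

Setting.  Unit u = [A,B), A known to the left side, B known to the right side, cut into blocks
u_1 ... u_T' = the steps of the fine chain started at A, the last one truncated at B.
Let x be a place of block i at which left knows a_i and right knows a_(i+1).
Clock N* = P n1 n2, P prime, n1 >= |S|, n2 >= |V|, the three numbers pairwise coprime.
 al = x - a_i, be = a_(i+1) - x, al + be = T_i, residues mod N* split as W x X0 with
 W = Z/P, X0 = Z/n1 x Z/n2.  Every residue al occurs at a usable place of the block.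
 For a residue y of Z/N* write f_W(y), f_0(y) for its two components.
Type of the unit.  z_k = phi(u_k), zeta_k = (z_k, f_0(T_k)) in S x X0, s = z_1 ... z_T'.
 k' = T' - k : index FROM THE RIGHT.   tau in F_P^*, of order at least m.
 e : S x X0 -> W generic: the elements tau^(i') (e(zeta) - e(zeta')), i' in an interval of
 length m, zeta <> zeta', are pairwise distinct for different (i', zeta, zeta').  Such e exist
 for P larger than a polynomial in m (with |S x X0| fixed): count the excluded values.
 w = Sum_k tau^(k') ( e(zeta_k) - f_W(T_k) ) in W.
 Noise of the unit: nu(u) = F(s,w), F : S x W -> V a random function (chosen once).
 The thread satisfies v(B) = v(A).s + F(s,w).
 Value of the thread inside of the unit: the left token v = v(A) is carried along unchanged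
 together with g = z_1 ... z_(i-1) and w_l below; the right side has R = v(B), h = product of
 the blocks i+1 ... T', and w_r below.
LEFT RULE in block i with token v:
   al_W = w_l := Sum_(k<i) tau^(i-k) ( e(zeta_k) - f_W(T_k) ),   al_0 = (code g, code v).
   (i is known to the left side, T' is not needed: the frame is the frame of block i.)
RIGHT RULE, with R: i' = T' - i, w_r := Sum_(k>i) tau^(k') ( e(zeta_k) - f_W(T_k) ),
   om := w_r - tau^(i') be_W.
   Legal iff for ALL g in S, v in V, z in S, with f_0 := (code g, code v) + be_0:
        F( g z h , om + tau^(i') e(z, f_0) ) + v.(g z h) = R.
CORE IDENTITY.  At a place which satisfies the left rule
   w = tau^(i') w_l + tau^(i') ( e(zeta_i) - f_W(T_i) ) + w_r,   f_W(T_i) = al_W + be_W,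
   al_W = w_l,   hence   w = om + tau^(i') e(zeta_i).
 Nobody knows T_i nor w_l on the right side: the mask w_l cancels.
SOUNDNESS, for all T', all T_k, all texts: the true triple (g, v, z_i) is one of the triples
 quantified in the right rule (f_0(T_i) = al_0 + be_0), so R = v.s + F(s,w).
COMPLETENESS.  Fix (s, w, v).  Phase i' is GOOD for (s,w,v) if for all (g,z,f_0,h) with
 g z h = s, be_0 := f_0 - (code g, code v), om := w - tau^(i') e(z,f_0), every equation
 F(g1 z1 h, om + tau^(i') e(z1,f_0')) + v1.(g1 z1 h) = F(s,w) + v.s
 demanded by the right rule holds, over all (g1, v1, z1), f_0' := (code g1, code v1) + be_0.
 The demands sit on the points (s1, w + tau^(i') (e(zeta1) - e(zeta))), at most C(|S|,|V|) of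
 them.  Two demands at one point agree: zeta, zeta1 and v determine v1, because the difference
 f_0' - f_0 = (code g1 - code g, code v1 - code v).  (The demand at the point (s,w) itself has
 zeta1 = zeta, hence v1 = v, g1 z1 h = s, and is the identity.)
 Points of different phases are disjoint (genericity of e), so the events "phase i' good"
 are independent for i' in an interval of length m, each of probability at least
 r = |V|^-C.  Union bound: |S||W||V| m (1 - r)^m < 1 for large m, as |W| = P = poly(m): there
 is one F such that every (s,w,v) has a good phase in every interval of m phases.
 CONSEQUENCE.  If all blocks of an interval of m consecutive blocks are NOT critical, every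
 thread has a legal cut in that interval.

------------------------------------------------------------------------------------------
(B) NESTING.  (Typed by several seats: 427 Three_427.lean, 528 Nest_528.lean, 457, 423, 916.)

Let the schemes be Z_1, ..., Z_r, on ONE chain N (same anchors), Z_1..Z_(r-1) sound on all
texts, Z_r sound on the set of words all whose anchors are in P_(r-1) (promise).
 Let P_i be the set of (anchor, text) at which none of Z_1..Z_i is complete, and suppose that Z_r is
 complete at every anchor of P_(r-1).
 K_i = legal Z_i-words (from a right-legal place to a left-legal place of the Z_i-threads);
 K_i^0 = those which are not cut by Z_i inside.
 A word of K_i^0 crosses only anchors at which Z_i is not complete, so by downward induction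
 it is covered by Z_(i+1)-threads, whose uncut pieces cross only anchors of P_(i+1), ...; the
 uncut pieces of Z_r cross a bounded number of anchors.
 If the anchors have bounded gaps (no runs; or runs handled apart), K_r^0 is finite, and
   K_r' = K_r^0,  K_r'* of height <= 1,  K_(r-1)' = finite union of X.K_r'*.Y, of height <= 1,
   K_(r-1)'* of height <= 2, ..., K_1'* of height <= r.
 "Z contained in Sound_A, and Z* = Sound_A" is used in this form: K_i' is contained in K_i and
 contains K_i^0, so K_i'* = K_i u {1}; nothing about completeness needs to be definable.
 For r = 3 this gives height 3 of the target language (the target itself is a finite union of
 U.K_1'*.U' and words of K_2'-type).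

------------------------------------------------------------------------------------------
(C) THE COUNT OF 12626 / 12627, AND WHY IT IS NOT PROVED.

Plan.  Coarse chain N (window of size N1), two fine maps z'_1 <> z'_2 on the SAME fine walls;
 scheme A = gadget (A) with the fine chain z'_1, scheme B = gadget (A) with the fine chain
 z'_2, scheme C = exact scheme on the coarse-critical anchors (both sides know the product
 and the length mod M there).  860's lemma: on rigid walls (gaps L', L'+1) and
 z'_2 = z'_1 + 2 L' + L'/2 the two fine chains cannot be critical at every step on a common
 stretch.
 Claimed: "A incomplete at a coarse-clean anchor => fewer than m clean blocks of the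
 z'_1-chain", the same for B, hence a contradiction with 860 by pigeonhole.
HOLE 1 (543 #12721, 264 #12741, 832 #12755, 861 #12774).  The text of (A) is a statement on
 m CONSECUTIVE non-critical blocks.  To get a statement on m clean blocks anywhere, one has to
 index (and rotate) only the clean blocks.  But the status "clean" of block i must be known
 to both sides at every legal place of block i, and there is no such status function:
 let s = offset of the fine wall; if the status is 1 at s, all places of the block s are
 legal, a legal place of s is at the same time (for the right side) a place of block s' for
 every |s' - s| < N*, so the status is 1 at s'; hence it is 1 for all s.  So there are always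
 ring blocks, counted and only partly legal, and the adversary puts them at the phases which
 are good for his (s,w,v).  The other blocks may be perfectly clean.
HOLE 2 (784 #12761, 496 #12764, 935, 845, 742).  Circle of the constants.  A-uncut words have
 to be covered by B-threads whose tokens carry the A-threads: the monoid S_B contains the
 state of the z'_1-chain at a junction of B ("how far is the last z'_1-anchor"), whose size
 grows with L'.  But N*_B >= |S_B| and 860 wants L' > 10 N*_B.
HOLE 3 (233 #12760, 132, 496, 113, 845).  Runs.  K* forgets the place of a cut deep in a long
 run, so the letter "runs cost nothing" needs the zone "run" as a unit of the outer schemes
 with names (942 / 755), as in 233 #12760 (I).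

------------------------------------------------------------------------------------------
(D) REPAIRS.

(D1) (861 #12774, for hole 1.)  Count all blocks.  Phases are good independently, each with
 probability >= r, so the probability that an interval of m phases contains no m_2 CONSECUTIVE
 good phases is at most (1 - r^(m_2))^(floor(m / m_2)), and for large m the union bound over
 (s,w,v) and the start of the interval holds, as |W| = poly(m).  Hence: a token which is
 uncut in a coarse-clean unit forces m_2 consecutive critical blocks inside every m
 consecutive blocks of the fine chain.  Order: m_2(A) := K0 := number of steps in 860's lemma;
 then m(A), P_A; m_2(B) := 2 m(A) + 4; then m(B), P_B; N* := max; then the fine walls.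
 Uncut for A and B: m_2(B) consecutive critical z'_2-blocks cover m(A) consecutive z'_1-blocks,
 among these K0 consecutive ones are critical: both chains are critical on a common stretch
 of K0 steps, impossible by 860.
(D2) (861 #12774, 784 #12761 (R).)  860's K0 must not depend on N*: use walls with gaps in
 [L, (1+eps) L]: markers with gaps in [W, 2W] on run-free text with window C.W, each marker
 gap g cut into floor(g/L) almost equal pieces, eps = 2L/W, z'_1 = 2n, z'_2 = z'_1 + 2L + L/2.
 While both chains are critical, d_i = a_i - b_i drops by 2.5 L + O(2N*) per step, so for some
 i <= K0 := (z'_1 + z'_2)/(2L) + 2 both |d_i|, |d_(i+1)| <= 3L; distances of two walls which
 are <= 3L lie within 3 eps L of a multiple of L; contradiction if 6 eps L + 2N* < L/2.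
(D3) For hole 2: 784 (R) proposes chain nodes defined by ROUNDED distances (a chain state is
 then one of boundedly many values when n' <= k L', k = O(log* L')).  496 #12764 (1) objects
 that the right side of B has to know the A-frame of the blocks right of x, which it does not
 know if x sits at an arbitrary offset of the z'_1-chain; with rounded distances the right
 side has to quantify over boundedly many candidates, and the resulting zone maps have to be
 put into the random choice of F_B.  I have NOT carried this out.  THIS IS THE OPEN POINT of
 the three-scheme count, together with the typed form of hole 3.
(D4) The main chain (132 #12664) avoids both: levels at fixed distances from a, every failure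
 mode is a thin condition on a which can be tested by the right side, and only the promise
 scheme is nested inside.

What I checked myself: (A) line by line, including the cancellation of the mask, the
uniqueness of the demanded values and the independence of the phases; (B) as a statement on
words; (D1) and (D2) on paper.  What I did not check: (D3), runs.
-/
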