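/-
Row 320 (S0495, generalized star height <= 3): notes of helper913.  Comment-only file; nothing is
proved here.  The Lean leaves of this seat are in Wall860_913.lean (818's junction lemma and 860's
two-chain lemma, pure statements on sets of integers).

==================================================================================================
0. What is proved in Lean by this seat (Wall860_913.lean)
==================================================================================================
W : Set Int is the set of walls, FirstWall W y b says that b is the first wall >= y.

junction.  x = a + p + j, 0 <= j <= M, z = p + q + M, no wall in [x + q, x + q + M).  Then the first
  wall >= a + z (this is N(a), known to the left side, which knows a) is the first wall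
  >= x + q + M (this is b(x), known to the right side, which knows x only).
exists_usable.  If the gaps between walls are >= M + n and a + z is at distance >= n from every
  wall, there are n consecutive offsets j in [0, M] at which the junction lemma applies.
Rigid.dist'.  If all gaps are L or L + 1, two walls have distance in [i L, i L + i] for some i.
far.  z2 = z1 + 2 L + L / 2, 4 N + 30 <= L.  If a wall is within N of a + z1 and a wall is within N
  of b + z2 (a, b walls), then |b - a| > 3 L.
not_both.  Two critical chains with jumps z1 and z2 and first nodes with b 0 - a 0 in
  [-3 L - K L, 3 L] cannot both have K + 1 critical steps.  (The difference b k - a k drifts by at
  least L and at most 4 L per step; it cannot jump over the forbidden interval [-3 L, 3 L].)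
  So a critical stretch of one chain longer than about z (z / L) is not critical for the other one.

==================================================================================================
1. Rotating clock: the U-gadget for every finite group, lengths and number of blocks unknown
==================================================================================================
Setting.  phi : A* -> G a morphism to a finite group G <= GL(V), V a finite vector space (or any
finite G-module).  A zone is u = X_1 .. X_n, n >= m and |X_k| >= p for every k, otherwise arbitrary.
A junction x lies in block i, X_i = X' X''.  The left word knows X_1 .. X_(i-1), X' (and i); the
right word knows X'', X_(i+1) .. X_n (neither i nor n nor |X'| nor |X_i|).  zeta_k := phi(X_k).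

Data.  F_p, omega in F_p^* of order m, Lam := <omega>.  e : G -> F_p and o : G x V -> F_p such that
D := { o(g,v) + e(zeta) } is a Sidon set with |G|^2 |V| different elements and all differences
different; Del := (D - D) minus 0; no ratio of two different elements of Del lies in Lam (p large,
greedy choice).
  W(u) := Sum_k omega^k (|X_k| + e(zeta_k)) in F_p.
F : G x F_p -> V with F(s, omega w) = F(s, w).  The noise of the zone is nu(u) := F(phi(u), W(u)).

Labels.
 Left:  g := zeta_1 .. zeta_(i-1), w_L := Sum_(k<i) omega^(k-i) (|X_k| + e(zeta_k)) + |X'|;
        legal with label v iff w_L = o(g,v).
 Right: h := zeta_(i+1) .. zeta_n, w_R := |X''| + Sum_(k>i) omega^(k-i) (|X_k| + e(zeta_k));
        legal with label b iff  F(g' z h, o(g',v') + e(z) + w_R) + v'.g' z h = b  for ALL g', v', z.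

Exactness.  w_L + e(zeta_i) + w_R = omega^(-i) W(u), so at a cut legal on both sides
  nu(u) = F(g zeta_i h, o(g,v) + e(zeta_i) + w_R) = b - v.phi(u).
No hypothesis on the token T, on n or on i is used.

Completeness.  |X_i| >= p, so for every v some |X'| < p gives w_L = o(g,v) (the left side CHOOSES
w_L).  Then w_R = rho - o(g,v) - e(zeta_i) with rho := omega^(-i) W.  Call rho GOOD if
  F(g' z' h, rho + d' - d) + v'.g' z' h = F(g z h, rho) + v.g z h
for all h and all (g,v,z), (g',v',z') (d, d' their elements of D).  In a good block every token is
cut, whatever the contents are.  Given F(., [W]) the condition good(omega^(-i) W) prescribes F on
the |G| |Del| points (s', [W + omega^i eps]), eps in Del: one equation per point, by the Sidon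
property and h = (g' z')^(-1) s'.  Here [.] is the Lam-orbit.  Let
  BAD := { W : two of the orbits [W + omega^i eps], [W] coincide, i in Z/m }
       = { W : (1 - omega^k) W = omega^a eps' - omega^b eps, some k <> 0, eps, eps' in Del u 0 }
(k = 0 is excluded by the ratio condition).  |BAD| <= m^3 (|Del| + 1)^2.  For W not in BAD the m
events good(omega^(-i) W), i in Z/m, are independent given F(., [W]) and have probability
d := |V|^(-|G| |Del|) each.  So for a random F
  P(some orbit outside BAD has no good rho) <= p (1 - d)^m < 1    as soon as m >= (1/d) log p.
Take p about m^8 |Del|^8, p prime, p = 1 mod m.  Fix F.  Then EVERY zone with W(u) not in BAD cuts
ALL tokens inside its first m blocks, whatever T, n, the lengths and the contents are.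

Bad worlds.  |BAD|^2 < p, so there is g0 with (BAD + g0) disjoint from BAD; scheme 2 is the same
with W(u) + g0 (the left side knows i, it uses w_L + omega^(-i) g0).  Every zone is strictly
complete for scheme 1 or for scheme 2, with the same chain and the same zones.

Segmentation.  Fine walls and the fine chain a_0 = a, a_i = first fine wall >= a_(i-1) + z_f
(818's lemma): the right side knows a_i and everything after it at every fine-legal x.  CRITICAL
fine blocks are glued to the preceding non-critical one (|X_k| is arbitrary), so an adversary can
only produce fewer than m non-critical fine blocks in the whole coarse window, that is a critical
run of length at least (number of fine blocks in the window)/m.  By 860's lemma (not_both) such a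
run is not critical for the second fine jump.

CORRECTION (posts 12721, 12741, 12755, 12827 of other seats): the gluing step of the last paragraph
is false as stated.  Blocks at the edge of the band are partly legal, so they must be counted by
both sides but they are not complete, and an adversary can put them exactly at the good phases.
Row 320 was proved by another design (two wall schemes on walls of all words, see S0495.lean).

What the section does not do: (S) the coarse window with fewer than m non-critical fine blocks and
the coarse threshold band; monoids (only the line h = (g' z')^(-1) s' uses invertibility).  For
monoids the complete proof is 823's mask and right-frame gadget (post 12619), see the notes of that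
seat; for groups the rotating clock is a second proof that knows nothing about the block index.

==================================================================================================
2. Suggested Lean shape of section 1 (not typed)
==================================================================================================
Everything is finite.  Let n : Nat, X : Fin n -> (G x Nat) (product and length of the blocks).
 (a) W : sum over Fin n in ZMod p.  Exactness is one ring identity (split the sum at i,
     multiply by omega^(-i)); omega is a unit of ZMod p.
 (b) Existence of F: functions on the finite set G x (ZMod p / Lam); counting form of the union
     bound: (number of F with the event) = |V|^(points not prescribed); the product over i in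
     Z/m of disjoint sets of points (outside BAD).  Statement to prove:
       exists F : G -> ZMod p -> V, (forall s w, F s (omega * w) = F s w) and
       forall W, W not in BAD -> exists i, good F (omega^(-i) * W).
     It is the random-function lemma of the other seats (RandF, Cnt) with tests indexed by
     Lam-orbits and m pairwise disjoint demand sets of size at most |G| |Del|.
 (c) Soundness (exactness) and completeness as two lemmas on lists of blocks; the language level
     needs only: left label depends on the left word, right label depends on the right word.

==================================================================================================
3. SAT data (small instances, post 12585; evidence only, not part of any proof)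
==================================================================================================
U-gadget with exact left clock and unknown token T, V = F_2^2, labels arbitrary functions of the
whole prefix / suffix, generator written in Python by this seat, solver cadical of the toolchain.
 Strict form (every token cut in every content), cube-free binary content: {C, T} (generate S_3)
   SAT for window w = 8, range R = 8; {I, C} UNSAT for w = 8, R = 8; {I, I'} UNSAT w = 5..8.  So the
   letter that acts trivially is the hardest one in small windows; sumset gadgets need w ~ 1600.
 Game form (fix a linear order on V; in each zone every token is cut or moved strictly down), so
   that no token survives |V| consecutive complete zones: {C, T}, {C, C^2} SAT w = 6, 7, 8 for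
   cube-free and for x^4-free content; {I, C} cube-free UNSAT w = 6, SAT w = 7, 8, 9, 10, 12;
   {I, C} x^4-free UNSAT w = 6, 7, SAT w = 9; no factor excluded: UNSAT w = 6, 7.
-/
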